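import Mathlib

-- ▼ part R172/Gen1
section

/-!
Row 172, node GEN (helper896): generic points and derivations.
Part 1: extension of derivations along field extensions of characteristic 0.
-/

set_option autoImplicit false

namespace Crest.Agent.R172.Gen

open MvPolynomial

/-- Dual numbers over `L`, as a bare commutative ring. -/
def DN (L : Type*) [Field L] : Type _ := TrivSqZeroExt L L

noncomputable instance instCommRingDN (L : Type*) [Field L] : CommRing (DN L) :=
  inferInstanceAs (CommRing (TrivSqZeroExt L L))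

/-- First component as a ring hom. -/
noncomputable def DN.fst (L : Type*) [Field L] : DN L →+* L :=
  (TrivSqZeroExt.fstHom L L L : TrivSqZeroExt L L →ₐ[L] L).toRingHom

/-- Second component. -/
def DN.snd {L : Type*} [Field L] (x : DN L) : L := TrivSqZeroExt.snd (x : TrivSqZeroExt L L)

/-- Constructor. -/
def DN.mk {L : Type*} [Field L] (a b : L) : DN L := (a, b)

section basics
variable {L : Type*} [Field L]

@[simp] lemma DN.fst_mk (a b : L) : DN.fst L (DN.mk a b) = a := rfl
@[simp] lemma DN.snd_mk (a b : L) : DN.snd (DN.mk a b) = b := rfl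

lemma DN.ext' {x y : DN L} (h1 : DN.fst L x = DN.fst L y) (h2 : DN.snd x = DN.snd y) : x = y :=
  TrivSqZeroExt.ext h1 h2

@[simp] lemma DN.snd_add (x y : DN L) : DN.snd (x + y) = DN.snd x + DN.snd y := rfl
@[simp] lemma DN.snd_zero : DN.snd (0 : DN L) = 0 := rfl
@[simp] lemma DN.snd_one : DN.snd (1 : DN L) = 0 := rfl

lemma DN.snd_mul (x y : DN L) :
    DN.snd (x * y) = DN.fst L x * DN.snd y + DN.fst L y * DN.snd x := by
  have h := TrivSqZeroExt.snd_mul (x : TrivSqZeroExt L L) (y : TrivSqZeroExt L L)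
  refine Eq.trans h ?_
  rw [smul_eq_mul, MulOpposite.smul_eq_mul_unop, MulOpposite.unop_op]
  exact congrArg₂ (· + ·) rfl (mul_comm _ _)

lemma DN.fst_surjective : Function.Surjective (DN.fst L) := fun a => ⟨DN.mk a 0, rfl⟩

lemma DN.ker_nilpotent : IsNilpotent (RingHom.ker (DN.fst L)) := by
  refine ⟨2, ?_⟩
  rw [pow_two, Ideal.zero_eq_bot, eq_bot_iff, Ideal.mul_le]
  intro r hr s hs
  rw [RingHom.mem_ker] at hr hs
  have : r * s = 0 := by
    apply DN.ext'
    · rw [map_mul, hr, hs]; simp
    · rw [DN.snd_mul, hr, hs]; simp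
  simp [this]

end basics

/-- Extension of a ring hom to the dual numbers along a formally smooth extension. -/
theorem exists_lift {A L : Type*} [CommRing A] [Field L] [Algebra A L]
    [Algebra.FormallySmooth A L] (ψ : A →+* DN L)
    (hψ : ∀ a, DN.fst L (ψ a) = algebraMap A L a) :
    ∃ Ψ : L →+* DN L, (∀ a, Ψ (algebraMap A L a) = ψ a) ∧ ∀ x, DN.fst L (Ψ x) = x := by
  let _ : Algebra A (DN L) := ψ.toAlgebra
  let g : DN L →ₐ[A] L :=
    { DN.fst L with
      commutes' := fun a => hψ a }
  have hg : Function.Surjective g := DN.fst_surjective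
  have hk : IsNilpotent (RingHom.ker (g : DN L →+* L)) := by
    have : RingHom.ker (g : DN L →+* L) = RingHom.ker (DN.fst L) := rfl
    rw [this]; exact DN.ker_nilpotent
  let Φ : L →ₐ[A] DN L := Algebra.FormallySmooth.liftOfSurjective (AlgHom.id A L) g hg hk
  refine ⟨Φ.toRingHom, fun a => Φ.commutes a, fun x => ?_⟩
  exact Algebra.FormallySmooth.liftOfSurjective_apply (AlgHom.id A L) g hg hk x

open scoped IntermediateField.algebraAdjoinAdjoin in
/-- A derivation `δ : K → L` over `k` extends to `L`, with arbitrary values on a family which is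
algebraically independent over `K` (characteristic 0). -/
theorem exists_derivation {k K L : Type*} [Field k] [Field K] [Field L] [CharZero K]
    [Algebra k K] [Algebra K L] [Algebra k L] [IsScalarTower k K L]
    {ι : Type*} {v : ι → L} (hv : AlgebraicIndependent K v)
    (δ : Derivation k K L) (w : ι → L) :
    ∃ D : Derivation k L L, (∀ a : K, D (algebraMap K L a) = δ a) ∧ ∀ i, D (v i) = w i := by
  classical
  -- a transcendence basis containing the range of `v`
  have hvr := hv.to_subtype_range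
  obtain ⟨s, hs, hsb⟩ := exists_isTranscendenceBasis_superset hvr
  let e := hsb.1.aevalEquiv
  have i1 : Algebra.FormallySmooth (Algebra.adjoin K (Set.range ((↑) : s → L)))
      (IntermediateField.adjoin K (Set.range ((↑) : s → L))) :=
    .of_isLocalization (nonZeroDivisors _)
  have i2 : Algebra.IsAlgebraic (IntermediateField.adjoin K (Set.range ((↑) : s → L))) L :=
    hsb.isAlgebraic_field
  have i3 : Algebra.IsSeparable (IntermediateField.adjoin K (Set.range ((↑) : s → L))) L :=
    inferInstance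
  have i4 : Algebra.FormallyEtale (IntermediateField.adjoin K (Set.range ((↑) : s → L))) L :=
    Algebra.FormallyEtale.of_isSeparable _ L
  have i5 : Algebra.FormallySmooth (Algebra.adjoin K (Set.range ((↑) : s → L))) L :=
    .comp _ (IntermediateField.adjoin K (Set.range ((↑) : s → L))) _
  -- the ring hom on `K`
  let φ : K →+* DN L :=
    { toFun := fun c => DN.mk (algebraMap K L c) (δ c)
      map_one' := by
        apply DN.ext'
        · simp
        · simp
      map_mul' := fun a b => by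
        apply DN.ext'
        · simp
        · rw [DN.snd_mul]
          simp [Algebra.smul_def]
      map_zero' := by
        apply DN.ext'
        · simp
        · simp
      map_add' := fun a b => by
        apply DN.ext'
        · simp
        · simp }
  have hφ1 : ∀ c, DN.fst L (φ c) = algebraMap K L c := fun c => rfl
  have hφ2 : ∀ c, DN.snd (φ c) = δ c := fun c => rfl
  let wt : s → L := fun x => if h : ∃ i, v i = x then w h.choose else 0
  let ψ0 : MvPolynomial s K →+* DN L := eval₂Hom φ (fun x => DN.mk (x : L) (wt x))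
  let ψ : Algebra.adjoin K (Set.range ((↑) : s → L)) →+* DN L :=
    ψ0.comp (e.symm : _ →+* MvPolynomial s K)
  have hψ0 : ∀ p : MvPolynomial s K, DN.fst L (ψ0 p) = aeval ((↑) : s → L) p := by
    intro p
    induction p using MvPolynomial.induction_on with
    | C a => simp [ψ0, hφ1]
    | add p q hp hq => simp [map_add, hp, hq]
    | mul_X p i hp => rw [map_mul, map_mul, hp, map_mul]; simp [ψ0]
  have hψ : ∀ a, DN.fst L (ψ a) = algebraMap _ L a := by
    intro a
    obtain ⟨p, rfl⟩ := e.surjective a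
    have : ψ (e p) = ψ0 p := by simp [ψ]
    rw [this, hψ0, ← hsb.1.algebraMap_aevalEquiv]
  obtain ⟨Ψ, hΨ1, hΨ2⟩ := exists_lift ψ hψ
  have hK : ∀ c : K, Ψ (algebraMap K L c) = φ c := by
    intro c
    have h1 : algebraMap K L c = algebraMap (Algebra.adjoin K (Set.range ((↑) : s → L))) L
        (e (C c)) := by
      rw [hsb.1.algebraMap_aevalEquiv]; simp
    rw [h1, hΨ1]
    simp [ψ, ψ0]
  have hs' : ∀ x : s, Ψ (x : L) = DN.mk (x : L) (wt x) := by
    intro x
    have h1 : (x : L) = algebraMap (Algebra.adjoin K (Set.range ((↑) : s → L))) L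
        (e (X x)) := by
      rw [hsb.1.algebraMap_aevalEquiv]; simp
    conv_lhs => rw [h1]
    rw [hΨ1]
    simp [ψ, ψ0]
  let D : Derivation k L L := Derivation.mk'
    { toFun := fun x => DN.snd (Ψ x)
      map_add' := fun x y => by simp
      map_smul' := fun c x => by
        rw [Algebra.smul_def, map_mul, DN.snd_mul, IsScalarTower.algebraMap_apply k K L, hK, hφ1,
          hφ2, Derivation.map_algebraMap, mul_zero, add_zero, RingHom.id_apply, Algebra.smul_def,
          IsScalarTower.algebraMap_apply k K L] } (fun a b => by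
        show DN.snd (Ψ (a * b)) = a • DN.snd (Ψ b) + b • DN.snd (Ψ a)
        rw [map_mul, DN.snd_mul, hΨ2, hΨ2]; rfl)
  refine ⟨D, fun a => ?_, fun i => ?_⟩
  · show DN.snd (Ψ (algebraMap K L a)) = δ a
    rw [hK, hφ2]
  · show DN.snd (Ψ (v i)) = w i
    have hi : v i ∈ s := hs ⟨i, rfl⟩
    have := hs' ⟨v i, hi⟩
    rw [show (((⟨v i, hi⟩ : s) : L)) = v i from rfl] at this
    rw [this, DN.snd_mk]
    have hex : ∃ j, v j = v i := ⟨i, rfl⟩
    have h2 : wt ⟨v i, hi⟩ = w hex.choose := by
      simp only [wt]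
      rw [dif_pos hex]
    rw [h2]
    exact congrArg w (hv.injective hex.choose_spec)

end Crest.Agent.R172.Gen
end

-- ▼ part R172/Gen2
section

/-!
Row 172, node GEN (helper896), part 2: generic parameters (G1) and the generic kernel vector (G2).
-/

set_option autoImplicit false

namespace Crest.Agent.R172.Gen

open MvPolynomial Matrix

/-- (G1) generic parameters over a field of characteristic 0: an algebraically closed extension with
an algebraically independent family `t`; every polynomial identity at `t` is generic. -/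
theorem exists_generic (k : Type) [Field k] [CharZero k] (σ : Type) :
    ∃ (K : Type) (_ : Field K) (_ : Algebra k K) (_ : IsAlgClosed K) (_ : CharZero K) (t : σ → K),
      AlgebraicIndependent k t := by
  let K := AlgebraicClosure (FractionRing (MvPolynomial σ k))
  let _ : Algebra k K := inferInstance
  have hinj : Function.Injective (algebraMap (MvPolynomial σ k) K) := by
    rw [IsScalarTower.algebraMap_eq (MvPolynomial σ k) (FractionRing (MvPolynomial σ k)) K]
    exact (algebraMap (FractionRing (MvPolynomial σ k)) K).injective.comp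
      (IsFractionRing.injective (MvPolynomial σ k) (FractionRing (MvPolynomial σ k)))
  refine ⟨K, inferInstance, inferInstance, inferInstance,
    charZero_of_injective_algebraMap (algebraMap k K).injective,
    fun i => algebraMap (MvPolynomial σ k) K (X i), ?_⟩
  have h : (aeval (fun i => algebraMap (MvPolynomial σ k) K (X i)) : MvPolynomial σ k →ₐ[k] K)
      = IsScalarTower.toAlgHom k (MvPolynomial σ k) K := by
    apply MvPolynomial.algHom_ext
    intro i; simp
  rw [AlgebraicIndependent, h]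
  exact hinj

/-- The derivative of a matrix of polynomials along a derivation is computed entrywise; this is just
a name for the entrywise application of a derivation. -/
def dmat {k K L : Type*} [Field k] [Field K] [Field L] [Algebra k K] [Algebra K L] [Algebra k L]
    {m n : Type*} (δ : Derivation k K L) (A : Matrix m n K) : Matrix m n L :=
  fun i j => δ (A i j)

/-- Entrywise embedding. -/
abbrev emb (K L : Type*) [Field K] [Field L] [Algebra K L] {m n : Type*} (A : Matrix m n K) :
    Matrix m n L := A.map (algebraMap K L)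

lemma dmat_mul {k K L : Type*} [Field k] [Field K] [Field L] [Algebra k K] [Algebra K L]
    [Algebra k L] {m n p : Type*} [Fintype n] (δ : Derivation k K L)
    (A : Matrix m n K) (B : Matrix n p K) :
    dmat δ (A * B) = dmat δ A * emb K L B + emb K L A * dmat δ B := by
  ext i j
  simp only [dmat, Matrix.mul_apply, Matrix.add_apply, map_sum, Derivation.leibniz,
    Matrix.map_apply, Finset.sum_add_distrib, Algebra.smul_def]
  rw [add_comm]
  congr 1
  exact Finset.sum_congr rfl fun x _ => mul_comm _ _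

lemma dmat_zero {k K L : Type*} [Field k] [Field K] [Field L] [Algebra k K] [Algebra K L]
    [Algebra k L] {m n : Type*} (δ : Derivation k K L) :
    dmat δ (0 : Matrix m n K) = 0 := by
  ext i j; simp [dmat]

/-- A projector onto the kernel of a matrix, in matrix form: `A * P = 0` and `1 - P = G * A`. -/
theorem exists_kernel_projector {K : Type*} [Field K] {m n : Type*} [Fintype m] [Fintype n]
    [DecidableEq m] [DecidableEq n] (A : Matrix m n K) :
    ∃ (P : Matrix n n K) (G : Matrix n m K), A * P = 0 ∧ 1 - P = G * A := by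
  classical
  set f : (n → K) →ₗ[K] (m → K) := Matrix.toLin' A with hf
  -- a generalized inverse: a left inverse of the range-embedding composed...
  obtain ⟨q, hq⟩ := (LinearMap.ker f).exists_isCompl
  let f' : q →ₗ[K] (m → K) := f.comp q.subtype
  have hf' : LinearMap.ker f' = ⊥ := by
    rw [LinearMap.ker_eq_bot']
    intro x hx
    have hx1 : (x : n → K) ∈ LinearMap.ker f := hx
    have : (x : n → K) ∈ LinearMap.ker f ⊓ q := ⟨hx1, x.2⟩
    rw [hq.inf_eq_bot] at this
    exact Subtype.ext (by simpa using this)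
  obtain ⟨g, hg⟩ := LinearMap.exists_leftInverse_of_injective f' hf'
  let g' : (m → K) →ₗ[K] (n → K) := q.subtype.comp g
  -- `f (x - g' (f x)) = 0`
  have hgf : ∀ x, f (x - g' (f x)) = 0 := by
    intro x
    have hx : x ∈ LinearMap.ker f ⊔ q := by rw [hq.sup_eq_top]; trivial
    obtain ⟨a, ha, b, hb, rfl⟩ := Submodule.mem_sup.1 hx
    have h1 : f (a + b) = f' ⟨b, hb⟩ := by
      rw [map_add, LinearMap.mem_ker.1 ha, zero_add]; rfl
    have h2 : g (f (a + b)) = ⟨b, hb⟩ := by
      rw [h1]; exact LinearMap.congr_fun hg ⟨b, hb⟩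
    have h3 : g' (f (a + b)) = b := by
      show ((g (f (a + b)) : q) : n → K) = b
      rw [h2]
    rw [h3, add_sub_cancel_right]
    exact ha
  refine ⟨1 - LinearMap.toMatrix' g' * A, LinearMap.toMatrix' g', ?_, by abel⟩
  apply Matrix.toLin'.injective
  rw [Matrix.toLin'_mul, map_sub, Matrix.toLin'_one, Matrix.toLin'_mul, Matrix.toLin'_toMatrix',
    map_zero]
  apply LinearMap.ext
  intro x
  exact hgf x

/-- (G2) generic kernel vector of a matrix over an algebraically closed (or any) field, and lifting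
of derivations: every solution of the linearised equation is realised by a derivation. -/
theorem exists_generic_kernel (k : Type) (K : Type) [Field k] [Field K] [CharZero K] [Algebra k K]
    {m n : Type} [Fintype m] [Fintype n] [DecidableEq m] [DecidableEq n] (A : Matrix m n K) :
    ∃ (L : Type) (_ : Field L) (_ : Algebra K L) (_ : Algebra k L) (_ : IsScalarTower k K L)
      (_ : IsAlgClosed L) (_ : CharZero L) (F : n → L),
      emb K L A *ᵥ F = 0 ∧
      (∀ p : MvPolynomial n K, aeval F p = 0 → ∀ x : n → K, A *ᵥ x = 0 → aeval x p = 0) ∧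
      (∀ (δ : Derivation k K L) (w : n → L), emb K L A *ᵥ w + dmat δ A *ᵥ F = 0 →
        ∃ D : Derivation k L L, (∀ a, D (algebraMap K L a) = δ a) ∧ ∀ j, D (F j) = w j) := by
  classical
  obtain ⟨L, _, _, _, _, τ, hτ⟩ := exists_generic K n
  let _ : Algebra k L := ((algebraMap K L).comp (algebraMap k K)).toAlgebra
  have htower : IsScalarTower k K L := IsScalarTower.of_algebraMap_eq fun _ => rfl
  obtain ⟨P, G, hAP, hG⟩ := exists_kernel_projector A
  have hAPL : emb K L A * emb K L P = 0 := by
    rw [← Matrix.map_mul, hAP]; ext i j; simp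
  have hGL : 1 - emb K L P = emb K L G * emb K L A := by
    rw [← Matrix.map_mul, ← hG]
    ext i j
    simp [Matrix.one_apply, apply_ite (algebraMap K L)]
  have hker : ∀ x : n → L, emb K L A *ᵥ x = 0 → emb K L P *ᵥ x = x := by
    intro x hx
    have : (1 - emb K L P) *ᵥ x = 0 := by
      rw [hGL, ← Matrix.mulVec_mulVec, hx, Matrix.mulVec_zero]
    rw [Matrix.sub_mulVec, Matrix.one_mulVec, sub_eq_zero] at this
    exact this.symm
  have hkerK : ∀ x : n → K, A *ᵥ x = 0 → P *ᵥ x = x := by
    intro x hx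
    have : (1 - P) *ᵥ x = 0 := by
      rw [hG, ← Matrix.mulVec_mulVec, hx, Matrix.mulVec_zero]
    rw [Matrix.sub_mulVec, Matrix.one_mulVec, sub_eq_zero] at this
    exact this.symm
  refine ⟨L, inferInstance, inferInstance, inferInstance, htower, inferInstance, inferInstance,
    emb K L P *ᵥ τ, ?_, ?_, ?_⟩
  · rw [Matrix.mulVec_mulVec, hAPL, Matrix.zero_mulVec]
  · intro p hp x hx
    -- pull back the polynomial to the parameters
    let Q : MvPolynomial n K := aeval (fun j => ∑ i, C (P j i) * X i) p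
    have hQ : aeval τ Q = 0 := by
      have : aeval τ Q = aeval (emb K L P *ᵥ τ) p := by
        simp only [Q]
        rw [← AlgHom.comp_apply, MvPolynomial.comp_aeval]
        congr 2
        ext j
        simp [Matrix.mulVec, dotProduct, map_sum]
      rw [this, hp]
    have hQ0 : Q = 0 := by
      apply hτ
      rw [hQ, map_zero]
    have : aeval x Q = aeval x p := by
      simp only [Q]
      rw [← AlgHom.comp_apply, MvPolynomial.comp_aeval]
      congr 2
      ext j
      have h1 := congrFun (hkerK x hx) j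
      conv_rhs => rw [← h1]
      simp [Matrix.mulVec, dotProduct, map_sum]
    rw [← this, hQ0, map_zero]
  · intro δ w hw
    set w' : n → L := w - dmat δ P *ᵥ τ with hw'
    have hd : dmat δ A * emb K L P + emb K L A * dmat δ P = 0 := by
      rw [← dmat_mul, hAP, dmat_zero]
    have hw'0 : emb K L A *ᵥ w' = 0 := by
      rw [hw', Matrix.mulVec_sub]
      have h1 : emb K L A *ᵥ (dmat δ P *ᵥ τ) = - (dmat δ A *ᵥ (emb K L P *ᵥ τ)) := by
        rw [Matrix.mulVec_mulVec, Matrix.mulVec_mulVec, ← Matrix.neg_mulVec]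
        congr 1
        rw [eq_neg_iff_add_eq_zero, add_comm]; exact hd
      rw [h1, sub_neg_eq_add]; exact hw
    obtain ⟨D, hD1, hD2⟩ := exists_derivation (k := k) hτ δ w'
    refine ⟨D, hD1, fun j => ?_⟩
    have h2 : D ((emb K L P *ᵥ τ) j) = (dmat δ P *ᵥ τ) j + (emb K L P *ᵥ w') j := by
      simp only [Matrix.mulVec, dotProduct, map_sum, Derivation.leibniz, Matrix.map_apply, hD1, hD2,
        dmat, ← Finset.sum_add_distrib, smul_eq_mul]
      exact Finset.sum_congr rfl fun i _ => by ring
    rw [h2, hker w' hw'0, hw']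
    simp

end Crest.Agent.R172.Gen
end

-- ▼ part R172/Gen3

/-!
Row 172, node GEN (helper896), part 3: the big cell parametrisation of three copies of `SO(2n)` and a
generic skew matrix `H`; every direction is realised by a derivation.
-/

set_option autoImplicit false

namespace Crest.Agent.R172.Gen

open MvPolynomial Matrix

/-- index type of the `2n`-dimensional space -/
abbrev Ix (n : ℕ) := Fin n ⊕ Fin n

/-- the form of type `D` -/
abbrev Jm (n : ℕ) (R : Type*) [CommRing R] : Matrix (Ix n) (Ix n) R :=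
  LieAlgebra.Orthogonal.JD (Fin n) R

section cell

variable {n : ℕ} {R : Type*} [CommRing R]

/-- lower unipotent block matrix -/
def lo (C : Matrix (Fin n) (Fin n) R) : Matrix (Ix n) (Ix n) R := fromBlocks 1 0 C 1

/-- upper unipotent block matrix -/
def up (B : Matrix (Fin n) (Fin n) R) : Matrix (Ix n) (Ix n) R := fromBlocks 1 B 0 1

/-- Levi block matrix; `A'` plays the role of the inverse of `A` -/
def mid (A A' : Matrix (Fin n) (Fin n) R) : Matrix (Ix n) (Ix n) R := fromBlocks A 0 0 A'ᵀ

lemma lo_orth {C : Matrix (Fin n) (Fin n) R} (hC : Cᵀ = -C) :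
    (lo C)ᵀ * Jm n R * lo C = Jm n R := by
  simp [lo, LieAlgebra.Orthogonal.JD, fromBlocks_transpose, fromBlocks_multiply, hC]

lemma up_orth {B : Matrix (Fin n) (Fin n) R} (hB : Bᵀ = -B) :
    (up B)ᵀ * Jm n R * up B = Jm n R := by
  simp [up, LieAlgebra.Orthogonal.JD, fromBlocks_transpose, fromBlocks_multiply, hB]

lemma mid_orth {A A' : Matrix (Fin n) (Fin n) R} (h : A' * A = 1) :
    (mid A A')ᵀ * Jm n R * mid A A' = Jm n R := by
  simp [mid, LieAlgebra.Orthogonal.JD, fromBlocks_transpose, fromBlocks_multiply, h,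
    ← transpose_mul]

lemma orth_mul {g h : Matrix (Ix n) (Ix n) R} (hg : gᵀ * Jm n R * g = Jm n R)
    (hh : hᵀ * Jm n R * h = Jm n R) : (g * h)ᵀ * Jm n R * (g * h) = Jm n R := by
  rw [transpose_mul]
  calc hᵀ * gᵀ * Jm n R * (g * h) = hᵀ * (gᵀ * Jm n R * g) * h := by
        simp only [Matrix.mul_assoc]
    _ = Jm n R := by rw [hg, hh]

lemma JJ : Jm n R * Jm n R = 1 := by
  simp [LieAlgebra.Orthogonal.JD, fromBlocks_multiply, fromBlocks_one]

/-- left inverse of an orthogonal matrix -/
lemma orth_left_inv {g : Matrix (Ix n) (Ix n) R} (hg : gᵀ * Jm n R * g = Jm n R) :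
    (Jm n R * gᵀ * Jm n R) * g = 1 := by
  calc (Jm n R * gᵀ * Jm n R) * g = Jm n R * (gᵀ * Jm n R * g) := by
        simp only [Matrix.mul_assoc]
    _ = 1 := by rw [hg, JJ]

lemma orth_right_inv {g : Matrix (Ix n) (Ix n) R} (hg : gᵀ * Jm n R * g = Jm n R) :
    g * (Jm n R * gᵀ * Jm n R) = 1 :=
  mul_eq_one_comm.1 (orth_left_inv hg)

lemma lo_neg_mul_lo (C : Matrix (Fin n) (Fin n) R) : lo (-C) * lo C = 1 := by
  simp [lo, fromBlocks_multiply, fromBlocks_one]

lemma lo_mul_lo_neg (C : Matrix (Fin n) (Fin n) R) : lo C * lo (-C) = 1 := by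
  simp [lo, fromBlocks_multiply, fromBlocks_one]

/-- Membership in the Lie algebra. -/
def IsSo (X : Matrix (Ix n) (Ix n) R) : Prop := Xᵀ * Jm n R + Jm n R * X = 0

lemma isSo_conj {X : Matrix (Ix n) (Ix n) R} (g : Matrix (Ix n) (Ix n) R) (hX : IsSo X) :
    IsSo ((Jm n R * gᵀ * Jm n R) * X * g) := by
  unfold IsSo at hX ⊢
  have hJt : (Jm n R)ᵀ = Jm n R := by
    simp [LieAlgebra.Orthogonal.JD, fromBlocks_transpose]
  have h1 : ((Jm n R * gᵀ * Jm n R) * X * g)ᵀ = gᵀ * Xᵀ * (Jm n R * g * Jm n R) := by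
    simp only [transpose_mul, transpose_transpose, hJt, Matrix.mul_assoc]
  rw [h1]
  have h2 : gᵀ * Xᵀ * (Jm n R * g * Jm n R) * Jm n R = gᵀ * (Xᵀ * Jm n R) * g := by
    calc gᵀ * Xᵀ * (Jm n R * g * Jm n R) * Jm n R
        = gᵀ * (Xᵀ * Jm n R) * g * (Jm n R * Jm n R) := by simp only [Matrix.mul_assoc]
      _ = _ := by rw [JJ, Matrix.mul_one]
  have h3 : Jm n R * ((Jm n R * gᵀ * Jm n R) * X * g) = gᵀ * (Jm n R * X) * g := by
    calc Jm n R * ((Jm n R * gᵀ * Jm n R) * X * g)
        = (Jm n R * Jm n R) * gᵀ * (Jm n R * X) * g := by simp only [Matrix.mul_assoc]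
      _ = _ := by rw [JJ, Matrix.one_mul]
  rw [h2, h3, ← Matrix.add_mul, ← Matrix.mul_add, hX]
  simp

/-- Block form of an element of the Lie algebra. -/
lemma IsSo.blocks {X : Matrix (Ix n) (Ix n) R} (hX : IsSo X) :
    X = fromBlocks X.toBlocks₁₁ X.toBlocks₁₂ X.toBlocks₂₁ (-X.toBlocks₁₁ᵀ) ∧
      X.toBlocks₁₂ᵀ = -X.toBlocks₁₂ ∧ X.toBlocks₂₁ᵀ = -X.toBlocks₂₁ := by
  unfold IsSo at hX
  rw [← fromBlocks_toBlocks X] at hX
  simp only [LieAlgebra.Orthogonal.JD, fromBlocks_transpose, fromBlocks_multiply, Matrix.mul_zero,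
    Matrix.zero_mul, Matrix.mul_one, Matrix.one_mul, zero_add, add_zero, fromBlocks_add] at hX
  rw [← fromBlocks_zero, fromBlocks_inj] at hX
  obtain ⟨h1, h2, h3, h4⟩ := hX
  refine ⟨?_, ?_, ?_⟩
  · conv_lhs => rw [← fromBlocks_toBlocks X]
    rw [fromBlocks_inj]
    refine ⟨rfl, rfl, rfl, ?_⟩
    rw [eq_neg_iff_add_eq_zero, add_comm]; exact h2
  · rw [eq_neg_iff_add_eq_zero]; exact h4
  · rw [eq_neg_iff_add_eq_zero]; exact h1

end cell

section params

/-- Parameters: for each of three arms three `n × n` blocks (lower, Levi, upper), and one `M × M`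
block. -/
abbrev Par (n : ℕ) (M : Type) : Type := (Fin 3 × Fin 3 × Fin n × Fin n) ⊕ (M × M)

variable {n : ℕ} {M : Type} {R : Type*} [CommRing R]

/-- the block number `b` of arm `s` -/
def blk (z : Par n M → R) (s b : Fin 3) : Matrix (Fin n) (Fin n) R :=
  Matrix.of fun i j => z (Sum.inl (s, b, i, j))

/-- the generic skew matrix `H` -/
def Hz (z : Par n M → R) : Matrix M M R :=
  Matrix.of fun x y => z (Sum.inr (x, y)) - z (Sum.inr (y, x))

/-- lower skew block -/
def Cz (z : Par n M → R) (s : Fin 3) : Matrix (Fin n) (Fin n) R := blk z s 0 - (blk z s 0)ᵀ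
/-- Levi block -/
def Az (z : Par n M → R) (s : Fin 3) : Matrix (Fin n) (Fin n) R := blk z s 1
/-- upper skew block -/
def Bz (z : Par n M → R) (s : Fin 3) : Matrix (Fin n) (Fin n) R := blk z s 2 - (blk z s 2)ᵀ

lemma Cz_skew (z : Par n M → R) (s : Fin 3) : (Cz z s)ᵀ = - Cz z s := by
  simp [Cz, transpose_sub]

lemma Bz_skew (z : Par n M → R) (s : Fin 3) : (Bz z s)ᵀ = - Bz z s := by
  simp [Bz, transpose_sub]

lemma Hz_skew (z : Par n M → R) : (Hz z)ᵀ = - Hz z := by
  ext i j; simp [Hz]

lemma Hz_diag (z : Par n M → R) (x : M) : Hz z x x = 0 := by simp [Hz]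

/-- product of all the determinants of the Levi blocks -/
noncomputable def dz (z : Par n M → R) : R := ∏ s, (Az z s).det

/-- the polynomial multiple `det A • g` of the group element. -/
noncomputable def gt (g0 : Fin 3 → Matrix (Ix n) (Ix n) R) (z : Par n M → R) (s : Fin 3) :
    Matrix (Ix n) (Ix n) R :=
  g0 s * (lo (Cz z s) * fromBlocks ((Az z s).det • Az z s) 0 0 ((Az z s).adjugate)ᵀ * up (Bz z s))

end params

section field

variable {n : ℕ} {M : Type} {L : Type*} [Field L]

/-- the group element with parameters `z` (over a field) -/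
noncomputable def gz (g0 : Fin 3 → Matrix (Ix n) (Ix n) L) (z : Par n M → L) (s : Fin 3) :
    Matrix (Ix n) (Ix n) L :=
  g0 s * (lo (Cz z s) * mid (Az z s) (Az z s)⁻¹ * up (Bz z s))

lemma det_smul_gz (g0 : Fin 3 → Matrix (Ix n) (Ix n) L) (z : Par n M → L) (s : Fin 3)
    (hd : (Az z s).det ≠ 0) : (Az z s).det • gz g0 z s = gt g0 z s := by
  have h1 : (Az z s).det • mid (Az z s) (Az z s)⁻¹ =
      fromBlocks ((Az z s).det • Az z s) 0 0 ((Az z s).adjugate)ᵀ := by
    rw [mid, fromBlocks_smul, smul_zero, ← transpose_smul, Matrix.inv_def, smul_smul,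
      Ring.inverse_eq_inv', mul_inv_cancel₀ hd, one_smul]
  rw [gt, ← h1, gz]
  simp only [Matrix.mul_smul, Matrix.smul_mul]

lemma gz_orth {g0 : Fin 3 → Matrix (Ix n) (Ix n) L} (z : Par n M → L) (s : Fin 3)
    (h0 : (g0 s)ᵀ * Jm n L * g0 s = Jm n L) (hd : (Az z s).det ≠ 0) :
    (gz g0 z s)ᵀ * Jm n L * gz g0 z s = Jm n L := by
  refine orth_mul h0 (orth_mul (orth_mul (lo_orth (Cz_skew z s)) (mid_orth ?_))
    (up_orth (Bz_skew z s)))
  exact Matrix.nonsing_inv_mul _ (isUnit_iff_ne_zero.2 hd)

end field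

section deriv

variable {n : ℕ} {M : Type}

/-- entrywise derivation of a matrix, product rule (self-map version) -/
lemma dmul {k L : Type*} [Field k] [Field L] [Algebra k L] {m n p : Type*} [Fintype n]
    (D : Derivation k L L) (A : Matrix m n L) (B : Matrix n p L) :
    (A * B).map D = A.map D * B + A * B.map D := by
  ext i j
  simp only [Matrix.mul_apply, Matrix.add_apply, map_sum, Derivation.leibniz,
    Matrix.map_apply, Finset.sum_add_distrib, smul_eq_mul]
  rw [add_comm]
  congr 1
  exact Finset.sum_congr rfl fun x _ => mul_comm _ _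

lemma dinv {k L : Type*} [Field k] [Field L] [Algebra k L] {m : Type*} [Fintype m] [DecidableEq m]
    (D : Derivation k L L) (A : Matrix m m L) (hA : A.det ≠ 0) :
    (A⁻¹).map D = - (A⁻¹ * A.map D * A⁻¹) := by
  have hu : IsUnit A.det := isUnit_iff_ne_zero.2 hA
  have h1 : (A⁻¹ * A).map D = 0 := by
    rw [Matrix.nonsing_inv_mul A hu]
    ext i j
    by_cases h : i = j
    · subst h; simp
    · simp [Matrix.one_apply_ne h]
  rw [dmul] at h1
  have h2 : (A⁻¹).map D * A = - (A⁻¹ * A.map D) := by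
    rw [eq_neg_iff_add_eq_zero]; exact h1
  calc (A⁻¹).map D = (A⁻¹).map D * (A * A⁻¹) := by
        rw [Matrix.mul_nonsing_inv A hu, Matrix.mul_one]
    _ = ((A⁻¹).map D * A) * A⁻¹ := by rw [Matrix.mul_assoc]
    _ = _ := by rw [h2, Matrix.neg_mul]

/-- The directional parameters: for `Y` in the Lie algebra (conjugated), how the blocks must move. -/
lemma cell_deriv {k L : Type*} [Field k] [Field L] [Algebra k L]
    (D : Derivation k L L) (C A B : Matrix (Fin n) (Fin n) L) (hA : A.det ≠ 0)
    (Y : Matrix (Ix n) (Ix n) L) (hY : IsSo Y)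
    (hC : C.map D = Y.toBlocks₂₁) (hAD : A.map D = Y.toBlocks₁₁ * A)
    (hB : B.map D = A⁻¹ * Y.toBlocks₁₂ * (A⁻¹)ᵀ) :
    (lo C * mid A A⁻¹ * up B).map D = lo C * Y * (lo (-C)) * (lo C * mid A A⁻¹ * up B) := by
  have hu : IsUnit A.det := isUnit_iff_ne_zero.2 hA
  obtain ⟨hY1, hY2, hY3⟩ := hY.blocks
  have e1 : (lo C).map D = fromBlocks 0 0 (C.map D) 0 := by
    rw [lo, fromBlocks_map]
    congr 1 <;> ext i j <;> by_cases h : i = j <;> simp [Matrix.one_apply, h]
  have e2 : (up B).map D = fromBlocks 0 (B.map D) 0 0 := by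
    rw [up, fromBlocks_map]
    congr 1 <;> ext i j <;> by_cases h : i = j <;> simp [Matrix.one_apply, h]
  have e3 : (mid A A⁻¹).map D = fromBlocks (A.map D) 0 0 ((A⁻¹).map D)ᵀ := by
    rw [mid, fromBlocks_map]
    congr 1 <;> ext i j <;> simp
  have e4 : (A⁻¹).map D = - (A⁻¹ * Y.toBlocks₁₁) := by
    rw [dinv D A hA, hAD]
    congr 1
    rw [Matrix.mul_assoc, Matrix.mul_assoc, Matrix.mul_nonsing_inv A hu, Matrix.mul_one]
  have hAA : A * A⁻¹ = 1 := Matrix.mul_nonsing_inv A hu
  have p1 : (fromBlocks 0 0 Y.toBlocks₂₁ 0 : Matrix (Ix n) (Ix n) L) =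
      lo C * fromBlocks 0 0 Y.toBlocks₂₁ 0 := by
    simp [lo, fromBlocks_multiply]
  have p2 : mid A A⁻¹ * fromBlocks 0 (A⁻¹ * Y.toBlocks₁₂ * (A⁻¹)ᵀ) 0 0 =
      fromBlocks 0 Y.toBlocks₁₂ 0 0 * mid A A⁻¹ * up B := by
    simp only [mid, up, fromBlocks_multiply, Matrix.mul_zero, Matrix.zero_mul, Matrix.mul_one,
      Matrix.one_mul, zero_add, add_zero]
    rw [← Matrix.mul_assoc, ← Matrix.mul_assoc, hAA, Matrix.one_mul]
  have p3 : fromBlocks (Y.toBlocks₁₁ * A) 0 0 (-(A⁻¹ * Y.toBlocks₁₁))ᵀ =
      fromBlocks Y.toBlocks₁₁ 0 0 (-Y.toBlocks₁₁ᵀ) * mid A A⁻¹ := by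
    simp [mid, fromBlocks_multiply, transpose_mul]
  have p4 : (fromBlocks 0 0 Y.toBlocks₂₁ 0 + fromBlocks Y.toBlocks₁₁ 0 0 (-Y.toBlocks₁₁ᵀ) +
      fromBlocks 0 Y.toBlocks₁₂ 0 0 : Matrix (Ix n) (Ix n) L) = Y := by
    conv_rhs => rw [hY1]
    simp [fromBlocks_add]
  rw [dmul, dmul, e1, e2, e3, e4, hC, hAD, hB, p1, p3, Matrix.mul_assoc (lo C) (mid A A⁻¹), p2]
  calc (lo C * fromBlocks 0 0 Y.toBlocks₂₁ 0 * mid A A⁻¹ +
        lo C * (fromBlocks Y.toBlocks₁₁ 0 0 (-Y.toBlocks₁₁ᵀ) * mid A A⁻¹)) * up B +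
        lo C * (fromBlocks 0 Y.toBlocks₁₂ 0 0 * mid A A⁻¹ * up B)
      = lo C * (fromBlocks 0 0 Y.toBlocks₂₁ 0 + fromBlocks Y.toBlocks₁₁ 0 0 (-Y.toBlocks₁₁ᵀ) +
        fromBlocks 0 Y.toBlocks₁₂ 0 0) * (mid A A⁻¹ * up B) := by
        simp only [Matrix.mul_add, Matrix.add_mul, Matrix.mul_assoc]
    _ = lo C * Y * (mid A A⁻¹ * up B) := by rw [p4]
    _ = lo C * Y * (lo (-C) * lo C) * (mid A A⁻¹ * up B) := by
        rw [lo_neg_mul_lo, Matrix.mul_one]
    _ = _ := by simp only [Matrix.mul_assoc]

/-- Every direction on `SO(2n)³ × Λ²` is realised by a derivation: `D g_s = X_s g_s`, `D H = G`. -/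
theorem exists_direction {k K L : Type*} [Field k] [CharZero k] [Field K] [Field L] [Algebra k K]
    [Algebra K L] [Algebra k L] [IsScalarTower k K L]
    (g0 : Fin 3 → Matrix (Ix n) (Ix n) k) (h0 : ∀ s, (g0 s)ᵀ * Jm n k * g0 s = Jm n k)
    {t : Par n M → K} (ht : AlgebraicIndependent k t)
    (hd : ∀ s, (Az t s).det ≠ 0)
    (X : Fin 3 → Matrix (Ix n) (Ix n) L) (hX : ∀ s, IsSo (X s))
    (G : Matrix M M L) (hG : Gᵀ = -G) :
    ∃ D : Derivation k L L,
      (∀ s, (emb K L (gz (fun s => emb k K (g0 s)) t s)).map D =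
        X s * emb K L (gz (fun s => emb k K (g0 s)) t s)) ∧
      (emb K L (Hz t)).map D = G := by
  classical
  have : CharZero L := charZero_of_injective_algebraMap (algebraMap k L).injective
  have h2 : (2 : L) ≠ 0 := two_ne_zero
  set tL : Par n M → L := fun i => algebraMap K L (t i) with htL
  have htL' : AlgebraicIndependent k tL :=
    ht.map' (f := IsScalarTower.toAlgHom k K L) (algebraMap K L).injective
  -- embedded objects
  have eC : ∀ s, Cz tL s = emb K L (Cz t s) := by
    intro s; ext i j; simp [Cz, blk, htL]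
  have eB : ∀ s, Bz tL s = emb K L (Bz t s) := by
    intro s; ext i j; simp [Bz, blk, htL]
  have eA : ∀ s, Az tL s = emb K L (Az t s) := by
    intro s; ext i j; simp [Az, blk, htL]
  have eH : Hz tL = emb K L (Hz t) := by
    ext i j; simp [Hz, htL]
  have hdL : ∀ s, (Az tL s).det ≠ 0 := by
    intro s
    rw [eA]
    have : (emb K L (Az t s)).det = algebraMap K L (Az t s).det := by
      rw [RingHom.map_det]; rfl
    rw [this]
    exact fun h => hd s ((algebraMap K L).injective (by rw [h, map_zero]))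
  set g0L : Fin 3 → Matrix (Ix n) (Ix n) L := fun s => emb k L (g0 s) with hg0L
  have h0L : ∀ s, (g0L s)ᵀ * Jm n L * g0L s = Jm n L := by
    intro s
    have h := congrArg (fun A : Matrix (Ix n) (Ix n) k => A.map (algebraMap k L)) (h0 s)
    simp only [Matrix.map_mul, transpose_map] at h
    have hJ : (Jm n k).map (algebraMap k L) = Jm n L := by
      simp only [LieAlgebra.Orthogonal.JD, fromBlocks_map]
      congr 1 <;> ext i j <;> by_cases h : i = j <;> simp [Matrix.one_apply, h]
    rw [hJ] at h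
    exact h
  have eg : ∀ s, emb K L (gz (fun s => emb k K (g0 s)) t s) = gz g0L tL s := by
    intro s
    simp only [gz, Matrix.map_mul, hg0L]
    have e1 : (emb k K (g0 s)).map (algebraMap K L) = emb k L (g0 s) := by
      ext i j; simp [← IsScalarTower.algebraMap_apply k K L]
    have e2 : (lo (Cz t s)).map (algebraMap K L) = lo (Cz tL s) := by
      rw [eC, lo, lo, fromBlocks_map]
      congr 1 <;> ext i j <;> by_cases h : i = j <;> simp [Matrix.one_apply, h]
    have e3 : (up (Bz t s)).map (algebraMap K L) = up (Bz tL s) := by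
      rw [eB, up, up, fromBlocks_map]
      congr 1 <;> ext i j <;> by_cases h : i = j <;> simp [Matrix.one_apply, h]
    have e4 : (mid (Az t s) (Az t s)⁻¹).map (algebraMap K L) = mid (Az tL s) (Az tL s)⁻¹ := by
      have : ((Az t s)⁻¹).map (algebraMap K L) = (Az tL s)⁻¹ := by
        rw [eA]
        symm
        apply Matrix.inv_eq_right_inv
        rw [← Matrix.map_mul, Matrix.mul_nonsing_inv _ (isUnit_iff_ne_zero.2 (hd s))]
        ext i j; by_cases h : i = j <;> simp [Matrix.one_apply, h]
      rw [mid, mid, fromBlocks_map, transpose_map, this, eA]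
      congr 1 <;> ext i j <;> simp
    rw [e1, e2, e3, e4]
  -- the required movement of the blocks
  let Y : Fin 3 → Matrix (Ix n) (Ix n) L := fun s =>
    lo (-(Cz tL s)) * ((Jm n L * (g0L s)ᵀ * Jm n L) * X s * g0L s) * lo (Cz tL s)
  have hY : ∀ s, IsSo (Y s) := by
    intro s
    have h1 := isSo_conj (g0L s) (hX s)
    have h2 := isSo_conj (lo (Cz tL s)) h1
    have h3 : Jm n L * (lo (Cz tL s))ᵀ * Jm n L = lo (-(Cz tL s)) := by
      simp [lo, LieAlgebra.Orthogonal.JD, fromBlocks_transpose, fromBlocks_multiply,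
        Cz_skew tL s]
    rw [h3] at h2
    exact h2
  let v : Par n M → L := fun p => match p with
    | Sum.inl (s, b, i, j) =>
        if b = 0 then (Y s).toBlocks₂₁ i j / 2
        else if b = 1 then ((Y s).toBlocks₁₁ * Az tL s) i j
        else ((Az tL s)⁻¹ * (Y s).toBlocks₁₂ * ((Az tL s)⁻¹)ᵀ) i j / 2
    | Sum.inr (x, y) => G x y / 2
  obtain ⟨D, -, hD⟩ := exists_derivation (k := k) htL' (0 : Derivation k k L) v
  have dC : ∀ s, (Cz tL s).map D = (Y s).toBlocks₂₁ := by
    intro s
    have hsk := (hY s).blocks.2.2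
    ext i j
    have h3 : (Y s).toBlocks₂₁ j i = - (Y s).toBlocks₂₁ i j := by
      have := congrFun (congrFun hsk i) j
      simpa using this
    simp only [Cz, blk, Matrix.map_apply, Matrix.sub_apply, Matrix.of_apply, transpose_apply,
      map_sub, hD, v, if_true]
    rw [h3]; field_simp; ring
  have dA : ∀ s, (Az tL s).map D = (Y s).toBlocks₁₁ * Az tL s := by
    intro s
    ext i j
    simp only [Az, blk, Matrix.map_apply, Matrix.of_apply, hD, v]
    rfl
  have dB : ∀ s, (Bz tL s).map D = (Az tL s)⁻¹ * (Y s).toBlocks₁₂ * ((Az tL s)⁻¹)ᵀ := by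
    intro s
    have hsk := (hY s).blocks.2.1
    have hsk2 : ((Az tL s)⁻¹ * (Y s).toBlocks₁₂ * ((Az tL s)⁻¹)ᵀ)ᵀ =
        - ((Az tL s)⁻¹ * (Y s).toBlocks₁₂ * ((Az tL s)⁻¹)ᵀ) := by
      rw [transpose_mul, transpose_mul, transpose_transpose, hsk]
      simp [Matrix.mul_assoc]
    ext i j
    have h3 : ((Az tL s)⁻¹ * (Y s).toBlocks₁₂ * ((Az tL s)⁻¹)ᵀ) j i =
        - ((Az tL s)⁻¹ * (Y s).toBlocks₁₂ * ((Az tL s)⁻¹)ᵀ) i j := by
      have := congrFun (congrFun hsk2 i) j
      simpa using this
    have e20 : (2 : Fin 3) ≠ 0 := by decide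
    have e21 : (2 : Fin 3) ≠ 1 := by decide
    simp only [Bz, blk, Matrix.map_apply, Matrix.sub_apply, Matrix.of_apply, transpose_apply,
      map_sub, hD, v, if_neg e20, if_neg e21]
    rw [h3]; field_simp; ring
  refine ⟨D, fun s => ?_, ?_⟩
  · rw [eg s]
    have hc := cell_deriv D (Cz tL s) (Az tL s) (Bz tL s) (hdL s) (Y s) (hY s) (dC s) (dA s) (dB s)
    have hg0 : (g0L s).map D = 0 := by
      ext i j; simp [hg0L]
    simp only [gz]
    rw [dmul, hg0, Matrix.zero_mul, zero_add, hc]
    have hYX : lo (Cz tL s) * Y s * lo (-(Cz tL s)) =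
        (Jm n L * (g0L s)ᵀ * Jm n L) * X s * g0L s := by
      show lo (Cz tL s) * (lo (-(Cz tL s)) * ((Jm n L * (g0L s)ᵀ * Jm n L) * X s * g0L s) *
        lo (Cz tL s)) * lo (-(Cz tL s)) = _
      calc _ = (lo (Cz tL s) * lo (-(Cz tL s))) * ((Jm n L * (g0L s)ᵀ * Jm n L) * X s * g0L s) *
            (lo (Cz tL s) * lo (-(Cz tL s))) := by simp only [Matrix.mul_assoc]
        _ = _ := by rw [lo_mul_lo_neg, Matrix.one_mul, Matrix.mul_one]
    rw [hYX]
    calc g0L s * ((Jm n L * (g0L s)ᵀ * Jm n L) * X s * g0L s *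
          (lo (Cz tL s) * mid (Az tL s) (Az tL s)⁻¹ * up (Bz tL s)))
        = (g0L s * (Jm n L * (g0L s)ᵀ * Jm n L)) * (X s * (g0L s *
          (lo (Cz tL s) * mid (Az tL s) (Az tL s)⁻¹ * up (Bz tL s)))) := by
          simp only [Matrix.mul_assoc]
      _ = _ := by rw [orth_right_inv (h0L s), Matrix.one_mul]
  · rw [← eH]
    ext x y
    have h3 : G y x = - G x y := by
      have := congrFun (congrFun hG x) y
      simpa using this
    simp only [Hz, Matrix.map_apply, Matrix.of_apply, map_sub, hD, v]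
    rw [h3]; field_simp; ring

end deriv

end Crest.Agent.R172.Gen
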