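import Crest.Agent.R172.Fwd3_Mg

/-!
Row 172, translation T4: naturality of the action of exponential words, words on tensor powers, and
the forward direction for multiples.
-/

set_option autoImplicit false

namespace Crest.Agent.R172.Fwd

open TensorProduct Crest.AlgebraR.SpinSaturation

section General

variable {L : Type*} [LieRing L] [LieAlgebra ℂ L]

theorem act_hom {M N : Type*} [AddCommGroup M] [Module ℂ M] [LieRingModule L M] [LieModule ℂ L M]
    [AddCommGroup N] [Module ℂ N] [LieRingModule L N] [LieModule ℂ L N]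
    [FiniteDimensional ℂ M] [FiniteDimensional ℂ N] (f : M →ₗ⁅ℂ, L⁆ N)
    {w : List L} (hw : Wd w) (x : M) : act N w (f x) = f (act M w x) := by
  induction w with
  | nil => simp
  | cons z w ih =>
    have hz : Rt z := hw z (by simp)
    rw [act_cons, act_cons, Module.End.mul_apply, Module.End.mul_apply,
      ih (fun z hz => hw z (by simp [hz]))]
    obtain ⟨a, ha⟩ := hz.nilpotent (M := M)
    obtain ⟨b, hb⟩ := hz.nilpotent (M := N)
    have ha' : (LieModule.toEnd ℂ L M z) ^ (a + b) = 0 := by rw [pow_add, ha, zero_mul]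
    have hb' : (LieModule.toEnd ℂ L N z) ^ (a + b) = 0 := by rw [pow_add, hb, mul_zero]
    rw [ex_eq_sum ha', ex_eq_sum hb', LinearMap.sum_apply, LinearMap.sum_apply, map_sum]
    refine Finset.sum_congr rfl fun k _ => ?_
    rw [LinearMap.smul_apply, LinearMap.smul_apply, map_smul]
    congr 1
    have key : ∀ (k : ℕ) (y : M), ((LieModule.toEnd ℂ L N z) ^ k) (f y) =
        f (((LieModule.toEnd ℂ L M z) ^ k) y) := by
      intro k y
      induction k with
      | zero => simp
      | succ k ih =>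
        rw [pow_succ', pow_succ', Module.End.mul_apply, Module.End.mul_apply, ih,
          LieModule.toEnd_apply_apply, LieModule.toEnd_apply_apply, LieModuleHom.map_lie]
    exact key k _

section eval

variable {V X : Type} [AddCommGroup V] [Module ℂ V] [LieRingModule L V] [LieModule ℂ L V]
  [AddCommGroup X] [Module ℂ X] [LieRingModule L X] [LieModule ℂ L X]

/-- evaluation -/
noncomputable def evL : ((V →ₗ[ℂ] X) ⊗[ℂ] V) →ₗ⁅ℂ, L⁆ X :=
  { TensorProduct.lift (LinearMap.id : (V →ₗ[ℂ] X) →ₗ[ℂ] (V →ₗ[ℂ] X)) with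
    map_lie' := by
      intro A t
      change TensorProduct.lift (LinearMap.id : (V →ₗ[ℂ] X) →ₗ[ℂ] (V →ₗ[ℂ] X)) ⁅A, t⁆ =
        ⁅A, TensorProduct.lift (LinearMap.id : (V →ₗ[ℂ] X) →ₗ[ℂ] (V →ₗ[ℂ] X)) t⁆
      induction t using TensorProduct.induction_on with
      | zero => simp
      | add a b ha hb => rw [lie_add, map_add, ha, hb, map_add, lie_add]
      | tmul f v =>
        rw [TensorProduct.LieModule.lie_tmul_right, map_add, TensorProduct.lift.tmul,
          TensorProduct.lift.tmul, TensorProduct.lift.tmul]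
        simp [LieHom.lie_apply] }

theorem evL_tmul (f : V →ₗ[ℂ] X) (v : V) : evL (L := L) (f ⊗ₜ[ℂ] v) = f v := by
  change TensorProduct.lift (LinearMap.id : (V →ₗ[ℂ] X) →ₗ[ℂ] (V →ₗ[ℂ] X)) (f ⊗ₜ[ℂ] v) = _
  rw [TensorProduct.lift.tmul]
  rfl

theorem act_eval [FiniteDimensional ℂ V] [FiniteDimensional ℂ X] {w : List L} (hw : Wd w)
    (f : V →ₗ[ℂ] X) (v : V) : act X w (f v) = (act (V →ₗ[ℂ] X) w f) (act V w v) := by
  rw [← evL_tmul (L := L) f v, act_hom _ hw, act_tmul hw, evL_tmul]

theorem act_multilinear_fin [FiniteDimensional ℂ V] (k : ℕ) : ∀ (X : Type) [AddCommGroup X]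
    [Module ℂ X] [LieRingModule L X] [LieModule ℂ L X] [FiniteDimensional ℂ X]
    (T : MultilinearMap ℂ (fun _ : Fin k => V) X)
    (_ : ∀ (A : L) (v : Fin k → V), ⁅A, T v⁆ = ∑ s, T (Function.update v s ⁅A, v s⁆))
    (w : List L) (_ : Wd w) (v : Fin k → V),
    act X w (T v) = T (fun s => act V w (v s)) := by
  induction k with
  | zero =>
    intro X _ _ _ _ _ T hT w hw v
    have h0 : ∀ A : L, ⁅A, T v⁆ = 0 := by intro A; rw [hT]; simp
    have e : (fun s => act V w (v s)) = v := by ext s; exact s.elim0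
    rw [e]
    clear e
    induction w with
    | nil => simp
    | cons z w ih =>
      have hz : Rt z := hw z (by simp)
      rw [act_cons, Module.End.mul_apply, ih (fun z hz => hw z (by simp [hz]))]
      obtain ⟨a, ha⟩ := hz.nilpotent (M := X)
      have ha' : (LieModule.toEnd ℂ L X z) ^ (a + 1) = 0 := by rw [pow_add, ha, zero_mul]
      rw [ex_eq_sum ha', LinearMap.sum_apply, Finset.sum_eq_single 0]
      · simp
      · intro i _ hi
        obtain ⟨j, rfl⟩ := Nat.exists_eq_succ_of_ne_zero hi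
        rw [LinearMap.smul_apply, pow_succ, Module.End.mul_apply, LieModule.toEnd_apply_apply,
          h0, map_zero, smul_zero]
      · intro h; exact absurd (Finset.mem_range.2 (Nat.succ_pos a)) h
  | succ k ih =>
    intro X _ _ _ _ _ T hT w hw v
    have h1 : ∀ (A : L) (m : Fin k → V),
        ⁅A, T.curryRight m⁆ = ∑ s, T.curryRight (Function.update m s ⁅A, m s⁆) := by
      intro A m
      ext u
      rw [LieHom.lie_apply, MultilinearMap.curryRight_apply, MultilinearMap.curryRight_apply,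
        LinearMap.sum_apply, hT, Fin.sum_univ_castSucc]
      have e1 : Function.update (Fin.snoc (α := fun _ => V) m u) (Fin.last k)
          ⁅A, (Fin.snoc (α := fun _ => V) m u : Fin (k + 1) → V) (Fin.last k)⁆ =
          Fin.snoc (α := fun _ => V) m ⁅A, u⁆ := by
        rw [Fin.snoc_last, Fin.update_snoc_last]
      rw [e1, add_sub_cancel_right]
      refine Finset.sum_congr rfl fun s _ => ?_
      rw [MultilinearMap.curryRight_apply, Fin.snoc_update, Fin.snoc_castSucc]
    have h2 := ih (V →ₗ[ℂ] X) T.curryRight h1 w hw (fun s => v s.castSucc)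
    have e2 : T v = T.curryRight (fun s => v s.castSucc) (v (Fin.last k)) := by
      rw [MultilinearMap.curryRight_apply]
      congr 1
      exact (Fin.snoc_init_self v).symm
    rw [e2, act_eval hw, h2, MultilinearMap.curryRight_apply]
    congr 1
    ext s
    refine Fin.lastCases ?_ (fun s => ?_) s
    · rw [Fin.snoc_last]
    · rw [Fin.snoc_castSucc]

theorem act_multilinear [FiniteDimensional ℂ V] [FiniteDimensional ℂ X] {ι : Type*} [Fintype ι]
    [DecidableEq ι] (T : MultilinearMap ℂ (fun _ : ι => V) X)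
    (hT : ∀ (A : L) (v : ι → V), ⁅A, T v⁆ = ∑ s, T (Function.update v s ⁅A, v s⁆))
    {w : List L} (hw : Wd w) (v : ι → V) :
    act X w (T v) = T (fun s => act V w (v s)) := by
  let e : ι ≃ Fin (Fintype.card ι) := Fintype.equivFin ι
  have h1 : ∀ (A : L) (m : Fin (Fintype.card ι) → V), ⁅A, T.domDomCongr e m⁆ =
      ∑ s, T.domDomCongr e (Function.update m s ⁅A, m s⁆) := by
    intro A m
    rw [MultilinearMap.domDomCongr_apply, hT, ← Equiv.sum_comp e]
    refine Finset.sum_congr rfl fun s _ => ?_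
    rw [MultilinearMap.domDomCongr_apply]
    congr 1
    ext t
    by_cases hts : t = s
    · subst hts
      simp
    · rw [Function.update_of_ne hts, Function.update_of_ne (fun h => hts (e.injective h))]
  have h2 := act_multilinear_fin _ X (T.domDomCongr e) h1 w hw (fun s => v (e.symm s))
  rw [MultilinearMap.domDomCongr_apply, MultilinearMap.domDomCongr_apply] at h2
  simpa using h2

end eval

end General

section Std

variable {n : ℕ}

/-- the standard module of `soD n` -/
def SV (n : ℕ) : Type := Fin n ⊕ Fin n → ℂ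

noncomputable instance : AddCommGroup (SV n) := inferInstanceAs (AddCommGroup (Fin n ⊕ Fin n → ℂ))
noncomputable instance : Module ℂ (SV n) := inferInstanceAs (Module ℂ (Fin n ⊕ Fin n → ℂ))
instance : FiniteDimensional ℂ (SV n) :=
  inferInstanceAs (FiniteDimensional ℂ (Fin n ⊕ Fin n → ℂ))

noncomputable instance : LieRingModule (soD n) (SV n) where
  bracket A v := (A.1.mulVec (v : Fin n ⊕ Fin n → ℂ) : Fin n ⊕ Fin n → ℂ)
  add_lie A B v := Matrix.add_mulVec _ _ _
  lie_add A v w := Matrix.mulVec_add _ _ _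
  leibniz_lie A B v := by
    have h : ∀ u : Fin n ⊕ Fin n → ℂ, A.1.mulVec (B.1.mulVec u) =
        (A.1 * B.1 - B.1 * A.1).mulVec u + B.1.mulVec (A.1.mulVec u) := by
      intro u
      rw [Matrix.sub_mulVec, Matrix.mulVec_mulVec, Matrix.mulVec_mulVec, sub_add_cancel]
    exact h v


noncomputable instance : LieModule ℂ (soD n) (SV n) where
  smul_lie _ _ _ := Matrix.smul_mulVec _ _ _
  lie_smul _ _ _ := Matrix.mulVec_smul _ _ _

/-- the matrix of a word -/
noncomputable def gm (w : List (soD n)) : Matrix (Fin n ⊕ Fin n) (Fin n ⊕ Fin n) ℂ :=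
  LinearMap.toMatrix' (R := ℂ) (show (Fin n ⊕ Fin n → ℂ) →ₗ[ℂ] (Fin n ⊕ Fin n → ℂ) from
    act (SV n) w)

theorem gm_mulVec (w : List (soD n)) (v : Fin n ⊕ Fin n → ℂ) :
    (gm w).mulVec v = act (SV n) w (v : SV n) := by
  rw [gm, LinearMap.toMatrix'_mulVec]
  rfl

theorem act_tp {ι : Type} [Fintype ι] [DecidableEq ι] {w : List (soD n)} (hw : Wd w)
    (v : ι → Fin n ⊕ Fin n → ℂ) :
    act (TPow.TP n ι) w (TPow.tp v) = TPow.tp (fun s => (gm w).mulVec (v s)) := by
  let T : MultilinearMap ℂ (fun _ : ι => SV n) (TPow.TP n ι) := TPow.tpM n ι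
  have h := act_multilinear (V := SV n) (X := TPow.TP n ι) T (fun A v => TPow.lie_tp A v) hw v
  simp only [gm_mulVec]
  exact h

/-- **T4 (forward direction).** -/
theorem hasInvariant_mul (hn : 2 ≤ n) {a b c : Fin n → ℤ} (X : HW n a) (Y : HW n b) (Z : HW n c)
    (U : Irrep n a) (V : Irrep n b) (W : Irrep n c) (h : HasInvariant U V W) (k : ℕ)
    (U' : Irrep n ((k + 1) • a)) (V' : Irrep n ((k + 1) • b)) (W' : Irrep n ((k + 1) • c)) :
    HasInvariant U' V' W' := by
  obtain ⟨lam, hinv, p, hp, q, hq, r, hr, hne⟩ :=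
    (Star.hasInvariant_iff X.star Y.star Z.star X.hx Y.hx Z.hx U V W).1 h
  obtain ⟨w₁, w₂, w₃, hw₁, hw₂, hw₃, hne'⟩ :=
    exists_words (lieSpan_rt hn) lam X.x Y.x Z.x hp hq hr hne
  obtain ⟨X', Y', Z', mu, h1, h2⟩ :=
    power_lemma X Y Z lam hinv w₁ w₂ w₃ hw₁ hw₂ hw₃ hne' k
  exact (Star.hasInvariant_iff X'.star Y'.star Z'.star X'.hx Y'.hx Z'.hx U' V' W').2
    ⟨mu, h1, _, act_mem_lieSpan hw₁ X'.x, _, act_mem_lieSpan hw₂ Y'.x, _,
      act_mem_lieSpan hw₃ Z'.x, h2⟩

end Std

end Crest.Agent.R172.Fwd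
namespace Crest.Agent.R172.Fwd.SV
end Crest.Agent.R172.Fwd.SV
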