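import Crest.Prelude.Def_SpinSaturation

-- ▼ part R172/HwUnique
section

/-!
Row 172.  Highest weight theory of `soD n` without complete reducibility:
the submodule generated by a highest weight vector, its top eigenspace is a line,
uniqueness of irreducible modules with a given highest weight.
-/

set_option autoImplicit false
set_option linter.unusedSectionVars false

open Crest.AlgebraR.SpinSaturation
open scoped Matrix

namespace Crest.Agent.R172.HwUnique

section abstractGrading

variable {L M : Type*} [LieRing L] [LieAlgebra ℂ L] [AddCommGroup M] [Module ℂ M]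
  [LieRingModule L M] [LieModule ℂ L M]

/-- the `k`-eigenspace of `ad D` -/
def Gr (D : L) (k : ℤ) : Submodule ℂ L where
  carrier := {x | ⁅D, x⁆ = (k : ℂ) • x}
  add_mem' := by
    intro x y hx hy
    simp only [Set.mem_ofPred_eq] at *
    rw [lie_add, hx, hy, smul_add]
  zero_mem' := by simp
  smul_mem' := by
    intro c x hx
    simp only [Set.mem_ofPred_eq] at *
    rw [lie_smul, hx, smul_comm]

theorem mem_Gr {D : L} {k : ℤ} {x : L} : x ∈ Gr D k ↔ ⁅D, x⁆ = (k : ℂ) • x := Iff.rfl

theorem Gr_lie {D : L} {j k : ℤ} {x y : L} (hx : x ∈ Gr D j) (hy : y ∈ Gr D k) :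
    ⁅x, y⁆ ∈ Gr D (j + k) := by
  rw [mem_Gr] at *
  rw [leibniz_lie, hx, hy, smul_lie, lie_smul, ← add_smul]
  push_cast
  rfl

/-- The `ℂ`-span of the iterated products `Y₁ ⋯ Y_k w` with `Y_i` homogeneous of negative
degree. -/
inductive IsMono (D : L) (w : M) : M → Prop
  | base : IsMono D w w
  | step (k : ℤ) (hk : k < 0) (y : L) (hy : y ∈ Gr D k) (v : M) (hv : IsMono D w v) :
      IsMono D w ⁅y, v⁆

/-- span of monomials -/
def P (D : L) (w : M) : Submodule ℂ M := Submodule.span ℂ {v | IsMono D w v}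

theorem P_neg {D : L} {w : M} {k : ℤ} (hk : k < 0) {y : L} (hy : y ∈ Gr D k) {v : M}
    (hv : v ∈ P D w) : ⁅y, v⁆ ∈ P D w := by
  unfold P at *
  induction hv using Submodule.span_induction with
  | mem x hx => exact Submodule.subset_span (IsMono.step k hk y hy x hx)
  | zero => rw [lie_zero]; exact Submodule.zero_mem _
  | add x y' _ _ h1 h2 => rw [lie_add]; exact Submodule.add_mem _ h1 h2
  | smul c x _ h => rw [lie_smul]; exact Submodule.smul_mem _ _ h

theorem P_hom {D : L} {w : M} (h0 : ∀ x ∈ Gr D 0, ∃ t : ℂ, ⁅x, w⁆ = t • w)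
    (hpos : ∀ k : ℤ, 0 < k → ∀ x ∈ Gr D k, ⁅x, w⁆ = 0) {v : M} (hv : IsMono D w v) :
    ∀ (k : ℤ) (x : L), x ∈ Gr D k → ⁅x, v⁆ ∈ P D w := by
  induction hv with
  | base =>
    intro k x hx
    rcases lt_trichotomy k 0 with hk | hk | hk
    · exact P_neg hk hx (Submodule.subset_span IsMono.base)
    · subst hk
      obtain ⟨t, ht⟩ := h0 x hx
      rw [ht]
      exact Submodule.smul_mem _ _ (Submodule.subset_span IsMono.base)
    · rw [hpos k hk x hx]
      exact Submodule.zero_mem _
  | step m hm y hy v hv ih =>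
    intro k x hx
    rw [leibniz_lie]
    refine Submodule.add_mem _ (ih _ _ (Gr_lie hx hy)) ?_
    exact P_neg hm hy (ih k x hx)

theorem P_stable {D : L} {w : M} (hG : (⨆ k, Gr D k) = ⊤)
    (h0 : ∀ x ∈ Gr D 0, ∃ t : ℂ, ⁅x, w⁆ = t • w)
    (hpos : ∀ k : ℤ, 0 < k → ∀ x ∈ Gr D k, ⁅x, w⁆ = 0) (x : L) {v : M} (hv : v ∈ P D w) :
    ⁅x, v⁆ ∈ P D w := by
  have hx : x ∈ (⨆ k, Gr D k) := by rw [hG]; trivial
  induction hx using Submodule.iSup_induction' with
  | mem k x hx =>
    unfold P at hv
    induction hv using Submodule.span_induction with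
    | mem u hu => exact P_hom h0 hpos hu k x hx
    | zero => rw [lie_zero]; exact Submodule.zero_mem _
    | add x y' _ _ h1 h2 => rw [lie_add]; exact Submodule.add_mem _ h1 h2
    | smul c x _ h => rw [lie_smul]; exact Submodule.smul_mem _ _ h
  | zero => rw [zero_lie]; exact Submodule.zero_mem _
  | add x y _ _ h1 h2 => rw [add_lie]; exact Submodule.add_mem _ h1 h2

/-- the submodule generated by `w` as a Lie submodule -/
def PLie (D : L) (w : M) (hG : (⨆ k, Gr D k) = ⊤)
    (h0 : ∀ x ∈ Gr D 0, ∃ t : ℂ, ⁅x, w⁆ = t • w)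
    (hpos : ∀ k : ℤ, 0 < k → ∀ x ∈ Gr D k, ⁅x, w⁆ = 0) : LieSubmodule ℂ L M :=
  { P D w with
    lie_mem := by
      intro x m hm
      exact P_stable hG h0 hpos x hm }

theorem lieSpan_le_P (D : L) (w : M) (hG : (⨆ k, Gr D k) = ⊤)
    (h0 : ∀ x ∈ Gr D 0, ∃ t : ℂ, ⁅x, w⁆ = t • w)
    (hpos : ∀ k : ℤ, 0 < k → ∀ x ∈ Gr D k, ⁅x, w⁆ = 0) {v : M}
    (hv : v ∈ LieSubmodule.lieSpan ℂ L ({w} : Set M)) : v ∈ P D w := by
  have : LieSubmodule.lieSpan ℂ L ({w} : Set M) ≤ PLie D w hG h0 hpos := by
    rw [LieSubmodule.lieSpan_le]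
    rintro _ rfl
    exact Submodule.subset_span IsMono.base
  exact this hv

/-- eigenspaces of `D` on `M` -/
def E (D : L) (c : ℂ) : Submodule ℂ M := Module.End.eigenspace (LieModule.toEnd ℂ L M D) c

theorem mem_E {D : L} {c : ℂ} {v : M} : v ∈ E (M := M) D c ↔ ⁅D, v⁆ = c • v := by
  unfold E
  rw [Module.End.mem_eigenspace_iff]
  rfl

theorem mono_E {D : L} {w : M} {c : ℂ} (hD : ⁅D, w⁆ = c • w) {v : M} (hv : IsMono D w v) :
    v = w ∨ ∃ m : ℤ, m < 0 ∧ v ∈ E D (c + m) := by
  induction hv with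
  | base => exact Or.inl rfl
  | step k hk y hy v hv ih =>
    right
    rcases ih with rfl | ⟨m, hm, hv⟩
    · refine ⟨k, hk, ?_⟩
      rw [mem_E, leibniz_lie, mem_Gr.1 hy, hD, smul_lie, lie_smul, ← add_smul, add_comm]
    · refine ⟨k + m, by omega, ?_⟩
      rw [mem_E] at *
      rw [leibniz_lie, mem_Gr.1 hy, hv, smul_lie, lie_smul, ← add_smul]
      push_cast
      congr 1
      ring

theorem P_le {D : L} {w : M} {c : ℂ} (hD : ⁅D, w⁆ = c • w) {v : M} (hv : v ∈ P D w) :
    ∃ (t : ℂ) (u : M), u ∈ (⨆ z : {z : ℂ // z ≠ c}, E (M := M) D z.1) ∧ v = t • w + u := by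
  unfold P at hv
  induction hv using Submodule.span_induction with
  | mem x hx =>
    rcases mono_E hD hx with rfl | ⟨m, hm, hv⟩
    · exact ⟨1, 0, Submodule.zero_mem _, by simp⟩
    · refine ⟨0, x, ?_, by simp⟩
      refine Submodule.mem_iSup_of_mem ⟨c + m, ?_⟩ hv
      intro h
      have : (m : ℂ) = 0 := by simpa using h
      have : m = 0 := by exact_mod_cast this
      omega
  | zero => exact ⟨0, 0, Submodule.zero_mem _, by simp⟩
  | add x y _ _ h1 h2 =>
    obtain ⟨t, u, hu, rfl⟩ := h1
    obtain ⟨t', u', hu', rfl⟩ := h2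
    refine ⟨t + t', u + u', Submodule.add_mem _ hu hu', ?_⟩
    rw [add_smul]; abel
  | smul a x _ h =>
    obtain ⟨t, u, hu, rfl⟩ := h
    refine ⟨a * t, a • u, Submodule.smul_mem _ _ hu, ?_⟩
    rw [smul_add, mul_smul]

/-- The top eigenspace of the module generated by a highest weight vector is a line. -/
theorem top_line {D : L} {w : M} {c : ℂ} (hD : ⁅D, w⁆ = c • w) {v : M} (hv : v ∈ P D w)
    (hv' : ⁅D, v⁆ = c • v) : ∃ t : ℂ, v = t • w := by
  obtain ⟨t, u, hu, rfl⟩ := P_le hD hv
  refine ⟨t, ?_⟩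
  have hu' : u ∈ E (M := M) D c := by
    rw [mem_E]
    rw [lie_add, lie_smul, hD, smul_add, smul_comm] at hv'
    exact add_left_cancel hv'
  have hind := Module.End.eigenspaces_iSupIndep (LieModule.toEnd ℂ L M D)
  have hdis := hind c
  have h0 : u ∈ (⊥ : Submodule ℂ M) := by
    rw [Submodule.disjoint_def] at hdis
    rw [Submodule.mem_bot]
    refine hdis u hu' ?_
    rw [iSup_subtype'] 
    exact hu
  rw [Submodule.mem_bot] at h0
  rw [h0, add_zero]



theorem lieSpan_top_line {D : L} {w : M} {c : ℂ} (hG : (⨆ k, Gr D k) = ⊤)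
    (hD : ⁅D, w⁆ = c • w)
    (h0 : ∀ x ∈ Gr D 0, ∃ t : ℂ, ⁅x, w⁆ = t • w)
    (hpos : ∀ k : ℤ, 0 < k → ∀ x ∈ Gr D k, ⁅x, w⁆ = 0) {v : M}
    (hv : v ∈ LieSubmodule.lieSpan ℂ L ({w} : Set M))
    (hv' : ⁅D, v⁆ = c • v) : ∃ t : ℂ, v = t • w :=
  top_line hD (lieSpan_le_P D w hG h0 hpos hv) hv'

end abstractGrading

section product

variable {L M M' : Type*} [LieRing L] [LieAlgebra ℂ L] [AddCommGroup M] [Module ℂ M]
  [LieRingModule L M] [LieModule ℂ L M] [AddCommGroup M'] [Module ℂ M']
  [LieRingModule L M'] [LieModule ℂ L M']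

/-- the product Lie module -/
@[reducible] def prodLRM : LieRingModule L (M × M') where
  bracket x m := (⁅x, m.1⁆, ⁅x, m.2⁆)
  add_lie x y m := by
    change (_, _) = _
    simp only [add_lie]
    rfl
  lie_add x m m' := by
    change (_, _) = _
    simp only [Prod.fst_add, Prod.snd_add, lie_add]
    rfl
  leibniz_lie x y m := by
    change (_, _) = (_, _)
    simp only
    congr 1 <;> exact leibniz_lie _ _ _

attribute [local instance] prodLRM

theorem prod_lie (x : L) (m : M × M') : ⁅x, m⁆ = (⁅x, m.1⁆, ⁅x, m.2⁆) := rfl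

/-- the product Lie module -/
theorem prodLM : LieModule ℂ L (M × M') where
  smul_lie t x m := by
    rw [prod_lie, prod_lie, smul_lie, smul_lie]; rfl
  lie_smul t x m := by
    rw [prod_lie, prod_lie, Prod.smul_fst, Prod.smul_snd, lie_smul, lie_smul]; rfl

attribute [local instance] prodLM

/-- first projection -/
def fstHom : (M × M') →ₗ⁅ℂ, L⁆ M :=
  { LinearMap.fst ℂ M M' with map_lie' := by intro x m; rfl }

/-- second projection -/
def sndHom : (M × M') →ₗ⁅ℂ, L⁆ M' :=
  { LinearMap.snd ℂ M M' with map_lie' := by intro x m; rfl }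

theorem unique_irrep [LieModule.IsIrreducible ℂ L M] [LieModule.IsIrreducible ℂ L M']
    (D : L) (hG : (⨆ k, Gr D k) = ⊤) (c : ℂ) (χ : L → ℂ) (w : M) (w' : M')
    (hw : w ≠ 0) (hw' : w' ≠ 0)
    (hD : ⁅D, w⁆ = c • w) (hD' : ⁅D, w'⁆ = c • w')
    (h0 : ∀ x ∈ Gr D 0, ⁅x, w⁆ = χ x • w)
    (h0' : ∀ x ∈ Gr D 0, ⁅x, w'⁆ = χ x • w')
    (hpos : ∀ k : ℤ, 0 < k → ∀ x ∈ Gr D k, ⁅x, w⁆ = 0)
    (hpos' : ∀ k : ℤ, 0 < k → ∀ x ∈ Gr D k, ⁅x, w'⁆ = 0) :
    ∃ e : M ≃ₗ⁅ℂ, L⁆ M', e w = w' := by
  set ww : M × M' := (w, w') with hww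
  set S := LieSubmodule.lieSpan ℂ L ({ww} : Set (M × M')) with hS
  have hwwS : ww ∈ S := LieSubmodule.subset_lieSpan (Set.mem_singleton _)
  have hline : ∀ v ∈ S, ⁅D, v⁆ = c • v → ∃ t : ℂ, v = t • ww := by
    intro v hv hv'
    refine lieSpan_top_line (D := D) (w := ww) (c := c) hG ?_ ?_ ?_ hv hv'
    · rw [prod_lie, hww, hD, hD']; rfl
    · intro x hx
      refine ⟨χ x, ?_⟩
      rw [prod_lie, hww, h0 x hx, h0' x hx]; rfl
    · intro k hk x hx
      rw [prod_lie, hww, hpos k hk x hx, hpos' k hk x hx]; rfl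
  let p1 : S →ₗ⁅ℂ, L⁆ M := fstHom.comp S.incl
  let p2 : S →ₗ⁅ℂ, L⁆ M' := sndHom.comp S.incl
  have p1a : ∀ s : S, p1 s = (s : M × M').1 := fun s => rfl
  have p2a : ∀ s : S, p2 s = (s : M × M').2 := fun s => rfl
  -- injectivity of the first projection
  have hsurj1 : Function.Surjective p1 := by
    have : p1.range = ⊤ := by
      rcases eq_bot_or_eq_top p1.range with h | h
      swap
      · exact h
      exfalso
      have : p1 ⟨ww, hwwS⟩ ∈ p1.range := LieModuleHom.mem_range _ _ |>.2 ⟨_, rfl⟩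
      rw [h, LieSubmodule.mem_bot] at this
      exact hw this
    intro m
    have hm : m ∈ p1.range := by rw [this]; trivial
    exact (LieModuleHom.mem_range _ _).1 hm
  have hsurj2 : Function.Surjective p2 := by
    have : p2.range = ⊤ := by
      rcases eq_bot_or_eq_top p2.range with h | h
      swap
      · exact h
      exfalso
      have : p2 ⟨ww, hwwS⟩ ∈ p2.range := LieModuleHom.mem_range _ _ |>.2 ⟨_, rfl⟩
      rw [h, LieSubmodule.mem_bot] at this
      exact hw' this
    intro m
    have hm : m ∈ p2.range := by rw [this]; trivial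
    exact (LieModuleHom.mem_range _ _).1 hm
  have hinj1 : Function.Injective p1 := by
    -- the kernel, projected to `M'`, is a submodule not containing w'
    let K : LieSubmodule ℂ L M' :=
      { carrier := {m | ((0 : M), m) ∈ S}
        add_mem' := by
          intro a b ha hb
          have := S.add_mem ha hb
          simpa using this
        zero_mem' := S.zero_mem
        smul_mem' := by
          intro t a ha
          have := S.smul_mem t ha
          simpa using this
        lie_mem := by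
          intro x m hm
          have := S.lie_mem (x := x) hm
          rw [prod_lie] at this
          simpa using this }
    have hK : K = ⊥ := by
      by_contra hne
      have htop := (eq_bot_or_eq_top K).resolve_left hne
      have hmem : w' ∈ K := by rw [htop]; trivial
      have hmem' : ((0 : M), w') ∈ S := hmem
      obtain ⟨t, ht⟩ := hline _ hmem' (by rw [prod_lie, hD', lie_zero]; simp)
      rw [hww, Prod.smul_mk, Prod.mk.injEq] at ht
      have ht0 : t = 0 := by
        rcases smul_eq_zero.1 ht.1.symm with h | h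
        · exact h
        · exact absurd h hw
      rw [ht0, zero_smul, zero_smul] at ht
      exact hw' ht.2
    rw [injective_iff_map_eq_zero]
    intro s hs
    rw [p1a] at hs
    have h2 : (s : M × M').2 ∈ K := by
      change ((0 : M), (s : M × M').2) ∈ S
      rw [← hs]
      exact s.2
    rw [hK, LieSubmodule.mem_bot] at h2
    apply Subtype.ext
    exact Prod.ext hs h2
  have hinj2 : Function.Injective p2 := by
    let K : LieSubmodule ℂ L M :=
      { carrier := {m | (m, (0 : M')) ∈ S}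
        add_mem' := by
          intro a b ha hb
          have := S.add_mem ha hb
          simpa using this
        zero_mem' := S.zero_mem
        smul_mem' := by
          intro t a ha
          have := S.smul_mem t ha
          simpa using this
        lie_mem := by
          intro x m hm
          have := S.lie_mem (x := x) hm
          rw [prod_lie] at this
          simpa using this }
    have hK : K = ⊥ := by
      by_contra hne
      have htop := (eq_bot_or_eq_top K).resolve_left hne
      have hmem : w ∈ K := by rw [htop]; trivial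
      have hmem' : (w, (0 : M')) ∈ S := hmem
      obtain ⟨t, ht⟩ := hline _ hmem' (by rw [prod_lie, hD, lie_zero]; simp)
      rw [hww, Prod.smul_mk, Prod.mk.injEq] at ht
      have ht0 : t = 0 := by
        rcases smul_eq_zero.1 ht.2.symm with h | h
        · exact h
        · exact absurd h hw'
      rw [ht0, zero_smul, zero_smul] at ht
      exact hw ht.1
    rw [injective_iff_map_eq_zero]
    intro s hs
    rw [p2a] at hs
    have h2 : (s : M × M').1 ∈ K := by
      change ((s : M × M').1, (0 : M')) ∈ S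
      rw [← hs]
      exact s.2
    rw [hK, LieSubmodule.mem_bot] at h2
    apply Subtype.ext
    exact Prod.ext h2 hs
  let e1 : S ≃ₗ⁅ℂ, L⁆ M :=
    { p1 with
      invFun := (LinearEquiv.ofBijective (p1 : S →ₗ[ℂ] M) ⟨hinj1, hsurj1⟩).symm
      left_inv := (LinearEquiv.ofBijective (p1 : S →ₗ[ℂ] M) ⟨hinj1, hsurj1⟩).left_inv
      right_inv := (LinearEquiv.ofBijective (p1 : S →ₗ[ℂ] M) ⟨hinj1, hsurj1⟩).right_inv }
  let e2 : S ≃ₗ⁅ℂ, L⁆ M' :=
    { p2 with
      invFun := (LinearEquiv.ofBijective (p2 : S →ₗ[ℂ] M') ⟨hinj2, hsurj2⟩).symm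
      left_inv := (LinearEquiv.ofBijective (p2 : S →ₗ[ℂ] M') ⟨hinj2, hsurj2⟩).left_inv
      right_inv := (LinearEquiv.ofBijective (p2 : S →ₗ[ℂ] M') ⟨hinj2, hsurj2⟩).right_inv }
  refine ⟨e1.symm.trans e2, ?_⟩
  have h1 : e1 ⟨ww, hwwS⟩ = w := rfl
  have h2 : e2 ⟨ww, hwwS⟩ = w' := rfl
  have h3 : e1.symm w = ⟨ww, hwwS⟩ := by
    rw [← h1]; exact e1.symm_apply_apply _
  change e2 (e1.symm w) = w'
  rw [h3, h2]

end product

end Crest.Agent.R172.HwUnique
end

-- ▼ part R172/SoGrade
section

/-!
Row 172.  The `ρ`-grading of `soD n`, and uniqueness of `Irrep n a`.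
-/

set_option autoImplicit false
set_option linter.unusedSectionVars false

open Crest.AlgebraR.SpinSaturation
open scoped Matrix

namespace Crest.Agent.R172.SoGrade

open Crest.Agent.R172.HwUnique

variable {n : ℕ}

/-- swap of the two halves -/
def sw : Fin n ⊕ Fin n → Fin n ⊕ Fin n := Sum.swap

@[simp] theorem sw_inl (i : Fin n) : sw (Sum.inl i) = (Sum.inr i : Fin n ⊕ Fin n) := rfl
@[simp] theorem sw_inr (i : Fin n) : sw (Sum.inr i) = (Sum.inl i : Fin n ⊕ Fin n) := rfl
@[simp] theorem sw_sw (p : Fin n ⊕ Fin n) : sw (sw p) = p := by cases p <;> rfl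

theorem JD_apply (p q : Fin n ⊕ Fin n) :
    LieAlgebra.Orthogonal.JD (Fin n) ℂ p q = if p = sw q then 1 else 0 := by
  unfold LieAlgebra.Orthogonal.JD
  rcases p with i | i <;> rcases q with j | j
  · simp
  · simp [Matrix.one_apply]
  · simp [Matrix.one_apply]
  · simp

theorem mem_soD {A : Matrix (Fin n ⊕ Fin n) (Fin n ⊕ Fin n) ℂ} :
    A ∈ LieAlgebra.Orthogonal.typeD (Fin n) ℂ ↔ ∀ p q, A p q = - A (sw q) (sw p) := by
  unfold LieAlgebra.Orthogonal.typeD
  rw [mem_skewAdjointMatricesLieSubalgebra, mem_skewAdjointMatricesSubmodule]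
  unfold Matrix.IsSkewAdjoint Matrix.IsAdjointPair
  rw [← Matrix.ext_iff]
  have h1 : ∀ p q, (Aᵀ * LieAlgebra.Orthogonal.JD (Fin n) ℂ) p q = A (sw q) p := by
    intro p q
    rw [Matrix.mul_apply]
    simp [JD_apply]
  have h2 : ∀ p q, (LieAlgebra.Orthogonal.JD (Fin n) ℂ * (-A)) p q = - A (sw p) q := by
    intro p q
    rw [Matrix.mul_apply]
    rw [Finset.sum_eq_single (sw p)]
    · simp [JD_apply]
    · intro b _ hb
      rw [JD_apply, if_neg, zero_mul]
      intro h
      apply hb
      rw [h, sw_sw]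
    · simp
  constructor
  · intro h p q
    have := h q (sw p)
    rw [h1, h2, sw_sw] at this
    exact this
  · intro h p q
    rw [h1, h2, h (sw q) p, sw_sw]

/-- degree of the basis vectors: `n - i` on the first half, `-(n - i)` on the second -/
def dg : Fin n ⊕ Fin n → ℤ
  | Sum.inl i => (n : ℤ) - i
  | Sum.inr i => -((n : ℤ) - i)

@[simp] theorem dg_sw (p : Fin n ⊕ Fin n) : dg (sw p) = - dg p := by
  cases p <;> simp [dg, sw]

theorem dg_inj {p q : Fin n ⊕ Fin n} (h : dg p = dg q) : p = q := by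
  rcases p with i | i <;> rcases q with j | j <;> simp only [dg] at h
  · congr 1; apply Fin.ext; omega
  · omega
  · omega
  · congr 1; apply Fin.ext; omega

/-- the Cartan element with diagonal `h, -h` -/
def car (h : Fin n → ℂ) : soD n :=
  ⟨Matrix.fromBlocks (Matrix.diagonal h) 0 0 (-Matrix.diagonal h), by
    rw [mem_soD]
    intro p q
    rcases p with i | i <;> rcases q with j | j
    · simp only [Matrix.fromBlocks_apply₁₁, sw_inl, Matrix.fromBlocks_apply₂₂, Matrix.neg_apply,
        neg_neg, Matrix.diagonal_apply]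
      by_cases hij : i = j
      · subst hij; simp
      · rw [if_neg hij, if_neg (Ne.symm hij)]
    · simp
    · simp
    · simp only [Matrix.fromBlocks_apply₁₁, sw_inr, Matrix.fromBlocks_apply₂₂, Matrix.neg_apply,
        Matrix.diagonal_apply]
      by_cases hij : i = j
      · subst hij; simp
      · rw [if_neg hij, if_neg (Ne.symm hij)]⟩

theorem car_coe (h : Fin n → ℂ) : ((car h : soD n) : Matrix (Fin n ⊕ Fin n) (Fin n ⊕ Fin n) ℂ) =
    Matrix.fromBlocks (Matrix.diagonal h) 0 0 (-Matrix.diagonal h) := rfl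

/-- the grading element -/
def DD (n : ℕ) : soD n := car (fun i => ((n : ℂ) - (i : ℕ)))

theorem DD_coe : ((DD n : soD n) : Matrix (Fin n ⊕ Fin n) (Fin n ⊕ Fin n) ℂ) =
    Matrix.diagonal (fun p => ((dg p : ℤ) : ℂ)) := by
  unfold DD
  rw [car_coe]
  ext p q
  rcases p with i | i <;> rcases q with j | j
  · simp [Matrix.diagonal_apply, dg]
  · simp
  · simp
  · by_cases hij : i = j
    · subst hij; simp [dg]
    · simp [hij]

theorem DD_lie (X : soD n) (p q : Fin n ⊕ Fin n) :
    (⁅DD n, X⁆ : soD n).1 p q = ((dg p : ℂ) - dg q) * X.1 p q := by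
  change ((DD n).1 * X.1 - X.1 * (DD n).1) p q = _
  have h := DD_coe (n := n)
  change (DD n).1 = _ at h
  rw [h, Matrix.sub_apply, Matrix.diagonal_mul, Matrix.mul_diagonal]
  ring

theorem mem_Gr_iff (k : ℤ) (X : soD n) :
    X ∈ Gr (DD n) k ↔ ∀ p q, X.1 p q ≠ 0 → dg p - dg q = k := by
  rw [mem_Gr]
  constructor
  · intro h p q hpq
    have := congrArg (fun Y : soD n => Y.1 p q) h
    simp only [DD_lie] at this
    have h2 : ((k : ℂ) • X : soD n).1 p q = k * X.1 p q := rfl
    rw [h2] at this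
    have h3 := mul_right_cancel₀ hpq this
    exact_mod_cast h3
  · intro h
    apply Subtype.ext
    ext p q
    rw [DD_lie]
    have h2 : ((k : ℂ) • X : soD n).1 p q = k * X.1 p q := rfl
    rw [h2]
    by_cases hpq : X.1 p q = 0
    · rw [hpq]; ring
    · rw [← h p q hpq]; push_cast; ring

/-- homogeneous component -/
def comp (X : soD n) (k : ℤ) : soD n :=
  ⟨Matrix.of fun p q => if dg p - dg q = k then X.1 p q else 0, by
    rw [mem_soD]
    intro p q
    simp only [dg_sw, Matrix.of_apply]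
    have hX := mem_soD.1 X.2 p q
    by_cases h : dg p - dg q = k
    · rw [if_pos h, if_pos (by omega), hX]
    · rw [if_neg h, if_neg (by omega), neg_zero]⟩

theorem comp_mem (X : soD n) (k : ℤ) : comp X k ∈ Gr (DD n) k := by
  rw [mem_Gr_iff]
  intro p q h
  by_contra h'
  exact h (if_neg h')

theorem dg_bound (p : Fin n ⊕ Fin n) : -(n : ℤ) ≤ dg p ∧ dg p ≤ n := by
  rcases p with i | i <;> simp only [dg] <;> have := i.2 <;> omega

theorem sum_comp (X : soD n) : X = ∑ k ∈ Finset.Icc (-(2 * n : ℤ)) (2 * n), comp X k := by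
  apply Subtype.ext
  rw [AddSubmonoidClass.coe_finsetSum]
  ext p q
  rw [Matrix.sum_apply]
  have : ∀ k, (comp X k).1 p q = if dg p - dg q = k then X.1 p q else 0 := fun k => rfl
  simp only [this]
  rw [Finset.sum_ite_eq, if_pos]
  rw [Finset.mem_Icc]
  have h1 := dg_bound p
  have h2 := dg_bound q
  constructor <;> omega

theorem iSup_Gr : (⨆ k, Gr (DD n) k) = (⊤ : Submodule ℂ (soD n)) := by
  rw [eq_top_iff]
  intro X _
  rw [sum_comp X]
  apply Submodule.sum_mem
  intro k _
  exact Submodule.mem_iSup_of_mem k (comp_mem X k)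

theorem Gr_zero {X : soD n} (hX : X ∈ Gr (DD n) 0) :
    X = car (fun i => X.1 (Sum.inl i) (Sum.inl i)) := by
  rw [mem_Gr_iff] at hX
  have hz : ∀ p q, p ≠ q → X.1 p q = 0 := by
    intro p q hpq
    by_contra h
    exact hpq (dg_inj (by have := hX p q h; omega))
  apply Subtype.ext
  rw [car_coe]
  ext p q
  rcases p with i | i <;> rcases q with j | j
  · by_cases hij : i = j
    · subst hij; simp
    · rw [hz _ _ (by simpa using hij)]
      simp [hij]
  · rw [hz _ _ (by simp)]; simp
  · rw [hz _ _ (by simp)]; simp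
  · by_cases hij : i = j
    · subst hij
      have := mem_soD.1 X.2 (Sum.inr i) (Sum.inr i)
      rw [this]; simp
    · rw [hz _ _ (by simpa using hij)]
      simp [hij]

theorem Gr_pos {X : soD n} {k : ℤ} (hk : 0 < k) (hX : X ∈ Gr (DD n) k) :
    (∀ i j : Fin n, X.1 (Sum.inr i) (Sum.inl j) = 0) ∧
    (∀ i j : Fin n, j ≤ i → X.1 (Sum.inl i) (Sum.inl j) = 0) := by
  rw [mem_Gr_iff] at hX
  constructor
  · intro i j
    by_contra h
    have := hX _ _ h
    simp only [dg] at this
    have h1 := i.2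
    have h2 := j.2
    omega
  · intro i j hij
    by_contra h
    have := hX _ _ h
    simp only [dg] at this
    have : (j : ℕ) ≤ i := hij
    omega

section hw

variable {M : Type*} [AddCommGroup M] [Module ℂ M] [LieRingModule (soD n) M]
  [LieModule ℂ (soD n) M] {a : Fin n → ℤ} {v : M}

/-- the eigenvalue of the grading element -/
noncomputable def topEig (a : Fin n → ℤ) : ℂ := ∑ i, (a i : ℂ) / 2 * ((n : ℂ) - (i : ℕ))

theorem hw_DD (hv : IsHighestWeightVector n a v) : ⁅DD n, v⁆ = topEig a • v :=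
  hv.2.1 _ _ rfl

/-- the character of the Cartan -/
noncomputable def chi (a : Fin n → ℤ) (X : soD n) : ℂ := ∑ i, (a i : ℂ) / 2 * X.1 (Sum.inl i) (Sum.inl i)

theorem hw_zero (hv : IsHighestWeightVector n a v) (X : soD n) (hX : X ∈ Gr (DD n) 0) :
    ⁅X, v⁆ = chi a X • v := by
  have := hv.2.1 (fun i => X.1 (Sum.inl i) (Sum.inl i)) (car _) rfl
  have h2 := Gr_zero hX
  have h3 : ⁅X, v⁆ = ⁅(car (fun i => X.1 (Sum.inl i) (Sum.inl i)) : soD n), v⁆ :=
    congrArg (fun Y : soD n => ⁅Y, v⁆) h2
  rw [h3]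
  exact this

theorem hw_pos (hv : IsHighestWeightVector n a v) (k : ℤ) (hk : 0 < k) (X : soD n)
    (hX : X ∈ Gr (DD n) k) : ⁅X, v⁆ = 0 := by
  obtain ⟨h1, h2⟩ := Gr_pos hk hX
  exact hv.2.2 X h1 h2

/-- The eigenspace of the grading element in the module generated by a highest weight vector for
the top eigenvalue is a line. -/
theorem hw_top_line (hv : IsHighestWeightVector n a v) {u : M}
    (hu : u ∈ LieSubmodule.lieSpan ℂ (soD n) ({v} : Set M))
    (hu' : ⁅DD n, u⁆ = topEig a • u) : ∃ t : ℂ, u = t • v :=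
  lieSpan_top_line iSup_Gr (hw_DD hv) (fun x hx => ⟨_, hw_zero hv x hx⟩) (hw_pos hv) hu hu'

end hw

/-- Two irreducible modules with highest weight vectors of the same weight are isomorphic. -/
theorem irrep_unique {a : Fin n → ℤ} {M M' : Type*} [AddCommGroup M] [Module ℂ M]
    [LieRingModule (soD n) M] [LieModule ℂ (soD n) M] [AddCommGroup M'] [Module ℂ M']
    [LieRingModule (soD n) M'] [LieModule ℂ (soD n) M']
    [LieModule.IsIrreducible ℂ (soD n) M] [LieModule.IsIrreducible ℂ (soD n) M']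
    {v : M} {v' : M'} (hv : IsHighestWeightVector n a v) (hv' : IsHighestWeightVector n a v') :
    ∃ e : M ≃ₗ⁅ℂ, soD n⁆ M', e v = v' :=
  unique_irrep (DD n) iSup_Gr (topEig a) (chi a) v v' hv.1 hv'.1 (hw_DD hv) (hw_DD hv')
    (hw_zero hv) (hw_zero hv') (hw_pos hv) (hw_pos hv')

end Crest.Agent.R172.SoGrade
private theorem rz_93d3791ed1 : type_of% @_root_.Crest.Agent.R172.SoGrade.dg.eq_1 := @_root_.Crest.Agent.R172.SoGrade.dg.eq_1 -- L65
end

-- ▼ part R172/StarDefs

/-!
Row 172.  Star forms (positive definite contravariant Hermitian forms) on `soD n`-modules.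
-/

set_option autoImplicit false
set_option linter.unusedSectionVars false

open Crest.AlgebraR.SpinSaturation
open scoped Matrix TensorProduct ComplexConjugate

namespace Crest.Agent.R172.Star

open Crest.Agent.R172.SoGrade

variable {n : ℕ}

/-- conjugate transpose on `soD n` -/
noncomputable def hc (A : soD n) : soD n :=
  ⟨A.1ᴴ, by
    rw [mem_soD]
    intro p q
    rw [Matrix.conjTranspose_apply, Matrix.conjTranspose_apply, mem_soD.1 A.2 q p]
    simp⟩

theorem hc_apply (A : soD n) (p q : Fin n ⊕ Fin n) : (hc A).1 p q = conj (A.1 q p) := rfl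

@[simp] theorem hc_hc (A : soD n) : hc (hc A) = A := by
  apply Subtype.ext
  ext p q
  rw [hc_apply, hc_apply, Complex.conj_conj]

/-- A positive definite Hermitian form (conjugate linear in the first variable) for which the
adjoint of the action of `A` is the action of the conjugate transpose of `A`. -/
structure StarForm (n : ℕ) (X : Type*) [AddCommGroup X] [Module ℂ X]
    [LieRingModule (soD n) X] where
  /-- the inner product -/
  core : InnerProductSpace.Core ℂ X
  adj : ∀ (A : soD n) (x y : X), core.inner ⁅A, x⁆ y = core.inner x ⁅hc A, y⁆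

section ofPi

variable {ι : Type*} [Fintype ι]

/-- the standard inner product on `ι → ℂ` -/
@[reducible] noncomputable def piCore (ι : Type*) [Fintype ι] : InnerProductSpace.Core ℂ (ι → ℂ) where
  inner x y := ∑ i, conj (x i) * y i
  conj_inner_symm x y := by
    simp only [map_sum, map_mul, Complex.conj_conj]
    exact Finset.sum_congr rfl fun i _ => mul_comm _ _
  re_inner_nonneg x := by
    simp only [map_sum]
    refine Finset.sum_nonneg fun i _ => ?_
    have h : conj (x i) * x i = ((‖x i‖ ^ 2 : ℝ) : ℂ) := by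
      rw [Complex.conj_mul']
      norm_cast
    rw [h]
    change (0 : ℝ) ≤ (((‖x i‖ ^ 2 : ℝ) : ℂ)).re
    rw [Complex.ofReal_re]
    positivity
  add_left x y z := by
    simp only [Pi.add_apply, map_add, add_mul, Finset.sum_add_distrib]
  smul_left x y r := by
    simp only [Pi.smul_apply, smul_eq_mul, map_mul, Finset.mul_sum, mul_assoc]
  definite x hx := by
    have h : ∑ i, ((‖x i‖ ^ 2 : ℝ) : ℂ) = 0 := by
      rw [← hx]
      refine Finset.sum_congr rfl fun i _ => ?_
      rw [Complex.conj_mul']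
      norm_cast
    rw [← Complex.ofReal_sum] at h
    have h2 : ∑ i, ‖x i‖ ^ 2 = 0 := by exact_mod_cast h
    rw [Finset.sum_eq_zero_iff_of_nonneg (fun i _ => by positivity)] at h2
    funext i
    have := h2 i (Finset.mem_univ _)
    simpa using this


/-- Star form on `ι → ℂ` from the adjoint property. -/
noncomputable def StarForm.ofPi [LieRingModule (soD n) (ι → ℂ)]
    (h : ∀ (A : soD n) (x y : ι → ℂ),
      ∑ i, conj (⁅A, x⁆ i) * y i = ∑ i, conj (x i) * ⁅hc A, y⁆ i) :
    StarForm n (ι → ℂ) where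
  core := piCore ι
  adj := h

end ofPi

section tensor

variable {X Y : Type*} [AddCommGroup X] [Module ℂ X] [LieRingModule (soD n) X]
  [LieModule ℂ (soD n) X]
  [AddCommGroup Y] [Module ℂ Y] [LieRingModule (soD n) Y] [LieModule ℂ (soD n) Y]

theorem core_add_right (c : InnerProductSpace.Core ℂ X) (x y z : X) :
    c.inner x (y + z) = c.inner x y + c.inner x z := by
  rw [← c.conj_inner_symm, c.add_left, map_add, c.conj_inner_symm, c.conj_inner_symm]

theorem core_smul_right (c : InnerProductSpace.Core ℂ X) (x y : X) (r : ℂ) :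
    c.inner x (r • y) = r * c.inner x y := by
  rw [← c.conj_inner_symm, c.smul_left, map_mul, c.conj_inner_symm, Complex.conj_conj]

theorem core_zero_left (c : InnerProductSpace.Core ℂ X) (x : X) : c.inner 0 x = 0 := by
  have := c.smul_left 0 x 0
  simpa using this

theorem core_zero_right (c : InnerProductSpace.Core ℂ X) (x : X) : c.inner x 0 = 0 := by
  have := core_smul_right c x 0 0
  simpa using this

theorem exists_tensor_core_aux {X Y : Type*} [NormedAddCommGroup X] [InnerProductSpace ℂ X]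
    [NormedAddCommGroup Y] [InnerProductSpace ℂ Y] :
    ∃ c : InnerProductSpace.Core ℂ (X ⊗[ℂ] Y), ∀ (x x' : X) (y y' : Y),
      c.inner (x ⊗ₜ[ℂ] y) (x' ⊗ₜ[ℂ] y') = inner ℂ x x' * inner ℂ y y' := by
  refine ⟨{ inner := fun s t => inner ℂ s t, conj_inner_symm := ?_, re_inner_nonneg := ?_, add_left := ?_, smul_left := ?_, definite := ?_ }, ?_⟩
  · intro x y; exact inner_conj_symm (𝕜 := ℂ) (E := X ⊗[ℂ] Y) _ _
  · intro x; exact inner_self_nonneg (𝕜 := ℂ) (E := X ⊗[ℂ] Y)
  · intro x y z; exact inner_add_left (𝕜 := ℂ) (E := X ⊗[ℂ] Y) _ _ _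
  · intro x y r; exact inner_smul_left (𝕜 := ℂ) (E := X ⊗[ℂ] Y) _ _ _
  · intro x hx; exact (inner_self_eq_zero (𝕜 := ℂ) (E := X ⊗[ℂ] Y)).1 hx
  · intro x x' y y'
    exact TensorProduct.inner_tmul ℂ x x' y y'

/-- tensor product of cores -/
theorem exists_tensor_core (cX : InnerProductSpace.Core ℂ X) (cY : InnerProductSpace.Core ℂ Y) :
    ∃ c : InnerProductSpace.Core ℂ (X ⊗[ℂ] Y), ∀ x x' y y',
      c.inner (x ⊗ₜ[ℂ] y) (x' ⊗ₜ[ℂ] y') = cX.inner x x' * cY.inner y y' := by
  let nX : NormedAddCommGroup X := cX.toNormedAddCommGroup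
  let iX : InnerProductSpace ℂ X := InnerProductSpace.ofCore cX.toCore
  let nY : NormedAddCommGroup Y := cY.toNormedAddCommGroup
  let iY : InnerProductSpace ℂ Y := InnerProductSpace.ofCore cY.toCore
  exact exists_tensor_core_aux (X := X) (Y := Y)

/-- Star form on a tensor product -/
noncomputable def StarForm.tensor (sX : StarForm n X) (sY : StarForm n Y) :
    StarForm n (X ⊗[ℂ] Y) where
  core := (exists_tensor_core sX.core sY.core).choose
  adj := by
    intro A s t
    set c := (exists_tensor_core sX.core sY.core).choose with hc'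
    have hcs := (exists_tensor_core sX.core sY.core).choose_spec
    rw [← hc'] at hcs
    induction s using TensorProduct.induction_on with
    | zero => rw [lie_zero, core_zero_left, core_zero_left]
    | add a b ha hb => rw [lie_add, c.add_left, c.add_left, ha, hb]
    | tmul x y =>
      induction t using TensorProduct.induction_on with
      | zero => rw [lie_zero, core_zero_right, core_zero_right]
      | add a b ha hb => rw [lie_add, core_add_right, core_add_right, ha, hb]
      | tmul x' y' =>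
        rw [TensorProduct.LieModule.lie_tmul_right, TensorProduct.LieModule.lie_tmul_right,
          c.add_left, core_add_right, hcs, hcs, hcs, hcs, sX.adj, sY.adj]


end tensor

end Crest.Agent.R172.Star
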