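import Mathlib
import Crest.Agent.R172.StarDefs
import Crest.Agent.R172.Fwd4

-- ▼ part R172/SpCAR
section

/-!
R172, spinor translation, part 1: finite CAR modules (fermionic Fock spaces) in matrix form.
-/

set_option autoImplicit false

namespace Crest.Agent.R172.Sp

open Matrix Kronecker

/-- A finite matrix model of the canonical anticommutation relations on the index set `P`, with a
parity operator and a unique vacuum. -/
structure CAR (P : Type) where
  ι : Type
  [fin : Fintype ι]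
  [dec : DecidableEq ι]
  c : P → Matrix ι ι ℂ
  Z : Matrix ι ι ℂ
  Ω : ι → ℂ
  cc : ∀ p q, c p * c q + c q * c p = 0
  ccs_self : ∀ p, c p * (c p)ᴴ + (c p)ᴴ * c p = 1
  ccs_ne : ∀ p q, p ≠ q → c p * (c q)ᴴ + (c q)ᴴ * c p = 0
  Zc : ∀ p, Z * c p = - (c p * Z)
  ZZ : Z * Z = 1
  ZH : Zᴴ = Z
  ZΩ : Z *ᵥ Ω = Ω
  cΩ : ∀ p, c p *ᵥ Ω = 0
  Ωne : Ω ≠ 0
  vac : ∀ x : ι → ℂ, (∀ p, c p *ᵥ x = 0) → ∃ t : ℂ, x = t • Ω

attribute [instance] CAR.fin CAR.dec

namespace CAR

variable {P Q : Type}

theorem cstar_cstar (F : CAR P) (p q : P) :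
    (F.c p)ᴴ * (F.c q)ᴴ + (F.c q)ᴴ * (F.c p)ᴴ = 0 := by
  have := congrArg Matrix.conjTranspose (F.cc p q)
  rw [Matrix.conjTranspose_add, Matrix.conjTranspose_mul, Matrix.conjTranspose_mul,
    Matrix.conjTranspose_zero, add_comm] at this
  exact this

theorem Zcs (F : CAR P) (p : P) : F.Z * (F.c p)ᴴ = - ((F.c p)ᴴ * F.Z) := by
  have := congrArg Matrix.conjTranspose (F.Zc p)
  rw [Matrix.conjTranspose_neg, Matrix.conjTranspose_mul, Matrix.conjTranspose_mul, F.ZH] at this
  rw [this, neg_neg]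

theorem neg_kron {α β : Type} (A : Matrix α α ℂ) (B : Matrix β β ℂ) :
    (-A) ⊗ₖ B = -(A ⊗ₖ B) := by
  ext i j
  simp [Matrix.kroneckerMap_apply]

theorem kron_neg {α β : Type} (A : Matrix α α ℂ) (B : Matrix β β ℂ) :
    A ⊗ₖ (-B) = -(A ⊗ₖ B) := by
  ext i j
  simp [Matrix.kroneckerMap_apply]

theorem kron_mulVec {α β : Type} [Fintype α] [Fintype β] (A : Matrix α α ℂ) (B : Matrix β β ℂ)
    (x : α × β → ℂ) (i : α) (j : β) :
    ((A ⊗ₖ B) *ᵥ x) (i, j) = ∑ j', B j j' * (A *ᵥ (fun i' => x (i', j'))) i := by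
  simp only [Matrix.mulVec, dotProduct, Matrix.kroneckerMap_apply, Fintype.sum_prod_type,
    Finset.mul_sum]
  rw [Finset.sum_comm]
  refine Finset.sum_congr rfl fun j' _ => Finset.sum_congr rfl fun i' _ => ?_
  ring

theorem kron_mulVec_prod {α β : Type} [Fintype α] [Fintype β] (A : Matrix α α ℂ)
    (B : Matrix β β ℂ) (x : α → ℂ) (y : β → ℂ) :
    (A ⊗ₖ B) *ᵥ (fun p : α × β => x p.1 * y p.2) =
      fun p => (A *ᵥ x) p.1 * (B *ᵥ y) p.2 := by
  funext ⟨i, j⟩
  simp only [Matrix.mulVec, dotProduct, Matrix.kroneckerMap_apply, Fintype.sum_prod_type,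
    Finset.sum_mul_sum]
  refine Finset.sum_congr rfl fun i' _ => Finset.sum_congr rfl fun j' _ => ?_
  ring

/-- The fermionic tensor product. -/
def sum (F : CAR P) (G : CAR Q) : CAR (P ⊕ Q) where
  ι := F.ι × G.ι
  c := Sum.elim (fun p => F.c p ⊗ₖ (1 : Matrix G.ι G.ι ℂ)) (fun q => F.Z ⊗ₖ G.c q)
  Z := F.Z ⊗ₖ G.Z
  Ω := fun i => F.Ω i.1 * G.Ω i.2
  cc := by
    rintro (p | p) (q | q)
    · simp only [Sum.elim_inl, ← Matrix.mul_kronecker_mul, ← Matrix.add_kronecker, F.cc,
        Matrix.zero_kronecker]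
    · simp only [Sum.elim_inl, Sum.elim_inr, ← Matrix.mul_kronecker_mul, F.Zc, one_mul, mul_one,
        neg_kron, add_neg_cancel]
    · simp only [Sum.elim_inl, Sum.elim_inr, ← Matrix.mul_kronecker_mul, F.Zc, one_mul, mul_one,
        neg_kron, neg_add_cancel]
    · simp only [Sum.elim_inr, ← Matrix.mul_kronecker_mul, ← Matrix.kronecker_add, G.cc,
        Matrix.kronecker_zero]
  ccs_self := by
    rintro (p | p)
    · simp only [Sum.elim_inl, Matrix.conjTranspose_kronecker, Matrix.conjTranspose_one,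
        ← Matrix.mul_kronecker_mul, ← Matrix.add_kronecker, F.ccs_self, mul_one,
        Matrix.one_kronecker_one]
    · simp only [Sum.elim_inr, Matrix.conjTranspose_kronecker, F.ZH, F.ZZ,
        ← Matrix.mul_kronecker_mul, ← Matrix.kronecker_add, G.ccs_self,
        Matrix.one_kronecker_one]
  ccs_ne := by
    rintro (p | p) (q | q) h
    · have h' : p ≠ q := fun e => h (by rw [e])
      simp only [Sum.elim_inl, Matrix.conjTranspose_kronecker, Matrix.conjTranspose_one,
        ← Matrix.mul_kronecker_mul, ← Matrix.add_kronecker, F.ccs_ne p q h',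
        Matrix.zero_kronecker]
    · simp only [Sum.elim_inl, Sum.elim_inr, Matrix.conjTranspose_kronecker, F.ZH,
        ← Matrix.mul_kronecker_mul, F.Zc, one_mul, mul_one,
        neg_kron, add_neg_cancel]
    · simp only [Sum.elim_inl, Sum.elim_inr, Matrix.conjTranspose_kronecker,
        Matrix.conjTranspose_one,
        ← Matrix.mul_kronecker_mul, F.Zcs, one_mul, mul_one,
        neg_kron, neg_add_cancel]
    · have h' : p ≠ q := fun e => h (by rw [e])
      simp only [Sum.elim_inr, Matrix.conjTranspose_kronecker, F.ZH, F.ZZ,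
        ← Matrix.mul_kronecker_mul, ← Matrix.kronecker_add, G.ccs_ne p q h',
        Matrix.kronecker_zero]
  Zc := by
    rintro (p | p)
    · simp only [Sum.elim_inl, ← Matrix.mul_kronecker_mul, F.Zc, one_mul, mul_one,
        neg_kron]
    · simp only [Sum.elim_inr, ← Matrix.mul_kronecker_mul, G.Zc, kron_neg]
  ZZ := by
    simp only [← Matrix.mul_kronecker_mul, F.ZZ, G.ZZ, Matrix.one_kronecker_one]
  ZH := by
    simp only [Matrix.conjTranspose_kronecker, F.ZH, G.ZH]
  ZΩ := by
    rw [kron_mulVec_prod, F.ZΩ, G.ZΩ]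
  cΩ := by
    rintro (p | p)
    · simp only [Sum.elim_inl]
      rw [kron_mulVec_prod, F.cΩ]
      funext i
      simp
    · simp only [Sum.elim_inr]
      rw [kron_mulVec_prod, G.cΩ]
      funext i
      simp
  Ωne := by
    obtain ⟨i, hi⟩ := Function.ne_iff.mp F.Ωne
    obtain ⟨j, hj⟩ := Function.ne_iff.mp G.Ωne
    exact Function.ne_iff.mpr ⟨(i, j), mul_ne_zero hi hj⟩
  vac := by
    intro x hx
    have h1 : ∀ j, ∃ t : ℂ, (fun i => x (i, j)) = t • F.Ω := by
      intro j
      refine F.vac _ fun p => ?_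
      have := hx (Sum.inl p)
      funext i
      have h2 := congrFun this (i, j)
      simp only [Sum.elim_inl] at h2
      rw [kron_mulVec] at h2
      simpa [Matrix.one_apply] using h2
    choose t ht using h1
    have ht' : ∀ i j, x (i, j) = F.Ω i * t j := by
      intro i j
      have := congrFun (ht j) i
      simp only [Pi.smul_apply, smul_eq_mul] at this
      rw [this, mul_comm]
    have hx' : x = fun p => F.Ω p.1 * t p.2 := by
      funext ⟨i, j⟩
      exact ht' i j
    obtain ⟨i0, hi0⟩ := Function.ne_iff.mp F.Ωne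
    have h3 : ∀ q, G.c q *ᵥ t = 0 := by
      intro q
      have := hx (Sum.inr q)
      simp only [Sum.elim_inr] at this
      rw [hx', kron_mulVec_prod, F.ZΩ] at this
      funext j
      have h4 := congrFun this (i0, j)
      simp only [Pi.zero_apply, mul_eq_zero] at h4
      rcases h4 with h4 | h4
      · exact absurd h4 hi0
      · exact h4
    obtain ⟨s, hs⟩ := G.vac t h3
    refine ⟨s, ?_⟩
    rw [hx', hs]
    funext p
    simp only [Pi.smul_apply, smul_eq_mul]
    ring

/-- Transport along an equivalence. -/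
def map (F : CAR P) (e : P ≃ Q) : CAR Q where
  ι := F.ι
  c := fun q => F.c (e.symm q)
  Z := F.Z
  Ω := F.Ω
  cc := fun p q => F.cc _ _
  ccs_self := fun p => F.ccs_self _
  ccs_ne := fun p q h => F.ccs_ne _ _ (fun h' => h (e.symm.injective h'))
  Zc := fun p => F.Zc _
  ZZ := F.ZZ
  ZH := F.ZH
  ZΩ := F.ZΩ
  cΩ := fun p => F.cΩ _
  Ωne := F.Ωne
  vac := fun x hx => F.vac x fun p => by simpa using hx (e p)

/-- No fermion. -/
def empty (P : Type) [IsEmpty P] : CAR P where
  ι := Unit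
  c := fun p => isEmptyElim p
  Z := 1
  Ω := 1
  cc := fun p => isEmptyElim p
  ccs_self := fun p => isEmptyElim p
  ccs_ne := fun p => isEmptyElim p
  Zc := fun p => isEmptyElim p
  ZZ := by simp
  ZH := by simp
  ZΩ := by simp
  cΩ := fun p => isEmptyElim p
  Ωne := by
    intro h
    have := congrFun h ()
    simp at this
  vac := fun x _ => ⟨x (), by funext i; simp⟩

/-- One fermion. -/
def one : CAR Unit where
  ι := Fin 2
  c := fun _ => !![0, 1; 0, 0]
  Z := !![1, 0; 0, -1]
  Ω := ![1, 0]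
  cc := fun _ _ => by
    ext i j; fin_cases i <;> fin_cases j <;> simp [Matrix.mul_apply, Fin.sum_univ_two]
  ccs_self := fun _ => by
    have h : (!![0, 1; 0, 0] : Matrix (Fin 2) (Fin 2) ℂ)ᴴ = !![0, 0; 1, 0] := by
      ext i j; fin_cases i <;> fin_cases j <;> simp [Matrix.conjTranspose_apply]
    rw [h]
    ext i j; fin_cases i <;> fin_cases j <;>
      simp [Matrix.mul_apply, Fin.sum_univ_two]
  ccs_ne := fun _ _ h => absurd rfl h
  Zc := fun _ => by
    ext i j; fin_cases i <;> fin_cases j <;> simp [Matrix.mul_apply, Fin.sum_univ_two]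
  ZZ := by
    ext i j; fin_cases i <;> fin_cases j <;> simp [Matrix.mul_apply, Fin.sum_univ_two]
  ZH := by
    ext i j; fin_cases i <;> fin_cases j <;> simp [Matrix.conjTranspose_apply]
  ZΩ := by
    funext i; fin_cases i <;> simp [Matrix.mulVec, dotProduct, Fin.sum_univ_two]
  cΩ := fun _ => by
    funext i; fin_cases i <;> simp [Matrix.mulVec, dotProduct, Fin.sum_univ_two]
  Ωne := by
    intro h
    have := congrFun h 0
    simp at this
  vac := fun x hx => by
    have h := congrFun (hx ()) 0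
    simp [Matrix.mulVec, dotProduct, Fin.sum_univ_two] at h
    refine ⟨x 0, ?_⟩
    funext i
    fin_cases i <;> simp [h]

theorem exists_car (P : Type) [Finite P] : Nonempty (CAR P) := by
  induction P using Finite.induction_empty_option with
  | of_equiv e h => exact h.map fun F => F.map e
  | h_empty => exact ⟨empty PEmpty⟩
  | h_option h => exact h.map fun F => (F.sum one).map (Equiv.optionEquivSumPUnit _).symm

end CAR

end Crest.Agent.R172.Sp
end

-- ▼ part R172/SpCliff
section

/-!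
R172, spinor translation, part 2: the Clifford module of `V ⊗ U`, `V = ℂ^{2n}` hyperbolic,
`U = ℂ^D` with the symmetric form `(u_d, u_e) = [e = σ d]`, and the spin action of `so(V)`.
-/

set_option autoImplicit false
set_option linter.unusedSectionVars false

namespace Crest.Agent.R172.Sp

open Matrix Crest.AlgebraR.SpinSaturation Crest.Agent.R172.SoGrade Crest.Agent.R172.Star

/-- the index set of the standard basis of `V` -/
abbrev VI (n : ℕ) : Type := Fin n ⊕ Fin n

/-- a finite index set with an involution: orthogonal space `U = ℂ^D` -/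
structure Inv (D : Type) where
  σ : D → D
  inv : ∀ d, σ (σ d) = d

variable {n : ℕ} {D : Type}

/-- Clifford generators -/
def gam (C : CAR (Fin n × D)) (s : Inv D) : VI n → D → Matrix C.ι C.ι ℂ
  | Sum.inl i, d => (C.c (i, d))ᴴ
  | Sum.inr i, d => C.c (i, s.σ d)

theorem gam_star (C : CAR (Fin n × D)) (s : Inv D) (p : VI n) (d : D) :
    (gam C s p d)ᴴ = gam C s (sw p) (s.σ d) := by
  rcases p with i | i <;> simp [gam, s.inv]

theorem gam_rel [DecidableEq D] (C : CAR (Fin n × D)) (s : Inv D) (p q : VI n) (d e : D) :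
    gam C s p d * gam C s q e + gam C s q e * gam C s p d =
      if q = sw p ∧ e = s.σ d then 1 else 0 := by
  rcases p with i | i <;> rcases q with j | j
  · simp only [gam, sw_inl, reduceCtorEq, false_and, if_false]
    exact C.cstar_cstar _ _
  · simp only [gam, sw_inl, Sum.inr.injEq]
    rw [add_comm]
    by_cases h : (j, s.σ e) = (i, d)
    · have h1 : j = i := (Prod.mk.inj h).1
      have h2 : s.σ e = d := (Prod.mk.inj h).2
      have h3 : e = s.σ d := by rw [← h2, s.inv]
      rw [h, C.ccs_self, if_pos ⟨h1, h3⟩]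
    · rw [C.ccs_ne _ _ h, if_neg]
      rintro ⟨h1, h2⟩
      exact h (by rw [h1, h2, s.inv])
  · simp only [gam, sw_inr, Sum.inl.injEq]
    by_cases h : (i, s.σ d) = (j, e)
    · have h1 : i = j := (Prod.mk.inj h).1
      have h2 : s.σ d = e := (Prod.mk.inj h).2
      rw [h, C.ccs_self, if_pos ⟨h1.symm, h2.symm⟩]
    · rw [C.ccs_ne _ _ h, if_neg]
      rintro ⟨h1, h2⟩
      exact h (by rw [h1, h2])
  · simp only [gam, sw_inr, reduceCtorEq, false_and, if_false]
    exact C.cc _ _

variable [Fintype D]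

/-- Clifford multiplication by `F ∈ V ⊗ U = Mat(2n × D)`. -/
def Gam (C : CAR (Fin n × D)) (s : Inv D) (F : Matrix (VI n) D ℂ) : Matrix C.ι C.ι ℂ :=
  ∑ p, ∑ d, F p d • gam C s p d

/-- the symmetric form on `V ⊗ U` -/
def bil (s : Inv D) (F G : Matrix (VI n) D ℂ) : ℂ := ∑ p, ∑ d, F p d * G (sw p) (s.σ d)

theorem Gam_add (C : CAR (Fin n × D)) (s : Inv D) (F G : Matrix (VI n) D ℂ) :
    Gam C s (F + G) = Gam C s F + Gam C s G := by
  simp only [Gam, Matrix.add_apply, add_smul, Finset.sum_add_distrib]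

theorem Gam_smul (C : CAR (Fin n × D)) (s : Inv D) (t : ℂ) (F : Matrix (VI n) D ℂ) :
    Gam C s (t • F) = t • Gam C s F := by
  simp only [Gam, Matrix.smul_apply, Finset.smul_sum, smul_smul, smul_eq_mul]

theorem Gam_zero (C : CAR (Fin n × D)) (s : Inv D) : Gam C s (0 : Matrix (VI n) D ℂ) = 0 := by
  simp [Gam]

theorem Gam_single [DecidableEq D] (C : CAR (Fin n × D)) (s : Inv D) (p : VI n) (d : D) :
    Gam C s (Matrix.single p d 1) = gam C s p d := by
  rw [Gam, Finset.sum_eq_single p, Finset.sum_eq_single d]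
  · simp
  · intro b _ hb
    rw [Matrix.single_apply_of_ne _ _ _ _ _ (by rintro ⟨_, h⟩; exact hb h.symm), zero_smul]
  · simp
  · intro b _ hb
    refine Finset.sum_eq_zero fun e _ => ?_
    rw [Matrix.single_apply_of_ne _ _ _ _ _ (by rintro ⟨h, _⟩; exact hb h.symm), zero_smul]
  · simp

theorem sum4 {M A B : Type} [Fintype A] [Fintype B] [AddCommMonoid M] (f : A → B → A → B → M) :
    ∑ q, ∑ e, ∑ p, ∑ d, f q e p d = ∑ p, ∑ d, ∑ q, ∑ e, f q e p d := by
  have h1 : ∑ q, ∑ e, ∑ p, ∑ d, f q e p d = ∑ x : A × B, ∑ y : A × B, f x.1 x.2 y.1 y.2 := by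
    rw [Fintype.sum_prod_type]
    refine Finset.sum_congr rfl fun q _ => Finset.sum_congr rfl fun e _ => ?_
    rw [Fintype.sum_prod_type]
  have h2 : ∑ p, ∑ d, ∑ q, ∑ e, f q e p d = ∑ y : A × B, ∑ x : A × B, f x.1 x.2 y.1 y.2 := by
    rw [Fintype.sum_prod_type]
    refine Finset.sum_congr rfl fun q _ => Finset.sum_congr rfl fun e _ => ?_
    rw [Fintype.sum_prod_type]
  rw [h1, h2, Finset.sum_comm]

theorem Gam_mul (C : CAR (Fin n × D)) (s : Inv D) (F G : Matrix (VI n) D ℂ) :
    Gam C s F * Gam C s G =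
      ∑ p, ∑ d, ∑ q, ∑ e, (F p d * G q e) • (gam C s p d * gam C s q e) := by
  simp only [Gam, Finset.sum_mul]
  refine Finset.sum_congr rfl fun p _ => Finset.sum_congr rfl fun d _ => ?_
  simp only [Finset.mul_sum]
  refine Finset.sum_congr rfl fun q _ => Finset.sum_congr rfl fun e _ => ?_
  rw [smul_mul_smul_comm]

theorem Gam_rel (C : CAR (Fin n × D)) (s : Inv D) (F G : Matrix (VI n) D ℂ) :
    Gam C s F * Gam C s G + Gam C s G * Gam C s F = bil s F G • 1 := by
  classical
  have h2 : Gam C s G * Gam C s F = ∑ p, ∑ d, ∑ q, ∑ e, (F p d * G q e) • (gam C s q e * gam C s p d) := by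
    rw [Gam_mul, sum4]
    refine Finset.sum_congr rfl fun p _ => Finset.sum_congr rfl fun d _ =>
      Finset.sum_congr rfl fun q _ => Finset.sum_congr rfl fun e _ => ?_
    rw [mul_comm (G q e)]
  rw [Gam_mul, h2, ← Finset.sum_add_distrib]
  simp only [← Finset.sum_add_distrib, ← smul_add, gam_rel, bil, Finset.sum_smul]
  refine Finset.sum_congr rfl fun p _ => Finset.sum_congr rfl fun d _ => ?_
  rw [Finset.sum_eq_single (sw p), Finset.sum_eq_single (s.σ d)]
  · simp
  · intro e _ he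
    rw [if_neg (fun h => he h.2), smul_zero]
  · simp
  · intro q _ hq
    refine Finset.sum_eq_zero fun e _ => ?_
    rw [if_neg (fun h => hq h.1), smul_zero]
  · simp

/-- the entrywise "real structure" -/
def cst (s : Inv D) (F : Matrix (VI n) D ℂ) : Matrix (VI n) D ℂ :=
  fun p d => star (F (sw p) (s.σ d))

theorem cst_cst (s : Inv D) (F : Matrix (VI n) D ℂ) : cst s (cst s F) = F := by
  ext p d
  simp [cst, s.inv]

theorem sum_sw {M : Type} [AddCommMonoid M] (f : VI n → M) : ∑ p, f (sw p) = ∑ p, f p :=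
  (Equiv.sumComm (Fin n) (Fin n)).sum_comp f

/-- the involution as an equivalence -/
def Inv.equiv (s : Inv D) : D ≃ D := ⟨s.σ, s.σ, s.inv, s.inv⟩

theorem sum_σ {M : Type} [AddCommMonoid M] (s : Inv D) (f : D → M) :
    ∑ d, f (s.σ d) = ∑ d, f d := s.equiv.sum_comp f

theorem Gam_star (C : CAR (Fin n × D)) (s : Inv D) (F : Matrix (VI n) D ℂ) :
    (Gam C s F)ᴴ = Gam C s (cst s F) := by
  rw [Gam, Matrix.conjTranspose_sum, Gam, ← sum_sw]
  refine Finset.sum_congr rfl fun p _ => ?_
  rw [Matrix.conjTranspose_sum, ← sum_σ s]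
  refine Finset.sum_congr rfl fun d _ => ?_
  rw [Matrix.conjTranspose_smul, gam_star, cst]
  simp [s.inv]

/-! ### The action of `so(V)` -/

/-- the spin action (as a matrix) of an arbitrary matrix `X` -/
noncomputable def rho (C : CAR (Fin n × D)) (s : Inv D) (X : Matrix (VI n) (VI n) ℂ) :
    Matrix C.ι C.ι ℂ :=
  (1 / 2 : ℂ) • ∑ d, ∑ p, ∑ q, X q p • (gam C s q d * gam C s (sw p) (s.σ d))

theorem rho_add (C : CAR (Fin n × D)) (s : Inv D) (X Y : Matrix (VI n) (VI n) ℂ) :
    rho C s (X + Y) = rho C s X + rho C s Y := by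
  simp only [rho, Matrix.add_apply, add_smul, Finset.sum_add_distrib, smul_add]

theorem rho_smul (C : CAR (Fin n × D)) (s : Inv D) (t : ℂ) (X : Matrix (VI n) (VI n) ℂ) :
    rho C s (t • X) = t • rho C s X := by
  simp only [rho, Matrix.smul_apply, smul_eq_mul, mul_smul, ← Finset.smul_sum]
  rw [smul_comm]

theorem rho_star (C : CAR (Fin n × D)) (s : Inv D) (X : Matrix (VI n) (VI n) ℂ) :
    (rho C s X)ᴴ = rho C s Xᴴ := by
  simp only [rho, Matrix.conjTranspose_smul, Matrix.conjTranspose_sum, Matrix.conjTranspose_mul,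
    gam_star, sw_sw, s.inv]
  congr 1
  · simp
  · refine Finset.sum_congr rfl fun d _ => ?_
    rw [Finset.sum_comm]
    refine Finset.sum_congr rfl fun p _ => Finset.sum_congr rfl fun q _ => ?_
    rw [Matrix.conjTranspose_apply]

theorem comm_aux {ι : Type} [Fintype ι] [DecidableEq ι] (A B E : Matrix ι ι ℂ) :
    A * B * E - E * (A * B) = A * (B * E + E * B) - (A * E + E * A) * B := by
  noncomm_ring

theorem rho_gam (C : CAR (Fin n × D)) (s : Inv D) {X : Matrix (VI n) (VI n) ℂ}
    (hX : X ∈ LieAlgebra.Orthogonal.typeD (Fin n) ℂ) (r : VI n) (e : D) :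
    rho C s X * gam C s r e - gam C s r e * rho C s X = ∑ q, X q r • gam C s q e := by
  classical
  have hX' := mem_soD.1 hX
  simp only [rho, smul_mul_assoc, mul_smul_comm, Finset.sum_mul, Finset.mul_sum]
  rw [← smul_sub]
  simp only [← Finset.sum_sub_distrib, ← smul_sub, comm_aux, gam_rel, sw_sw, s.inv]
  have h1 : ∀ d, ∀ p q : VI n,
      X q p • (gam C s q d * (if r = p ∧ e = d then (1 : Matrix C.ι C.ι ℂ) else 0) -
        (if r = sw q ∧ e = s.σ d then 1 else 0) * gam C s (sw p) (s.σ d)) =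
      (if d = e then (if p = r then X q r • gam C s q e else 0) else 0) -
      (if d = s.σ e then (if q = sw r then X (sw r) p • gam C s (sw p) e else 0) else 0) := by
    intro d p q
    rw [smul_sub]
    congr 1
    · by_cases h : r = p ∧ e = d
      · rw [if_pos h, if_pos h.2.symm, if_pos h.1.symm, mul_one, h.1, h.2]
      · rw [if_neg h]
        split_ifs with h1 h2
        · exact absurd ⟨h2.symm, h1.symm⟩ h
        · simp
        · simp
    · by_cases h : r = sw q ∧ e = s.σ d
      · have h1 : d = s.σ e := by rw [h.2, s.inv]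
        have h2 : q = sw r := by rw [h.1, sw_sw]
        rw [if_pos h, if_pos h1, if_pos h2, one_mul, ← h2, h.2]
      · rw [if_neg h]
        split_ifs with h1 h2
        · exact absurd ⟨by rw [h2, sw_sw], by rw [h1, s.inv]⟩ h
        · simp
        · simp
  simp only [h1, Finset.sum_sub_distrib]
  simp only [Finset.sum_ite_irrel, Finset.sum_const_zero, Finset.sum_ite_eq', Finset.mem_univ,
    if_true]
  have h3 : ∑ p, X (sw r) p • gam C s (sw p) e = - ∑ q, X q r • gam C s q e := by
    rw [← sum_sw (fun q => X q r • gam C s q e), ← Finset.sum_neg_distrib]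
    refine Finset.sum_congr rfl fun p _ => ?_
    rw [hX' (sw r) p, sw_sw, neg_smul]
  rw [h3, sub_neg_eq_add, ← two_smul ℂ, smul_smul]
  norm_num

theorem rho_Gam (C : CAR (Fin n × D)) (s : Inv D) {X : Matrix (VI n) (VI n) ℂ}
    (hX : X ∈ LieAlgebra.Orthogonal.typeD (Fin n) ℂ) (F : Matrix (VI n) D ℂ) :
    rho C s X * Gam C s F - Gam C s F * rho C s X = Gam C s (X * F) := by
  simp only [Gam, Finset.mul_sum, Finset.sum_mul, mul_smul_comm, smul_mul_assoc,
    ← Finset.sum_sub_distrib, ← smul_sub, rho_gam C s hX]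
  simp only [Matrix.mul_apply, Finset.sum_smul, Finset.smul_sum, smul_smul]
  rw [Finset.sum_comm]
  rw [Finset.sum_comm (s := Finset.univ (α := VI n)) (t := Finset.univ (α := D))]
  refine Finset.sum_congr rfl fun d _ => ?_
  rw [Finset.sum_comm]
  refine Finset.sum_congr rfl fun p _ => Finset.sum_congr rfl fun q _ => ?_
  rw [mul_comm]

theorem rho_lie (C : CAR (Fin n × D)) (s : Inv D) {X Y : Matrix (VI n) (VI n) ℂ}
    (hX : X ∈ LieAlgebra.Orthogonal.typeD (Fin n) ℂ) :
    rho C s (X * Y - Y * X) = rho C s X * rho C s Y - rho C s Y * rho C s X := by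
  have hX' := mem_soD.1 hX
  have hcomm : ∀ (A B : Matrix C.ι C.ι ℂ), rho C s X * (A * B) - A * B * rho C s X =
      (rho C s X * A - A * rho C s X) * B + A * (rho C s X * B - B * rho C s X) := by
    intro A B; noncomm_ring
  have h1 : rho C s X * rho C s Y - rho C s Y * rho C s X =
      (1 / 2 : ℂ) • ∑ d, ∑ p, ∑ q, Y q p •
        ((∑ r, X r q • gam C s r d) * gam C s (sw p) (s.σ d) +
          gam C s q d * (∑ r, X r (sw p) • gam C s r (s.σ d))) := by
    conv_lhs => rw [show rho C s Y = (1 / 2 : ℂ) • ∑ d, ∑ p, ∑ q,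
      Y q p • (gam C s q d * gam C s (sw p) (s.σ d)) from rfl]
    rw [mul_smul_comm, smul_mul_assoc, ← smul_sub]
    simp only [Finset.mul_sum, Finset.sum_mul, mul_smul_comm, smul_mul_assoc,
      ← Finset.sum_sub_distrib, ← smul_sub, hcomm, rho_gam C s hX]
  rw [h1, rho]
  congr 1
  refine Finset.sum_congr rfl fun d _ => ?_
  simp only [Matrix.sub_apply, Matrix.mul_apply, sub_smul, Finset.sum_sub_distrib, smul_add,
    Finset.sum_add_distrib]
  rw [sub_eq_add_neg]
  congr 1
  · refine Finset.sum_congr rfl fun p _ => ?_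
    simp only [Finset.sum_smul, Finset.sum_mul, Finset.smul_sum, smul_mul_assoc, smul_smul]
    rw [Finset.sum_comm]
    refine Finset.sum_congr rfl fun q _ => Finset.sum_congr rfl fun r _ => ?_
    rw [mul_comm]
  · simp only [Finset.sum_smul, Finset.mul_sum, Finset.smul_sum, mul_smul_comm, smul_smul]
    rw [← Finset.sum_neg_distrib]
    -- LHS: - ∑ p, ∑ q, ∑ r, (Y q r * X r p) • γ q γ (sw p)
    -- RHS: ∑ p, ∑ q, ∑ r, (Y q p * X r (sw p)) • γ q γ r
    have e1 : ∀ p q : VI n, ∑ r, (Y q p * X r (sw p)) • (gam C s q d * gam C s r (s.σ d)) =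
        ∑ r, -((Y q p * X p r) • (gam C s q d * gam C s (sw r) (s.σ d))) := by
      intro p q
      rw [← sum_sw]
      refine Finset.sum_congr rfl fun r _ => ?_
      rw [hX' (sw r) (sw p), sw_sw, sw_sw, mul_neg, neg_smul]
    simp only [e1]
    simp only [← Finset.sum_neg_distrib]
    rw [Finset.sum_comm (s := Finset.univ (α := VI n)) (t := Finset.univ (α := VI n))
      (f := fun p q => ∑ r, -((Y q p * X p r) • (gam C s q d * gam C s (sw r) (s.σ d))))]
    rw [Finset.sum_comm]
    refine Finset.sum_congr rfl fun q _ => ?_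
    rw [Finset.sum_comm]

end Crest.Agent.R172.Sp
private theorem rz_9a124512c2 : type_of% @_root_.Crest.Agent.R172.Sp.gam.eq_1 := @_root_.Crest.Agent.R172.Sp.gam.eq_1 -- L27
end

-- ▼ part R172/SpPure
section

/-!
R172, spinor translation, part 3: irreducibility of the Clifford module, pure spinors and the
transversality criterion.
-/

set_option autoImplicit false
set_option linter.unusedSectionVars false

namespace Crest.Agent.R172.Sp

open Matrix Crest.AlgebraR.SpinSaturation Crest.Agent.R172.SoGrade Crest.Agent.R172.Star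

section general

variable {ι : Type} [Fintype ι] [DecidableEq ι]

/-- the standard Hermitian pairing, conjugate linear in the first variable -/
def hp (x y : ι → ℂ) : ℂ := ∑ i, star (x i) * y i

theorem hp_add_right (x y z : ι → ℂ) : hp x (y + z) = hp x y + hp x z := by
  simp only [hp, Pi.add_apply, mul_add, Finset.sum_add_distrib]

theorem hp_smul_right (t : ℂ) (x y : ι → ℂ) : hp x (t • y) = t * hp x y := by
  simp only [hp, Pi.smul_apply, smul_eq_mul, Finset.mul_sum]
  exact Finset.sum_congr rfl fun i _ => by ring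

theorem hp_zero_right (x : ι → ℂ) : hp x 0 = 0 := by simp [hp]

theorem hp_zero_left (x : ι → ℂ) : hp 0 x = 0 := by simp [hp]

theorem hp_self_eq_zero {x : ι → ℂ} (h : hp x x = 0) : x = 0 := by
  exact (piCore ι).definite x h

theorem hp_mulVec (A : Matrix ι ι ℂ) (x y : ι → ℂ) : hp x (A *ᵥ y) = hp (Aᴴ *ᵥ x) y := by
  simp only [hp, Matrix.mulVec, dotProduct, Finset.mul_sum, star_sum, Finset.sum_mul, star_mul',
    Matrix.conjTranspose_apply, star_star]
  rw [Finset.sum_comm]
  exact Finset.sum_congr rfl fun i _ => Finset.sum_congr rfl fun j _ => by ring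

/-- common kernel of anticommuting nilpotent operators -/
theorem exists_common_kernel {κ : Type} (T : κ → Matrix ι ι ℂ)
    (hT : ∀ i j, T i * T j + T j * T i = 0) (N : Submodule ℂ (ι → ℂ)) (hN : N ≠ ⊥)
    (hs : ∀ i, ∀ v ∈ N, T i *ᵥ v ∈ N) (S : Finset κ) :
    ∃ v ∈ N, v ≠ 0 ∧ ∀ i ∈ S, T i *ᵥ v = 0 := by
  classical
  induction S using Finset.induction_on with
  | empty =>
    obtain ⟨v, hv, hv0⟩ := Submodule.exists_mem_ne_zero_of_ne_bot hN
    exact ⟨v, hv, hv0, by simp⟩
  | insert a S ha ih =>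
    obtain ⟨v, hv, hv0, hk⟩ := ih
    by_cases h : T a *ᵥ v = 0
    · refine ⟨v, hv, hv0, fun i hi => ?_⟩
      rcases Finset.mem_insert.1 hi with rfl | hi
      · exact h
      · exact hk i hi
    · refine ⟨T a *ᵥ v, hs a v hv, h, fun i hi => ?_⟩
      rcases Finset.mem_insert.1 hi with rfl | hi
      · rw [Matrix.mulVec_mulVec]
        have h1 := hT i i
        rw [← two_smul ℂ] at h1
        have h2 := (smul_eq_zero.1 h1).resolve_left two_ne_zero
        rw [h2, Matrix.zero_mulVec]
      · rw [Matrix.mulVec_mulVec, eq_neg_of_add_eq_zero_left (hT i a), Matrix.neg_mulVec,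
          ← Matrix.mulVec_mulVec, hk i hi, Matrix.mulVec_zero, neg_zero]

/-- the orthogonal complement -/
def hperp (N : Submodule ℂ (ι → ℂ)) : Submodule ℂ (ι → ℂ) where
  carrier := {y | ∀ x ∈ N, hp x y = 0}
  add_mem' := by
    intro a b ha hb x hx
    rw [hp_add_right, ha x hx, hb x hx, add_zero]
  zero_mem' := fun x _ => hp_zero_right x
  smul_mem' := by
    intro t a ha x hx
    rw [hp_smul_right, ha x hx, mul_zero]


theorem decomp_gen {X : Type} [AddCommGroup X] [Module ℂ X] [FiniteDimensional ℂ X]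
    (c : InnerProductSpace.Core ℂ X) (N : Submodule ℂ X) (v : X) :
    ∃ a ∈ N, ∃ b, (∀ x ∈ N, c.inner x b = 0) ∧ v = a + b := by
  let nX : NormedAddCommGroup X := c.toNormedAddCommGroup
  let iX : InnerProductSpace ℂ X := InnerProductSpace.ofCore c.toCore
  have : FiniteDimensional ℂ N := inferInstance
  obtain ⟨y, hy, z, hz, h⟩ := N.exists_add_mem_mem_orthogonal v
  refine ⟨y, hy, z, ?_, h⟩
  intro x hx
  exact (Submodule.mem_orthogonal N z).1 hz x hx

theorem exists_decomp (N : Submodule ℂ (ι → ℂ)) (v : ι → ℂ) :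
    ∃ a ∈ N, ∃ b ∈ hperp N, v = a + b := by
  obtain ⟨a, ha, b, hb, e⟩ := decomp_gen (piCore ι) N v
  exact ⟨a, ha, b, hb, e⟩

/-- vectors obtained from `φ` by operators in `S` -/
inductive Wrd (S : Set (Matrix ι ι ℂ)) (φ : ι → ℂ) : (ι → ℂ) → Prop
  | base : Wrd S φ φ
  | step (A : Matrix ι ι ℂ) (hA : A ∈ S) (w : ι → ℂ) (hw : Wrd S φ w) : Wrd S φ (A *ᵥ w)

end general

variable {n : ℕ} {D : Type} [Fintype D]

theorem irred (C : CAR (Fin n × D)) (s : Inv D) (N : Submodule ℂ (C.ι → ℂ)) (hN : N ≠ ⊥)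
    (hs : ∀ F : Matrix (VI n) D ℂ, ∀ v ∈ N, Gam C s F *ᵥ v ∈ N) : N = ⊤ := by
  classical
  have key : ∀ M : Submodule ℂ (C.ι → ℂ), M ≠ ⊥ →
      (∀ F : Matrix (VI n) D ℂ, ∀ v ∈ M, Gam C s F *ᵥ v ∈ M) → C.Ω ∈ M := by
    intro M hM hMs
    have hc : ∀ p : Fin n × D, ∀ v ∈ M, C.c p *ᵥ v ∈ M := by
      intro p v hv
      have h1 := hMs (Matrix.single (Sum.inr p.1) (s.σ p.2) 1) v hv
      rw [Gam_single] at h1
      simpa [gam, s.inv] using h1
    obtain ⟨v, hv, hv0, hk⟩ := exists_common_kernel C.c C.cc M hM hc Finset.univ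
    obtain ⟨t, ht⟩ := C.vac v fun p => hk p (Finset.mem_univ p)
    have ht0 : t ≠ 0 := by
      rintro rfl
      exact hv0 (by rw [ht, zero_smul])
    have : C.Ω = t⁻¹ • v := by rw [ht, smul_smul, inv_mul_cancel₀ ht0, one_smul]
    rw [this]
    exact M.smul_mem _ hv
  by_contra hne
  have hp' : hperp N ≠ ⊥ := by
    intro h
    apply hne
    rw [eq_top_iff]
    intro v _
    obtain ⟨a, ha, b, hb, e⟩ := exists_decomp N v
    rw [h, Submodule.mem_bot] at hb
    rw [e, hb, add_zero]
    exact ha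
  have hps : ∀ F : Matrix (VI n) D ℂ, ∀ v ∈ hperp N, Gam C s F *ᵥ v ∈ hperp N := by
    intro F v hv x hx
    rw [hp_mulVec, Gam_star]
    exact hv _ (hs _ x hx)
  have h1 := key N hN hs
  have h2 := key (hperp N) hp' hps
  exact C.Ωne (hp_self_eq_zero (h2 _ h1))

/-- `φ` is killed by Clifford multiplication with the elements of `Λ`. -/
def Killed (C : CAR (Fin n × D)) (s : Inv D) (Λ : Submodule ℂ (Matrix (VI n) D ℂ))
    (φ : C.ι → ℂ) : Prop := ∀ F ∈ Λ, Gam C s F *ᵥ φ = 0

/-- isotropic subspaces of `V ⊗ U` -/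
def Isot (s : Inv D) (Λ : Submodule ℂ (Matrix (VI n) D ℂ)) : Prop :=
  ∀ F ∈ Λ, ∀ G ∈ Λ, bil s F G = 0

theorem exists_killed (C : CAR (Fin n × D)) (s : Inv D) (Λ : Submodule ℂ (Matrix (VI n) D ℂ))
    (hΛ : Isot s Λ) : ∃ φ : C.ι → ℂ, φ ≠ 0 ∧ Killed C s Λ φ := by
  classical
  let b := Module.finBasis ℂ Λ
  have hne : (⊤ : Submodule ℂ (C.ι → ℂ)) ≠ ⊥ := by
    intro h
    apply C.Ωne
    have : C.Ω ∈ (⊤ : Submodule ℂ (C.ι → ℂ)) := Submodule.mem_top
    rw [h, Submodule.mem_bot] at this
    exact this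
  obtain ⟨v, -, hv0, hk⟩ := exists_common_kernel (fun i => Gam C s (b i)) (by
    intro i j
    rw [Gam_rel, hΛ _ (b i).2 _ (b j).2, zero_smul]) ⊤ hne (fun _ _ _ => Submodule.mem_top)
    Finset.univ
  refine ⟨v, hv0, ?_⟩
  intro F hF
  have h1 : ∀ x : Λ, Gam C s x.1 *ᵥ v = 0 := by
    intro x
    have h2 : x.1 = ∑ i, b.repr x i • (b i).1 := by
      have h2' := congrArg Λ.subtype (b.sum_repr x)
      rw [map_sum] at h2'
      simp only [map_smul, Submodule.subtype_apply] at h2'
      exact h2'.symm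
    rw [h2]
    have h3 : ∀ S : Finset (Fin (Module.finrank ℂ Λ)), Gam C s (∑ i ∈ S, b.repr x i • (b i).1) *ᵥ v = 0 := by
      intro S
      induction S using Finset.induction_on with
      | empty => rw [Finset.sum_empty, Gam_zero, Matrix.zero_mulVec]
      | insert a S ha ih =>
        rw [Finset.sum_insert ha, Gam_add, Matrix.add_mulVec, ih, Gam_smul, Matrix.smul_mulVec,
          hk a (Finset.mem_univ a), smul_zero, add_zero]
    exact h3 _
  exact h1 ⟨F, hF⟩

/-- **Transversality**: pure spinors of transversal subspaces have nonzero pairing. -/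
theorem hp_ne_zero (C : CAR (Fin n × D)) (s : Inv D) (Λ₁ Λ₂ : Submodule ℂ (Matrix (VI n) D ℂ))
    (h12 : Λ₁ ⊔ Λ₂ = ⊤) {θ φ : C.ι → ℂ} (hθ : θ ≠ 0) (hφ : φ ≠ 0)
    (hθk : ∀ F ∈ Λ₁, Gam C s (cst s F) *ᵥ θ = 0) (hφk : Killed C s Λ₂ φ) : hp θ φ ≠ 0 := by
  intro h0
  let S : Set (Matrix C.ι C.ι ℂ) := {A | ∃ F ∈ Λ₁, A = Gam C s F}
  let N : Submodule ℂ (C.ι → ℂ) := Submodule.span ℂ {w | Wrd S φ w}
  have hN1 : ∀ F ∈ Λ₁, ∀ v ∈ N, Gam C s F *ᵥ v ∈ N := by
    intro F hF v hv
    refine Submodule.span_induction (p := fun v _ => Gam C s F *ᵥ v ∈ N) ?_ ?_ ?_ ?_ hv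
    · intro w hw
      have h0' : Gam C s F ∈ S := ⟨F, hF, rfl⟩
      have h1 : Wrd S φ (Gam C s F *ᵥ w) := Wrd.step (Gam C s F) h0' w hw
      exact Submodule.subset_span h1
    · rw [Matrix.mulVec_zero]; exact N.zero_mem
    · intro a b _ _ ha hb
      rw [Matrix.mulVec_add]; exact N.add_mem ha hb
    · intro t a _ ha
      rw [Matrix.mulVec_smul]; exact N.smul_mem t ha
  have hN2 : ∀ F ∈ Λ₂, ∀ v ∈ N, Gam C s F *ᵥ v ∈ N := by
    intro F hF v hv
    refine Submodule.span_induction (p := fun v _ => Gam C s F *ᵥ v ∈ N) ?_ ?_ ?_ ?_ hv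
    · intro w hw
      induction hw with
      | base => rw [hφk F hF]; exact N.zero_mem
      | step A hA w hw ih =>
        obtain ⟨G, hG, rfl⟩ := hA
        have h1 : Gam C s F * Gam C s G = bil s F G • 1 - Gam C s G * Gam C s F := by
          rw [← Gam_rel]; abel
        rw [Matrix.mulVec_mulVec, h1, Matrix.sub_mulVec, Matrix.smul_mulVec, Matrix.one_mulVec,
          ← Matrix.mulVec_mulVec]
        exact N.sub_mem (N.smul_mem _ (Submodule.subset_span hw)) (hN1 G hG _ ih)
    · rw [Matrix.mulVec_zero]; exact N.zero_mem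
    · intro a b _ _ ha hb
      rw [Matrix.mulVec_add]; exact N.add_mem ha hb
    · intro t a _ ha
      rw [Matrix.mulVec_smul]; exact N.smul_mem t ha
  have hφN : φ ∈ N := Submodule.subset_span Wrd.base
  have hN : N ≠ ⊥ := by
    intro h
    rw [h, Submodule.mem_bot] at hφN
    exact hφ hφN
  have htop : N = ⊤ := by
    apply irred C s N hN
    intro F v hv
    have hF : F ∈ Λ₁ ⊔ Λ₂ := by rw [h12]; exact Submodule.mem_top
    obtain ⟨F₁, h₁, F₂, h₂, rfl⟩ := Submodule.mem_sup.1 hF
    rw [Gam_add, Matrix.add_mulVec]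
    exact N.add_mem (hN1 _ h₁ v hv) (hN2 _ h₂ v hv)
  have hz : ∀ v ∈ N, hp θ v = 0 := by
    intro v hv
    refine Submodule.span_induction (p := fun v _ => hp θ v = 0) ?_ ?_ ?_ ?_ hv
    · intro w hw
      induction hw with
      | base => exact h0
      | step A hA w hw ih =>
        obtain ⟨G, hG, rfl⟩ := hA
        rw [hp_mulVec, Gam_star, hθk G hG, hp_zero_left]
    · exact hp_zero_right θ
    · intro a b _ _ ha hb
      rw [hp_add_right, ha, hb, add_zero]
    · intro t a _ ha
      rw [hp_smul_right, ha, mul_zero]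
  apply hθ
  apply hp_self_eq_zero
  apply hz
  rw [htop]
  exact Submodule.mem_top

/-- image of a subspace under the real structure -/
def cstSub (s : Inv D) (Λ : Submodule ℂ (Matrix (VI n) D ℂ)) : Submodule ℂ (Matrix (VI n) D ℂ) where
  carrier := {F | cst s F ∈ Λ}
  add_mem' := by
    intro a b ha hb
    have : cst s (a + b) = cst s a + cst s b := by
      ext p d; simp [cst]
    change cst s (a + b) ∈ Λ
    rw [this]
    exact Λ.add_mem ha hb
  zero_mem' := by
    have : cst s (0 : Matrix (VI n) D ℂ) = 0 := by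
      ext p d; simp [cst]
    change cst s 0 ∈ Λ
    rw [this]
    exact Λ.zero_mem
  smul_mem' := by
    intro t a ha
    have : cst s (t • a) = star t • cst s a := by
      ext p d; simp [cst]
    change cst s (t • a) ∈ Λ
    rw [this]
    exact Λ.smul_mem _ ha

theorem mem_cstSub {s : Inv D} {Λ : Submodule ℂ (Matrix (VI n) D ℂ)} {F : Matrix (VI n) D ℂ} :
    F ∈ cstSub s Λ ↔ cst s F ∈ Λ := Iff.rfl

theorem bil_cst (s : Inv D) (F G : Matrix (VI n) D ℂ) :
    bil s (cst s F) (cst s G) = star (bil s F G) := by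
  simp only [bil, cst, star_sum, star_mul', s.inv, sw_sw]
  rw [← sum_sw]
  refine Finset.sum_congr rfl fun p _ => ?_
  rw [← sum_σ s]
  refine Finset.sum_congr rfl fun d _ => ?_
  rw [sw_sw, s.inv]

theorem isot_cstSub {s : Inv D} {Λ : Submodule ℂ (Matrix (VI n) D ℂ)} (h : Isot s Λ) :
    Isot s (cstSub s Λ) := by
  intro F hF G hG
  have h1 := h _ hF _ hG
  rw [bil_cst] at h1
  exact star_eq_zero.1 h1

/-- uniqueness of the pure spinor of a Lagrangian subspace -/
theorem killed_unique (C : CAR (Fin n × D)) (s : Inv D)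
    (Λ₁ Λ₂ : Submodule ℂ (Matrix (VI n) D ℂ)) (h12 : Λ₁ ⊔ Λ₂ = ⊤) (h1 : Isot s Λ₁)
    {φ ψ : C.ι → ℂ} (hφ : φ ≠ 0) (hφk : Killed C s Λ₂ φ) (hψk : Killed C s Λ₂ ψ) :
    ∃ t : ℂ, ψ = t • φ := by
  obtain ⟨θ, hθ, hθk⟩ := exists_killed C s (cstSub s Λ₁) (isot_cstSub h1)
  have hθk' : ∀ F ∈ Λ₁, Gam C s (cst s F) *ᵥ θ = 0 := by
    intro F hF
    apply hθk
    rw [mem_cstSub, cst_cst]
    exact hF
  have hne := hp_ne_zero C s Λ₁ Λ₂ h12 hθ hφ hθk' hφk
  refine ⟨hp θ ψ / hp θ φ, ?_⟩
  by_contra hcon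
  have h3 : ψ - (hp θ ψ / hp θ φ) • φ ≠ 0 := sub_ne_zero.2 hcon
  have h4 : Killed C s Λ₂ (ψ - (hp θ ψ / hp θ φ) • φ) := by
    intro F hF
    rw [Matrix.mulVec_sub, Matrix.mulVec_smul, hφk F hF, hψk F hF, smul_zero, sub_zero]
  apply hp_ne_zero C s Λ₁ Λ₂ h12 hθ h3 hθk' h4
  rw [sub_eq_add_neg, hp_add_right, ← neg_smul, hp_smul_right]
  field_simp
  ring

end Crest.Agent.R172.Sp
end

-- ▼ part R172/SpMod
section

/-!
R172, spinor translation, part 4: the Fock module `Spn C s` as a `soD n`-module, its star form, the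
action of words of exponentials on Clifford multiplication.
-/

set_option autoImplicit false
set_option linter.unusedSectionVars false

namespace Crest.Agent.R172.Sp

open Matrix Crest.AlgebraR.SpinSaturation Crest.Agent.R172.SoGrade Crest.Agent.R172.Star
open Crest.Agent.R172.Fwd
open scoped TensorProduct ComplexConjugate

variable {n : ℕ} {D : Type}

/-- the Fock module `S(V ⊗ U)` -/
def Spn (C : CAR (Fin n × D)) (_s : Inv D) : Type := C.ι → ℂ

section inst

variable (C : CAR (Fin n × D)) (s : Inv D)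

noncomputable instance : AddCommGroup (Spn C s) := inferInstanceAs (AddCommGroup (C.ι → ℂ))
noncomputable instance : Module ℂ (Spn C s) := inferInstanceAs (Module ℂ (C.ι → ℂ))
instance : FiniteDimensional ℂ (Spn C s) := inferInstanceAs (FiniteDimensional ℂ (C.ι → ℂ))

variable [Fintype D]

noncomputable instance : LieRingModule (soD n) (Spn C s) where
  bracket A v := ((rho C s A.1).mulVec (v : C.ι → ℂ) : C.ι → ℂ)
  add_lie A B v := by
    have h : ∀ u : C.ι → ℂ, (rho C s (A.1 + B.1)).mulVec u =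
        (rho C s A.1).mulVec u + (rho C s B.1).mulVec u := by
      intro u
      rw [rho_add, Matrix.add_mulVec]
    exact h v
  lie_add A v w := Matrix.mulVec_add _ _ _
  leibniz_lie A B v := by
    have h : ∀ u : C.ι → ℂ, (rho C s A.1).mulVec ((rho C s B.1).mulVec u) =
        (rho C s (A.1 * B.1 - B.1 * A.1)).mulVec u +
          (rho C s B.1).mulVec ((rho C s A.1).mulVec u) := by
      intro u
      rw [rho_lie C s A.2, Matrix.sub_mulVec, Matrix.mulVec_mulVec, Matrix.mulVec_mulVec,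
        sub_add_cancel]
    exact h v


noncomputable instance : LieModule ℂ (soD n) (Spn C s) where
  smul_lie t A v := by
    have h : ∀ u : C.ι → ℂ, (rho C s (t • A.1)).mulVec u = t • (rho C s A.1).mulVec u := by
      intro u
      rw [rho_smul, Matrix.smul_mulVec]
    exact h v
  lie_smul _ _ _ := Matrix.mulVec_smul _ _ _

/-- the star form of the Fock module -/
noncomputable def starSpn : StarForm n (Spn C s) where
  core := piCore C.ι
  adj := by
    intro A x y
    have h : ∀ x y : C.ι → ℂ, hp ((rho C s A.1).mulVec x) y =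
        hp x ((rho C s (hc A).1).mulVec y) := by
      intro x y
      have e : (rho C s A.1) = (rho C s (hc A).1)ᴴ := by
        rw [rho_star]
        congr 1
        ext p q
        simp [hc, Matrix.conjTranspose_apply]
      rw [e, ← hp_mulVec]
    exact h x y

end inst

variable [Fintype D] [DecidableEq D] (C : CAR (Fin n × D)) (s : Inv D)

/-- `v ⊗ u_d` -/
def vcol (v : VI n → ℂ) (d : D) : Matrix (VI n) D ℂ := fun p e => if e = d then v p else 0


theorem vcol_mul (X : Matrix (VI n) (VI n) ℂ) (v : VI n → ℂ) (d : D) :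
    X * vcol v d = vcol (X *ᵥ v) d := by
  ext p e
  by_cases h : e = d
  · simp [Matrix.mul_apply, vcol, h, Matrix.mulVec, dotProduct]
  · simp [Matrix.mul_apply, vcol, h]

theorem sum_vcol (F : Matrix (VI n) D ℂ) : F = ∑ d, vcol (fun p => F p d) d := by
  ext p e
  rw [Matrix.sum_apply]
  simp [vcol]

theorem vcol_add (v w : VI n → ℂ) (d : D) : vcol (v + w) d = vcol v d + vcol w d := by
  ext p e
  by_cases h : e = d <;> simp [vcol, h]

theorem vcol_smul (t : ℂ) (v : VI n → ℂ) (d : D) : vcol (t • v) d = t • vcol v d := by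
  ext p e
  by_cases h : e = d <;> simp [vcol, h]

/-- Clifford multiplication `V ⊗ S → S` (at the slot `d`) -/
noncomputable def clB (d : D) : SV n →ₗ[ℂ] Spn C s →ₗ[ℂ] Spn C s :=
  LinearMap.mk₂ ℂ
    (fun (v : VI n → ℂ) (x : C.ι → ℂ) => ((Gam C s (vcol v d)).mulVec x : C.ι → ℂ))
    (by
      have h : ∀ (v w : VI n → ℂ) (x : C.ι → ℂ), (Gam C s (vcol (v + w) d)).mulVec x =
          (Gam C s (vcol v d)).mulVec x + (Gam C s (vcol w d)).mulVec x := by
        intro v w x
        rw [vcol_add, Gam_add, Matrix.add_mulVec]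
      exact h)
    (by
      have h : ∀ (t : ℂ) (v : VI n → ℂ) (x : C.ι → ℂ), (Gam C s (vcol (t • v) d)).mulVec x =
          t • (Gam C s (vcol v d)).mulVec x := by
        intro t v x
        rw [vcol_smul, Gam_smul, Matrix.smul_mulVec]
      exact h)
    (by
      intro v x y
      exact Matrix.mulVec_add _ _ _)
    (by
      intro t v x
      exact Matrix.mulVec_smul _ _ _)


/-- Clifford multiplication as an equivariant map -/
noncomputable def clL (d : D) : (SV n ⊗[ℂ] Spn C s) →ₗ⁅ℂ, soD n⁆ Spn C s :=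
  { TensorProduct.lift (clB C s d) with
    map_lie' := by
      intro A t
      change TensorProduct.lift (clB C s d) ⁅A, t⁆ = ⁅A, TensorProduct.lift (clB C s d) t⁆
      induction t using TensorProduct.induction_on with
      | zero => simp
      | add a b ha hb => rw [lie_add, map_add, ha, hb, map_add, lie_add]
      | tmul v x =>
        rw [TensorProduct.LieModule.lie_tmul_right, map_add, TensorProduct.lift.tmul,
          TensorProduct.lift.tmul, TensorProduct.lift.tmul]
        have h : ∀ (v : VI n → ℂ) (x : C.ι → ℂ),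
            (Gam C s (vcol (A.1 *ᵥ v) d)) *ᵥ x + (Gam C s (vcol v d)) *ᵥ ((rho C s A.1) *ᵥ x) =
              (rho C s A.1) *ᵥ ((Gam C s (vcol v d)) *ᵥ x) := by
          intro v x
          rw [← vcol_mul, ← rho_Gam C s A.2, Matrix.sub_mulVec, Matrix.mulVec_mulVec,
            Matrix.mulVec_mulVec, sub_add_cancel]
        exact h v x }

/-- the action of a word on plain vectors -/
noncomputable def actV (w : List (soD n)) (x : C.ι → ℂ) : C.ι → ℂ :=
  (act (Spn C s) w (x : Spn C s) : Spn C s)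

theorem actV_add (w : List (soD n)) (x y : C.ι → ℂ) :
    actV C s w (x + y) = actV C s w x + actV C s w y := by
  have h : ∀ x y : Spn C s, act (Spn C s) w (x + y) = act (Spn C s) w x + act (Spn C s) w y :=
    fun x y => map_add _ _ _
  exact h x y

theorem actV_zero (w : List (soD n)) : actV C s w 0 = 0 := by
  have h : act (Spn C s) w (0 : Spn C s) = 0 := map_zero _
  exact h

theorem act_tmul' (d : D) {w : List (soD n)} (hw : Wd w) (v : SV n) (x : Spn C s) :
    act (Spn C s) w (clL C s d (v ⊗ₜ[ℂ] x)) =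
      clL C s d ((act (SV n) w v) ⊗ₜ[ℂ] (act (Spn C s) w x)) := by
  rw [act_hom (clL C s d) hw, act_tmul hw]

theorem act_vcol (d : D) {w : List (soD n)} (hw : Wd w) (v : VI n → ℂ) (x : C.ι → ℂ) :
    actV C s w ((Gam C s (vcol v d)).mulVec x) =
      (Gam C s (vcol ((gm w).mulVec v) d)).mulVec (actV C s w x) := by
  rw [gm_mulVec]
  exact act_tmul' C s d hw v x

theorem act_Gam {w : List (soD n)} (hw : Wd w) (F : Matrix (VI n) D ℂ) (x : C.ι → ℂ) :
    actV C s w ((Gam C s F).mulVec x) =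
      (Gam C s (gm w * F)).mulVec (actV C s w x) := by
  have key : ∀ S : Finset D,
      actV C s w ((Gam C s (∑ d ∈ S, vcol (fun p => F p d) d)).mulVec x) =
      (Gam C s (gm w * (∑ d ∈ S, vcol (fun p => F p d) d))).mulVec (actV C s w x) := by
    intro S
    induction S using Finset.induction_on with
    | empty =>
      rw [Finset.sum_empty, Matrix.mul_zero, Gam_zero, Matrix.zero_mulVec, Matrix.zero_mulVec,
        actV_zero]
    | insert a S ha ih =>
      rw [Finset.sum_insert ha, Matrix.mul_add, Gam_add, Gam_add, Matrix.add_mulVec,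
        Matrix.add_mulVec, ← ih, vcol_mul, ← act_vcol C s a hw, actV_add]
  have h := key Finset.univ
  rw [← sum_vcol F] at h
  exact h

theorem act_inj {L M : Type} [LieRing L] [LieAlgebra ℂ L] [AddCommGroup M] [Module ℂ M]
    [LieRingModule L M] [LieModule ℂ L M] [FiniteDimensional ℂ M] {w : List L} (hw : Wd w)
    {x : M} (hx : x ≠ 0) : act M w x ≠ 0 := by
  induction w with
  | nil => simpa using hx
  | cons z w ih =>
    have hz : Rt z := hw z (by simp)
    have h1 := ih (fun z hz => hw z (by simp [hz]))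
    rw [act_cons, Module.End.mul_apply]
    intro h
    apply h1
    have h2 : ex (LieModule.toEnd ℂ L M (-z)) * ex (LieModule.toEnd ℂ L M z) = 1 := by
      rw [map_neg]
      let i0 : Module ℚ (Module.End ℂ M) := Module.compHom _ (algebraMap ℚ ℂ)
      exact IsNilpotent.exp_neg_mul_exp_self (hz.nilpotent (M := M))
    have h3 := congrArg (ex (LieModule.toEnd ℂ L M (-z))) h
    rw [← Module.End.mul_apply, h2, map_zero] at h3
    exact h3

/-- the image of a subspace of `V ⊗ U` under a matrix -/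
def gsub (g : Matrix (VI n) (VI n) ℂ) (Λ : Submodule ℂ (Matrix (VI n) D ℂ)) :
    Submodule ℂ (Matrix (VI n) D ℂ) where
  carrier := {F | ∃ G ∈ Λ, F = g * G}
  add_mem' := by
    rintro _ _ ⟨a, ha, rfl⟩ ⟨b, hb, rfl⟩
    exact ⟨a + b, Λ.add_mem ha hb, (Matrix.mul_add _ _ _).symm⟩
  zero_mem' := ⟨0, Λ.zero_mem, (Matrix.mul_zero _).symm⟩
  smul_mem' := by
    rintro t _ ⟨a, ha, rfl⟩
    exact ⟨t • a, Λ.smul_mem t ha, (Matrix.mul_smul _ _ _).symm⟩


theorem act_killed {w : List (soD n)} (hw : Wd w) {Λ : Submodule ℂ (Matrix (VI n) D ℂ)}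
    {x : C.ι → ℂ} (hx : Killed C s Λ x) : Killed C s (gsub (gm w) Λ) (actV C s w x) := by
  rintro _ ⟨G, hG, rfl⟩
  rw [← act_Gam C s hw, hx G hG, actV_zero]

theorem actV_ne_zero {w : List (soD n)} (hw : Wd w) {x : C.ι → ℂ} (hx : x ≠ 0) :
    actV C s w x ≠ 0 :=
  act_inj (M := Spn C s) hw hx

end Crest.Agent.R172.Sp
end

-- ▼ part R172/SpHw

/-!
R172, spinor translation, part 5: arms, the Lagrangian subspaces `n_a`, highest weight vectors.
-/

set_option autoImplicit false
set_option linter.unusedSectionVars false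

namespace Crest.Agent.R172.Sp

open Matrix Crest.AlgebraR.SpinSaturation Crest.Agent.R172.SoGrade Crest.Agent.R172.Star
open Crest.Agent.R172.Fwd
open scoped TensorProduct ComplexConjugate

variable {n : ℕ} {D : Type}

/-- combinatorial data of a pure spinor of doubled weight `a` in `S(V ⊗ ℂ^D)`: the coordinate
subspaces `A_i ⊆ U`. -/
structure Arm (n : ℕ) {D : Type} [Fintype D] (s : Inv D) (a : Fin n → ℤ) where
  A : Fin n → D → Prop
  [dec : ∀ i, DecidablePred (A i)]
  mono : ∀ i j, i < j → ∀ d, A j d → A i d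
  perp : ∀ i j, i ≠ j → ∀ d, ¬ A j (s.σ d) → A i d
  count : ∀ i, a i = 2 * ((Finset.univ.filter (A i)).card : ℤ) - (Fintype.card D : ℤ)

attribute [instance] Arm.dec

variable [Fintype D] {s : Inv D} {a : Fin n → ℤ}

/-- `n_a = ⊕ (e_i ⊗ A_i ⊕ e_i^* ⊗ A_i^⊥)` -/
def Arm.lag (R : Arm n s a) : Submodule ℂ (Matrix (VI n) D ℂ) where
  carrier := {F | ∀ i d, (¬ R.A i d → F (Sum.inl i) d = 0) ∧ (R.A i (s.σ d) → F (Sum.inr i) d = 0)}
  add_mem' := by
    intro F G hF hG i d
    refine ⟨fun h => ?_, fun h => ?_⟩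
    · rw [Matrix.add_apply, (hF i d).1 h, (hG i d).1 h, add_zero]
    · rw [Matrix.add_apply, (hF i d).2 h, (hG i d).2 h, add_zero]
  zero_mem' := fun i d => ⟨fun _ => rfl, fun _ => rfl⟩
  smul_mem' := by
    intro t F hF i d
    refine ⟨fun h => ?_, fun h => ?_⟩
    · rw [Matrix.smul_apply, (hF i d).1 h, smul_zero]
    · rw [Matrix.smul_apply, (hF i d).2 h, smul_zero]


theorem Arm.isot (R : Arm n s a) : Isot s R.lag := by
  intro F hF G hG
  rw [bil]
  refine Finset.sum_eq_zero fun p _ => Finset.sum_eq_zero fun d _ => ?_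
  rcases p with i | i
  · rw [sw_inl]
    by_cases h : R.A i d
    · rw [(hG i (s.σ d)).2 (by rw [s.inv]; exact h), mul_zero]
    · rw [(hF i d).1 h, zero_mul]
  · rw [sw_inr]
    by_cases h : R.A i (s.σ d)
    · rw [(hF i d).2 h, zero_mul]
    · rw [(hG i (s.σ d)).1 h, mul_zero]

variable [DecidableEq D] (C : CAR (Fin n × D))

theorem Arm.kill_inl (R : Arm n s a) {φ : C.ι → ℂ} (hφ : Killed C s R.lag φ) {i : Fin n} {d : D}
    (h : R.A i d) : gam C s (Sum.inl i) d *ᵥ φ = 0 := by
  rw [← Gam_single]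
  apply hφ
  intro j e
  refine ⟨fun h' => ?_, fun _ => ?_⟩
  · apply Matrix.single_apply_of_ne
    rintro ⟨h1, h2⟩
    apply h'
    rw [← Sum.inl.inj h1, ← h2]
    exact h
  · apply Matrix.single_apply_of_ne
    rintro ⟨h1, _⟩
    cases h1

theorem Arm.kill_inr (R : Arm n s a) {φ : C.ι → ℂ} (hφ : Killed C s R.lag φ) {i : Fin n} {d : D}
    (h : ¬ R.A i (s.σ d)) : gam C s (Sum.inr i) d *ᵥ φ = 0 := by
  rw [← Gam_single]
  apply hφ
  intro j e
  refine ⟨fun _ => ?_, fun h' => ?_⟩
  · apply Matrix.single_apply_of_ne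
    rintro ⟨h1, _⟩
    cases h1
  · apply Matrix.single_apply_of_ne
    rintro ⟨h1, h2⟩
    apply h
    rw [Sum.inr.inj h1, h2]
    exact h'

theorem swap_kill (p q : VI n) (d e : D) (hne : ¬ (q = sw p ∧ e = s.σ d)) {φ : C.ι → ℂ}
    (h : gam C s p d *ᵥ φ = 0) : (gam C s p d * gam C s q e) *ᵥ φ = 0 := by
  have h1 := gam_rel C s p q d e
  rw [if_neg hne] at h1
  rw [eq_neg_of_add_eq_zero_left h1, Matrix.neg_mulVec, ← Matrix.mulVec_mulVec, h,
    Matrix.mulVec_zero, neg_zero]

theorem swap_one (p q : VI n) (d e : D) (he : q = sw p ∧ e = s.σ d) {φ : C.ι → ℂ}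
    (h : gam C s p d *ᵥ φ = 0) : (gam C s p d * gam C s q e) *ᵥ φ = φ := by
  have h1 := gam_rel C s p q d e
  rw [if_pos he] at h1
  rw [eq_sub_of_add_eq h1, Matrix.sub_mulVec, Matrix.one_mulVec, ← Matrix.mulVec_mulVec, h,
    Matrix.mulVec_zero, sub_zero]

theorem rho_mulVec (X : Matrix (VI n) (VI n) ℂ) (φ : C.ι → ℂ) :
    rho C s X *ᵥ φ = (1 / 2 : ℂ) • ∑ d, ∑ p, ∑ q,
      X q p • ((gam C s q d * gam C s (sw p) (s.σ d)) *ᵥ φ) := by
  rw [rho, Matrix.smul_mulVec]
  congr 1
  have h : ∀ {κ : Type} (S : Finset κ) (f : κ → Matrix C.ι C.ι ℂ),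
      (∑ k ∈ S, f k) *ᵥ φ = ∑ k ∈ S, f k *ᵥ φ := by
    intro κ S f
    classical
    induction S using Finset.induction_on with
    | empty => simp
    | insert a S ha ih => rw [Finset.sum_insert ha, Finset.sum_insert ha, Matrix.add_mulVec, ih]
  rw [h]
  refine Finset.sum_congr rfl fun d _ => ?_
  rw [h]
  refine Finset.sum_congr rfl fun p _ => ?_
  rw [h]
  refine Finset.sum_congr rfl fun q _ => ?_
  rw [Matrix.smul_mulVec]

theorem Arm.hw_cartan (R : Arm n s a) {φ : C.ι → ℂ} (hφ : Killed C s R.lag φ) (h : Fin n → ℂ) :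
    rho C s (Matrix.fromBlocks (Matrix.diagonal h) 0 0 (-Matrix.diagonal h)) *ᵥ φ =
      (∑ i, (a i : ℂ) / 2 * h i) • φ := by
  rw [rho_mulVec]
  set X := Matrix.fromBlocks (Matrix.diagonal h) 0 0 (-Matrix.diagonal h) with hX
  have h1 : ∀ (d : D) (p : VI n), ∑ q, X q p • ((gam C s q d * gam C s (sw p) (s.σ d)) *ᵥ φ) =
      X p p • ((gam C s p d * gam C s (sw p) (s.σ d)) *ᵥ φ) := by
    intro d p
    rw [Finset.sum_eq_single p]
    · intro q _ hq
      have : X q p = 0 := by
        rcases p with i | i <;> rcases q with j | j <;> simp [hX]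
        · rw [Matrix.diagonal_apply_ne]
          intro h'; exact hq (by rw [h'])
        · rw [Matrix.diagonal_apply_ne]
          intro h'; exact hq (by rw [h'])
      rw [this, zero_smul]
    · simp
  simp only [h1]
  have h2 : ∀ (d : D), ∑ p, X p p • ((gam C s p d * gam C s (sw p) (s.σ d)) *ᵥ φ) =
      (∑ i, (h i * (if R.A i d then 1 else 0) - h i * (if R.A i (s.σ d) then 0 else 1))) • φ := by
    intro d
    rw [Fintype.sum_sum_type, Finset.sum_sub_distrib, sub_smul, sub_eq_add_neg]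
    congr 1
    · rw [Finset.sum_smul]
      refine Finset.sum_congr rfl fun i _ => ?_
      have e : X (Sum.inl i) (Sum.inl i) = h i := by simp [hX]
      rw [e, sw_inl]
      by_cases hA : R.A i d
      · rw [if_pos hA, mul_one]
        congr 1
        have hk := R.kill_inl C hφ hA
        exact swap_one C (Sum.inl i) (Sum.inr i) d (s.σ d) ⟨rfl, rfl⟩ hk
      · rw [if_neg hA, mul_zero, zero_smul]
        have hk : gam C s (Sum.inr i) (s.σ d) *ᵥ φ = 0 :=
          R.kill_inr C hφ (by rw [s.inv]; exact hA)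
        rw [← Matrix.mulVec_mulVec, hk, Matrix.mulVec_zero, smul_zero]
    · rw [← neg_smul, ← Finset.sum_neg_distrib, Finset.sum_smul]
      refine Finset.sum_congr rfl fun i _ => ?_
      have e : X (Sum.inr i) (Sum.inr i) = - h i := by simp [hX]
      rw [e, sw_inr]
      by_cases hA : R.A i (s.σ d)
      · rw [if_pos hA, mul_zero, neg_zero, zero_smul]
        have hk := R.kill_inl C hφ hA
        rw [← Matrix.mulVec_mulVec, hk, Matrix.mulVec_zero, smul_zero]
      · rw [if_neg hA, mul_one]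
        congr 1
        have hk := R.kill_inr C hφ hA
        exact swap_one C (Sum.inr i) (Sum.inl i) d (s.σ d) ⟨rfl, rfl⟩ hk
  simp only [h2]
  rw [← Finset.sum_smul, smul_smul]
  congr 1
  rw [Finset.sum_comm, Finset.mul_sum]
  refine Finset.sum_congr rfl fun i _ => ?_
  rw [Finset.sum_sub_distrib, ← Finset.mul_sum, ← Finset.mul_sum,
    sum_σ s (fun d => (if R.A i d then (0 : ℂ) else 1))]
  have e1 : ∑ d, (if R.A i d then (1 : ℂ) else 0) = ((Finset.univ.filter (R.A i)).card : ℂ) := by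
    rw [Finset.sum_boole]
  have e2 : ∑ d, (if R.A i d then (0 : ℂ) else 1) =
      (Fintype.card D : ℂ) - ((Finset.univ.filter (R.A i)).card : ℂ) := by
    have : ∀ d, (if R.A i d then (0 : ℂ) else 1) = 1 - (if R.A i d then (1 : ℂ) else 0) := by
      intro d; split_ifs <;> simp
    simp only [this, Finset.sum_sub_distrib, e1]
    simp
  rw [e1, e2]
  have e3 : (a i : ℂ) = 2 * ((Finset.univ.filter (R.A i)).card : ℂ) - (Fintype.card D : ℂ) := by
    rw [R.count i]; push_cast; ring
  rw [e3]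
  ring

theorem Arm.hw_pos (R : Arm n s a) {φ : C.ι → ℂ} (hφ : Killed C s R.lag φ)
    (X : Matrix (VI n) (VI n) ℂ) (hX : X ∈ LieAlgebra.Orthogonal.typeD (Fin n) ℂ)
    (h1 : ∀ i j : Fin n, X (Sum.inr i) (Sum.inl j) = 0)
    (h2 : ∀ i j : Fin n, j ≤ i → X (Sum.inl i) (Sum.inl j) = 0) :
    rho C s X *ᵥ φ = 0 := by
  have hX' := mem_soD.1 hX
  rw [rho_mulVec]
  apply smul_eq_zero_of_right
  refine Finset.sum_eq_zero fun d _ => Finset.sum_eq_zero fun p _ =>
    Finset.sum_eq_zero fun q _ => ?_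
  rcases p with j | j <;> rcases q with i | i
  · by_cases hij : j ≤ i
    · rw [h2 i j hij, zero_smul]
    · apply smul_eq_zero_of_right
      push Not at hij
      rw [sw_inl]
      by_cases hA : R.A j d
      · refine swap_kill C _ _ _ _ ?_ (R.kill_inl C hφ (R.mono i j hij d hA))
        rintro ⟨h, _⟩
        rw [sw_inl] at h
        exact (ne_of_lt hij) (Sum.inr.inj h).symm
      · rw [← Matrix.mulVec_mulVec, R.kill_inr C hφ (by rw [s.inv]; exact hA), Matrix.mulVec_zero]
  · rw [h1 i j, zero_smul]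
  · by_cases hij : i = j
    · have h3 : X (Sum.inl i) (Sum.inr j) = 0 := by
        have h4 := hX' (Sum.inl i) (Sum.inr i)
        rw [sw_inl, sw_inr] at h4
        rw [← hij]
        exact self_eq_neg.1 h4
      rw [h3, zero_smul]
    · apply smul_eq_zero_of_right
      rw [sw_inr]
      by_cases hA : R.A j (s.σ d)
      · rw [← Matrix.mulVec_mulVec, R.kill_inl C hφ hA, Matrix.mulVec_zero]
      · refine swap_kill C _ _ _ _ ?_ (R.kill_inl C hφ (R.perp i j hij d hA))
        rintro ⟨h, _⟩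
        cases h
  · by_cases hij : i ≤ j
    · have h3 : X (Sum.inr i) (Sum.inr j) = 0 := by
        rw [hX' (Sum.inr i) (Sum.inr j), sw_inr, sw_inr, h2 j i hij, neg_zero]
      rw [h3, zero_smul]
    · apply smul_eq_zero_of_right
      push Not at hij
      rw [sw_inr]
      by_cases hA : R.A j (s.σ d)
      · rw [← Matrix.mulVec_mulVec, R.kill_inl C hφ hA, Matrix.mulVec_zero]
      · refine swap_kill C _ _ _ _ ?_
          (R.kill_inr C hφ (fun h => hA (R.mono j i hij _ h)))
        rintro ⟨h, _⟩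
        rw [sw_inr] at h
        exact (ne_of_lt hij) (Sum.inl.inj h)

theorem Arm.hwv (R : Arm n s a) {φ : C.ι → ℂ} (h0 : φ ≠ 0) (hφ : Killed C s R.lag φ) :
    IsHighestWeightVector n a (M := Spn C s) φ := by
  refine ⟨h0, ?_, ?_⟩
  · intro h X hX
    have := R.hw_cartan C hφ h
    rw [← hX] at this
    exact this
  · intro X h1 h2
    exact R.hw_pos C hφ X.1 X.2 h1 h2

/-- the standard index set and involution -/
def revInv (m : ℕ) : Inv (Fin m) := ⟨Fin.rev, Fin.rev_rev⟩

theorem dom_mono (hn : 2 ≤ n) {a : Fin n → ℤ} (ha : IsDominantIntegral n a) :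
    ∀ i j : Fin n, i < j → a j ≤ a i := by
  obtain ⟨-, hmono, hlast⟩ := ha
  intro i j hij
  by_cases hj : (j : ℕ) + 2 ≤ n
  · exact hmono i j hij.le hj
  · have hj1 : (j : ℕ) + 1 = n := by have := j.2; omega
    have hn2 : n - 2 < n := by omega
    have h1 := hlast ⟨n - 2, hn2⟩ j (by simp; omega) hj1
    have h2 : a ⟨n - 2, hn2⟩ ≤ a i := by
      apply hmono
      · rw [Fin.le_def]; have := Fin.lt_def.1 hij; simp; omega
      · simp; omega
    exact (le_abs_self _).trans (h1.trans h2)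

theorem dom_neg (hn : 2 ≤ n) {a : Fin n → ℤ} (ha : IsDominantIntegral n a) :
    ∀ i j : Fin n, i ≠ j → -(a i) ≤ a j := by
  have hm := dom_mono hn ha
  obtain ⟨-, hmono, hlast⟩ := ha
  have hn2 : n - 2 < n := by omega
  have hn1 : n - 1 < n := by omega
  have h1 := hlast ⟨n - 2, hn2⟩ ⟨n - 1, hn1⟩ (by simp; omega) (by simp; omega)
  have hbig : ∀ i : Fin n, (i : ℕ) + 2 ≤ n → a ⟨n - 2, hn2⟩ ≤ a i := by
    intro i hi
    apply hmono
    · rw [Fin.le_def]; simp; omega
    · simp; omega
  have habs := abs_nonneg (a ⟨n - 1, hn1⟩)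
  intro i j hij
  by_cases hi : (i : ℕ) + 2 ≤ n
  · by_cases hj : (j : ℕ) + 2 ≤ n
    · have := hbig i hi
      have := hbig j hj
      omega
    · have hj1 : j = ⟨n - 1, hn1⟩ := by
        apply Fin.ext; simp; have := j.2; omega
      have := hbig i hi
      have h3 := neg_abs_le (a ⟨n - 1, hn1⟩)
      rw [hj1]
      omega
  · have hi1 : i = ⟨n - 1, hn1⟩ := by
      apply Fin.ext; simp; have := i.2; omega
    have hj : (j : ℕ) + 2 ≤ n := by
      have h4 : (j : ℕ) ≠ n - 1 := by
        intro h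
        apply hij
        rw [hi1]
        apply Fin.ext
        simp [h]
      have := j.2
      omega
    have := hbig j hj
    have h3 := neg_le_abs (a ⟨n - 1, hn1⟩)
    rw [hi1]
    omega

/-- **Every dominant integral weight has an arm**: `D = Fin m`, `m ≥ a_i`, `m ≡ a_i mod 2`. -/
theorem exists_arm (hn : 2 ≤ n) {a : Fin n → ℤ} (ha : IsDominantIntegral n a) (m : ℕ)
    (hm : ∀ i, a i ≤ m) (hpar : ∀ i, Even ((m : ℤ) - a i)) :
    Nonempty (Arm n (revInv m) a) := by
  have hmono := dom_mono hn ha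
  have hneg := dom_neg hn ha
  have hlow : ∀ i, -(m : ℤ) ≤ a i := by
    intro i
    obtain ⟨j, hj⟩ : ∃ j : Fin n, j ≠ i := by
      have : Nontrivial (Fin n) := Fin.nontrivial_iff_two_le.2 hn
      exact exists_ne i
    have := hneg j i hj
    have := hm j
    omega
  refine ⟨{ A := fun i d => 2 * ((d : ℕ) : ℤ) < m + a i, dec := fun i d => inferInstance,
            mono := ?_, perp := ?_, count := ?_ }⟩
  · intro i j hij d h
    have := hmono i j hij
    omega
  · intro i j hij d h
    have := hneg j i hij.symm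
    have h1 : (((revInv m).σ d : Fin m) : ℕ) = m - (d + 1) := Fin.val_rev d
    have := d.2
    rw [h1] at h
    omega
  · intro i
    obtain ⟨k, hk⟩ := hpar i
    have h1 := hm i
    have h2 := hlow i
    have h3 : (Finset.univ.filter (fun d : Fin m => 2 * ((d : ℕ) : ℤ) < m + a i)).card =
        ((m + a i) / 2).toNat := by
      have h4 : ((m + a i) / 2).toNat ≤ m := by omega
      have h5 : (Finset.univ.filter (fun d : Fin m => 2 * ((d : ℕ) : ℤ) < m + a i)) =
          (Finset.univ.filter (fun d : Fin m => (d : ℕ) < ((m + a i) / 2).toNat)) := by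
        apply Finset.filter_congr
        intro d _
        omega
      rw [h5, Fin.card_filter_val_lt, min_eq_right h4]
    rw [h3, Fintype.card_fin]
    omega

end Crest.Agent.R172.Sp
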