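import Mathlib

-- ▼ part R172/Core1
section

/-!
Row 172, structure lemma (S) of note 12992 (helper579), part 1:
dimension of the space of intertwiners between two nilpotent operators, and the Euler inequality.
-/

namespace Crest.Agent.R172.Core

open Module LinearMap

variable {K : Type*} [Field K]

/-- Intertwiners `x` with `x α = β x`. -/
def Inter {P Q : Type*} [AddCommGroup P] [Module K P] [AddCommGroup Q] [Module K Q]
    (α : Module.End K P) (β : Module.End K Q) : Submodule K (P →ₗ[K] Q) where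
  carrier := {x | x ∘ₗ α = β ∘ₗ x}
  add_mem' := by
    intro x y hx hy
    change (x + y) ∘ₗ α = β ∘ₗ (x + y)
    have hx' : x ∘ₗ α = β ∘ₗ x := hx
    have hy' : y ∘ₗ α = β ∘ₗ y := hy
    rw [LinearMap.add_comp, LinearMap.comp_add, hx', hy']
  zero_mem' := by simp
  smul_mem' := by
    intro c x hx
    change (c • x) ∘ₗ α = β ∘ₗ (c • x)
    have hx' : x ∘ₗ α = β ∘ₗ x := hx
    rw [LinearMap.smul_comp, LinearMap.comp_smul, hx']

theorem mem_Inter {P Q : Type*} [AddCommGroup P] [Module K P] [AddCommGroup Q] [Module K Q]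
    {α : Module.End K P} {β : Module.End K Q} {x : P →ₗ[K] Q} :
    x ∈ Inter α β ↔ ∀ v, x (α v) = β (x v) := by
  constructor
  · intro h v
    exact LinearMap.congr_fun h v
  · intro h
    exact LinearMap.ext h

/-- rank of the `j`-th power. -/
noncomputable def rk {P : Type*} [AddCommGroup P] [Module K P] (α : Module.End K P) (j : ℕ) : ℕ :=
  finrank K (range (α ^ j))

theorem rk_zero {P : Type*} [AddCommGroup P] [Module K P] (α : Module.End K P) :
    rk α 0 = finrank K P := by
  have : range (α ^ 0) = ⊤ := by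
    rw [pow_zero]
    exact LinearMap.range_id
  unfold rk
  rw [this, finrank_top]

theorem rk_succ_le {P : Type*} [AddCommGroup P] [Module K P] [FiniteDimensional K P]
    (α : Module.End K P) (j : ℕ) : rk α (j + 1) ≤ rk α j := by
  unfold rk
  apply Submodule.finrank_mono
  rintro _ ⟨v, rfl⟩
  exact ⟨α v, by rw [pow_succ]; rfl⟩

/-- the dual partition `n_j = rk α^j - rk α^{j+1}`. -/
noncomputable def nn {P : Type*} [AddCommGroup P] [Module K P] (α : Module.End K P) (j : ℕ) : ℤ :=
  (rk α j : ℤ) - rk α (j + 1)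

theorem nn_nonneg {P : Type*} [AddCommGroup P] [Module K P] [FiniteDimensional K P]
    (α : Module.End K P) (j : ℕ) : 0 ≤ nn α j := by
  have := rk_succ_le α j
  unfold nn
  omega

/-- the restriction of `α` to its range. -/
noncomputable def resR {P : Type*} [AddCommGroup P] [Module K P] (α : Module.End K P) :
    Module.End K (range α) :=
  α.restrict (p := range α) (q := range α) (fun v _ => ⟨v, rfl⟩)

theorem resR_apply {P : Type*} [AddCommGroup P] [Module K P] (α : Module.End K P)
    (v : range α) : ((resR α v : range α) : P) = α v := rfl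

theorem resR_pow_apply {P : Type*} [AddCommGroup P] [Module K P] (α : Module.End K P) (j : ℕ)
    (v : range α) : (((resR α ^ j) v : range α) : P) = (α ^ j) v := by
  induction j generalizing v with
  | zero => rfl
  | succ j ih =>
    rw [pow_succ, pow_succ]
    change (((resR α ^ j) (resR α v) : range α) : P) = (α ^ j) (α v)
    rw [ih]
    rfl

theorem rk_resR {P : Type*} [AddCommGroup P] [Module K P]
    (α : Module.End K P) (j : ℕ) : rk (resR α) j = rk α (j + 1) := by
  unfold rk
  have h : (range (resR α ^ j)).map (range α).subtype = range (α ^ (j + 1)) := by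
    apply le_antisymm
    · rintro _ ⟨_, ⟨v, rfl⟩, rfl⟩
      obtain ⟨w, hw⟩ := v.2
      refine ⟨w, ?_⟩
      change (α ^ (j + 1)) w = (((resR α ^ j) v : range α) : P)
      rw [resR_pow_apply, ← hw, pow_succ]
      rfl
    · rintro _ ⟨w, rfl⟩
      refine ⟨(resR α ^ j) ⟨α w, ⟨w, rfl⟩⟩, ⟨_, rfl⟩, ?_⟩
      change (((resR α ^ j) ⟨α w, ⟨w, rfl⟩⟩ : range α) : P) = _
      rw [resR_pow_apply, pow_succ]
      rfl
  rw [← h]
  exact (LinearEquiv.finrank_eq
    (Submodule.equivMapOfInjective _ (Submodule.injective_subtype _) _))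

theorem nn_resR {P : Type*} [AddCommGroup P] [Module K P]
    (α : Module.End K P) (j : ℕ) : nn (resR α) j = nn α (j + 1) := by
  unfold nn
  rw [rk_resR, rk_resR]

theorem nn_zero {P : Type*} [AddCommGroup P] [Module K P] [FiniteDimensional K P]
    (α : Module.End K P) : nn α 0 = finrank K (ker α) := by
  unfold nn
  rw [rk_zero]
  unfold rk
  have := LinearMap.finrank_range_add_finrank_ker α
  rw [zero_add, pow_one]
  omega

/-- `n_{j+1} ≤ n_j`. -/
theorem nn_succ_le {P : Type*} [AddCommGroup P] [Module K P] [FiniteDimensional K P]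
    (α : Module.End K P) (j : ℕ) : nn α (j + 1) ≤ nn α j := by
  induction j generalizing P with
  | zero =>
    rw [← nn_resR, nn_zero, nn_zero]
    have : finrank K (ker (resR α)) ≤ finrank K (ker α) := by
      have hmap : (ker (resR α)).map (range α).subtype ≤ ker α := by
        rintro _ ⟨v, hv, rfl⟩
        rw [LinearMap.mem_ker]
        have : ((resR α v : range α) : P) = 0 := by
          rw [LinearMap.mem_ker.1 hv]; rfl
        rw [resR_apply] at this
        exact this
      calc finrank K (ker (resR α)) = finrank K ((ker (resR α)).map (range α).subtype) :=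
            LinearEquiv.finrank_eq
              (Submodule.equivMapOfInjective _ (Submodule.injective_subtype _) _)
        _ ≤ finrank K (ker α) := Submodule.finrank_mono hmap
    exact_mod_cast this
  | succ j ih =>
    rw [← nn_resR α (j + 1), ← nn_resR α j]
    exact ih (resR α)

/-- The dimension of the space of intertwiners is at most `∑ n_j(α) n_j(β)`. -/
theorem finrank_Inter_le {P Q : Type*} [AddCommGroup P] [Module K P] [FiniteDimensional K P]
    [AddCommGroup Q] [Module K Q] [FiniteDimensional K Q]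
    (k : ℕ) (α : Module.End K P) (β : Module.End K Q) (hα : α ^ k = 0) :
    (finrank K (Inter α β) : ℤ) ≤ ∑ j ∈ Finset.range k, nn α j * nn β j := by
  induction k generalizing P Q with
  | zero =>
    have hP : Subsingleton P := by
      constructor
      intro v w
      have h := LinearMap.congr_fun hα (v - w)
      simp at h
      exact sub_eq_zero.1 h
    have : finrank K (Inter α β) = 0 := by
      have hs : Subsingleton (P →ₗ[K] Q) := by
        constructor
        intro f g
        ext v
        rw [Subsingleton.elim v 0]; simp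
      exact finrank_zero_of_subsingleton
    simp [this]
  | succ k ih =>
    rw [Finset.sum_range_succ']
    -- restriction map
    have hres : ∀ x : Inter α β, ∀ v ∈ range α, (x : P →ₗ[K] Q) v ∈ range β := by
      rintro x _ ⟨v, rfl⟩
      rw [mem_Inter.1 x.2 v]
      exact ⟨_, rfl⟩
    let ρ : Inter α β →ₗ[K] (range α →ₗ[K] range β) :=
      { toFun := fun x => (x : P →ₗ[K] Q).restrict (hres x)
        map_add' := by
          intro x y; ext v; rfl
        map_smul' := by
          intro c x; ext v; rfl }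
    have hρ : ∀ x, ρ x ∈ Inter (resR α) (resR β) := by
      intro x
      rw [mem_Inter]
      intro v
      apply Subtype.ext
      change (x : P →ₗ[K] Q) (α v) = β ((x : P →ₗ[K] Q) v)
      exact mem_Inter.1 x.2 _
    have h1 : finrank K (range ρ) ≤ finrank K (Inter (resR α) (resR β)) := by
      apply Submodule.finrank_mono
      rintro _ ⟨x, rfl⟩
      exact hρ x
    -- the kernel
    obtain ⟨C, hC⟩ := Submodule.exists_isCompl (range α)
    have hkβ : ∀ x : ker ρ, ∀ v : P, ((x : Inter α β) : P →ₗ[K] Q) v ∈ ker β := by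
      intro x v
      rw [LinearMap.mem_ker, ← mem_Inter.1 (x : Inter α β).2 v]
      have h := LinearMap.congr_fun (LinearMap.mem_ker.1 x.2) ⟨α v, ⟨v, rfl⟩⟩
      exact congrArg Subtype.val h
    have hkα : ∀ x : ker ρ, ∀ v ∈ range α, ((x : Inter α β) : P →ₗ[K] Q) v = 0 := by
      rintro x _ ⟨v, rfl⟩
      have h := LinearMap.congr_fun (LinearMap.mem_ker.1 x.2) ⟨α v, ⟨v, rfl⟩⟩
      exact congrArg Subtype.val h
    have h2 : finrank K (ker ρ) ≤ finrank K (C →ₗ[K] ker β) := by
      let κ : ker ρ →ₗ[K] (C →ₗ[K] ker β) :=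
        { toFun := fun x => ((x : Inter α β) : P →ₗ[K] Q).restrict (fun v _ => hkβ x v)
          map_add' := by
            intro x y; ext v; rfl
          map_smul' := by
            intro c x; ext v; rfl }
      apply LinearMap.finrank_le_finrank_of_injective (f := κ)
      intro x y hxy
      apply Subtype.ext
      apply Subtype.ext
      ext v
      have hv : v ∈ range α ⊔ C := by rw [hC.sup_eq_top]; trivial
      obtain ⟨u, hu, c, hc, rfl⟩ := Submodule.mem_sup.1 hv
      rw [map_add, map_add, hkα x u hu, hkα y u hu]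
      have h := LinearMap.congr_fun hxy ⟨c, hc⟩
      have h' : ((x : Inter α β) : P →ₗ[K] Q) c = ((y : Inter α β) : P →ₗ[K] Q) c :=
        congrArg Subtype.val h
      rw [h']
    have h3 : finrank K (C →ₗ[K] ker β) =
        finrank K C * finrank K (ker β) := Module.finrank_linearMap _ _ _ _
    have h4 : finrank K C = finrank K (ker α) := by
      have e1 := Submodule.finrank_add_eq_of_isCompl hC
      have e2 := LinearMap.finrank_range_add_finrank_ker α
      omega
    have h5 := LinearMap.finrank_range_add_finrank_ker ρ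
    have hk : (resR α) ^ k = 0 := by
      ext v
      obtain ⟨w, hw⟩ := v.2
      rw [resR_pow_apply, ← hw]
      have := LinearMap.congr_fun hα w
      rw [pow_succ] at this
      exact this
    have h6 := ih (resR α) (resR β) hk
    have h7 : ∑ j ∈ Finset.range k, nn (resR α) j * nn (resR β) j =
        ∑ j ∈ Finset.range k, nn α (j + 1) * nn β (j + 1) :=
      Finset.sum_congr rfl (fun j _ => by rw [nn_resR, nn_resR])
    rw [h7] at h6
    have h8 : nn α 0 * nn β 0 = ((finrank K (ker α) * finrank K (ker β) : ℕ) : ℤ) := by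
      rw [nn_zero, nn_zero]; push_cast; ring
    rw [h8]
    have h9 : finrank K (Inter α β) ≤
        finrank K (Inter (resR α) (resR β)) + finrank K (ker α) * finrank K (ker β) := by
      rw [h3, h4] at h2
      omega
    have h10 : (finrank K (Inter α β) : ℤ) ≤
        finrank K (Inter (resR α) (resR β)) + ((finrank K (ker α) * finrank K (ker β) : ℕ) : ℤ) := by
      exact_mod_cast h9
    linarith

section Euler

variable {ι : Type*} [Fintype ι]
variable {P Q : Type*} [AddCommGroup P] [Module K P] [FiniteDimensional K P]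
    [AddCommGroup Q] [Module K Q] [FiniteDimensional K Q]

/-- joint intertwiners. -/
def InterAll (α : ι → Module.End K P) (β : ι → Module.End K Q) : Submodule K (P →ₗ[K] Q) :=
  ⨅ s, Inter (α s) (β s)

omit [Fintype ι] [FiniteDimensional K P] [FiniteDimensional K Q] in
theorem mem_InterAll {α : ι → Module.End K P} {β : ι → Module.End K Q} {x : P →ₗ[K] Q} :
    x ∈ InterAll α β ↔ ∀ s v, x (α s v) = β s (x v) := by
  simp only [InterAll, Submodule.mem_iInf, mem_Inter]

/-- Euler characteristic inequality from the vanishing of `H^1`. -/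
theorem euler_le (α : ι → Module.End K P) (β : ι → Module.End K Q)
    (H1 : ∀ x : ι → (P →ₗ[K] Q), ∑ s, (x s ∘ₗ α s - β s ∘ₗ x s) = 0 →
      ∃ y : P →ₗ[K] Q, ∀ s, x s - y ∈ Inter (α s) (β s)) :
    ((Fintype.card ι : ℤ) - 2) * finrank K P * finrank K Q + finrank K (InterAll α β) ≤
      ∑ s, (finrank K (Inter (α s) (β s)) : ℤ) := by
  let Ψ : (ι → (P →ₗ[K] Q)) →ₗ[K] (P →ₗ[K] Q) :=
    { toFun := fun x => ∑ s, (x s ∘ₗ α s - β s ∘ₗ x s)
      map_add' := by
        intro x y
        rw [← Finset.sum_add_distrib]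
        refine Finset.sum_congr rfl (fun s _ => ?_)
        rw [Pi.add_apply, LinearMap.add_comp, LinearMap.comp_add]
        abel
      map_smul' := by
        intro c x
        rw [RingHom.id_apply, Finset.smul_sum]
        refine Finset.sum_congr rfl (fun s _ => ?_)
        rw [Pi.smul_apply, LinearMap.smul_comp, LinearMap.comp_smul, smul_sub] }
  let Θ : ((P →ₗ[K] Q) × (∀ s, Inter (α s) (β s))) →ₗ[K] (ι → (P →ₗ[K] Q)) :=
    { toFun := fun z s => z.1 + (z.2 s : P →ₗ[K] Q)
      map_add' := by
        intro x y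
        funext s
        simp only [Prod.fst_add, Prod.snd_add, Pi.add_apply, Submodule.coe_add]
        abel
      map_smul' := by
        intro c x
        funext s
        simp only [Prod.smul_fst, Prod.smul_snd, Pi.smul_apply, Submodule.coe_smul,
          RingHom.id_apply, smul_add] }
  have hker : ker Ψ ≤ range Θ := by
    intro x hx
    obtain ⟨y, hy⟩ := H1 x (LinearMap.mem_ker.1 hx)
    refine ⟨(y, fun s => ⟨x s - y, hy s⟩), ?_⟩
    funext s
    change y + (x s - y) = x s
    abel
  have h1 : finrank K (ker Ψ) ≤ finrank K (range Θ) := Submodule.finrank_mono hker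
  have h2 := LinearMap.finrank_range_add_finrank_ker Ψ
  have h3 := LinearMap.finrank_range_add_finrank_ker Θ
  have h4 : finrank K (range Ψ) ≤ finrank K (P →ₗ[K] Q) := Submodule.finrank_le _
  have h5 : finrank K (ι → (P →ₗ[K] Q)) = Fintype.card ι * finrank K (P →ₗ[K] Q) := by
    rw [Module.finrank_pi_fintype]
    simp
  have h6 : finrank K ((P →ₗ[K] Q) × (∀ s, Inter (α s) (β s))) =
      finrank K (P →ₗ[K] Q) + ∑ s, finrank K (Inter (α s) (β s)) := by
    rw [Module.finrank_prod, Module.finrank_pi_fintype]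
  have h7 : finrank K (P →ₗ[K] Q) = finrank K P * finrank K Q := Module.finrank_linearMap _ _ _ _
  have h8 : finrank K (InterAll α β) ≤ finrank K (ker Θ) := by
    let κ : InterAll α β →ₗ[K] ker Θ :=
      { toFun := fun y => ⟨((y : P →ₗ[K] Q), fun s => ⟨-(y : P →ₗ[K] Q),
            neg_mem (mem_Inter.2 (fun v => mem_InterAll.1 y.2 s v))⟩), by
            rw [LinearMap.mem_ker]
            funext s
            change (y : P →ₗ[K] Q) + -(y : P →ₗ[K] Q) = 0
            abel⟩
        map_add' := by
          intro x y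
          apply Subtype.ext
          refine Prod.ext rfl ?_
          funext s
          apply Subtype.ext
          change -((x : P →ₗ[K] Q) + y) = -(x : P →ₗ[K] Q) + -(y : P →ₗ[K] Q)
          abel
        map_smul' := by
          intro c x
          apply Subtype.ext
          refine Prod.ext rfl ?_
          funext s
          apply Subtype.ext
          change -(c • (x : P →ₗ[K] Q)) = c • -(x : P →ₗ[K] Q)
          rw [smul_neg] }
    apply LinearMap.finrank_le_finrank_of_injective (f := κ)
    intro x y hxy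
    apply Subtype.ext
    exact congrArg (fun z => ((z : ker Θ) : (P →ₗ[K] Q) × (∀ s, Inter (α s) (β s))).1) hxy
  have h9 : (finrank K (ker Ψ) : ℤ) ≤ finrank K (range Θ) := by exact_mod_cast h1
  have h10 : (finrank K (range Ψ) : ℤ) + finrank K (ker Ψ) =
      Fintype.card ι * (finrank K P * finrank K Q) := by
    rw [h5, h7] at h2; exact_mod_cast h2
  have h11 : (finrank K (range Θ) : ℤ) + finrank K (ker Θ) =
      finrank K P * finrank K Q + ∑ s, (finrank K (Inter (α s) (β s)) : ℤ) := by
    rw [h6, h7] at h3; exact_mod_cast h3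
  have h12 : (finrank K (range Ψ) : ℤ) ≤ finrank K P * finrank K Q := by
    rw [h7] at h4; exact_mod_cast h4
  have h13 : (finrank K (InterAll α β) : ℤ) ≤ finrank K (ker Θ) := by exact_mod_cast h8
  nlinarith

/-- Abel summation. -/
theorem abel_sum (α : Module.End K P) (β : Module.End K Q) (k : ℕ) (hβ : β ^ k = 0) :
    ∑ j ∈ Finset.range k, nn α j * nn β j =
      nn α 0 * finrank K Q - ∑ j ∈ Finset.range k, (nn α j - nn α (j + 1)) * rk β (j + 1) := by
  have hk : ∀ k, ∑ j ∈ Finset.range k, nn α j * nn β j =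
      nn α 0 * finrank K Q - ∑ j ∈ Finset.range k, (nn α j - nn α (j + 1)) * rk β (j + 1)
        - nn α k * rk β k := by
    intro k
    induction k with
    | zero => simp [rk_zero]
    | succ k ih =>
      rw [Finset.sum_range_succ, ih, Finset.sum_range_succ]
      unfold nn
      ring
  have h0 : rk β k = 0 := by
    unfold rk
    rw [hβ, LinearMap.range_zero]
    simp
  rw [hk k, h0]
  simp

/-- The pair lemma: `H^1 = 0` and `∑ rk ≥ 2 dim P` force everything. -/
theorem pair_lemma (α : ι → Module.End K P) (β : ι → Module.End K Q)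
    (k : ℕ) (hα : ∀ s, α s ^ k = 0) (hβ : ∀ s, β s ^ k = 0)
    (H1 : ∀ x : ι → (P →ₗ[K] Q), ∑ s, (x s ∘ₗ α s - β s ∘ₗ x s) = 0 →
      ∃ y : P →ₗ[K] Q, ∀ s, x s - y ∈ Inter (α s) (β s))
    (hP : 2 * (finrank K P : ℤ) ≤ ∑ s, (rk (α s) 1 : ℤ)) :
    InterAll α β = ⊥ ∧
    (0 < finrank K Q → ∑ s, (rk (α s) 1 : ℤ) = 2 * finrank K P) ∧
    ∀ s j, rk (β s) (j + 1) ≠ 0 → nn (α s) j = nn (α s) (j + 1) := by
  have hE := euler_le α β H1
  have hU : ∀ s, (finrank K (Inter (α s) (β s)) : ℤ) ≤
      ((finrank K P : ℤ) - rk (α s) 1) * finrank K Q -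
        ∑ j ∈ Finset.range k, (nn (α s) j - nn (α s) (j + 1)) * rk (β s) (j + 1) := by
    intro s
    have h1 := finrank_Inter_le k (α s) (β s) (hα s)
    rw [abel_sum (α s) (β s) k (hβ s)] at h1
    have h2 : nn (α s) 0 = (finrank K P : ℤ) - rk (α s) 1 := by
      unfold nn; rw [rk_zero]
    rw [← h2]
    exact h1
  have hS : ∑ s, (finrank K (Inter (α s) (β s)) : ℤ) ≤
      ((Fintype.card ι : ℤ) * finrank K P - ∑ s, (rk (α s) 1 : ℤ)) * finrank K Q -
        ∑ s, ∑ j ∈ Finset.range k, (nn (α s) j - nn (α s) (j + 1)) * rk (β s) (j + 1) := by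
    calc ∑ s, (finrank K (Inter (α s) (β s)) : ℤ) ≤ ∑ s, (((finrank K P : ℤ) - rk (α s) 1) *
          finrank K Q -
          ∑ j ∈ Finset.range k, (nn (α s) j - nn (α s) (j + 1)) * rk (β s) (j + 1)) :=
          Finset.sum_le_sum (fun s _ => hU s)
      _ = _ := by
          rw [Finset.sum_sub_distrib, ← Finset.sum_mul, Finset.sum_sub_distrib]
          simp
  have hnn : ∀ s, ∀ j, 0 ≤ (nn (α s) j - nn (α s) (j + 1)) * (rk (β s) (j + 1) : ℤ) := by
    intro s j
    apply mul_nonneg
    · have := nn_succ_le (α s) j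
      linarith
    · positivity
  have hNN : 0 ≤ ∑ s, ∑ j ∈ Finset.range k,
      (nn (α s) j - nn (α s) (j + 1)) * (rk (β s) (j + 1) : ℤ) :=
    Finset.sum_nonneg (fun s _ => Finset.sum_nonneg (fun j _ => hnn s j))
  have hb : 0 ≤ (finrank K Q : ℤ) := by positivity
  have hh : 0 ≤ (finrank K (InterAll α β) : ℤ) := by positivity
  have hmul : 0 ≤ (∑ s, (rk (α s) 1 : ℤ) - 2 * finrank K P) * finrank K Q :=
    mul_nonneg (by linarith) hb
  have hkey : (finrank K (InterAll α β) : ℤ) + (∑ s, (rk (α s) 1 : ℤ) - 2 * finrank K P) *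
      finrank K Q + ∑ s, ∑ j ∈ Finset.range k,
      (nn (α s) j - nn (α s) (j + 1)) * (rk (β s) (j + 1) : ℤ) ≤ 0 := by
    nlinarith [hE, hS]
  refine ⟨?_, ?_, ?_⟩
  · have : finrank K (InterAll α β) = 0 := by
      have : (finrank K (InterAll α β) : ℤ) ≤ 0 := by linarith
      omega
    exact Submodule.finrank_eq_zero.1 this
  · intro hQ
    have h1 : (∑ s, (rk (α s) 1 : ℤ) - 2 * finrank K P) * finrank K Q = 0 := by linarith
    rcases mul_eq_zero.1 h1 with h | h
    · linarith
    · exfalso
      have : (finrank K Q : ℤ) ≠ 0 := by exact_mod_cast hQ.ne'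
      exact this h
  · intro s j hj
    have h0 : ∑ s, ∑ j ∈ Finset.range k,
        (nn (α s) j - nn (α s) (j + 1)) * (rk (β s) (j + 1) : ℤ) = 0 := by linarith
    have h1 := (Finset.sum_eq_zero_iff_of_nonneg
      (fun s _ => Finset.sum_nonneg (fun j _ => hnn s j))).1 h0 s (Finset.mem_univ s)
    have hjk : j < k := by
      by_contra hcon
      push Not at hcon
      apply hj
      unfold rk
      have : β s ^ (j + 1) = 0 := by
        obtain ⟨m, hm⟩ := Nat.exists_eq_add_of_le (hcon.trans (Nat.le_succ j))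
        rw [← Nat.succ_eq_add_one, hm, pow_add, hβ s, zero_mul]
      rw [this, LinearMap.range_zero]
      simp
    have h2 := (Finset.sum_eq_zero_iff_of_nonneg (fun j _ => hnn s j)).1 h1 j
      (Finset.mem_range.2 hjk)
    rcases mul_eq_zero.1 h2 with h | h
    · linarith
    · exfalso
      exact hj (by exact_mod_cast h)

end Euler

end Crest.Agent.R172.Core
end

-- ▼ part R172/Core2

/-!
Row 172, structure lemma (S) of note 12992, part 2: `H^1 = 0` from the derivation hypothesis,
and the alternative for a core.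
-/

namespace Crest.Agent.R172.Core

open Module LinearMap

variable {K : Type*} [Field K] {V : Type*} [AddCommGroup V] [Module K V]

/-- `B` is symmetric and nondegenerate (elementary form). -/
structure NS (B : LinearMap.BilinForm K V) : Prop where
  symm : ∀ v w, B v w = B w v
  nd : ∀ v, (∀ w, B v w = 0) → v = 0

theorem NS.nondeg {B : LinearMap.BilinForm K V} (h : NS B) : B.Nondegenerate := by
  refine ⟨fun v hv => h.nd v hv, fun v hv => h.nd v (fun w => ?_)⟩
  rw [h.symm]; exact hv w


theorem NS.isRefl {B : LinearMap.BilinForm K V} (h : NS B) : B.IsRefl :=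
  fun v w hvw => by rw [h.symm]; exact hvw

theorem NS.oo [FiniteDimensional K V] {B : LinearMap.BilinForm K V} (h : NS B)
    (W : Submodule K V) : B.orthogonal (B.orthogonal W) = W :=
  LinearMap.BilinForm.orthogonal_orthogonal h.nondeg h.isRefl W

/-- The derivation hypothesis (0) of note 12992, coordinate free. -/
def Der {ι : Type*} [Fintype ι] (B : LinearMap.BilinForm K V) (Φ : ι → Module.End K V) : Prop :=
  ∀ X : ι → Module.End K V, (∀ s v w, B (X s v) w = - B v (X s w)) →
    ∑ s, (X s * Φ s - Φ s * X s) = 0 →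
    ∃ (d : Derivation ℤ K K) (δ : V →+ V), (∀ (c : K) v, δ (c • v) = d c • v + c • δ v) ∧
      (∀ v w, B (δ v) w + B v (δ w) = d (B v w)) ∧
      ∀ s v, δ (Φ s v) - Φ s (δ v) = X s (Φ s v) - Φ s (X s v)

section H1

variable {ι : Type*} [Fintype ι] [FiniteDimensional K V]

/-- Step (3) of note 12992: `H^1 = 0` for a pair of blocks `P, Q`. -/
theorem H1_of_Der {B : LinearMap.BilinForm K V} (hB : NS B) {Φ : ι → Module.End K V}
    (hΦ : ∀ s v w, B (Φ s v) w = B v (Φ s w)) (hDer : Der B Φ)
    {D : Module.End K V} (hDΦ : ∀ s v, D (Φ s v) = Φ s (D v))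
    {P P' Q Q' : Submodule K V} (hP : IsCompl P P') (hQ : IsCompl Q Q')
    (hPQ : ∀ v ∈ P, ∀ w ∈ Q, B v w = 0)
    (hΦP : ∀ s, ∀ v ∈ P, Φ s v ∈ P) (hΦP' : ∀ s, ∀ v ∈ P', Φ s v ∈ P')
    (hΦQ : ∀ s, ∀ v ∈ Q, Φ s v ∈ Q) (hΦQ' : ∀ s, ∀ v ∈ Q', Φ s v ∈ Q')
    (hDP : ∀ v ∈ P, D v ∈ P) (hDQ : ∀ v ∈ Q, D v ∈ Q)
    (hτ : ∀ x : P →ₗ[K] Q, x ∘ₗ D.restrict hDP = D.restrict hDQ ∘ₗ x → x = 0)
    (x : ι → (P →ₗ[K] Q))
    (hx : ∑ s, (x s ∘ₗ (Φ s).restrict (hΦP s) - (Φ s).restrict (hΦQ s) ∘ₗ x s) = 0) :
    ∃ y : P →ₗ[K] Q, ∀ s, x s - y ∈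
      Inter ((Φ s).restrict (hΦP s)) ((Φ s).restrict (hΦQ s)) := by
  classical
  set πP := P.projectionOnto P' hP with hπP
  set πQ := Q.projectionOnto Q' hQ with hπQ
  have hπPΦ : ∀ s v, πP (Φ s v) = (Φ s).restrict (hΦP s) (πP v) := by
    intro s v
    have hv : v ∈ P ⊔ P' := by rw [hP.sup_eq_top]; trivial
    obtain ⟨a, ha, b, hb, rfl⟩ := Submodule.mem_sup.1 hv
    rw [map_add, map_add, map_add,
      Submodule.projectionOnto_apply_of_mem_left hP ha,
      Submodule.projectionOnto_apply_of_mem_left hP (hΦP s a ha),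
      (Submodule.projectionOnto_apply_eq_zero_iff hP).2 hb,
      (Submodule.projectionOnto_apply_eq_zero_iff hP).2 (hΦP' s b hb), add_zero, add_zero]
    rfl
  have hπQΦ : ∀ s v, πQ (Φ s v) = (Φ s).restrict (hΦQ s) (πQ v) := by
    intro s v
    have hv : v ∈ Q ⊔ Q' := by rw [hQ.sup_eq_top]; trivial
    obtain ⟨a, ha, b, hb, rfl⟩ := Submodule.mem_sup.1 hv
    rw [map_add, map_add, map_add,
      Submodule.projectionOnto_apply_of_mem_left hQ ha,
      Submodule.projectionOnto_apply_of_mem_left hQ (hΦQ s a ha),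
      (Submodule.projectionOnto_apply_eq_zero_iff hQ).2 hb,
      (Submodule.projectionOnto_apply_eq_zero_iff hQ).2 (hΦQ' s b hb), add_zero, add_zero]
    rfl
  -- the operators `X_s`
  set X : ι → Module.End K V := fun s => Q.subtype ∘ₗ x s ∘ₗ πP with hX
  have hXa : ∀ s v, X s v = ((x s (πP v) : Q) : V) := fun s v => rfl
  set Xt : ι → Module.End K V := fun s => B.leftAdjointOfNondegenerate hB.nondeg (X s) with hXt
  have hadj : ∀ s v w, B (Xt s v) w = B v (X s w) := fun s v w =>
    LinearMap.BilinForm.isAdjointPairLeftAdjointOfNondegenerate B hB.nondeg (X s) v w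
  have hXtP : ∀ s, ∀ v ∈ P, Xt s v = 0 := by
    intro s v hv
    apply hB.nd
    intro w
    rw [hadj, hXa]
    exact hPQ v hv _ (x s (πP w)).2
  have hXsum : ∀ v, ∑ s, (X s (Φ s v) - Φ s (X s v)) = 0 := by
    intro v
    have h := LinearMap.congr_fun hx (πP v)
    rw [LinearMap.sum_apply] at h
    have h' := congrArg (Q.subtype) h
    rw [map_sum, LinearMap.zero_apply, map_zero] at h'
    rw [← h']
    refine Finset.sum_congr rfl (fun s _ => ?_)
    rw [hXa, hXa, hπPΦ]
    rfl
  set ξ : ι → Module.End K V := fun s => X s - Xt s with hξ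
  have hξa : ∀ s v, ξ s v = X s v - Xt s v := fun s v => rfl
  have hskew : ∀ s v w, B (ξ s v) w = - B v (ξ s w) := by
    intro s v w
    rw [hξa, hξa, map_sub, LinearMap.sub_apply, map_sub, hadj, hB.symm v (Xt s w), hadj,
      hB.symm w (X s v)]
    ring
  have hsum : ∑ s, (ξ s * Φ s - Φ s * ξ s) = 0 := by
    ext v
    rw [LinearMap.sum_apply]
    change ∑ s, (ξ s (Φ s v) - Φ s (ξ s v)) = 0
    apply hB.nd
    intro w
    have h1 : ∀ s, B (ξ s (Φ s v) - Φ s (ξ s v)) w =
        B (X s (Φ s v) - Φ s (X s v)) w + B v (X s (Φ s w) - Φ s (X s w)) := by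
      intro s
      have e1 : B (Xt s (Φ s v)) w = B v (Φ s (X s w)) := by rw [hadj, hΦ]
      have e2 : B (Φ s (Xt s v)) w = B v (X s (Φ s w)) := by rw [hΦ, hadj]
      have e3 : B (ξ s (Φ s v)) w = B (X s (Φ s v)) w - B v (Φ s (X s w)) := by
        rw [hξa, map_sub, LinearMap.sub_apply, e1]
      have e4 : B (Φ s (ξ s v)) w = B (Φ s (X s v)) w - B v (X s (Φ s w)) := by
        rw [hξa, map_sub, map_sub, LinearMap.sub_apply, e2]
      rw [map_sub, LinearMap.sub_apply, e3, e4, map_sub, LinearMap.sub_apply, map_sub]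
      ring
    rw [map_sum, LinearMap.sum_apply, Finset.sum_congr rfl (fun s _ => h1 s),
      Finset.sum_add_distrib, ← LinearMap.sum_apply, ← map_sum, hXsum v, ← map_sum, hXsum w]
    simp
  obtain ⟨d, δ, hδs, -, hδΦ⟩ := hDer ξ hskew hsum
  -- the block component of `[δ, D]`
  let z : P →ₗ[K] Q :=
    { toFun := fun v => πQ (δ (D v) - D (δ v))
      map_add' := by
        intro v w
        rw [← map_add]
        congr 1
        simp only [Submodule.coe_add, map_add]
        abel
      map_smul' := by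
        intro c v
        rw [RingHom.id_apply, ← map_smul]
        congr 1
        simp only [Submodule.coe_smul, map_smul, hδs, map_add, smul_sub]
        abel }
  have hza : ∀ v : P, z v = πQ (δ (D v) - D (δ v)) := fun v => rfl
  let τ : (P →ₗ[K] Q) →ₗ[K] (P →ₗ[K] Q) :=
    { toFun := fun x => D.restrict hDQ ∘ₗ x - x ∘ₗ D.restrict hDP
      map_add' := by
        intro x y
        rw [LinearMap.comp_add, LinearMap.add_comp]; abel
      map_smul' := by
        intro c x
        rw [LinearMap.comp_smul, LinearMap.smul_comp, RingHom.id_apply, smul_sub] }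
  have hτa : ∀ x, τ x = D.restrict hDQ ∘ₗ x - x ∘ₗ D.restrict hDP := fun x => rfl
  have hτinj : Function.Injective τ := by
    rw [injective_iff_map_eq_zero]
    intro x hx
    exact hτ x (sub_eq_zero.1 hx).symm
  obtain ⟨y, hy⟩ := LinearMap.injective_iff_surjective.1 hτinj (-z)
  refine ⟨y, fun s => ?_⟩
  set u : P →ₗ[K] Q := x s - y with hu
  -- `τ u` is an intertwiner
  have hτu : ∀ v : P, τ u ((Φ s).restrict (hΦP s) v) = (Φ s).restrict (hΦQ s) (τ u v) := by
    have hW : ∀ v : P, τ u v = πQ (δ (D v) - D (δ v) + (D (ξ s v) - ξ s (D v))) := by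
      intro v
      have h1 : τ u v = z v + (D.restrict hDQ (x s v) - x s (D.restrict hDP v)) := by
        rw [hu, map_sub, hy, sub_neg_eq_add, hτa, add_comm]
        rfl
      have hξP : ∀ w : P, ξ s (w : V) = ((x s w : Q) : V) := by
        intro w
        rw [hξa, hXtP s w w.2, sub_zero, hXa, Submodule.projectionOnto_apply_left hP w]
      have h2 : D (ξ s (v : V)) = ((D.restrict hDQ (x s v) : Q) : V) := by
        rw [hξP v]; rfl
      have h3 : ξ s (D (v : V)) = ((x s (D.restrict hDP v) : Q) : V) := hξP (D.restrict hDP v)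
      rw [h1, hza, map_add]
      congr 1
      rw [h2, h3, ← Submodule.coe_sub]
      exact (Submodule.projectionOnto_apply_left hQ _).symm
    have hcomm : ∀ v : V, δ (D (Φ s v)) - D (δ (Φ s v)) + (D (ξ s (Φ s v)) - ξ s (D (Φ s v))) =
        Φ s (δ (D v) - D (δ v) + (D (ξ s v) - ξ s (D v))) := by
      intro v
      have e1 : δ (Φ s (D v)) = Φ s (δ (D v)) + ξ s (Φ s (D v)) - Φ s (ξ s (D v)) := by
        have := hδΦ s (D v)
        rw [sub_eq_iff_eq_add] at this
        rw [this]; abel
      have e2 : δ (Φ s v) = Φ s (δ v) + ξ s (Φ s v) - Φ s (ξ s v) := by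
        have := hδΦ s v
        rw [sub_eq_iff_eq_add] at this
        rw [this]; abel
      rw [hDΦ s v, e1, e2]
      simp only [map_add, map_sub, hDΦ]
      abel
    intro v
    rw [hW, hW]
    have h4 : (((Φ s).restrict (hΦP s) v : P) : V) = Φ s (v : V) := rfl
    rw [h4, hcomm, hπQΦ]
  -- hence `u` is an intertwiner
  have hc : u ∘ₗ (Φ s).restrict (hΦP s) - (Φ s).restrict (hΦQ s) ∘ₗ u = 0 := by
    apply hτinj
    rw [map_zero]
    apply LinearMap.ext
    intro v
    apply Subtype.ext
    have h5 : D ((u ((Φ s).restrict (hΦP s) v) : Q) : V) -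
        ((u (D.restrict hDP ((Φ s).restrict (hΦP s) v)) : Q) : V) =
        Φ s (D ((u v : Q) : V) - ((u (D.restrict hDP v) : Q) : V)) :=
      congrArg Subtype.val (hτu v)
    have hPD : D.restrict hDP ((Φ s).restrict (hΦP s) v) =
        (Φ s).restrict (hΦP s) (D.restrict hDP v) := Subtype.ext (hDΦ s v)
    rw [hPD, map_sub, ← hDΦ] at h5
    change D ((u ((Φ s).restrict (hΦP s) v) : Q) - Φ s (u v : Q) : V) -
      (((u ((Φ s).restrict (hΦP s) (D.restrict hDP v)) : Q) : V) -
        Φ s (u (D.restrict hDP v) : Q)) = 0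
    rw [map_sub, ← sub_eq_zero.2 h5]
    abel
  rw [mem_Inter]
  intro v
  have := LinearMap.congr_fun hc v
  exact sub_eq_zero.1 this

end H1

section Num

variable {P Q : Type*} [AddCommGroup P] [Module K P] [FiniteDimensional K P]
    [AddCommGroup Q] [Module K Q] [FiniteDimensional K Q]

theorem rk_antitone (α : Module.End K P) : Antitone (rk α) :=
  antitone_nat_of_succ_le (rk_succ_le α)

theorem rk_eq_zero_iff (α : Module.End K P) (j : ℕ) : rk α j = 0 ↔ α ^ j = 0 := by
  unfold rk
  rw [Submodule.finrank_eq_zero, LinearMap.range_eq_bot]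

/-- Auxiliary: all `nn α i` are equal below the index of `β`. -/
theorem nn_const {α : Module.End K P} {β : Module.End K Q}
    (h1 : ∀ j, rk β (j + 1) ≠ 0 → nn α j = nn α (j + 1)) (j : ℕ) (hj : β ^ j ≠ 0) :
    nn α j = nn α 0 := by
  induction j with
  | zero => rfl
  | succ j ih =>
    have hj' : β ^ j ≠ 0 := by
      intro h
      apply hj
      rw [pow_succ, h, zero_mul]
    rw [← h1 j (fun h => hj ((rk_eq_zero_iff β (j + 1)).1 h)), ih hj']

theorem nn_zero_pos {α : Module.End K P} {k : ℕ} (hα : α ^ k = 0) (hP : 0 < finrank K P) :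
    0 < nn α 0 := by
  rw [nn_zero]
  have : LinearMap.ker α ≠ ⊥ := by
    intro h
    have hinj : Function.Injective α := LinearMap.ker_eq_bot.1 h
    have hinj' : Function.Injective (α ^ k) := by
      rw [Module.End.coe_pow]
      exact hinj.iterate k
    rw [hα] at hinj'
    have : Nontrivial P := Module.nontrivial_of_finrank_pos hP
    obtain ⟨v, hv⟩ := exists_ne (0 : P)
    exact hv (hinj' (by simp))
  have h2 : 0 < finrank K (LinearMap.ker α) := by
    rw [Nat.pos_iff_ne_zero]
    intro h
    exact this (Submodule.finrank_eq_zero.1 h)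
  exact_mod_cast h2

theorem pow_eq_zero_of_pair {α : Module.End K P} {β : Module.End K Q} {k : ℕ}
    (hα : α ^ k = 0) (hP : 0 < finrank K P)
    (h1 : ∀ j, rk β (j + 1) ≠ 0 → nn α j = nn α (j + 1)) (j : ℕ) (hj : α ^ j = 0) :
    β ^ j = 0 := by
  by_contra hcon
  have h2 := nn_const h1 j hcon
  have h3 := nn_zero_pos hα hP
  have h4 : rk α j = 0 := (rk_eq_zero_iff α j).2 hj
  have h5 : nn α j ≤ 0 := by
    unfold nn
    rw [h4]
    have : (0 : ℤ) ≤ rk α (j + 1) := by positivity
    push_cast
    linarith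
  linarith

theorem free_aux {α : Module.End K P} (l : ℕ) (hl : ∀ j < l, nn α j = nn α 0) (j : ℕ)
    (hj : j ≤ l) : (rk α j : ℤ) = finrank K P - j * nn α 0 := by
  induction j with
  | zero => simp [rk_zero]
  | succ j ih =>
    have h1 := hl j (by omega)
    have h2 := ih (by omega)
    unfold nn at h1 h2 ⊢
    push_cast
    linarith

/-- Two blocks related by the pair lemma in both directions: same index, both free. -/
theorem free_of_pair {α : Module.End K P} {β : Module.End K Q} {k : ℕ}
    (hα : α ^ k = 0) (hβ : β ^ k = 0) (hP : 0 < finrank K P) (hQ : 0 < finrank K Q)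
    (h1 : ∀ j, rk β (j + 1) ≠ 0 → nn α j = nn α (j + 1))
    (h2 : ∀ j, rk α (j + 1) ≠ 0 → nn β j = nn β (j + 1)) :
    ∃ l, 1 ≤ l ∧ (∀ j, α ^ j = 0 ↔ l ≤ j) ∧ (∀ j, β ^ j = 0 ↔ l ≤ j) ∧
      l * finrank K (LinearMap.ker α) = finrank K P ∧
      l * finrank K (LinearMap.ker β) = finrank K Q := by
  classical
  have hex : ∃ j, α ^ j = 0 := ⟨k, hα⟩
  refine ⟨Nat.find hex, ?_, ?_, ?_, ?_, ?_⟩
  · rw [Nat.one_le_iff_ne_zero]
    intro h
    have h0 : α ^ 0 = 0 := by
      have := Nat.find_spec hex
      rwa [h] at this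
    have : Nontrivial P := Module.nontrivial_of_finrank_pos hP
    obtain ⟨v, hv⟩ := exists_ne (0 : P)
    apply hv
    have := LinearMap.congr_fun h0 v
    simpa using this
  · intro j
    constructor
    · intro h; exact Nat.find_min' hex h
    · intro h
      obtain ⟨m, rfl⟩ := Nat.exists_eq_add_of_le h
      rw [pow_add, Nat.find_spec hex, zero_mul]
  · intro j
    constructor
    · intro h
      exact Nat.find_min' hex (pow_eq_zero_of_pair hβ hQ h2 j h)
    · intro h
      obtain ⟨m, rfl⟩ := Nat.exists_eq_add_of_le h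
      rw [pow_add, pow_eq_zero_of_pair hα hP h1 _ (Nat.find_spec hex), zero_mul]
  · have h3 : ∀ j < Nat.find hex, nn α j = nn α 0 := by
      intro j hj
      apply nn_const h1 j
      intro h
      have := pow_eq_zero_of_pair hβ hQ h2 j h
      exact absurd (Nat.find_min' hex this) (by omega)
    have h4 := free_aux (Nat.find hex) h3 (Nat.find hex) le_rfl
    rw [(rk_eq_zero_iff α _).2 (Nat.find_spec hex), nn_zero] at h4
    have h5 : ((Nat.find hex * finrank K (LinearMap.ker α) : ℕ) : ℤ) = finrank K P := by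
      push_cast at h4 ⊢
      linarith
    exact_mod_cast h5
  · have h3 : ∀ j < Nat.find hex, nn β j = nn β 0 := by
      intro j hj
      apply nn_const h2 j
      intro h
      exact absurd (Nat.find_min' hex h) (by omega)
    have h4 := free_aux (Nat.find hex) h3 (Nat.find hex) le_rfl
    rw [(rk_eq_zero_iff β _).2 (pow_eq_zero_of_pair hα hP h1 _ (Nat.find_spec hex)), nn_zero] at h4
    have h5 : ((Nat.find hex * finrank K (LinearMap.ker β) : ℕ) : ℤ) = finrank K Q := by
      push_cast at h4 ⊢
      linarith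
    exact_mod_cast h5

end Num

section Core

variable {ι : Type*} [Fintype ι] [FiniteDimensional K V]

omit [Fintype ι] in
theorem iSup_range_eq_top {B : LinearMap.BilinForm K V} (hB : NS B) {Φ : ι → Module.End K V}
    (hΦ : ∀ s v w, B (Φ s v) w = B v (Φ s w)) (hker : ∀ v, (∀ s, Φ s v = 0) → v = 0) :
    ⨆ s, LinearMap.range (Φ s) = ⊤ := by
  have h1 : B.orthogonal (⨆ s, LinearMap.range (Φ s)) = ⊥ := by
    rw [eq_bot_iff]
    intro v hv
    rw [Submodule.mem_bot]
    apply hker
    intro s
    apply hB.nd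
    intro w
    rw [hΦ, hB.symm]
    exact hv _ (Submodule.mem_iSup_of_mem s ⟨w, rfl⟩)
  rw [← hB.oo (⨆ s, LinearMap.range (Φ s)), h1, LinearMap.BilinForm.orthogonal_bot]

/-- For a stable direct summand of a core, `∑ rk ≥ 2 dim`. -/
theorem two_le_sum_rk {Φ : ι → Module.End K V}
    (hsum : ∀ v, ∑ s, Φ s v = 0) (hker : ∀ v, (∀ s, Φ s v = 0) → v = 0)
    (htop : ⨆ s, LinearMap.range (Φ s) = ⊤)
    {P P' : Submodule K V} (hP : IsCompl P P')
    (hΦP : ∀ s, ∀ v ∈ P, Φ s v ∈ P) (hΦP' : ∀ s, ∀ v ∈ P', Φ s v ∈ P') :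
    2 * (finrank K P : ℤ) ≤ ∑ s, (rk ((Φ s).restrict (hΦP s)) 1 : ℤ) := by
  classical
  set α : ι → Module.End K P := fun s => (Φ s).restrict (hΦP s) with hα
  let a : P →ₗ[K] (∀ s, LinearMap.range (α s)) := LinearMap.pi (fun s => (α s).rangeRestrict)
  let b : (∀ s, LinearMap.range (α s)) →ₗ[K] P :=
    ∑ s, (LinearMap.range (α s)).subtype ∘ₗ LinearMap.proj s
  have ha : Function.Injective a := by
    rw [injective_iff_map_eq_zero]
    intro v hv
    apply Subtype.ext
    apply hker
    intro s
    have h := congrFun hv s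
    have h' := congrArg (fun z : LinearMap.range (α s) => ((z : P) : V)) h
    exact h'
  have hba : ∀ v, b (a v) = 0 := by
    intro v
    apply Subtype.ext
    have h1 : b (a v) = ∑ s, α s v := by
      change (∑ s, (LinearMap.range (α s)).subtype ∘ₗ LinearMap.proj s) (a v) = _
      rw [LinearMap.sum_apply]
      rfl
    rw [h1, Submodule.coe_sum]
    exact hsum v
  have hb : Function.Surjective b := by
    intro v
    have hv : (v : V) ∈ ⨆ s, LinearMap.range (Φ s) := by rw [htop]; trivial
    obtain ⟨f, hf⟩ := (Submodule.mem_iSup_finset_iff_exists_sum (s := Finset.univ)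
      (fun s => LinearMap.range (Φ s)) (v : V)).1 (by simpa using hv)
    have hu : ∀ s, ∃ u, Φ s u = (f s : V) := fun s => (f s).2
    choose u hu using hu
    refine ⟨fun s => ⟨α s (P.projectionOnto P' hP (u s)), ⟨_, rfl⟩⟩, ?_⟩
    have hπ : ∀ s w, P.projectionOnto P' hP (Φ s w) = α s (P.projectionOnto P' hP w) := by
      intro s w
      have hw : w ∈ P ⊔ P' := by rw [hP.sup_eq_top]; trivial
      obtain ⟨x, hx, y, hy, rfl⟩ := Submodule.mem_sup.1 hw
      rw [map_add, map_add, map_add,
        Submodule.projectionOnto_apply_of_mem_left hP hx,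
        Submodule.projectionOnto_apply_of_mem_left hP (hΦP s x hx),
        (Submodule.projectionOnto_apply_eq_zero_iff hP).2 hy,
        (Submodule.projectionOnto_apply_eq_zero_iff hP).2 (hΦP' s y hy), add_zero, add_zero]
      rfl
    have h1 : b (fun s => ⟨α s (P.projectionOnto P' hP (u s)), ⟨_, rfl⟩⟩) =
        ∑ s, α s (P.projectionOnto P' hP (u s)) := by
      change (∑ s, (LinearMap.range (α s)).subtype ∘ₗ LinearMap.proj s) _ = _
      rw [LinearMap.sum_apply]
      rfl
    rw [h1]
    have h2 : ∑ s, α s (P.projectionOnto P' hP (u s)) =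
        P.projectionOnto P' hP (∑ s, Φ s (u s)) := by
      rw [map_sum]
      exact Finset.sum_congr rfl (fun s _ => (hπ s (u s)).symm)
    rw [h2]
    have h3 : ∑ s, Φ s (u s) = (v : V) := by
      rw [← hf]
      exact Finset.sum_congr rfl (fun s _ => hu s)
    rw [h3]
    exact Submodule.projectionOnto_apply_left hP v
  have h1 := LinearMap.finrank_range_add_finrank_ker b
  have h2 : LinearMap.range a ≤ LinearMap.ker b := by
    rintro _ ⟨v, rfl⟩
    exact LinearMap.mem_ker.2 (hba v)
  have h3 : finrank K P = finrank K (LinearMap.range a) :=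
    (LinearMap.finrank_range_of_inj ha).symm
  have h4 := Submodule.finrank_mono h2
  have h5 : finrank K (LinearMap.range b) = finrank K P := by
    rw [LinearMap.range_eq_top.2 hb, finrank_top]
  have h6 : finrank K (∀ s, LinearMap.range (α s)) = ∑ s, rk (α s) 1 := by
    rw [Module.finrank_pi_fintype]
    refine Finset.sum_congr rfl (fun s _ => ?_)
    unfold rk
    rw [pow_one]
  have h7 : 2 * finrank K P ≤ ∑ s, rk (α s) 1 := by omega
  exact_mod_cast h7

end Core

end Crest.Agent.R172.Core
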