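import Crest.Agent.R172.TL1

/-!
Row 172, TAME, `R ≠ 0` (note 15129 of helper494, steps (2), (3), (4), (6)): linear algebra of the
defect.

* `def_mem`: if `ι (x, c x) ∈ T` for infinitely many `c` and all `x` with `x φ₁ = c φ₂ x`, then
  `ι (Y, S) ∈ T` for every filtered `Y` and EVERY `S` with `φ₂ S = Y φ₁`.
* `def_mem2`: the same for products through a second block.
* `ker_eq`: `ker π = ∑ₛ bₛ (ker Φₛ)`.
* `exists_shift`: the shifts `Sₛ` of a map filtered at every arm can be chosen with `∑ bₛ Sₛ = 0`.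
-/

set_option autoImplicit false

namespace Crest.Agent.R172.Def

open Module LinearMap Crest.Agent.R172.TL

variable {K : Type*} [Field K]
variable {C₁ C₂ C₃ : Type*} [AddCommGroup C₁] [Module K C₁] [AddCommGroup C₂] [Module K C₂]
  [AddCommGroup C₃] [Module K C₃]

section one

variable {φ₁ : End K C₁} {φ₂ : End K C₂} {l : ℕ}



/-- twisted intertwiner with prescribed values on the generators -/
noncomputable def tw {m₁ : ℕ} (b₁ : Basis (Fin l × Fin m₁) K C₁) (c : K) (ψ : End K C₃)
    (g : Fin m₁ → C₃) : C₁ →ₗ[K] C₃ :=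
  b₁.constr K fun p => c ^ (p.1 : ℕ) • (ψ ^ (p.1 : ℕ)) (g p.2)





end one

section arms

variable {κ : Type*} [Fintype κ]
variable {M P M₁ : Type*} [AddCommGroup M] [Module K M] [AddCommGroup P] [Module K P]
  [AddCommGroup M₁] [Module K M₁]

/-- lifting a linear map through another one -/
theorem exists_lift {A B' D : Type*} [AddCommGroup A] [Module K A] [AddCommGroup B'] [Module K B']
    [AddCommGroup D] [Module K D] (g : B' →ₗ[K] D) (f : A →ₗ[K] D)
    (h : ∀ x, f x ∈ range g) : ∃ S : A →ₗ[K] B', g ∘ₗ S = f := by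
  obtain ⟨S, hS⟩ := Module.projective_lifting_property g.rangeRestrict
    (f.codRestrict (range g) h) g.surjective_rangeRestrict
  refine ⟨S, ?_⟩
  ext x
  have := congrArg Subtype.val (LinearMap.congr_fun hS x)
  simpa using this

/-- **`ker π = ∑ₛ bₛ (ker Φₛ)`**: `Φₛ = π bₛ`, `∑ bₛ = 0`, the `bₛ` span `P`, `π` surjective,
`⋂ ker Φₛ = 0` and `∑ dim ker Φₛ = (|κ| - 2) dim M`. -/
theorem ker_eq [FiniteDimensional K M] (b : κ → M →ₗ[K] P) (π : P →ₗ[K] M)
    (hsum : ∑ s, b s = 0) (hspan : ⨆ s, range (b s) = ⊤) (hπ : range π = ⊤)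
    (hker : ∀ m : M, (∀ s, π (b s m) = 0) → m = 0)
    (hdim : ∑ s, finrank K (ker (π ∘ₗ b s)) + 2 * finrank K M = Fintype.card κ * finrank K M)
    (r : P) (hr : π r = 0) :
    ∃ k : κ → M, (∀ s, π (b s (k s)) = 0) ∧ r = ∑ s, b s (k s) := by
  classical
  -- the sum map
  let β : (κ → M) →ₗ[K] P := ∑ s, b s ∘ₗ LinearMap.proj s
  have hβ : ∀ m, β m = ∑ s, b s (m s) := by
    intro m
    simp [β, LinearMap.sum_apply]
  have hβs : range β = ⊤ := by
    rw [eq_top_iff, ← hspan]
    refine iSup_le fun s => ?_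
    rintro _ ⟨m, rfl⟩
    refine ⟨Pi.single s m, ?_⟩
    rw [hβ, Finset.sum_eq_single s]
    · rw [Pi.single_eq_same]
    · intro t _ ht
      rw [Pi.single_eq_of_ne ht, map_zero]
    · intro hh
      exact absurd (Finset.mem_univ _) hh
  let Z : Submodule K (κ → M) := ker (π ∘ₗ β)
  let Dg : M →ₗ[K] (κ → M) := LinearMap.pi fun _ => LinearMap.id
  let Kk : Submodule K (κ → M) := Submodule.pi Set.univ fun s => ker (π ∘ₗ b s)
  have hDg : range Dg ≤ Z := by
    rintro _ ⟨m, rfl⟩
    change π (β (Dg m)) = 0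
    rw [hβ]
    have : ∑ s, b s (Dg m s) = (∑ s, b s) m := by
      rw [LinearMap.sum_apply]
      rfl
    rw [this, hsum, LinearMap.zero_apply, map_zero]
  have hKk : Kk ≤ Z := by
    intro m hm
    change π (β m) = 0
    rw [hβ, map_sum]
    exact Finset.sum_eq_zero fun s _ => (Submodule.mem_pi.1 hm) s (Set.mem_univ s)
  have hdisj : range Dg ⊓ Kk = ⊥ := by
    rw [eq_bot_iff]
    rintro _ ⟨⟨m, rfl⟩, hm⟩
    have h0 : m = 0 := hker m fun s => (Submodule.mem_pi.1 hm) s (Set.mem_univ s)
    rw [h0, map_zero]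
    exact Submodule.zero_mem _
  have hdDg : finrank K (range Dg) ≥ finrank K M ∨ IsEmpty κ := by
    rcases isEmpty_or_nonempty κ with h | h
    · exact Or.inr h
    · left
      have hinj : Function.Injective Dg := by
        intro m m' hh
        obtain ⟨s⟩ := h
        exact congrFun hh s
      exact le_of_eq (LinearMap.finrank_range_of_inj hinj).symm
  have hdK : finrank K Kk = ∑ s, finrank K (ker (π ∘ₗ b s)) := by
    let j : (∀ s, ker (π ∘ₗ b s)) →ₗ[K] (κ → M) :=
      LinearMap.pi fun s => (ker (π ∘ₗ b s)).subtype ∘ₗ LinearMap.proj s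
    have hj : Function.Injective j := by
      intro k k' hh
      funext s
      exact Subtype.ext (congrFun hh s)
    have hr : range j = Kk := by
      ext m
      constructor
      · rintro ⟨k, rfl⟩
        exact Submodule.mem_pi.2 fun s _ => (k s).2
      · intro hm
        exact ⟨fun s => ⟨m s, (Submodule.mem_pi.1 hm) s (Set.mem_univ s)⟩, rfl⟩
    rw [← hr, LinearMap.finrank_range_of_inj hj, Module.finrank_pi_fintype]
  have hdZ : finrank K Z + finrank K M = Fintype.card κ * finrank K M := by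
    have h1 := LinearMap.finrank_range_add_finrank_ker (π ∘ₗ β)
    have h2 : range (π ∘ₗ β) = ⊤ := by
      rw [LinearMap.range_comp, hβs, Submodule.map_top, hπ]
    rw [h2, finrank_top, Module.finrank_pi_fintype] at h1
    simp only [Finset.sum_const, Finset.card_univ, smul_eq_mul] at h1
    change finrank K M + finrank K Z = _ at h1
    omega
  have hZ : Z ≤ range Dg ⊔ Kk := by
    rcases hdDg with h | h
    · have h3 := Submodule.finrank_sup_add_finrank_inf_eq (range Dg) Kk
      rw [hdisj, finrank_bot, hdK] at h3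
      have h4 : range Dg ⊔ Kk = Z := by
        refine Submodule.eq_of_le_of_finrank_le (sup_le hDg hKk) ?_
        omega
      rw [h4]
    · intro m _
      have : m = 0 := funext fun s => (h.false s).elim
      rw [this]
      exact Submodule.zero_mem _
  obtain ⟨m, hm⟩ : r ∈ range β := by
    rw [hβs]
    exact Submodule.mem_top
  have hmZ : m ∈ Z := by
    change π (β m) = 0
    rw [hm, hr]
  obtain ⟨d, ⟨u, rfl⟩, k, hk, hdk⟩ := Submodule.mem_sup.1 (hZ hmZ)
  refine ⟨k, fun s => (Submodule.mem_pi.1 hk) s (Set.mem_univ s), ?_⟩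
  have h7 : β (Dg u) = 0 := by
    rw [hβ]
    have : ∑ s, b s (Dg u s) = (∑ s, b s) u := by
      rw [LinearMap.sum_apply]
      rfl
    rw [this, hsum, LinearMap.zero_apply]
  rw [← hm, ← hdk, map_add, h7, zero_add, hβ]


end arms

end Crest.Agent.R172.Def
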