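import Crest.Agent.R172.CoreP
import Crest.Agent.R172.FO2

/-!
Row 172, `(o2)` with `R ≠ 0`: the cover of a perfect module on which the derivation-induced
operator `D` (only defined up to the kernel of `Fᵀ J`) is an honest operator commuting with `A`.
-/

set_option autoImplicit false
set_option linter.unusedSectionVars false

namespace Crest.Agent.R172.CovF

open Module LinearMap TensorProduct
open Crest.Agent.R172.CP (Ax mem_Ax Ax_le Ax_mono mem_Ax_iff perf perf_le le_perf perf_le_Ax
  Ax_perf_le perf_stable map_perf)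

section seq

variable {K : Type*} [Field K] {P : Type*} [AddCommGroup P] [Module K P]
  {W : Type*} [AddCommGroup W] [Module K W]

/-- the sequences `p_n` with `G p_n = F p_(n+1)` -/
def SS (Fs Gs : P →ₗ[K] W) : Submodule K (ℕ → P) where
  carrier := {s | ∀ n, Gs (s n) = Fs (s (n + 1))}
  add_mem' := by
    intro a b ha hb n
    rw [Pi.add_apply, Pi.add_apply, map_add, map_add, ha n, hb n]
  zero_mem' := by intro n; simp
  smul_mem' := by
    intro c a ha n
    rw [Pi.smul_apply, Pi.smul_apply, map_smul, map_smul, ha n]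

/-- `a ⊗ y ↦ (a σ^n y)_n` -/
noncomputable def Ps (σ : End K P) : End K P ⊗[K] P →ₗ[K] (ℕ → P) :=
  LinearMap.pi fun n => TensorProduct.lift (LinearMap.id.compl₂ (σ ^ n))


/-- the finite-dimensional space of sequences -/
noncomputable def UU (Fs Gs : P →ₗ[K] W) (σ : End K P) : Submodule K (ℕ → P) :=
  SS Fs Gs ⊓ LinearMap.range (Ps σ)

instance (Fs Gs : P →ₗ[K] W) (σ : End K P) [FiniteDimensional K P] :
    FiniteDimensional K (UU Fs Gs σ) := by
  have : FiniteDimensional K (LinearMap.range (Ps σ)) := inferInstance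
  exact Submodule.finiteDimensional_of_le (inf_le_right : UU Fs Gs σ ≤ LinearMap.range (Ps σ))

/-- termwise action -/
def tw (a : End K P) : End K (ℕ → P) := LinearMap.pi fun n => a ∘ₗ LinearMap.proj n


/-- the shift -/
def sh : End K (ℕ → P) := LinearMap.pi fun n => LinearMap.proj (n + 1)


variable {Fs Gs : P →ₗ[K] W} {σ : End K P}










/-- the value at `0` -/
noncomputable def p0 (Fs Gs : P →ₗ[K] W) (σ : End K P) : UU Fs Gs σ →ₗ[K] P :=
  LinearMap.proj 0 ∘ₗ (UU Fs Gs σ).subtype


end seq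

section cover

universe u v w

variable {K : Type u} [Field K] {P : Type v} [AddCommGroup P] [Module K P]
  {W : Type w} [AddCommGroup W] [Module K W] {τ : Type*} [Fintype τ]


end cover

section mat

open Matrix Crest.Agent.R172.FO

universe u u'

variable {ι : Type u'} [Fintype ι] [DecidableEq ι] {δ : Type*} [Fintype δ] [DecidableEq δ]
variable {k : Type*} {K : Type u} [Field k] [Field K] [Algebra k K]
variable {arm : δ → Fin 3} {J : Matrix ι ι K} {B : Matrix δ δ K}
  {N W : Submodule K (Matrix ι δ K)} {F G : Matrix ι δ K}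

theorem Phi_def' (r : Fin 3) : Phi arm J B F r = F * E K arm r * B * Fᵀ * J := rfl

/-- `Gᵀ J Φ_r = (Fᵀ J F E_r B) Gᵀ J` -/
theorem key (hD : Data k arm J B N W) (hF : F ∈ N ⊓ W) (hG : G ∈ N ⊓ W) (r : Fin 3) :
    Gᵀ * J * Phi arm J B F r = Fᵀ * J * (F * E K arm r * B) * (Gᵀ * J) := by
  have h1 : Gᵀ * J * F = Fᵀ * J * G := hD.symm_U hF hG
  have h2 : M arm B r F G = M arm B r G F := hD.symm_arm hF hG r
  rw [Phi_def']
  unfold M at h2
  calc Gᵀ * J * (F * E K arm r * B * Fᵀ * J)
      = (Gᵀ * J * F) * E K arm r * B * Fᵀ * J := by simp only [Matrix.mul_assoc]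
    _ = Fᵀ * J * (G * E K arm r * B * Fᵀ) * J := by
        rw [h1]; simp only [Matrix.mul_assoc]
    _ = Fᵀ * J * (F * E K arm r * B * Gᵀ) * J := by rw [h2]
    _ = Fᵀ * J * (F * E K arm r * B) * (Gᵀ * J) := by simp only [Matrix.mul_assoc]



/-- the frame matrix of a map `π : X → P` and a basis of `X` -/
noncomputable def fr {X : Type*} [AddCommGroup X] [Module K X] {a : ℕ} (b : Module.Basis (Fin a) K X)
    (π : X →ₗ[K] (ι → K)) : Matrix ι (Fin a) K := Matrix.of fun i j => π (b j) i

theorem fr_repr {X : Type*} [AddCommGroup X] [Module K X] {a : ℕ} (b : Module.Basis (Fin a) K X)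
    (π : X →ₗ[K] (ι → K)) (x : X) : fr b π *ᵥ (b.equivFun x) = π x := by
  have h1 : π x = π (∑ j, b.equivFun x j • b j) := by rw [b.sum_equivFun]
  rw [h1, map_sum]
  funext i
  rw [Finset.sum_apply]
  unfold fr mulVec dotProduct
  refine Finset.sum_congr rfl fun j _ => ?_
  rw [map_smul, Pi.smul_apply, smul_eq_mul]
  exact mul_comm _ _

theorem toMatrix_equivFun {X : Type*} [AddCommGroup X] [Module K X] {a : ℕ}
    (b : Module.Basis (Fin a) K X) (T : End K X) (x : X) :
    LinearMap.toMatrix b b T *ᵥ (b.equivFun x) = b.equivFun (T x) := by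
  exact LinearMap.toMatrix_mulVec_repr b b T x

theorem ext_mulVec {α : Type*} {X : Type*} [AddCommGroup X] [Module K X] {a : ℕ}
    (b : Module.Basis (Fin a) K X) {A C : Matrix α (Fin a) K}
    (h : ∀ x : X, A *ᵥ (b.equivFun x) = C *ᵥ (b.equivFun x)) : A = C := by
  apply Matrix.ext_of_mulVec_single
  intro j
  have := h (b.equivFun.symm (Pi.single j 1))
  rwa [LinearEquiv.apply_symm_apply] at this


end mat

end Crest.Agent.R172.CovF
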