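import Crest.Agent.R172.FO2
import Crest.Agent.R172.SN1

/-!
Row 172, TAME: the slack theorem (716's note 14318), first order form on `FO.Data`.

* `nil_trace`: `M` nilpotent, `z M = M z` ⇒ `tr (z * D(M)) = 0` for every derivation `D`.
* `realise`: all directions `(X_s, ν)` orthogonal to the `a ∈ V ⊗ L` with `Hᵀ J a` symmetric are
  realised, `dH = X H + ν`.
* `slack`: for `z` selfadjoint, commuting with `Φ_s(H)`, there is `a ∈ V ⊗ L`, `Hᵀ J a` symmetric,
  `H_t B a_tᵀ` symmetric for all `t`, with `a - z H_s ∈ N`.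
-/

set_option autoImplicit false
set_option linter.unusedSectionVars false

namespace Crest.Agent.R172.Slack

open Matrix Crest.Agent.R172.FO Module

section nil

variable {K : Type*} [Field K] {R : Type*} [CommRing R] [Algebra R K]



end nil

section data

variable {ι : Type*} [Fintype ι] [DecidableEq ι] {δ : Type*} [Fintype δ] [DecidableEq δ]
variable {k K : Type*} [Field k] [Field K] [Algebra k K]
variable {arm : δ → Fin 3} {J : Matrix ι ι K} {B : Matrix δ δ K}
  {N W : Submodule K (Matrix ι δ K)}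











/-- `AA` of 14318: moreover `H_s B a_sᵀ` symmetric for all `s` -/
def AA (arm : δ → Fin 3) (J : Matrix ι ι K) (B : Matrix δ δ K) (W : Submodule K (Matrix ι δ K))
    (H : Matrix ι δ K) : Submodule K (Matrix ι δ K) where
  carrier := {a | (a ∈ W ∧ aᵀ * J * H = Hᵀ * J * a) ∧ ∀ s, M arm B s H a = M arm B s a H}
  add_mem' := by
    rintro a b ⟨⟨ha, ha'⟩, ha2⟩ ⟨⟨hb, hb'⟩, hb2⟩
    refine ⟨⟨W.add_mem ha hb, ?_⟩, fun s => ?_⟩
    · rw [transpose_add, Matrix.add_mul, Matrix.add_mul, ha', hb', Matrix.mul_add]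
    · have h1 := ha2 s
      have h2 := hb2 s
      unfold M at h1 h2 ⊢
      rw [transpose_add, Matrix.mul_add, h1, h2, Matrix.add_mul, Matrix.add_mul, Matrix.add_mul]
  zero_mem' := ⟨⟨W.zero_mem, by simp⟩, fun s => by simp [M]⟩
  smul_mem' := by
    rintro c a ⟨⟨ha, ha'⟩, ha2⟩
    refine ⟨⟨W.smul_mem c ha, ?_⟩, fun s => ?_⟩
    · rw [transpose_smul, Matrix.smul_mul, Matrix.smul_mul, ha', Matrix.mul_smul]
    · have h1 := ha2 s
      unfold M at h1 ⊢
      rw [transpose_smul, Matrix.mul_smul, h1, Matrix.smul_mul, Matrix.smul_mul, Matrix.smul_mul]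





theorem M_transpose (hD : Data k arm J B N W) (F G : Matrix ι δ K) (s : Fin 3) :
    (M arm B s F G)ᵀ = M arm B s G F := by
  unfold M
  rw [transpose_mul, transpose_mul, transpose_mul, transpose_transpose, E_transpose, hD.B_symm]
  simp only [Matrix.mul_assoc]
  rw [← Matrix.mul_assoc B, ← hD.B_arm, Matrix.mul_assoc]


end data

end Crest.Agent.R172.Slack
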