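import Crest.Agent.R172.DerG
import Crest.Agent.R172.Slack1

/-!
Row 172 (S0260), TAME, arbitrary radical and arbitrary `D`: the inputs of the perfect cover
(notes 16086 (1), 16141 (1)).

`Pen B Fs Gs f g`: the pencil `Fs = Fᵀ J`, `Gs = Gᵀ J`, `f_r = F E_r B`, `g_r = G E_r B`;
`Φ_r = f_r Fs`, `Ψ_r = f_r Gs`; the relation `Gs x = Fs y` ("`y = D x`") is `Φ`-stable.
-/

set_option autoImplicit false
set_option linter.unusedSectionVars false

namespace Crest.Agent.R172.CovI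

open Module LinearMap
open Crest.Agent.R172.St Crest.Agent.R172.Core

variable {K : Type*} [Field K] {V : Type*} [AddCommGroup V] [Module K V]
variable {U : Type*} [AddCommGroup U] [Module K U] {τ : Type*}

/-- the pencil identities -/
structure Pen (B : LinearMap.BilinForm K V) (Fs Gs : V →ₗ[K] U) (f g : τ → U →ₗ[K] V) : Prop where
  ns : NS B
  fG : ∀ r v, f r (Gs v) = g r (Fs v)
  Fg : ∀ r v, Fs (g r (Fs v)) = Gs (f r (Fs v))
  sa : ∀ r u v, B (f r (Fs u)) v = B u (f r (Fs v))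
  saG : ∀ r u v, B (f r (Gs u)) v = B u (f r (Gs v))

/-- `Φ_r` -/
def Ph (Fs : V →ₗ[K] U) (f : τ → U →ₗ[K] V) (r : τ) : End K V := f r ∘ₗ Fs

/-- `Ψ_r` -/
def Ps (Gs : V →ₗ[K] U) (f : τ → U →ₗ[K] V) (r : τ) : End K V := f r ∘ₗ Gs

variable {B : LinearMap.BilinForm K V} {Fs Gs : V →ₗ[K] U} {f g : τ → U →ₗ[K] V}

theorem Ph_apply (r : τ) (v : V) : Ph Fs f r v = f r (Fs v) := rfl

theorem Ps_apply (r : τ) (v : V) : Ps Gs f r v = f r (Gs v) := rfl

namespace Pen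

variable (h : Pen B Fs Gs f g)
include h

theorem Ph_sa (r : τ) : Sa B (Ph Fs f r) := fun u v => h.sa r u v

theorem Ps_sa (r : τ) : Sa B (Ps Gs f r) := fun u v => h.saG r u v

/-- `Gs Φ_r = Fs Ψ_r` -/
theorem Gs_Ph (r : τ) (x : V) : Gs (Ph Fs f r x) = Fs (Ps Gs f r x) := by
  rw [Ph_apply, Ps_apply, ← h.Fg, h.fG]

/-- `Φ_r Ψ_s = Ψ_r Φ_s` -/
theorem Ph_Ps (r s : τ) (x : V) : Ph Fs f r (Ps Gs f s x) = Ps Gs f r (Ph Fs f s x) := by
  rw [Ph_apply, ← h.Gs_Ph, Ps_apply]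



theorem Ps_Nk (k : ℕ) : ∀ (s : τ) (t : V), t ∈ Nk (Ph Fs f) k → Ps Gs f s t ∈ Nk (Ph Fs f) k := by
  induction k with
  | zero =>
    intro s t ht
    rw [mem_Nk_zero] at ht ⊢
    rw [ht, map_zero]
  | succ k ih =>
    intro s t ht
    rw [mem_Nk_succ] at ht ⊢
    intro r
    rw [h.Ph_Ps]
    exact ih r _ (ht s)

theorem Ps_T (s : τ) {t : V} (ht : t ∈ T (Ph Fs f)) : Ps Gs f s t ∈ T (Ph Fs f) := by
  obtain ⟨k, hk⟩ := mem_T.1 ht
  exact mem_T.2 ⟨k, h.Ps_Nk k s t hk⟩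





/-- `P` is perfect -/
theorem perfect [FiniteDimensional K V] [Finite τ] :
    Tp B (Ph Fs f) ≤ ⨆ r, (Tp B (Ph Fs f)).map (Ph Fs f r) := Tp_le_iSup h.ns h.Ph_sa






end Pen

/-! ### the instance -/

section inst

open Matrix Crest.Agent.R172.FO Crest.Agent.R172.DerG

variable {ι : Type*} [Fintype ι] [DecidableEq ι] {δ : Type*} [Fintype δ] [DecidableEq δ]
variable {k : Type*} [Field k] [Algebra k K]
variable {arm : δ → Fin 3} {J : Matrix ι ι K} {Bm : Matrix δ δ K}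
  {N W : Submodule K (Matrix ι δ K)} {F G : Matrix ι δ K}

/-- `v ↦ Fᵀ J v` -/
noncomputable def st (J : Matrix ι ι K) (F : Matrix ι δ K) : (ι → K) →ₗ[K] (δ → K) :=
  Matrix.toLin' (Fᵀ * J)

/-- `u ↦ F E_r B u` -/
noncomputable def lo (arm : δ → Fin 3) (Bm : Matrix δ δ K) (F : Matrix ι δ K) (r : Fin 3) :
    (δ → K) →ₗ[K] (ι → K) := Matrix.toLin' (F * E K arm r * Bm)

theorem lo_st (F F' : Matrix ι δ K) (r : Fin 3) :
    lo arm Bm F r ∘ₗ st J F' = Matrix.toLin' (M arm Bm r F F' * J) := by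
  rw [lo, st, ← Matrix.toLin'_mul]
  congr 1
  unfold M
  simp only [Matrix.mul_assoc]

theorem lo_st_apply (F F' : Matrix ι δ K) (r : Fin 3) (v : ι → K) :
    lo arm Bm F r (st J F' v) = (M arm Bm r F F' * J) *ᵥ v := by
  have := LinearMap.congr_fun (lo_st (arm := arm) (Bm := Bm) (J := J) F F' r) v
  exact this

theorem Ph_eq (F : Matrix ι δ K) : CovI.Ph (st J F) (lo arm Bm F) = DerG.Ph arm J Bm F := by
  funext r
  exact lo_st F F r

theorem BJ_ns (hJs : Jᵀ = J) (hJu : IsUnit J) : NS (BJ J) := by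
  obtain ⟨Ji, hJi, hJi', _⟩ := FO.symm_inv hJs hJu
  refine ⟨fun v w => ?_, fun v hv => ?_⟩
  · rw [BJ_apply, BJ_apply, dotProduct_mulVec, ← mulVec_transpose, hJs, dotProduct_comm]
  · have h1 : ∀ w : ι → K, v ⬝ᵥ w = 0 := by
      intro w
      have := hv (Ji *ᵥ w)
      rwa [BJ_apply, mulVec_mulVec, hJi, one_mulVec] at this
    funext i
    have := h1 (Pi.single i 1)
    rwa [dotProduct_single_one] at this

theorem BJ_sa (hJs : Jᵀ = J) {S : Matrix ι ι K} (hS : Sᵀ = S) (u v : ι → K) :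
    BJ J ((S * J) *ᵥ u) v = BJ J u ((S * J) *ᵥ v) := by
  rw [BJ_apply, BJ_apply, mulVec_mulVec, ← Matrix.mul_assoc]
  have h1 : ((S * J) *ᵥ u) ⬝ᵥ (J *ᵥ v) = u ⬝ᵥ (((S * J)ᵀ * J) *ᵥ v) := by
    rw [← mulVec_mulVec v, dotProduct_mulVec u, vecMul_transpose]
  rw [h1, transpose_mul, hJs, hS]

/-- **the pencil of `F, G ∈ 𝒦`** -/
theorem pen (hD : FO.Data k arm J Bm N W) (hF : F ∈ N ⊓ W) (hG : G ∈ N ⊓ W) :
    Pen (BJ J) (st J F) (st J G) (lo arm Bm F) (lo arm Bm G) where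
  ns := BJ_ns hD.J_symm hD.J_unit
  fG := by
    intro r v
    rw [lo_st_apply, lo_st_apply, hD.symm_arm hF hG r]
  Fg := by
    intro r v
    have h1 : ∀ (A : Matrix ι δ K) (x : ι → K), st J A x = (Aᵀ * J) *ᵥ x := fun _ _ => rfl
    rw [lo_st_apply, lo_st_apply, h1, h1, mulVec_mulVec, mulVec_mulVec]
    congr 1
    unfold M
    have h2 := hD.symm_U hF hG
    calc Fᵀ * J * (G * E K arm r * Bm * Fᵀ * J)
        = (Fᵀ * J * G) * (E K arm r * Bm * Fᵀ * J) := by simp only [Matrix.mul_assoc]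
      _ = (Gᵀ * J * F) * (E K arm r * Bm * Fᵀ * J) := by rw [h2]
      _ = Gᵀ * J * (F * E K arm r * Bm * Fᵀ * J) := by simp only [Matrix.mul_assoc]
  sa := by
    intro r u v
    rw [lo_st_apply, lo_st_apply]
    refine BJ_sa hD.J_symm ?_ u v
    exact Slack.M_transpose hD F F r
  saG := by
    intro r u v
    rw [lo_st_apply, lo_st_apply]
    refine BJ_sa hD.J_symm ?_ u v
    rw [Slack.M_transpose hD F G r, hD.symm_arm hF hG r]


end inst

end Crest.Agent.R172.CovI
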