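import Crest.Agent.R172.Dual1

/-!
Row 172 (S0260), tame case, arbitrary radical: the duality lemma with the square root `ρ` of `c`.

Hypothesis for `ρ ∈ Λ` and families `x` exact for `c = ρ ^ 2`:
`∑ q₁ t (x t) + ρ • ∑ q₂ t (x t) ∈ Q`. Conclusion: `q₁` and `q₂` of all filtered single-arm and all
radical single-arm tensors lie in `Q` (no parity argument, no `-ρ` needed).
-/

set_option autoImplicit false
set_option linter.unusedSectionVars false

namespace Crest.Agent.R172.Dual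

open Module Polynomial TensorProduct

section core2

variable {K : Type*} [Field K] {P1 P2 : Type*} [AddCommGroup P1] [Module K P1]
  [AddCommGroup P2] [Module K P2] {τ : Type*} [Fintype τ]

variable {A : τ → End K P1} {B : τ → End K P2} {R1 : Submodule K P1} {R2 : Submodule K P2}
  {l : τ → ℕ} {Λ : Set K} {η1 η2 : τ → P2 →ₗ[K] P1 →ₗ[K] K}
  {z : K → τ → P2 →ₗ[K] P1 →ₗ[K] K}

theorem Pos.smul (a : K) {u : K → K} (hu : Pos Λ u) : Pos Λ (fun c => a * u c) := by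
  obtain ⟨p, hp⟩ := hu
  exact ⟨C a * p, fun c hc => by simp only [eval_mul, eval_C, hp c hc]⟩


/-- `a + ρ b` is at most linear: `ρ² v = u - (a + ρ b)` with `u` negative implies `v` negative -/
theorem Neg.div_sq {u v : K → K} (hu : Neg Λ u) (a b : K)
    (h : ∀ c ∈ Λ, c * (c * v c) = u c - (a + c * b)) : Neg Λ v := by
  obtain ⟨d, p, h1, h2⟩ := hu
  refine ⟨d + 2, p - X ^ d * (C a + X * C b), ?_, fun c hc => ?_⟩
  · refine lt_of_le_of_lt (degree_sub_le _ _) (max_lt ?_ ?_)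
    · exact lt_of_lt_of_le h1 (by exact_mod_cast Nat.le_add_right d 2)
    · rw [degree_mul, degree_X_pow]
      have h3 : (C a + X * C b : K[X]).degree ≤ 1 := by
        refine (degree_add_le _ _).trans (max_le (degree_C_le.trans (by simp)) ?_)
        rw [mul_comm]
        exact (degree_C_mul_X_le b)
      refine lt_of_le_of_lt (add_le_add_right h3 _) ?_
      exact_mod_cast (by omega : d + 1 < d + 2)
  · have h4 := h c hc
    rw [eval_sub, eval_mul, eval_pow, eval_X, eval_add, eval_mul, eval_C, eval_C, eval_X,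
      ← h2 c hc, show c ^ (d + 2) * v c = c ^ d * (c * (c * v c)) by ring, h4]
    ring

theorem pos_of2 (hA : ∀ p, ∃ f : τ → P1, p = ∑ t, A t (f t))
    (hB2 : ∀ t, ∀ r ∈ R2, B t r ∈ R2)
    (hz : ∀ c ∈ Λ, ∀ t p2 p1, η1 t p2 p1 + c * η2 t p2 p1 =
      z c t p2 (A t p1) - c ^ 2 * z c t (B t p2) p1)
    (hz2 : ∀ c ∈ Λ, ∀ t u, ∀ r ∈ R2, ∀ p1, z c t r p1 = z c u r p1) (n : ℕ) :
    ∀ r ∈ R2, Kills B n r → ∀ t p1, Pos Λ (fun c => z c t r p1) := by
  induction n with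
  | zero =>
    intro r _ hk t p1
    refine (Pos.const 0).congr fun c _ => ?_
    rw [hk.zero]; simp
  | succ n ih =>
    intro r hr hk t p1
    obtain ⟨f, hf⟩ := hA p1
    have h1 : Pos Λ (fun c => ∑ u, ((η1 u r (f u) + c * η2 u r (f u)) +
        c * (c * z c u (B u r) (f u)))) :=
      Pos.sum _ fun u _ => ((Pos.const _).add (Pos.const _).mul_c).add
        (ih _ (hB2 u r hr) (hk.succ u) u (f u)).mul_c.mul_c
    refine h1.congr fun c hc => ?_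
    conv_lhs => rw [hf, map_sum]
    refine Finset.sum_congr rfl fun u _ => ?_
    have h2 := hz c hc u r (f u)
    rw [h2, hz2 c hc t u r hr]
    ring

theorem neg_of2 (hB : ∀ p, ∃ f : τ → P2, p = ∑ t, B t (f t))
    (hA1 : ∀ t, ∀ r ∈ R1, A t r ∈ R1)
    (hz : ∀ c ∈ Λ, ∀ t p2 p1, η1 t p2 p1 + c * η2 t p2 p1 =
      z c t p2 (A t p1) - c ^ 2 * z c t (B t p2) p1)
    (hz1 : ∀ c ∈ Λ, ∀ t u, ∀ r ∈ R1, ∀ p2, z c t p2 r = z c u p2 r) (n : ℕ) :
    ∀ r ∈ R1, Kills A n r → ∀ t p2, Neg Λ (fun c => z c t p2 r) := by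
  induction n with
  | zero =>
    intro r _ hk t p2
    refine Neg.zero.congr fun c _ => ?_
    rw [hk.zero]; simp
  | succ n ih =>
    intro r hr hk t p2
    obtain ⟨f, hf⟩ := hB p2
    have h2 : ∀ u, Neg Λ (fun c => z c u (B u (f u)) r) := by
      intro u
      refine Neg.div_sq (ih _ (hA1 u r hr) (hk.succ u) u (f u)) (η1 u (f u) r) (η2 u (f u) r)
        fun c hc => ?_
      have h3 := hz c hc u (f u) r
      linear_combination h3
    have h1 : Neg Λ (fun c => ∑ u, z c u (B u (f u)) r) := Neg.sum _ fun u _ => h2 u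
    refine h1.congr fun c hc => ?_
    conv_lhs => rw [hf, map_sum, LinearMap.sum_apply]
    refine Finset.sum_congr rfl fun u _ => ?_
    exact hz1 c hc t u r hr _

/-- separation of powers, two sequences -/
theorem powers2 (hΛ : Λ.Infinite) (h0 : (0 : K) ∉ Λ) {l : ℕ} (a b : ℕ → K) {N P : K → K}
    (hN : Neg Λ N) (hP : Pos Λ P)
    (h : ∀ c ∈ Λ, ∑ j ∈ Finset.range l, c ^ (2 * j) * (a j + c * b j) =
      N c - c ^ (2 * l) * P c) :
    (∀ j < l, a j = 0 ∧ b j = 0) ∧ (∀ c ∈ Λ, N c = 0) ∧ ∀ c ∈ Λ, P c = 0 := by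
  let g : ℕ → K := fun i => if i % 2 = 0 then a (i / 2) else b (i / 2)
  have hsum : ∀ (c : K) (n : ℕ), ∑ i ∈ Finset.range (2 * n), c ^ i * g i =
      ∑ j ∈ Finset.range n, c ^ (2 * j) * (a j + c * b j) := by
    intro c n
    induction n with
    | zero => simp
    | succ n ih =>
      rw [show 2 * (n + 1) = 2 * n + 1 + 1 by ring, Finset.sum_range_succ, Finset.sum_range_succ,
        ih, Finset.sum_range_succ]
      have e1 : g (2 * n) = a n := by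
        simp only [g]
        rw [if_pos (by omega), show 2 * n / 2 = n by omega]
      have e2 : g (2 * n + 1) = b n := by
        simp only [g]
        rw [if_neg (by omega), show (2 * n + 1) / 2 = n by omega]
      rw [e1, e2, pow_succ]
      ring
  obtain ⟨h1, h2, h3⟩ := powers hΛ h0 (l := 2 * l) g hN hP (fun c hc => by
    rw [hsum c l, h c hc])
  refine ⟨fun j hj => ⟨?_, ?_⟩, h2, h3⟩
  · have := h1 (2 * j) (by omega)
    simp only [g] at this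
    rwa [if_pos (by omega), show 2 * j / 2 = j by omega] at this
  · have := h1 (2 * j + 1) (by omega)
    simp only [g] at this
    rwa [if_neg (by omega), show (2 * j + 1) / 2 = j by omega] at this

theorem core2 (hΛ : Λ.Infinite) (h0 : (0 : K) ∉ Λ)
    (hA : ∀ p, ∃ f : τ → P1, p = ∑ t, A t (f t)) (hB : ∀ p, ∃ f : τ → P2, p = ∑ t, B t (f t))
    (hA1 : ∀ t, ∀ r ∈ R1, A t r ∈ R1) (hB2 : ∀ t, ∀ r ∈ R2, B t r ∈ R2)
    (hn1 : ∃ n, ∀ r ∈ R1, Kills A n r) (hn2 : ∃ n, ∀ r ∈ R2, Kills B n r)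
    (hl1 : ∀ s p, (A s ^ l s) p ∈ R1) (hl2 : ∀ s p, (B s ^ l s) p ∈ R2)
    (gen1 : ∀ S : Submodule K P1, (∀ s p, (A s ^ l s) p ∈ S) → (∀ t, ∀ r ∈ S, A t r ∈ S) → R1 ≤ S)
    (gen2 : ∀ S : Submodule K P2, (∀ s p, (B s ^ l s) p ∈ S) → (∀ t, ∀ r ∈ S, B t r ∈ S) → R2 ≤ S)
    (hz : ∀ c ∈ Λ, ∀ t p2 p1, η1 t p2 p1 + c * η2 t p2 p1 =
      z c t p2 (A t p1) - c ^ 2 * z c t (B t p2) p1)
    (hz1 : ∀ c ∈ Λ, ∀ t u, ∀ r ∈ R1, ∀ p2, z c t p2 r = z c u p2 r)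
    (hz2 : ∀ c ∈ Λ, ∀ t u, ∀ r ∈ R2, ∀ p1, z c t r p1 = z c u r p1) :
    (∀ s j, j < l s → ∀ p2 p1, η1 s ((B s ^ j) p2) ((A s ^ (l s - 1 - j)) p1) = 0 ∧
      η2 s ((B s ^ j) p2) ((A s ^ (l s - 1 - j)) p1) = 0) ∧
    (∀ t, ∀ r ∈ R2, ∀ p1, η1 t r p1 = 0 ∧ η2 t r p1 = 0) ∧
    (∀ t, ∀ r ∈ R1, ∀ p2, η1 t p2 r = 0 ∧ η2 t p2 r = 0) := by
  obtain ⟨n1, hn1⟩ := hn1
  obtain ⟨n2, hn2⟩ := hn2
  have hpos : ∀ r ∈ R2, ∀ t p1, Pos Λ (fun c => z c t r p1) := fun r hr =>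
    pos_of2 hA hB2 hz hz2 n2 r hr (hn2 r hr)
  have hneg : ∀ r ∈ R1, ∀ t p2, Neg Λ (fun c => z c t p2 r) := fun r hr =>
    neg_of2 hB hA1 hz hz1 n1 r hr (hn1 r hr)
  have hzero : ∀ v : K → K, Pos Λ v → Neg Λ v → ∀ c ∈ Λ, v c = 0 := by
    intro v hp hn
    exact (powers hΛ h0 (l := 0) (fun _ => 0) hn hp (fun c _ => by simp)).2.1
  -- a linear polynomial with infinitely many zeros
  have hlin : ∀ a b : K, (∀ c ∈ Λ, a + c * b = 0) → a = 0 ∧ b = 0 := by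
    intro a b h
    have := (powers2 hΛ h0 (l := 1) (fun _ => a) (fun _ => b) Neg.zero (Pos.const 0)
      (fun c hc => by simp [h c hc])).1 0 one_pos
    exact this
  have main : ∀ s p2 p1, (∀ j < l s, η1 s ((B s ^ j) p2) ((A s ^ (l s - 1 - j)) p1) = 0 ∧
      η2 s ((B s ^ j) p2) ((A s ^ (l s - 1 - j)) p1) = 0) ∧
      (∀ c ∈ Λ, z c s p2 ((A s ^ l s) p1) = 0) ∧ (∀ c ∈ Λ, z c s ((B s ^ l s) p2) p1 = 0) := by
    intro s p2 p1
    refine powers2 hΛ h0 (l := l s) _ _ (hneg _ (hl1 s p1) s p2) (hpos _ (hl2 s p2) s p1)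
      (fun c hc => ?_)
    have h1 := tele (A := A) (B := B) (s := s) (c := c ^ 2) (zz := z c s)
      (e := η1 s + c • η2 s) (fun p2 p1 => by
        simp only [LinearMap.add_apply, LinearMap.smul_apply, smul_eq_mul]
        exact hz c hc s p2 p1) (l s) p2 p1
    rw [← pow_mul] at h1
    rw [← h1]
    refine Finset.sum_congr rfl fun j _ => ?_
    simp only [LinearMap.add_apply, LinearMap.smul_apply, smul_eq_mul]
    rw [pow_mul]
  have hS1 : ∀ r ∈ R1, ∀ c ∈ Λ, ∀ t p2, z c t p2 r = 0 := by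
    let S : Submodule K P1 :=
      { carrier := {r | r ∈ R1 ∧ ∀ c ∈ Λ, ∀ t p2, z c t p2 r = 0}
        zero_mem' := ⟨R1.zero_mem, fun c _ t p2 => map_zero _⟩
        add_mem' := fun {a b} ha hb => ⟨R1.add_mem ha.1 hb.1, fun c hc t p2 => by
          rw [map_add, ha.2 c hc, hb.2 c hc, add_zero]⟩
        smul_mem' := fun a {b} hb => ⟨R1.smul_mem a hb.1, fun c hc t p2 => by
          rw [map_smul, hb.2 c hc, smul_zero]⟩ }
    have hS : R1 ≤ S := by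
      apply gen1
      · intro s p
        refine ⟨hl1 s p, fun c hc t p2 => ?_⟩
        rw [hz1 c hc t s _ (hl1 s p)]
        exact (main s p2 p).2.1 c hc
      · rintro t r ⟨hr, hr0⟩
        refine ⟨hA1 t r hr, fun c hc u p2 => ?_⟩
        rw [hz1 c hc u t _ (hA1 t r hr)]
        have h1 : ∀ c ∈ Λ, z c t p2 (A t r) = η1 t p2 r + c * η2 t p2 r := by
          intro c hc
          rw [hz c hc t p2 r, hr0 c hc t, mul_zero, sub_zero]
        exact hzero (fun c => z c t p2 (A t r))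
          (((Pos.const (η1 t p2 r)).add (Pos.const (η2 t p2 r)).mul_c).congr h1)
          (hneg _ (hA1 t r hr) t p2) c hc
    intro r hr
    exact (hS hr).2
  have hS2 : ∀ r ∈ R2, ∀ c ∈ Λ, ∀ t p1, z c t r p1 = 0 := by
    let S : Submodule K P2 :=
      { carrier := {r | r ∈ R2 ∧ ∀ c ∈ Λ, ∀ t p1, z c t r p1 = 0}
        zero_mem' := ⟨R2.zero_mem, fun c _ t p1 => by simp⟩
        add_mem' := fun {a b} ha hb => ⟨R2.add_mem ha.1 hb.1, fun c hc t p1 => by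
          rw [map_add, LinearMap.add_apply, ha.2 c hc, hb.2 c hc, add_zero]⟩
        smul_mem' := fun a {b} hb => ⟨R2.smul_mem a hb.1, fun c hc t p1 => by
          rw [map_smul, LinearMap.smul_apply, hb.2 c hc, smul_zero]⟩ }
    have hS : R2 ≤ S := by
      apply gen2
      · intro s p
        refine ⟨hl2 s p, fun c hc t p1 => ?_⟩
        rw [hz2 c hc t s _ (hl2 s p)]
        exact (main s p p1).2.2 c hc
      · rintro t r ⟨hr, hr0⟩
        refine ⟨hB2 t r hr, fun c hc u p1 => ?_⟩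
        rw [hz2 c hc u t _ (hB2 t r hr)]
        refine hzero (fun c => z c t (B t r) p1) (hpos _ (hB2 t r hr) t p1)
          (Neg.div_sq Neg.zero (η1 t r p1) (η2 t r p1) fun c hc => ?_) c hc
        have h1 := hz c hc t r p1
        rw [hr0 c hc t] at h1
        linear_combination h1
    intro r hr
    exact (hS hr).2
  refine ⟨fun s j hj p2 p1 => (main s p2 p1).1 j hj, ?_, ?_⟩
  · intro t r hr p1
    apply hlin
    intro c hc
    rw [hz c hc, hS2 r hr c hc, hS2 _ (hB2 t r hr) c hc, mul_zero, sub_zero]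
  · intro t r hr p2
    apply hlin
    intro c hc
    rw [hz c hc, hS1 r hr c hc, hS1 _ (hA1 t r hr) c hc, mul_zero, sub_zero]

end core2

section dual2

variable {K : Type*} [Field K] {P1 P2 : Type*} [AddCommGroup P1] [Module K P1]
  [AddCommGroup P2] [Module K P2] {τ : Type*} [Fintype τ]

/-- **The span of the exact families contains everything**, form with `ρ`, `c = ρ ^ 2`. -/
theorem span_exact2 {E : Type*} [AddCommGroup E] [Module K E]
    {A : τ → End K P1} {B : τ → End K P2} {R1 : Submodule K P1} {R2 : Submodule K P2}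
    {l : τ → ℕ} {Λ : Set K} (hΛ : Λ.Infinite) (h0 : (0 : K) ∉ Λ)
    (hA : ∀ p, ∃ f : τ → P1, p = ∑ t, A t (f t)) (hB : ∀ p, ∃ f : τ → P2, p = ∑ t, B t (f t))
    (hA1 : ∀ t, ∀ r ∈ R1, A t r ∈ R1) (hB2 : ∀ t, ∀ r ∈ R2, B t r ∈ R2)
    (hn1 : ∃ n, ∀ r ∈ R1, Kills A n r) (hn2 : ∃ n, ∀ r ∈ R2, Kills B n r)
    (hl1 : ∀ s p, (A s ^ l s) p ∈ R1) (hl2 : ∀ s p, (B s ^ l s) p ∈ R2)
    (gen1 : ∀ S : Submodule K P1, (∀ s p, (A s ^ l s) p ∈ S) → (∀ t, ∀ r ∈ S, A t r ∈ S) → R1 ≤ S)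
    (gen2 : ∀ S : Submodule K P2, (∀ s p, (B s ^ l s) p ∈ S) → (∀ t, ∀ r ∈ S, B t r ∈ S) → R2 ≤ S)
    (q1 q2 : τ → P2 →ₗ[K] P1 →ₗ[K] E) (Q : Submodule K E)
    (h : ∀ ρ ∈ Λ, ∀ x : τ → P2 ⊗[K] P1, Exact A B R1 R2 (ρ ^ 2) x →
      ∑ t, TensorProduct.lift (q1 t) (x t) + ρ • ∑ t, TensorProduct.lift (q2 t) (x t) ∈ Q) :
    (∀ s i j, i + j + 1 = l s → ∀ p2 p1, q1 s ((B s ^ j) p2) ((A s ^ i) p1) ∈ Q ∧
      q2 s ((B s ^ j) p2) ((A s ^ i) p1) ∈ Q) ∧
    (∀ t, ∀ r ∈ R2, ∀ p1, q1 t r p1 ∈ Q ∧ q2 t r p1 ∈ Q) ∧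
    (∀ t, ∀ r ∈ R1, ∀ p2, q1 t p2 r ∈ Q ∧ q2 t p2 r ∈ Q) := by
  classical
  have key : ∀ φ : E →ₗ[K] K, (∀ y ∈ Q, φ y = 0) →
      (∀ s j, j < l s → ∀ p2 p1, φ (q1 s ((B s ^ j) p2) ((A s ^ (l s - 1 - j)) p1)) = 0 ∧
        φ (q2 s ((B s ^ j) p2) ((A s ^ (l s - 1 - j)) p1)) = 0) ∧
      (∀ t, ∀ r ∈ R2, ∀ p1, φ (q1 t r p1) = 0 ∧ φ (q2 t r p1) = 0) ∧
      (∀ t, ∀ r ∈ R1, ∀ p2, φ (q1 t p2 r) = 0 ∧ φ (q2 t p2 r) = 0) := by
    intro φ hφ
    have hlift : ∀ (q : P2 →ₗ[K] P1 →ₗ[K] E) (x : P2 ⊗[K] P1),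
        TensorProduct.lift (q.compr₂ φ) x = φ (TensorProduct.lift q x) := by
      intro q x
      rw [TensorProduct.lift_compr₂]
      rfl
    have hex : ∀ ρ ∈ Λ, ∃ z : τ → P2 →ₗ[K] P1 →ₗ[K] K,
        (∀ t p2 p1, (q1 t).compr₂ φ p2 p1 + ρ * (q2 t).compr₂ φ p2 p1 =
          z t p2 (A t p1) - ρ ^ 2 * z t (B t p2) p1) ∧
        (∀ t u, ∀ r ∈ R1, ∀ p2, z t p2 r = z u p2 r) ∧
        (∀ t u, ∀ r ∈ R2, ∀ p1, z t r p1 = z u r p1) := by
      intro ρ hρ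
      obtain ⟨z, h1, h2, h3⟩ := exists_z A B R1 R2
        (fun t => (q1 t).compr₂ φ + ρ • (q2 t).compr₂ φ) (ρ ^ 2) (by
          intro x hx
          have h1 := hφ _ (h ρ hρ x hx)
          rw [map_add, map_smul, map_sum, map_sum] at h1
          rw [← h1, Finset.smul_sum, ← Finset.sum_add_distrib]
          refine Finset.sum_congr rfl fun t _ => ?_
          rw [← hlift, ← hlift]
          have h2 : TensorProduct.lift ((q1 t).compr₂ φ + ρ • (q2 t).compr₂ φ) =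
              TensorProduct.lift ((q1 t).compr₂ φ) + ρ • TensorProduct.lift ((q2 t).compr₂ φ) := by
            refine TensorProduct.ext' fun a b => ?_
            simp
          rw [h2]
          rfl)
      exact ⟨z, fun t p2 p1 => by rw [← h1]; rfl, h2, h3⟩
    choose! z hz using hex
    exact core2 (η1 := fun t => (q1 t).compr₂ φ) (η2 := fun t => (q2 t).compr₂ φ) (z := z)
      hΛ h0 hA hB hA1 hB2 hn1 hn2 hl1 hl2 gen1 gen2
      (fun c hc => (hz c hc).1) (fun c hc => (hz c hc).2.1) (fun c hc => (hz c hc).2.2)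
  have sep : ∀ y : E, (∀ φ : E →ₗ[K] K, (∀ y ∈ Q, φ y = 0) → φ y = 0) → y ∈ Q := by
    intro y hy
    by_contra hn
    obtain ⟨φ, h1, h2⟩ := Submodule.exists_le_ker_of_notMem hn
    exact h1 (hy φ fun x hx => h2 hx)
  refine ⟨fun s i j hij p2 p1 => ?_, fun t r hr p1 => ⟨sep _ fun φ hφ =>
    ((key φ hφ).2.1 t r hr p1).1, sep _ fun φ hφ => ((key φ hφ).2.1 t r hr p1).2⟩,
    fun t r hr p2 => ⟨sep _ fun φ hφ => ((key φ hφ).2.2 t r hr p2).1,
      sep _ fun φ hφ => ((key φ hφ).2.2 t r hr p2).2⟩⟩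
  have hi : l s - 1 - j = i := by omega
  refine ⟨sep _ fun φ hφ => ?_, sep _ fun φ hφ => ?_⟩
  · have h1 := ((key φ hφ).1 s j (by omega) p2 p1).1
    rwa [hi] at h1
  · have h1 := ((key φ hφ).1 s j (by omega) p2 p1).2
    rwa [hi] at h1

end dual2

end Crest.Agent.R172.Dual
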