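import Crest.Agent.R172.TameCount1

/-!
Row 172, TAME, c-scaling (notes 14538, 14722, 14868): the linear algebra of varying `c` in
`F_c = c₁ F₁ + c₂ F₂`.

* `poly_mem`: a submodule containing `∑ c ^ e i • v i` for infinitely many `c` contains all `v i`.
* `filt_mem`: `φ₁, φ₂` free nilpotent of order `l`; if `c • ι₁ x + ι₂ x ∈ S` for all `c ∈ Λ` and all
  `x` with `c² x φ₁ = φ₂ x`, then `ι₁ y ∈ S` and `ι₂ y ∈ S` for every filtered `y`.
* `span_comp`: filtered endomorphisms are sums of products through the other block.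
-/

set_option autoImplicit false

namespace Crest.Agent.R172.TL

open Module LinearMap

variable {K : Type*} [Field K]

section poly

variable {E : Type*} [AddCommGroup E] [Module K E]

theorem poly_mem (S : Submodule K E) {Λ : Set K} (hΛ : Λ.Infinite) {ι : Type*}
    (s : Finset ι) (e : ι → ℕ) (he : ∀ i ∈ s, ∀ j ∈ s, e i = e j → i = j) (v : ι → E)
    (h : ∀ c ∈ Λ, ∑ i ∈ s, c ^ e i • v i ∈ S) : ∀ i ∈ s, v i ∈ S := by
  classical
  intro i hi
  rw [← Submodule.Quotient.mk_eq_zero]
  rw [← Module.forall_dual_apply_eq_zero_iff K]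
  intro φ
  let p : Polynomial K := ∑ j ∈ s, Polynomial.monomial (e j) (φ (Submodule.Quotient.mk (v j)))
  have hroot : ∀ c ∈ Λ, p.IsRoot c := by
    intro c hc
    have h1 := h c hc
    rw [← Submodule.Quotient.mk_eq_zero] at h1
    have h2 : φ (Submodule.Quotient.mk (∑ i ∈ s, c ^ e i • v i) : E ⧸ S) = 0 := by
      rw [h1, map_zero]
    rw [Polynomial.IsRoot.def]
    simp only [p, Polynomial.eval_finset_sum, Polynomial.eval_monomial]
    rw [← h2, ← Submodule.mkQ_apply, map_sum, map_sum]
    refine Finset.sum_congr rfl fun j _ => ?_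
    rw [map_smul, map_smul, smul_eq_mul, mul_comm]
    rfl
  have hp : p = 0 := Polynomial.eq_zero_of_infinite_isRoot p (hΛ.mono hroot)
  have h3 : p.coeff (e i) = φ (Submodule.Quotient.mk (v i)) := by
    simp only [p, Polynomial.finset_sum_coeff, Polynomial.coeff_monomial]
    rw [Finset.sum_eq_single i]
    · simp
    · intro j hj hji
      rw [if_neg]
      intro hij
      exact hji (he j hj i hi hij)
    · intro hni
      exact absurd hi hni
  rw [← h3, hp, Polynomial.coeff_zero]

end poly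

section filt

variable {C₁ C₂ : Type*} [AddCommGroup C₁] [Module K C₁] [AddCommGroup C₂] [Module K C₂]

/-- filtered maps -/
def Filt (φ₁ : End K C₁) (φ₂ : End K C₂) (y : C₁ →ₗ[K] C₂) : Prop :=
  ∀ j : ℕ, ∀ v ∈ range (φ₁ ^ j), y v ∈ range (φ₂ ^ j)

variable {φ₁ : End K C₁} {φ₂ : End K C₂} {l : ℕ} {m₁ m₂ : ℕ}

/-- elementary decomposition of a filtered map along an adapted basis of the source -/
theorem filt_sum {e₁ : Fin m₁ → C₁} (b₁ : Basis (Fin l × Fin m₁) K C₁)
    (hb₁ : ∀ p, b₁ p = (φ₁ ^ (p.1 : ℕ)) (e₁ p.2)) {y : C₁ →ₗ[K] C₂} (hy : Filt φ₁ φ₂ y) :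
    ∃ w : Fin l × Fin m₁ → C₂,
      y = ∑ p, (b₁.coord p).smulRight ((φ₂ ^ (p.1 : ℕ)) (w p)) := by
  have h1 : ∀ p : Fin l × Fin m₁, ∃ w : C₂, (φ₂ ^ (p.1 : ℕ)) w = y (b₁ p) := by
    intro p
    exact hy p.1 (b₁ p) ⟨e₁ p.2, (hb₁ p).symm⟩
  choose w hw using h1
  refine ⟨w, b₁.ext fun p => ?_⟩
  rw [LinearMap.sum_apply, Finset.sum_eq_single p]
  · rw [LinearMap.smulRight_apply, Basis.coord_apply, Basis.repr_self, Finsupp.single_eq_same,
      one_smul, hw]
  · intro q _ hq
    rw [LinearMap.smulRight_apply, Basis.coord_apply, Basis.repr_self,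
      Finsupp.single_eq_of_ne (by exact hq), zero_smul]
  · intro h
    exact absurd (Finset.mem_univ p) h

theorem filt_mem {E : Type*} [AddCommGroup E] [Module K E] [FiniteDimensional K C₁]
    [FiniteDimensional K C₂]
    (h₁ : φ₁ ^ l = 0) (hf₁ : l * finrank K (ker φ₁) = finrank K C₁)
    (h₂ : φ₂ ^ l = 0) (hf₂ : l * finrank K (ker φ₂) = finrank K C₂)
    (S : Submodule K E) (ι₁ ι₂ : (C₁ →ₗ[K] C₂) →ₗ[K] E) {Λ : Set K} (hΛ : Λ.Infinite)
    (h : ∀ c ∈ Λ, ∀ x : C₁ →ₗ[K] C₂, c ^ 2 • (x ∘ₗ φ₁) = φ₂ ∘ₗ x → c • ι₁ x + ι₂ x ∈ S)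
    {y : C₁ →ₗ[K] C₂} (hy : Filt φ₁ φ₂ y) : ι₁ y ∈ S ∧ ι₂ y ∈ S := by
  classical
  obtain ⟨e₁, b₁, hb₁⟩ := TC.exists_adapted h₁ hf₁
  obtain ⟨e₂, b₂, hb₂⟩ := TC.exists_adapted h₂ hf₂
  obtain ⟨w, hw⟩ := filt_sum b₁ hb₁ hy
  -- elementary maps
  let El : (Fin l × Fin (finrank K (ker φ₁))) → C₂ → (C₁ →ₗ[K] C₂) :=
    fun p v => (b₁.coord p).smulRight v
  have hElb : ∀ p q v, El p v (b₁ q) = if q = p then v else 0 := by
    intro p q v
    simp only [El, LinearMap.smulRight_apply, Basis.coord_apply, Basis.repr_self]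
    by_cases hqp : q = p
    · subst hqp
      simp
    · rw [if_neg hqp, Finsupp.single_eq_of_ne (fun h => hqp h.symm), zero_smul]
  -- main claim
  have key : ∀ (j : Fin l) (a : Fin (finrank K (ker φ₁))) (i : Fin l) (q : Fin (finrank K (ker φ₂))),
      ι₁ (El (j, a) ((φ₂ ^ (j : ℕ)) (b₂ (i, q)))) ∈ S ∧
        ι₂ (El (j, a) ((φ₂ ^ (j : ℕ)) (b₂ (i, q)))) ∈ S := by
    intro j a i q
    have hval : ∀ j' : ℕ, (φ₂ ^ j') (b₂ (i, q)) = (φ₂ ^ (i + j' : ℕ)) (e₂ q) := by
      intro j'
      rw [hb₂, ← Module.End.mul_apply, ← pow_add, add_comm]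
    have hzero : ∀ n : ℕ, l ≤ n → (φ₂ ^ n) = 0 := by
      intro n hn
      obtain ⟨r, rfl⟩ := Nat.exists_eq_add_of_le hn
      rw [pow_add, h₂, zero_mul]
    by_cases hij : (i : ℕ) + j < l
    swap
    · have h0 : (φ₂ ^ (j : ℕ)) (b₂ (i, q)) = 0 := by
        rw [hval, hzero _ (by omega)]
        rfl
      rw [h0]
      have h00 : El (j, a) 0 = 0 := by
        simp only [El]
        ext x
        simp
      rw [h00, map_zero, map_zero]
      exact ⟨S.zero_mem, S.zero_mem⟩
    -- index set
    let s : Finset (Fin l × Bool) := Finset.univ.filter fun t => (i : ℕ) + t.1 < l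
    let ex : Fin l × Bool → ℕ := fun t => 2 * (l - 1 - i - t.1) + (if t.2 then 1 else 0)
    let v : Fin l × Bool → E := fun t =>
      if t.2 then ι₁ (El (t.1, a) ((φ₂ ^ (t.1 : ℕ)) (b₂ (i, q))))
      else ι₂ (El (t.1, a) ((φ₂ ^ (t.1 : ℕ)) (b₂ (i, q))))
    have hres := poly_mem S hΛ s ex (by
        rintro ⟨t, b⟩ ht ⟨t', b'⟩ ht' hh
        simp only [s, Finset.mem_filter, Finset.mem_univ, true_and] at ht ht'
        simp only [ex] at hh
        have hb : b = b' := by
          cases b <;> cases b' <;> simp at hh ⊢ <;> omega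
        subst hb
        have : (t : ℕ) = t' := by
          omega
        rw [Prod.mk.injEq]
        exact ⟨Fin.ext this, rfl⟩) v (by
        intro c hc
        -- the intertwiner
        let x : C₁ →ₗ[K] C₂ := b₁.constr K (fun p =>
          if p.2 = a then c ^ (2 * (l - 1 - i - p.1)) • (φ₂ ^ ((i : ℕ) + p.1)) (e₂ q) else 0)
        have hxb : ∀ p, x (b₁ p) =
            if p.2 = a then c ^ (2 * (l - 1 - i - p.1)) • (φ₂ ^ ((i : ℕ) + p.1)) (e₂ q) else 0 :=
          fun p => b₁.constr_basis K _ p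
        have hx : c ^ 2 • (x ∘ₗ φ₁) = φ₂ ∘ₗ x := by
          refine b₁.ext fun p => ?_
          rw [LinearMap.smul_apply, LinearMap.comp_apply, LinearMap.comp_apply, hxb]
          have hφ : φ₁ (b₁ p) = (φ₁ ^ ((p.1 : ℕ) + 1)) (e₁ p.2) := by
            rw [hb₁, ← Module.End.mul_apply, ← pow_succ']
          by_cases hp : (p.1 : ℕ) + 1 < l
          · have h5 : φ₁ (b₁ p) = b₁ (⟨(p.1 : ℕ) + 1, hp⟩, p.2) := by
              rw [hφ, hb₁]
            rw [h5, hxb]
            by_cases hpa : p.2 = a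
            · rw [if_pos hpa, if_pos hpa, map_smul, ← Module.End.mul_apply, ← pow_succ']
              by_cases hb : (i : ℕ) + p.1 + 1 < l
              · rw [smul_smul, ← pow_add]
                congr 2
                simp only
                omega
              · have e1 : (φ₂ ^ ((i : ℕ) + p.1 + 1)) = 0 := hzero _ (by omega)
                have e2 : (φ₂ ^ ((i : ℕ) + ((⟨(p.1 : ℕ) + 1, hp⟩ : Fin l) : ℕ))) = 0 :=
                  hzero _ (by simp only; omega)
                rw [e1, e2]
                simp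
            · rw [if_neg hpa, if_neg hpa]
              simp
          · have h5 : φ₁ (b₁ p) = 0 := by
              rw [hφ]
              obtain ⟨r, hr⟩ := Nat.exists_eq_add_of_le (show l ≤ (p.1 : ℕ) + 1 by omega)
              rw [hr, pow_add, h₁, zero_mul]
              rfl
            rw [h5, map_zero, smul_zero]
            by_cases hpa : p.2 = a
            · rw [if_pos hpa, map_smul, ← Module.End.mul_apply, ← pow_succ',
                hzero _ (by omega)]
              simp
            · rw [if_neg hpa, map_zero]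
        have hsum : x = ∑ t : Fin l, (if (i : ℕ) + t < l then
            c ^ (2 * (l - 1 - i - t)) • El (t, a) ((φ₂ ^ (t : ℕ)) (b₂ (i, q))) else 0) := by
          refine b₁.ext fun p => ?_
          rw [hxb, LinearMap.sum_apply, Finset.sum_eq_single p.1]
          · by_cases hpl : (i : ℕ) + p.1 < l
            · rw [if_pos hpl, LinearMap.smul_apply, hElb]
              by_cases hpa : p.2 = a
              · rw [if_pos hpa, if_pos (by rw [← hpa]), hval]
              · rw [if_neg hpa, if_neg (by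
                  intro hh
                  exact hpa (congrArg Prod.snd hh)), smul_zero]
            · rw [if_neg hpl, LinearMap.zero_apply, hzero _ (by omega)]
              simp
          · intro t _ htp
            by_cases htl : (i : ℕ) + t < l
            · rw [if_pos htl, LinearMap.smul_apply, hElb, if_neg (by
                intro hh
                exact htp (congrArg Prod.fst hh).symm), smul_zero]
            · rw [if_neg htl, LinearMap.zero_apply]
          · intro hh
            exact absurd (Finset.mem_univ _) hh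
        have h6 := h c hc x hx
        have h7 : ∑ t ∈ s, c ^ ex t • v t = c • ι₁ x + ι₂ x := by
          have hι : ∀ f : (C₁ →ₗ[K] C₂) →ₗ[K] E, f x = ∑ t : Fin l, (if (i : ℕ) + t < l then
              c ^ (2 * (l - 1 - i - t)) • f (El (t, a) ((φ₂ ^ (t : ℕ)) (b₂ (i, q)))) else 0) := by
            intro f
            conv_lhs => rw [hsum]
            rw [map_sum]
            refine Finset.sum_congr rfl fun t _ => ?_
            split_ifs with hh
            · rw [map_smul]
            · rw [map_zero]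
          rw [hι ι₁, hι ι₂, Finset.smul_sum, ← Finset.sum_add_distrib]
          simp only [s]
          rw [Finset.sum_filter, Fintype.sum_prod_type]
          refine Finset.sum_congr rfl fun t _ => ?_
          rw [Fintype.sum_bool]
          by_cases hh : (i : ℕ) + t < l
          · simp only [hh, if_true, ex, v]
            rw [pow_succ']
            simp only [add_zero, smul_smul, Bool.false_eq_true, if_false]
          · simp only [hh, if_false, smul_zero]
        rw [h7]
        exact h6)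
    have hjs : ∀ b : Bool, ((j, b) : Fin l × Bool) ∈ s := by
      intro b
      simp only [s, Finset.mem_filter, Finset.mem_univ, true_and]
      exact hij
    have r1 := hres (j, true) (hjs true)
    have r2 := hres (j, false) (hjs false)
    exact ⟨by simpa [v] using r1, by simpa [v] using r2⟩
  have key2 : ∀ (p : Fin l × Fin (finrank K (ker φ₁))) (z : C₂),
      ι₁ (El p ((φ₂ ^ (p.1 : ℕ)) z)) ∈ S ∧ ι₂ (El p ((φ₂ ^ (p.1 : ℕ)) z)) ∈ S := by
    intro p z
    have hlin : ∀ v : C₂, El p v = (LinearMap.smulRightₗ (b₁.coord p)) v := by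
      intro v
      rfl
    have hz : z = ∑ t, b₂.repr z t • b₂ t := (b₂.sum_repr z).symm
    have hexp : El p ((φ₂ ^ (p.1 : ℕ)) z) =
        ∑ t, b₂.repr z t • El p ((φ₂ ^ (p.1 : ℕ)) (b₂ t)) := by
      conv_lhs => rw [hz]
      rw [map_sum, hlin, map_sum]
      refine Finset.sum_congr rfl fun t _ => ?_
      rw [map_smul, map_smul, ← hlin]
    rw [hexp, map_sum, map_sum]
    refine ⟨S.sum_mem fun t _ => ?_, S.sum_mem fun t _ => ?_⟩
    · rw [map_smul]
      exact S.smul_mem _ (key p.1 p.2 t.1 t.2).1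
    · rw [map_smul]
      exact S.smul_mem _ (key p.1 p.2 t.1 t.2).2
  rw [hw, map_sum, map_sum]
  exact ⟨S.sum_mem fun p _ => (key2 p (w p)).1, S.sum_mem fun p _ => (key2 p (w p)).2⟩



end filt

end Crest.Agent.R172.TL
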