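import Crest.Agent.R172.TG2
import Crest.Agent.R172.TL1

/-!
Row 172 (S0260), TAME (T0), arbitrary radical: from single-arm memberships to the END.

`T p q = p ⊗ (J q)`. If for every arm `s` the filtered rank one matrices
`T (Φ_s^i p) (Φ_s^j q)`, `i + j + 1 = l_s`, `p, q ∈ P`, and the radical ones `T r p`, `T p r`
(`r ∈ P`, `e r = 0`) lie in `Q s`, then every endomorphism of the core `M` filtered at all arms
has a lift lying in all `Q s`.
-/

set_option autoImplicit false
set_option linter.unusedSectionVars false

namespace Crest.Agent.R172.EndR

open Matrix Module Crest.Agent.R172.FO Crest.Agent.R172.TG Crest.Agent.R172.Core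

variable {ι : Type*} [Fintype ι] [DecidableEq ι]
variable {K : Type*} [Field K]

/-- the rank one matrix `v ↦ (q, v) p` -/
def T (J : Matrix ι ι K) (p q : ι → K) : Matrix ι ι K := vecMulVec p (J *ᵥ q)

variable {J : Matrix ι ι K}









section main

variable {e : Matrix ι ι K} {M : Submodule K (ι → K)}

/-- the span of the rank one matrices on `P` -/
def PP (J : Matrix ι ι K) (P : Submodule K (ι → K)) : Submodule K (Matrix ι ι K) :=
  Submodule.span K {y | ∃ p ∈ P, ∃ q ∈ P, y = T J p q}






end main

section final

variable {δ : Type*} [Fintype δ] [DecidableEq δ] {k : Type*} [Field k] [Algebra k K]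
variable {arm : δ → Fin 3} {B : Matrix δ δ K} {N W : Submodule K (Matrix ι δ K)}
  {F : Matrix ι δ K} {e : Matrix ι ι K} {M : Submodule K (ι → K)}




end final

section blocks

variable {e : Matrix ι ι K} {n : Type*} [Fintype n]






end blocks

end Crest.Agent.R172.EndR
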