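import Mathlib

/-!
Row 172 (S0260), node FO: FIRST ORDER layer of the core.

Everything is written with matrices over a field `K` (the field of the generic point):
* `V = ι → K` with the constant symmetric form `J`,
* `U = δ → K` with the constant symmetric form `B`; `arm : δ → Fin 3` cuts `U` into the three
  arms `U_s`, `arm`-block diagonal form `B`,
* an element `F` of `V ⊗ U` is a matrix `F : Matrix ι δ K`, `F_s = F * E arm s`,
* `N = ⊕_s g_s n_s` and `W = V ⊗ L` are the two Lagrangian subspaces of `V ⊗ U`,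
  `K = N ⊓ W`.
`M arm B s F F' = F_s B F'^T` (ι × ι), `Φ_s = M_s(F,F) J`.
-/

set_option linter.unusedSectionVars false

namespace Crest.Agent.R172.FO

open Matrix

variable {ι : Type*} [Fintype ι] [DecidableEq ι] {δ : Type*} [Fintype δ] [DecidableEq δ]
variable {k K : Type*} [Field k] [Field K] [Algebra k K]

/-- projector of `U` on the arm `s` -/
def E (K : Type*) [Field K] (arm : δ → Fin 3) (s : Fin 3) : Matrix δ δ K :=
  diagonal (fun d => if arm d = s then 1 else 0)

lemma E_transpose (arm : δ → Fin 3) (s : Fin 3) : (E K arm s)ᵀ = E K arm s := by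
  simp [E]

lemma E_mul_self (arm : δ → Fin 3) (s : Fin 3) : E K arm s * E K arm s = E K arm s := by
  unfold E
  rw [diagonal_mul_diagonal]
  congr 1
  ext d
  split_ifs <;> simp

lemma E_mul_ne (arm : δ → Fin 3) {s t : Fin 3} (h : s ≠ t) : E K arm s * E K arm t = 0 := by
  unfold E
  rw [diagonal_mul_diagonal]
  rw [← diagonal_zero]
  congr 1
  ext d
  by_cases h1 : arm d = s
  · have : arm d ≠ t := fun h2 => h (h1 ▸ h2)
    simp [this]
  · simp [h1]

lemma sum_E (arm : δ → Fin 3) : ∑ s, E K arm s = 1 := by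
  unfold E
  ext i j
  rw [Matrix.sum_apply]
  by_cases h : i = j
  · subst h
    simp
  · simp [h]

lemma E_map_der (arm : δ → Fin 3) (s : Fin 3) (d : Derivation k K K) :
    (E K arm s).map d = 0 := by
  unfold E
  ext i j
  by_cases h : i = j
  · subst h
    rw [map_apply, diagonal_apply_eq]
    split_ifs <;> simp
  · simp [h]

/-- the joint action of `X = (X_1,X_2,X_3)` on `V ⊗ U` -/
def act (arm : δ → Fin 3) (X : Fin 3 → Matrix ι ι K) (F : Matrix ι δ K) : Matrix ι δ K :=
  ∑ s, X s * F * E K arm s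

lemma act_mul_E (arm : δ → Fin 3) (X : Fin 3 → Matrix ι ι K) (F : Matrix ι δ K) (s : Fin 3) :
    act arm X F * E K arm s = X s * F * E K arm s := by
  unfold act
  rw [Matrix.sum_mul, Finset.sum_eq_single s]
  · rw [Matrix.mul_assoc (X s * F), E_mul_self]
  · intro t _ ht
    rw [Matrix.mul_assoc (X t * F), E_mul_ne arm ht, Matrix.mul_zero]
  · intro h
    exact absurd (Finset.mem_univ s) h

lemma act_zero (arm : δ → Fin 3) (F : Matrix ι δ K) :
    act arm (0 : Fin 3 → Matrix ι ι K) F = 0 := by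
  simp [act]

/-- `M_s(F,F') = F_s B F'^T` -/
def M (arm : δ → Fin 3) (B : Matrix δ δ K) (s : Fin 3) (F F' : Matrix ι δ K) : Matrix ι ι K :=
  F * E K arm s * B * F'ᵀ

lemma sum_M (arm : δ → Fin 3) (B : Matrix δ δ K) (F F' : Matrix ι δ K) :
    ∑ s, M arm B s F F' = F * B * F'ᵀ := by
  unfold M
  rw [← Matrix.sum_mul, ← Matrix.sum_mul, ← Matrix.mul_sum, sum_E, Matrix.mul_one]

/-- the pairing on `V ⊗ U` -/
def pair (J : Matrix ι ι K) (B : Matrix δ δ K) (F F' : Matrix ι δ K) : K :=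
  trace (Fᵀ * J * F' * B)

/-- a symmetric matrix criterion -/
lemma symm_of_trace_skew {α : Type*} [Fintype α] [DecidableEq α] (A : Matrix α α K)
    (h : ∀ G : Matrix α α K, Gᵀ = -G → trace (G * A) = 0) : Aᵀ = A := by
  ext i j
  have h1 := h (Matrix.single i j 1 - Matrix.single j i 1) (by
    rw [transpose_sub, transpose_single, transpose_single, neg_sub])
  rw [Matrix.sub_mul, trace_sub, trace_single_mul, trace_single_mul, one_smul, one_smul,
    sub_eq_zero] at h1
  rw [transpose_apply]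
  exact h1

lemma map_mul_der {α β γ : Type*} [Fintype β] (d : Derivation k K K) (A : Matrix α β K)
    (C : Matrix β γ K) : (A * C).map d = A.map d * C + A * C.map d := by
  ext i j
  simp only [map_apply, mul_apply, map_sum, Derivation.leibniz, smul_eq_mul, Matrix.add_apply]
  rw [Finset.sum_add_distrib, add_comm]
  congr 1
  exact Finset.sum_congr rfl fun x _ => mul_comm _ _

lemma map_transpose_der {α β : Type*} (d : Derivation k K K) (A : Matrix α β K) :
    Aᵀ.map d = (A.map d)ᵀ := rfl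

lemma map_add_der {α β : Type*} (d : Derivation k K K) (A C : Matrix α β K) :
    (A + C).map d = A.map d + C.map d := by
  ext i j; simp

lemma map_sub_der {α β : Type*} (d : Derivation k K K) (A C : Matrix α β K) :
    (A - C).map d = A.map d - C.map d := by
  ext i j; simp

/-- `d` realises the direction `(X,ξ)` -/
structure Realises (arm : δ → Fin 3) (N W : Submodule K (Matrix ι δ K))
    (X : Fin 3 → Matrix ι ι K) (ξ : Matrix δ δ K) (d : Derivation k K K) : Prop where
  onN : ∀ F ∈ N, F.map d - act arm X F ∈ N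
  onW : ∀ F ∈ W, F.map d - F * ξᵀ ∈ W

variable (k) in
/-- the moving Lagrangians `N = ⊕ g_s n_s`, `W = V ⊗ L` in `V ⊗ U` and the realisation of all
directions of `SO(V)^3 × SO(U)` by derivations. -/
structure Data (arm : δ → Fin 3) (J : Matrix ι ι K) (B : Matrix δ δ K)
    (N W : Submodule K (Matrix ι δ K)) : Prop where
  J_symm : Jᵀ = J
  J_unit : IsUnit J
  J_const : ∀ d : Derivation k K K, J.map d = 0
  B_symm : Bᵀ = B
  B_unit : IsUnit B
  B_const : ∀ d : Derivation k K K, B.map d = 0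
  B_arm : ∀ s, E K arm s * B = B * E K arm s
  N_arm : ∀ F ∈ N, ∀ s, F * E K arm s ∈ N
  N_iso : ∀ F ∈ N, ∀ F' ∈ N, pair J B F F' = 0
  W_iso : ∀ F ∈ W, ∀ F' ∈ W, F * B * F'ᵀ = 0
  W_left : ∀ F ∈ W, ∀ A : Matrix ι ι K, A * F ∈ W
  dir : ∀ (X : Fin 3 → Matrix ι ι K) (ξ : Matrix δ δ K),
    (∀ s, (X s)ᵀ * J + J * X s = 0) → ξᵀ * B + B * ξ = 0 →
    ∃ d : Derivation k K K, Realises arm N W X ξ d

variable (k) in
/-- `F` is a generic element of `K = N ⊓ W` -/
structure Generic (arm : δ → Fin 3) (N W : Submodule K (Matrix ι δ K)) (F : Matrix ι δ K) :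
    Prop where
  mem : F ∈ N ⊓ W
  vert : ∀ F' ∈ N ⊓ W, ∃ d : Derivation k K K, F.map d = F' ∧
    Realises arm N W (0 : Fin 3 → Matrix ι ι K) (0 : Matrix δ δ K) d

section
variable {arm : δ → Fin 3} {J : Matrix ι ι K} {B : Matrix δ δ K}
  {N W : Submodule K (Matrix ι δ K)}

/-- the first order identity -/
theorem Data.first_order (hD : Data k arm J B N W) {F F' : Matrix ι δ K} (hF : F ∈ N ⊓ W)
    (hF' : F' ∈ N ⊓ W) (X : Fin 3 → Matrix ι ι K) (ξ : Matrix δ δ K)
    (hX : ∀ s, (X s)ᵀ * J + J * X s = 0) (hξ : ξᵀ * B + B * ξ = 0) :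
    trace ((act arm X F)ᵀ * J * F' * B) = trace (ξ * Fᵀ * J * F' * B) := by
  obtain ⟨d, hd⟩ := hD.dir X ξ hX hξ
  have h1 := hD.N_iso _ (hd.onN F hF.1) F' hF'.1
  have h2 := hD.W_iso _ (hd.onW F hF.2) F' hF'.2
  have h3 : pair J B (F.map d - F * ξᵀ) F' = 0 := by
    have h4 : F' * B * (F.map d - F * ξᵀ)ᵀ = 0 := hD.W_iso _ hF'.2 _ (hd.onW F hF.2)
    unfold pair
    rw [Matrix.mul_assoc, Matrix.mul_assoc, trace_mul_comm, Matrix.mul_assoc, h4,
      Matrix.mul_zero, trace_zero]
  unfold pair at h1 h3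
  rw [transpose_sub, Matrix.sub_mul, Matrix.sub_mul, Matrix.sub_mul, trace_sub, sub_eq_zero]
    at h1 h3
  rw [transpose_mul, transpose_transpose] at h3
  rw [← h1, h3]

/-- (F1) `F^T J F'` is symmetric -/
theorem Data.symm_U (hD : Data k arm J B N W) {F F' : Matrix ι δ K} (hF : F ∈ N ⊓ W)
    (hF' : F' ∈ N ⊓ W) : F'ᵀ * J * F = Fᵀ * J * F' := by
  obtain ⟨Bi, hBi⟩ := hD.B_unit.exists_right_inv
  have hBi' : Bi * B = 1 := by
    rw [mul_eq_one_comm] at hBi; exact hBi
  have hBit : Biᵀ = Bi := by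
    have h : B * Biᵀ = 1 := by
      have := congrArg transpose hBi'
      rw [transpose_mul, transpose_one, hD.B_symm] at this
      exact this
    calc Biᵀ = (Bi * B) * Biᵀ := by rw [hBi', Matrix.one_mul]
      _ = Bi := by rw [Matrix.mul_assoc, h, Matrix.mul_one]
  have key : (Fᵀ * J * F')ᵀ = Fᵀ * J * F' := by
    apply symm_of_trace_skew
    intro G hG
    have h := hD.first_order hF hF' 0 (Bi * G) (by intro s; simp) (by
      rw [transpose_mul, hG, hBit, Matrix.neg_mul, Matrix.neg_mul, Matrix.mul_assoc, hBi',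
        Matrix.mul_one, ← Matrix.mul_assoc, hBi, Matrix.one_mul, neg_add_cancel])
    rw [act_zero] at h
    simp only [transpose_zero, Matrix.zero_mul, trace_zero] at h
    rw [trace_mul_comm] at h
    rw [Matrix.mul_assoc (Bi * G), Matrix.mul_assoc (Bi * G), ← Matrix.mul_assoc B,
      ← Matrix.mul_assoc B, hBi, Matrix.one_mul] at h
    rw [← h]
  rw [transpose_mul, transpose_mul, transpose_transpose, hD.J_symm, ← Matrix.mul_assoc] at key
  exact key

/-- (F2) `F_s B F'_s^T` is symmetric for each arm -/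
theorem Data.symm_arm (hD : Data k arm J B N W) {F F' : Matrix ι δ K} (hF : F ∈ N ⊓ W)
    (hF' : F' ∈ N ⊓ W) (s : Fin 3) : M arm B s F F' = M arm B s F' F := by
  obtain ⟨Ji, hJi⟩ := hD.J_unit.exists_right_inv
  have hJi' : Ji * J = 1 := by
    rw [mul_eq_one_comm] at hJi; exact hJi
  have hJit : Jiᵀ = Ji := by
    have h : J * Jiᵀ = 1 := by
      have := congrArg transpose hJi'
      rw [transpose_mul, transpose_one, hD.J_symm] at this
      exact this
    calc Jiᵀ = (Ji * J) * Jiᵀ := by rw [hJi', Matrix.one_mul]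
      _ = Ji := by rw [Matrix.mul_assoc, h, Matrix.mul_one]
  have hM : (M arm B s F' F)ᵀ = M arm B s F F' := by
    unfold M
    rw [transpose_mul, transpose_mul, transpose_mul, transpose_transpose, E_transpose,
      hD.B_symm]
    simp only [Matrix.mul_assoc]
    rw [← Matrix.mul_assoc B, ← hD.B_arm, Matrix.mul_assoc]
  rw [← hM]
  apply symm_of_trace_skew
  intro G hG
  -- X_t = δ_{ts} * (-(Ji * G))  so that X^T J = G
  have h := hD.first_order hF hF' (fun t => if t = s then -(Ji * G) else 0) 0 (by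
    intro t
    by_cases ht : t = s
    · simp only [ht, if_true]
      rw [transpose_neg, transpose_mul, hG, hJit, Matrix.neg_mul, Matrix.neg_mul,
        Matrix.neg_mul, Matrix.mul_assoc, hJi', Matrix.mul_one, Matrix.mul_neg,
        ← Matrix.mul_assoc, hJi, Matrix.one_mul]
      simp
    · simp [ht]) (by simp)
  have hact : act arm (fun t => if t = s then -(Ji * G) else 0) F
      = -(Ji * G) * F * E K arm s := by
    unfold act
    rw [Finset.sum_eq_single s]
    · simp
    · intro t _ ht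
      simp [ht]
    · intro h
      exact absurd (Finset.mem_univ s) h
  rw [hact, Matrix.zero_mul, Matrix.zero_mul, Matrix.zero_mul, Matrix.zero_mul, trace_zero] at h
  rw [transpose_mul, transpose_mul, transpose_neg, transpose_mul, hG, hJit, Matrix.neg_mul,
    neg_neg, E_transpose] at h
  -- trace (E * (F^T * (G * Ji)) * J * F' * B)
  have h2 : E K arm s * (Fᵀ * (G * Ji)) * J * F' * B = (E K arm s * Fᵀ) * (G * F' * B) := by
    simp only [Matrix.mul_assoc]
    rw [← Matrix.mul_assoc Ji J, hJi', Matrix.one_mul]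
  rw [h2, trace_mul_comm] at h
  rw [← h]
  unfold M
  congr 1
  simp only [Matrix.mul_assoc]
  rw [← Matrix.mul_assoc B, ← hD.B_arm, Matrix.mul_assoc]


/-- `F` onto: every `F' ∈ K` is `D F` with `D` self-adjoint and commuting with the
`Φ_s = M_s J`. -/
theorem Data.exists_D (hD : Data k arm J B N W) {F F' : Matrix ι δ K} (hF : F ∈ N ⊓ W)
    (hF' : F' ∈ N ⊓ W) (R : Matrix δ ι K) (hR : F * R = 1) :
    ∃ D : Matrix ι ι K, F' = D * F ∧ Dᵀ * J = J * D ∧
      ∀ s, D * (M arm B s F F * J) = (M arm B s F F * J) * D := by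
  obtain ⟨Ji, hJi⟩ := hD.J_unit.exists_right_inv
  have hJi' : Ji * J = 1 := by
    rw [mul_eq_one_comm] at hJi; exact hJi
  have hRt : Rᵀ * Fᵀ = 1 := by
    rw [← transpose_mul, hR, transpose_one]
  have h1 := hD.symm_U hF hF'
  have hDF : F' = Ji * (Rᵀ * F'ᵀ * J) * F := by
    have : J * F' = Rᵀ * F'ᵀ * J * F := by
      calc J * F' = (Rᵀ * Fᵀ) * (J * F') := by rw [hRt, Matrix.one_mul]
        _ = Rᵀ * (Fᵀ * J * F') := by simp only [Matrix.mul_assoc]
        _ = Rᵀ * F'ᵀ * J * F := by rw [← h1]; simp only [Matrix.mul_assoc]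
    calc F' = (Ji * J) * F' := by rw [hJi', Matrix.one_mul]
      _ = Ji * (J * F') := by rw [Matrix.mul_assoc]
      _ = _ := by rw [this]; simp only [Matrix.mul_assoc]
  have hDJ : (Ji * (Rᵀ * F'ᵀ * J))ᵀ * J = J * (Ji * (Rᵀ * F'ᵀ * J)) := by
    have h2 : J * (Ji * (Rᵀ * F'ᵀ * J)) = Rᵀ * F'ᵀ * J := by
      rw [← Matrix.mul_assoc, hJi, Matrix.one_mul]
    have h3 : (Rᵀ * F'ᵀ * J)ᵀ = Rᵀ * F'ᵀ * J := by
      rw [transpose_mul, transpose_mul, transpose_transpose, transpose_transpose, hD.J_symm]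
      calc J * (F' * R) = (Rᵀ * Fᵀ) * (J * (F' * R)) := by rw [hRt, Matrix.one_mul]
        _ = Rᵀ * (Fᵀ * J * F') * R := by simp only [Matrix.mul_assoc]
        _ = Rᵀ * F'ᵀ * J * (F * R) := by rw [← h1]; simp only [Matrix.mul_assoc]
        _ = _ := by rw [hR, Matrix.mul_one]
    rw [h2]
    have h4 : (Ji * (Rᵀ * F'ᵀ * J))ᵀ * J = (J * (Ji * (Rᵀ * F'ᵀ * J)))ᵀ := by
      rw [transpose_mul J, hD.J_symm]
    rw [h4, h2, h3]
  refine ⟨Ji * (Rᵀ * F'ᵀ * J), hDF, hDJ, ?_⟩
  intro s
  generalize Ji * (Rᵀ * F'ᵀ * J) = D at hDF hDJ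
  have h5 := hD.symm_arm hF hF' s
  unfold M at h5 ⊢
  rw [hDF, transpose_mul] at h5
  calc D * (F * E K arm s * B * Fᵀ * J) = (D * F * E K arm s * B * Fᵀ) * J := by
        simp only [Matrix.mul_assoc]
    _ = (F * E K arm s * B * (Fᵀ * Dᵀ)) * J := by rw [h5]
    _ = F * E K arm s * B * Fᵀ * (Dᵀ * J) := by simp only [Matrix.mul_assoc]
    _ = _ := by rw [hDJ]; simp only [Matrix.mul_assoc]
end

end Crest.Agent.R172.FO
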