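import Crest.Agent.R172.Ind3

-- ▼ part R172/Ind4
section

/-!
Row 172, node IND, part 4: the configuration of `V_S`.
-/

set_option autoImplicit false
set_option maxHeartbeats 400000
set_option linter.unusedSectionVars false

namespace Crest.Agent.R172.Ind

open Module Matrix Crest.Agent.R172.HM2 Crest.Agent.R172.HM8 Crest.Agent.R172.HM9
open Crest.Agent.R172.Gen (Jm Ix emb IsSo)
open Crest.Agent.R172.CF

variable {n n' : ℕ} {a : Fin 3 → Fin n → ℤ}

/-! ### the new configuration -/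

/-- the new weights -/
def redA (c : Cfg n a) (f : c.δ → ℕ) (s : Fin 3) (i : Fin n') : ℤ :=
  2 * ((Finset.univ.filter (fun d => c.arm d = s ∧ (i : ℕ) < f d)).card : ℤ) -
    ((Finset.univ.filter (fun d => c.arm d = s)).card : ℤ)

/-- the new configuration -/
@[reducible] def redCfg (c : Cfg n a) (f : c.δ → ℕ) (hf : ∀ d, f (c.σ d) + f d = 2 * n') :
    Cfg n' (redA (n' := n') c f) where
  δ := c.δ
  arm := c.arm
  σ := c.σ
  inv := c.inv
  arm_σ := c.arm_σ
  A := fun i d => (i : ℕ) < f d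
  mono := by
    intro i j hij d h
    have h1 : (i : ℕ) < j := hij
    exact h1.trans h
  perp := by
    intro i j hij d h
    have h1 := hf d
    have h2 := i.2
    have h3 := j.2
    have h4 : (i : ℕ) ≠ j := fun h => hij (Fin.ext h)
    have h5 : ¬ (j : ℕ) < f (c.σ d) := h
    change (i : ℕ) < f d
    omega
  count := fun s i => rfl

/-- polarisation -/
@[reducible] noncomputable def redPol {c : Cfg n a} (p : Pol c) (f : c.δ → ℕ)
    (hf : ∀ d, f (c.σ d) + f d = 2 * n') : Pol (redCfg c f hf) where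
  m := p.m
  card := p.card
  T := p.T
  hT := p.hT

/-- standard polarisation -/
@[reducible] def redSPol {c : Cfg n a} (q : SPol c) (f : c.δ → ℕ)
    (hf : ∀ d, f (c.σ d) + f d = 2 * n') : SPol (redCfg c f hf) where
  m := q.m
  dd := q.dd
  z := q.z
  reg := q.reg
  fix := q.fix


/-- ranks -/
@[reducible] def redRk {c : Cfg n a} (R : Ranked c) (f : c.δ → ℕ)
    (hf : ∀ d, f (c.σ d) + f d = 2 * n')
    (hm : ∀ d e, c.arm d = c.arm e → R.rk e ≤ R.rk d → f d ≤ f e) : Ranked (redCfg c f hf) where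
  rk := R.rk
  rk_σ := R.rk_σ
  anti := by
    intro d e h1 h2 i h3
    have h4 := hm d e h1 h2
    change (i : ℕ) < f e
    have h5 : (i : ℕ) < f d := h3
    omega


theorem Gd_red (c : Cfg n a) (f : c.δ → ℕ) (hf : ∀ d, f (c.σ d) + f d = 2 * n') (d : c.δ) :
    Gd (redCfg c f hf) d = Xd (f d) (f (c.σ d)) := by
  funext p
  rcases p with i | i <;> rfl

section

variable {K : Type*} [Field K]

/-- the column subspaces -/
def CC (c : Cfg n a) (g : Fin 3 → Matrix (Ix n) (Ix n) K) (d : c.δ) : Submodule K (Ix n → K) :=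
  Co (g (c.arm d)) (Gd c d)

theorem CC_σ (c : Cfg n a) {g : Fin 3 → Matrix (Ix n) (Ix n) K} (hg : ∀ s, Orth (g s)) (d : c.δ) :
    CC c g (c.σ d) = perp (CC c g d) := by
  rw [CC, CC, c.arm_σ, ← Gd_hat, Co_perp (hg _)]

theorem CC_anti {c : Cfg n a} (R : Ranked c) (g : Fin 3 → Matrix (Ix n) (Ix n) K) {d e : c.δ}
    (h1 : c.arm d = c.arm e) (h2 : R.rk e ≤ R.rk d) : CC c g d ≤ CC c g e := by
  rw [CC, CC, h1]
  apply Co_mono
  rintro (i | i) h
  · exact R.anti d e h1 h2 i h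
  · intro h'
    refine h (R.anti (c.σ e) (c.σ d) (by rw [c.arm_σ, c.arm_σ, h1]) ?_ i h')
    rw [R.rk_σ, R.rk_σ]
    omega

/-- the new column subspaces -/
def CR (c : Cfg n a) (g : Fin 3 → Matrix (Ix n) (Ix n) K) (S : Submodule K (Ix n → K))
    (τ : Matrix (Ix n') (Ix n) K) (d : c.δ) : Submodule K (Ix n' → K) :=
  (CC c g d ⊓ perp S).map (mulVecLin τ)

theorem mem_CR {c : Cfg n a} {g : Fin 3 → Matrix (Ix n) (Ix n) K} {S : Submodule K (Ix n → K)}
    {τ : Matrix (Ix n') (Ix n) K} {d : c.δ} {x : Ix n' → K} :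
    x ∈ CR c g S τ d ↔ ∃ v, v ∈ CC c g d ∧ v ∈ perp S ∧ τ *ᵥ v = x := by
  constructor
  · rintro ⟨v, ⟨h1, h2⟩, h3⟩
    exact ⟨v, h1, h2, h3⟩
  · rintro ⟨v, h1, h2, h3⟩
    exact ⟨v, ⟨h1, h2⟩, h3⟩

theorem Sec.beta_mem {S : Submodule K (Ix n → K)} {β : Matrix (Ix n) (Ix n') K}
    {τ : Matrix (Ix n') (Ix n) K} (h : Sec S n' β τ) (x : Ix n' → K) : β *ᵥ x ∈ perp S := by
  intro s hs
  rw [h.adj, h.kill s hs, map_zero]

theorem Sec.tau_beta {S : Submodule K (Ix n → K)} {β : Matrix (Ix n) (Ix n') K}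
    {τ : Matrix (Ix n') (Ix n) K} (h : Sec S n' β τ) (x : Ix n' → K) : τ *ᵥ (β *ᵥ x) = x := by
  rw [mulVec_mulVec, h.tb, one_mulVec]

theorem Sec.form_tau {S : Submodule K (Ix n → K)} {β : Matrix (Ix n) (Ix n') K}
    {τ : Matrix (Ix n') (Ix n) K} (h : Sec S n' β τ) {v w : Ix n → K} (hv : v ∈ perp S)
    (hw : w ∈ perp S) : form n' K (τ *ᵥ v) (τ *ᵥ w) = form n K v w := by
  rw [← h.adj]
  have h1 := h.dec v hv
  have h2 : form n K (v - β *ᵥ (τ *ᵥ v)) w = 0 := by
    rw [form_symm]; exact hw _ h1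
  rw [map_sub, LinearMap.sub_apply, sub_eq_zero] at h2
  exact h2.symm

theorem CR_σ {c : Cfg n a} {g : Fin 3 → Matrix (Ix n) (Ix n) K} (hg : ∀ s, Orth (g s))
    {S : Submodule K (Ix n → K)} {β : Matrix (Ix n) (Ix n') K} {τ : Matrix (Ix n') (Ix n) K}
    (hs : Sec S n' β τ) (d : c.δ) : CR c g S τ (c.σ d) = perp (CR c g S τ d) := by
  ext x
  rw [mem_CR]
  constructor
  · rintro ⟨v, h1, h2, rfl⟩ y hy
    obtain ⟨w, h3, h4, rfl⟩ := mem_CR.1 hy
    rw [hs.form_tau h2 h4]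
    rw [CC_σ c hg] at h1
    exact h1 w h3
  · intro hx
    have h1 : β *ᵥ x ∈ perp (CC c g d ⊓ perp S) := by
      rintro v ⟨h2, h3⟩
      rw [hs.adj]
      exact hx _ (mem_CR.2 ⟨v, h2, h3, rfl⟩)
    rw [perp_inf, perp_perp] at h1
    obtain ⟨u, hu, s, hsS, h4⟩ := Submodule.mem_sup.1 h1
    refine ⟨u, ?_, ?_, ?_⟩
    · rw [CC_σ c hg]; exact hu
    · have h5 : u = β *ᵥ x - s := by rw [← h4]; abel
      rw [h5]
      exact Submodule.sub_mem _ (hs.beta_mem x) (hs.iso.le_perp hsS)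
    · have h5 : u = β *ᵥ x - s := by rw [← h4]; abel
      rw [h5, mulVec_sub, hs.tau_beta, hs.kill s hsS, sub_zero]

theorem CR_anti {c : Cfg n a} (R : Ranked c) (g : Fin 3 → Matrix (Ix n) (Ix n) K)
    (S : Submodule K (Ix n → K)) (τ : Matrix (Ix n') (Ix n) K) {d e : c.δ}
    (h1 : c.arm d = c.arm e) (h2 : R.rk e ≤ R.rk d) : CR c g S τ d ≤ CR c g S τ e :=
  Submodule.map_mono (inf_le_inf_right _ (CC_anti R g h1 h2))

/-- **frames of `V_S`** -/
theorem exists_red {c : Cfg n a} (R : Ranked c) {g : Fin 3 → Matrix (Ix n) (Ix n) K}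
    (hg : ∀ s, Orth (g s)) {S : Submodule K (Ix n → K)} {β : Matrix (Ix n) (Ix n') K}
    {τ : Matrix (Ix n') (Ix n) K} (hs : Sec S n' β τ) :
    ∃ (f : c.δ → ℕ) (hf : ∀ d, f (c.σ d) + f d = 2 * n')
      (_ : ∀ d e, c.arm d = c.arm e → R.rk e ≤ R.rk d → f d ≤ f e)
      (g' : Fin 3 → Matrix (Ix n') (Ix n') K), (∀ s, Orth (g' s)) ∧
      ∀ d, CC (redCfg c f hf) g' d = CR c g S τ d := by
  classical
  have hf : ∀ d, finrank K (CR c g S τ (c.σ d)) + finrank K (CR c g S τ d) = 2 * n' := by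
    intro d
    rw [CR_σ hg hs]
    exact finrank_perp _
  refine ⟨fun d => finrank K (CR c g S τ d), hf, fun d e h1 h2 =>
    Submodule.finrank_mono (CR_anti R g S τ h1 h2), ?_⟩
  have key : ∀ s : Fin 3, ∃ g' : Matrix (Ix n') (Ix n') K, Orth g' ∧
      ∀ d, c.arm d = s → CR c g S τ d =
        Co g' (Xd (finrank K (CR c g S τ d)) (finrank K (CR c g S τ (c.σ d)))) := by
    intro s
    let σ' : {d : c.δ // c.arm d = s} → {d : c.δ // c.arm d = s} :=
      fun d => ⟨c.σ d.1, by rw [c.arm_σ]; exact d.2⟩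
    let C : {d : c.δ // c.arm d = s} → Submodule K (Ix n' → K) := fun d => CR c g S τ d.1
    have hσ' : ∀ d, σ' (σ' d) = d := fun d => Subtype.ext (c.inv d.1)
    have hC1 : ∀ d e, C d ≤ C e ∨ C e ≤ C d := by
      intro d e
      rcases le_total (R.rk e.1) (R.rk d.1) with h | h
      · exact Or.inl (CR_anti R g S τ (by rw [d.2, e.2]) h)
      · exact Or.inr (CR_anti R g S τ (by rw [d.2, e.2]) h)
    have hC2 : ∀ d, C (σ' d) = perp (C d) := fun d => CR_σ hg hs d.1
    obtain ⟨g', h1, h2⟩ := frame_of_dual_chain σ' hσ' C hC1 hC2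
    exact ⟨g', h1, fun d hd => h2 ⟨d, hd⟩⟩
  choose g' h1 h2 using key
  refine ⟨g', h1, fun d => ?_⟩
  rw [CC, Gd_red]
  exact (h2 (c.arm d) d rfl).symm

end

end Crest.Agent.R172.Ind
end

-- ▼ part R172/Ind5
section

/-!
Row 172, node IND, part 5: `N(V_S)`, the dimension count and the additivity of `μ`.
-/

set_option autoImplicit false
set_option maxHeartbeats 400000
set_option linter.unusedSectionVars false

namespace Crest.Agent.R172.Ind

open Module Matrix Crest.Agent.R172.HM2 Crest.Agent.R172.HM8 Crest.Agent.R172.HM9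
open Crest.Agent.R172.Gen (Jm Ix emb IsSo)
open Crest.Agent.R172.CF

variable {n n' : ℕ} {a : Fin 3 → Fin n → ℤ}

theorem finrank_map_ker {K V V' : Type*} [Field K] [AddCommGroup V] [Module K V]
    [AddCommGroup V'] [Module K V'] [FiniteDimensional K V] (P : Submodule K V) (T : V →ₗ[K] V') :
    finrank K (P.map T) + finrank K ↥(P ⊓ LinearMap.ker T) = finrank K P := by
  have h1 := LinearMap.finrank_range_add_finrank_ker (T.domRestrict P)
  have h2 : LinearMap.range (T.domRestrict P) = P.map T := LinearMap.range_domRestrict P T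
  rw [h2] at h1
  rw [← h1]
  congr 1
  let e : ↥(P ⊓ LinearMap.ker T) ≃ₗ[K] ↥(LinearMap.ker (T.domRestrict P)) :=
    { toFun := fun v => ⟨⟨v.1, v.2.1⟩, v.2.2⟩
      invFun := fun v => ⟨v.1.1, v.1.2, v.2⟩
      map_add' := fun _ _ => rfl
      map_smul' := fun _ _ => rfl
      left_inv := fun _ => rfl
      right_inv := fun _ => rfl }
  exact e.finrank_eq

section

variable {K : Type*} [Field K]

/-- left multiplication -/
def tauL {ι κ δ : Type*} [Fintype ι] (τ : Matrix κ ι K) : Matrix ι δ K →ₗ[K] Matrix κ δ K where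
  toFun F := τ * F
  map_add' F G := Matrix.mul_add _ _ _
  map_smul' t F := by rw [RingHom.id_apply, Matrix.mul_smul]

theorem tauL_apply {ι κ δ : Type*} [Fintype ι] (τ : Matrix κ ι K) (F : Matrix ι δ K) :
    tauL τ F = τ * F := rfl

theorem mul_col {ι κ δ : Type*} [Fintype ι] (τ : Matrix κ ι K) (F : Matrix ι δ K) (d : δ) :
    (fun q => (τ * F) q d) = τ *ᵥ (fun p => F p d) := rfl

/-- the data of a reduction -/
structure RedAt (c : Cfg n a) (f : c.δ → ℕ) (hf : ∀ d, f (c.σ d) + f d = 2 * n')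
    (g : Fin 3 → Matrix (Ix n) (Ix n) K) (S : Submodule K (Ix n → K))
    (β : Matrix (Ix n) (Ix n') K) (τ : Matrix (Ix n') (Ix n) K)
    (g' : Fin 3 → Matrix (Ix n') (Ix n') K) : Prop where
  orth : ∀ s, Orth (g s)
  sec : Sec S n' β τ
  orth' : ∀ s, Orth (g' s)
  cols : ∀ d, CC (redCfg c f hf) g' d = CR c g S τ d

variable {c : Cfg n a} {f : c.δ → ℕ} {hf : ∀ d, f (c.σ d) + f d = 2 * n'}
  {g : Fin 3 → Matrix (Ix n) (Ix n) K} {S : Submodule K (Ix n → K)}
  {β : Matrix (Ix n) (Ix n') K} {τ : Matrix (Ix n') (Ix n) K}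
  {g' : Fin 3 → Matrix (Ix n') (Ix n') K}

theorem mem_N'' (c : Cfg n a) {g : Fin 3 → Matrix (Ix n) (Ix n) K} {F : Matrix (Ix n) c.δ K} :
    F ∈ c.N g ↔ ∀ d, (fun p => F p d) ∈ CC c g d := mem_N' c

theorem RedAt.mem_N (h : RedAt c f hf g S β τ g') {F' : Matrix (Ix n') c.δ K} :
    F' ∈ (redCfg c f hf).N g' ↔ ∃ F ∈ c.N g, F ∈ SU (perp S) ∧ τ * F = F' := by
  rw [mem_N'']
  constructor
  · intro h1
    have h2 : ∀ d : c.δ, ∃ v, v ∈ CC c g d ∧ v ∈ perp S ∧ τ *ᵥ v = fun p => F' p d := by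
      intro d
      have := h1 d
      rw [h.cols] at this
      exact mem_CR.1 this
    choose v hv1 hv2 hv3 using h2
    refine ⟨Matrix.of fun p d => v d p, ?_, fun d => hv2 d, ?_⟩
    · rw [mem_N'']
      exact fun d => hv1 d
    · ext q d
      exact congrFun (hv3 d) q
  · rintro ⟨F, hF, hF2, rfl⟩ d
    rw [h.cols]
    exact mem_CR.2 ⟨_, (mem_N'' c).1 hF d, hF2 d, rfl⟩

theorem Sec.ker_tau (h : Sec S n' β τ) {v : Ix n → K} (hv : v ∈ perp S) :
    τ *ᵥ v = 0 ↔ v ∈ S := by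
  constructor
  · intro h1
    have h2 := h.dec v hv
    rw [h1, mulVec_zero, sub_zero] at h2
    exact h2
  · exact h.kill v

/-- the preimage of a subspace -/
def pull (S : Submodule K (Ix n → K)) (τ : Matrix (Ix n') (Ix n) K)
    (T : Submodule K (Ix n' → K)) : Submodule K (Ix n → K) :=
  perp S ⊓ T.comap (mulVecLin τ)

theorem pull_iso (h : Sec S n' β τ) {T : Submodule K (Ix n' → K)} (hT : Iso T) :
    Iso (pull S τ T) := by
  intro v hv w hw
  rw [← h.form_tau hv.1 hw.1]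
  exact hT _ hv.2 _ hw.2

theorem S_le_pull (h : Sec S n' β τ) (T : Submodule K (Ix n' → K)) : S ≤ pull S τ T := by
  intro v hv
  refine ⟨h.iso.le_perp hv, ?_⟩
  change τ *ᵥ v ∈ T
  rw [h.kill v hv]
  exact T.zero_mem

theorem beta_mem_pull (h : Sec S n' β τ) {T : Submodule K (Ix n' → K)} {x : Ix n' → K}
    (hx : x ∈ T) : β *ᵥ x ∈ pull S τ T := by
  refine ⟨h.beta_mem x, ?_⟩
  change τ *ᵥ (β *ᵥ x) ∈ T
  rw [h.tau_beta]
  exact hx

theorem finrank_pull (h : Sec S n' β τ) (T : Submodule K (Ix n' → K)) :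
    finrank K (pull S τ T) = finrank K T + finrank K S := by
  rw [← finrank_map_ker (pull S τ T) (mulVecLin τ)]
  have e1 : (pull S τ T).map (mulVecLin τ) = T := by
    ext x
    constructor
    · rintro ⟨v, hv, rfl⟩
      exact hv.2
    · intro hx
      exact ⟨β *ᵥ x, beta_mem_pull h hx, h.tau_beta x⟩
  have e2 : pull S τ T ⊓ LinearMap.ker (mulVecLin τ) = S := by
    ext v
    constructor
    · rintro ⟨hv, h0⟩
      exact (h.ker_tau hv.1).1 h0
    · intro hv
      exact ⟨S_le_pull h T hv, h.kill v hv⟩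
  rw [e1, e2]

theorem RedAt.finrank_pull_N (h : RedAt c f hf g S β τ g') (T : Submodule K (Ix n' → K)) :
    finrank K ↥(c.N g ⊓ SU (pull S τ T) : Submodule K (Matrix (Ix n) c.δ K)) =
      finrank K ↥((redCfg c f hf).N g' ⊓ SU T : Submodule K (Matrix (Ix n') c.δ K)) +
      finrank K ↥(c.N g ⊓ SU S : Submodule K (Matrix (Ix n) c.δ K)) := by
  rw [← finrank_map_ker (c.N g ⊓ SU (pull S τ T) : Submodule K (Matrix (Ix n) c.δ K)) (tauL τ)]
  have e1 : (c.N g ⊓ SU (pull S τ T) : Submodule K (Matrix (Ix n) c.δ K)).map (tauL τ) =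
      ((redCfg c f hf).N g' ⊓ SU T : Submodule K (Matrix (Ix n') c.δ K)) := by
    ext F'
    constructor
    · rintro ⟨F, ⟨hF1, hF2⟩, rfl⟩
      exact ⟨h.mem_N.2 ⟨F, hF1, fun d => (hF2 d).1, rfl⟩, fun d => (hF2 d).2⟩
    · rintro ⟨h1, h2⟩
      obtain ⟨F, hF1, hF2, rfl⟩ := h.mem_N.1 h1
      exact ⟨F, ⟨hF1, fun d => ⟨hF2 d, h2 d⟩⟩, rfl⟩
  have e2 : (c.N g ⊓ SU (pull S τ T) : Submodule K (Matrix (Ix n) c.δ K)) ⊓
      LinearMap.ker (tauL τ) = c.N g ⊓ SU S := by
    ext F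
    constructor
    · rintro ⟨⟨hF1, hF2⟩, h0⟩
      refine ⟨hF1, fun d => (h.sec.ker_tau (hF2 d).1).1 ?_⟩
      have h1 : τ * F = 0 := h0
      rw [← mul_col, h1]
      rfl
    · rintro ⟨hF1, hF2⟩
      refine ⟨⟨hF1, fun d => S_le_pull h.sec T (hF2 d)⟩, ?_⟩
      change τ * F = 0
      ext q d
      exact congrFun (h.sec.kill _ (hF2 d)) q
  rw [e1, e2]

end

section

variable {K : Type} [Field K]
variable {c : Cfg n a} {f : c.δ → ℕ} {hf : ∀ d, f (c.σ d) + f d = 2 * n'}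
  {g : Fin 3 → Matrix (Ix n) (Ix n) K} {S : Submodule K (Ix n → K)}
  {β : Matrix (Ix n) (Ix n') K} {τ : Matrix (Ix n') (Ix n) K}
  {g' : Fin 3 → Matrix (Ix n') (Ix n') K}

/-- **additivity of `μ`** -/
theorem RedAt.mu_add (h : RedAt c f hf g S β τ g') (p : Pol c) (T : Submodule K (Ix n' → K)) :
    mu (redCfg c f hf) (redPol p f hf) g' T = mu c p g (pull S τ T) - mu c p g S := by
  have h1 := h.finrank_pull_N T
  have h2 := finrank_pull h.sec T
  have e : mu (redCfg c f hf) (redPol p f hf) g' T =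
    (finrank K ↥((redCfg c f hf).N g' ⊓ SU T : Submodule K (Matrix (Ix n') c.δ K)) : ℤ) -
      p.m * finrank K T := rfl
  rw [e, mu, mu, h1, h2]
  push_cast
  ring

theorem mu_bot (c : Cfg n a) (p : Pol c) (g : Fin 3 → Matrix (Ix n) (Ix n) K) :
    mu c p g (⊥ : Submodule K (Ix n → K)) = 0 := by
  have h1 : (c.N g ⊓ SU ⊥ : Submodule K (Matrix (Ix n) c.δ K)) = ⊥ := by
    rw [eq_bot_iff]
    rintro F ⟨-, hF⟩
    rw [Submodule.mem_bot]
    ext q d
    exact congrFun ((Submodule.mem_bot K).1 (hF d)) q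
  rw [mu, h1, finrank_bot, finrank_bot]
  simp

variable [Algebra ℂ K]

/-- **the count, part 2** -/
theorem RedAt.count (h : RedAt c f hf g S β τ g') (p : Pol c) (H : Matrix (Fin p.m) (Fin p.m) K)
    (hb : c.N g ⊓ (VL (p.LH H) ⊔ SU S) ≤ SU (perp S)) :
    finrank K ↥(c.N g ⊓ (VL (p.LH H) ⊔ SU S) : Submodule K (Matrix (Ix n) c.δ K)) =
      kk (redCfg c f hf) (redPol p f hf) g' H +
      finrank K ↥(c.N g ⊓ SU S : Submodule K (Matrix (Ix n) c.δ K)) := by
  rw [← finrank_map_ker (c.N g ⊓ (VL (p.LH H) ⊔ SU S) : Submodule K (Matrix (Ix n) c.δ K))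
    (tauL τ)]
  have hVL : ∀ {k l : ℕ} (A : Matrix (Ix k) (Ix l) K) (F : Matrix (Ix l) c.δ K),
      F ∈ VL (p.LH H) → A * F ∈ VL (p.LH H) := by
    intro k l A F hF q
    have h1 : (fun d => (A * F) q d) = ∑ r, A q r • (fun d => F r d) := by
      funext d
      rw [Matrix.mul_apply, Finset.sum_apply]
      rfl
    rw [h1]
    exact Submodule.sum_mem _ fun r _ => Submodule.smul_mem _ _ (hF r)
  have e1 : (c.N g ⊓ (VL (p.LH H) ⊔ SU S) : Submodule K (Matrix (Ix n) c.δ K)).map (tauL τ) =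
      (VL (p.LH H) ⊓ (redCfg c f hf).N g' : Submodule K (Matrix (Ix n') c.δ K)) := by
    ext F'
    constructor
    · rintro ⟨F, hF, rfl⟩
      have hFp := hb hF
      obtain ⟨hF1, hF2⟩ := hF
      refine ⟨?_, h.mem_N.2 ⟨F, hF1, hFp, rfl⟩⟩
      obtain ⟨w, hw, s, hs, rfl⟩ := Submodule.mem_sup.1 hF2
      have h0 : τ * s = 0 := by
        ext q d
        exact congrFun (h.sec.kill _ (hs d)) q
      rw [tauL_apply, Matrix.mul_add, h0, add_zero]
      exact hVL τ w hw
    · rintro ⟨h1, h2⟩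
      obtain ⟨F, hF1, hF2, rfl⟩ := h.mem_N.1 h2
      refine ⟨F, ⟨hF1, ?_⟩, rfl⟩
      rw [SetLike.mem_coe, Submodule.mem_sup]
      refine ⟨β * (τ * F), hVL β _ h1, F - β * (τ * F), ?_, by abel⟩
      intro d
      exact h.sec.dec _ (hF2 d)
  have e2 : (c.N g ⊓ (VL (p.LH H) ⊔ SU S) : Submodule K (Matrix (Ix n) c.δ K)) ⊓
      LinearMap.ker (tauL τ) = c.N g ⊓ SU S := by
    ext F
    constructor
    · rintro ⟨hF, h0⟩
      have hFp := hb hF
      refine ⟨hF.1, fun d => (h.sec.ker_tau (hFp d)).1 ?_⟩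
      have h1 : τ * F = 0 := h0
      rw [← mul_col, h1]
      rfl
    · rintro ⟨hF1, hF2⟩
      refine ⟨⟨hF1, Submodule.mem_sup_right hF2⟩, ?_⟩
      change τ * F = 0
      ext q d
      exact congrFun (h.sec.kill _ (hF2 d)) q
  rw [e1, e2]
  rfl

end

end Crest.Agent.R172.Ind
end

-- ▼ part R172/Ind6

/-!
Row 172, node IND, part 6: the directions realised on `V_S`.
-/

set_option autoImplicit false
set_option maxHeartbeats 400000
set_option linter.unusedSectionVars false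

namespace Crest.Agent.R172.Ind

open Module Matrix Crest.Agent.R172.HM2 Crest.Agent.R172.HM8 Crest.Agent.R172.HM9
open Crest.Agent.R172.Gen (Jm Ix emb IsSo)
open Crest.Agent.R172.CF

variable {n n' : ℕ} {a : Fin 3 → Fin n → ℤ} {K : Type} [Field K] [Algebra ℂ K]

theorem map_mul_D {α β γ : Type*} [Fintype β] (D : Derivation ℂ K K) (A : Matrix α β K)
    (B : Matrix β γ K) : (A * B).map D = A.map D * B + A * B.map D := FO3.map_der_mul D A B

theorem mulVec_D {α β : Type*} [Fintype β] (D : Derivation ℂ K K) (A : Matrix α β K)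
    (v : β → K) : (fun i => D ((A *ᵥ v) i)) = A.map D *ᵥ v + A *ᵥ (fun i => D (v i)) := by
  funext i
  rw [Pi.add_apply, mulVec, dotProduct, map_sum, mulVec, mulVec, dotProduct, dotProduct,
    ← Finset.sum_add_distrib]
  refine Finset.sum_congr rfl fun j _ => ?_
  rw [Derivation.leibniz, smul_eq_mul, smul_eq_mul, map_apply]
  ring

theorem Jm_D (m : ℕ) (D : Derivation ℂ K K) : (Jm m K).map D = 0 := FO3.Jm_der m D

theorem form_D (D : Derivation ℂ K K) (v w : Ix n → K) :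
    D (form n K v w) = form n K (fun i => D (v i)) w + form n K v (fun i => D (w i)) := by
  rw [form_apply, form_apply, form_apply, map_sum, ← Finset.sum_add_distrib]
  refine Finset.sum_congr rfl fun p _ => ?_
  rw [Derivation.leibniz, smul_eq_mul, smul_eq_mul]
  ring

/-- the logarithmic derivative of an orthogonal matrix -/
theorem exists_logD {g : Matrix (Ix n) (Ix n) K} (hg : Orth g) (D : Derivation ℂ K K) :
    ∃ P : Matrix (Ix n) (Ix n) K, IsSo P ∧ g.map D = P * g := by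
  have hg' : gᵀ * Jm n K * g = Jm n K := hg
  have h1 : (Jm n K * gᵀ * Jm n K) * g = 1 := Gen.orth_left_inv hg
  have h2 : g * (Jm n K * gᵀ * Jm n K) = 1 := Gen.orth_right_inv hg
  refine ⟨g.map D * (Jm n K * gᵀ * Jm n K), ?_, by rw [Matrix.mul_assoc, h1, Matrix.mul_one]⟩
  have h3 : (g.map D)ᵀ * Jm n K * g + gᵀ * Jm n K * g.map D = 0 := by
    have h4 : (gᵀ * Jm n K * g).map D = (Jm n K).map D := by rw [hg']
    rw [map_mul_D, map_mul_D, Jm_D, Matrix.mul_zero, add_zero] at h4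
    exact h4
  set P := g.map D * (Jm n K * gᵀ * Jm n K) with hP
  have hPg : g.map D = P * g := by rw [hP, Matrix.mul_assoc, h1, Matrix.mul_one]
  rw [hPg, transpose_mul] at h3
  have h5 : gᵀ * (Pᵀ * Jm n K + Jm n K * P) * g = 0 := by
    rw [← h3]
    simp only [Matrix.mul_add, Matrix.add_mul, Matrix.mul_assoc]
  have h6 : (g * (Jm n K * gᵀ * Jm n K))ᵀ * (Pᵀ * Jm n K + Jm n K * P) *
      (g * (Jm n K * gᵀ * Jm n K)) = 0 := by
    have e : (g * (Jm n K * gᵀ * Jm n K))ᵀ * (Pᵀ * Jm n K + Jm n K * P) *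
      (g * (Jm n K * gᵀ * Jm n K)) = (Jm n K * gᵀ * Jm n K)ᵀ *
        (gᵀ * (Pᵀ * Jm n K + Jm n K * P) * g) * (Jm n K * gᵀ * Jm n K) := by
      rw [transpose_mul g]
      simp only [Matrix.mul_assoc]
    rw [e, h5, Matrix.mul_zero, Matrix.zero_mul]
  rw [h2, transpose_one, Matrix.one_mul, Matrix.mul_one] at h6
  exact h6

omit [Algebra ℂ K] in
theorem Sec.adj_mat {S : Submodule K (Ix n → K)} {β : Matrix (Ix n) (Ix n') K}
    {τ : Matrix (Ix n') (Ix n) K} (h : Sec S n' β τ) : βᵀ * Jm n K = Jm n' K * τ := by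
  have h1 : ∀ (x : Ix n' → K) (v : Ix n → K), x ⬝ᵥ ((βᵀ * Jm n K) *ᵥ v) =
      x ⬝ᵥ ((Jm n' K * τ) *ᵥ v) := by
    intro x v
    have h2 := h.adj x v
    rw [form_eq, form_eq] at h2
    rw [← mulVec_mulVec, ← mulVec_mulVec, ← h2, dotProduct_mulVec x, vecMul_transpose]
  ext p q
  have h2 := h1 (Pi.single p 1) (Pi.single q 1)
  rw [mulVec_single_one, mulVec_single_one, single_one_dotProduct, single_one_dotProduct] at h2
  exact h2

omit [Algebra ℂ K] in
theorem act_diag {δ : Type*} [Fintype δ] [DecidableEq δ] (arm : δ → Fin 3)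
    (Y : Matrix (Ix n) (Ix n) K) (F : Matrix (Ix n) δ K) :
    FO.act arm (fun _ => Y) F = Y * F := by
  ext p d
  rw [act_apply]

omit [Algebra ℂ K] in
theorem act_add' {δ : Type*} [Fintype δ] [DecidableEq δ] (arm : δ → Fin 3)
    (X Y : Fin 3 → Matrix (Ix n) (Ix n) K) (F : Matrix (Ix n) δ K) :
    FO.act arm (fun s => X s + Y s) F = FO.act arm X F + FO.act arm Y F := by
  ext p d
  rw [act_apply, Matrix.add_apply, act_apply, act_apply, Matrix.add_mul, Matrix.add_apply]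

variable {c : Cfg n a} {f : c.δ → ℕ} {hf : ∀ d, f (c.σ d) + f d = 2 * n'}
  {g : Fin 3 → Matrix (Ix n) (Ix n) K} {S : Submodule K (Ix n → K)}
  {β : Matrix (Ix n) (Ix n') K} {τ : Matrix (Ix n') (Ix n) K}
  {g' : Fin 3 → Matrix (Ix n') (Ix n') K}

/-- **directions on `V_S`, up to the diagonal** -/
theorem RedAt.dir (h : RedAt c f hf g S β τ g') (p : Pol c) {H : Matrix (Fin p.m) (Fin p.m) K}
    (hdir : ∀ G : Matrix (Fin p.m) (Fin p.m) K, Gᵀ = -G → ∃ D : Derivation ℂ K K, H.map D = G)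
    (hc : ∀ X : Fin 3 → Matrix (Ix n) (Ix n) K, (∀ s, IsSo (X s)) →
      (∀ s, ∀ v ∈ S, X s *ᵥ v = 0) →
      ∃ D : Derivation ℂ K K, (∀ F ∈ c.N g, F.map D - FO.act c.arm X F ∈ c.N g) ∧
        H.map D = 0 ∧ ∀ v ∈ S, (fun i => D (v i)) ∈ S)
    (X' : Fin 3 → Matrix (Ix n') (Ix n') K) (hX' : ∀ s, IsSo (X' s))
    (G : Matrix (Fin p.m) (Fin p.m) K) (hG : Gᵀ = -G) :
    ∃ (D : Derivation ℂ K K) (Y : Matrix (Ix n') (Ix n') K), IsSo Y ∧
      (∀ F ∈ (redCfg c f hf).N g', F.map D - FO.act c.arm (fun s => X' s + Y) F ∈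
        (redCfg c f hf).N g') ∧ H.map D = G := by
  obtain ⟨D1, hD1⟩ := hdir G hG
  choose P hP1 hP2 using fun s => exists_logD (h.orth' s) D1
  have hadj := h.sec.adj_mat
  have hadj' : Jm n K * β = τᵀ * Jm n' K := by
    have := congrArg transpose hadj
    rw [transpose_mul, transpose_mul, transpose_transpose, Jm_transpose, Jm_transpose] at this
    exact this
  -- the direction on `V`
  let X : Fin 3 → Matrix (Ix n) (Ix n) K := fun s => β * (X' s - P s) * τ
  have hX : ∀ s, IsSo (X s) := by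
    intro s
    have h1 : (X' s)ᵀ * Jm n' K + Jm n' K * X' s = 0 := hX' s
    have h2 : (P s)ᵀ * Jm n' K + Jm n' K * P s = 0 := hP1 s
    have h3 : (X' s - P s)ᵀ * Jm n' K + Jm n' K * (X' s - P s) = 0 := by
      rw [transpose_sub, Matrix.sub_mul, Matrix.mul_sub]
      calc _ = ((X' s)ᵀ * Jm n' K + Jm n' K * X' s) - ((P s)ᵀ * Jm n' K + Jm n' K * P s) := by
            abel
        _ = 0 := by rw [h1, h2, sub_zero]
    change (β * (X' s - P s) * τ)ᵀ * Jm n K + Jm n K * (β * (X' s - P s) * τ) = 0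
    have e1 : (β * (X' s - P s) * τ)ᵀ * Jm n K = τᵀ * ((X' s - P s)ᵀ * Jm n' K) * τ := by
      rw [transpose_mul, transpose_mul, Matrix.mul_assoc τᵀ, Matrix.mul_assoc (X' s - P s)ᵀ, hadj]
      simp only [Matrix.mul_assoc]
    have e2 : Jm n K * (β * (X' s - P s) * τ) = τᵀ * (Jm n' K * (X' s - P s)) * τ := by
      rw [← Matrix.mul_assoc, ← Matrix.mul_assoc, hadj']
      simp only [Matrix.mul_assoc]
    rw [e1, e2, ← Matrix.add_mul, ← Matrix.mul_add, h3, Matrix.mul_zero, Matrix.zero_mul]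
  have hXS : ∀ s, ∀ v ∈ S, X s *ᵥ v = 0 := by
    intro s v hv
    change (β * (X' s - P s) * τ) *ᵥ v = 0
    rw [← mulVec_mulVec, h.sec.kill v hv, mulVec_zero]
  obtain ⟨D2, hD2N, hD2H, hD2S⟩ := hc X hX hXS
  have hD2P : ∀ v ∈ perp S, (fun i => D2 (v i)) ∈ perp S := by
    intro v hv s hs
    have h1 := form_D D2 v s
    rw [hv s hs, map_zero, hv _ (hD2S s hs), add_zero] at h1
    exact h1.symm
  let Y : Matrix (Ix n') (Ix n') K := τ.map D2 * β
  have hτS : ∀ s ∈ S, τ.map D2 *ᵥ s = 0 := by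
    intro s hs
    have h1 := mulVec_D D2 τ s
    rw [h.sec.kill s hs, h.sec.kill _ (hD2S s hs), add_zero] at h1
    rw [← h1]
    funext i
    simp
  have hY : IsSo Y := by
    have h1 : τ.map D2 * β + τ * β.map D2 = 0 := by
      rw [← map_mul_D, h.sec.tb]
      ext i j
      rw [map_apply, Matrix.one_apply]
      split_ifs <;> simp
    have h2 : βᵀ * Jm n K * β = Jm n' K := by
      rw [hadj, Matrix.mul_assoc, h.sec.tb, Matrix.mul_one]
    have h3 : (β.map D2)ᵀ * Jm n K * β + βᵀ * Jm n K * β.map D2 = 0 := by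
      have h4 : (βᵀ * Jm n K * β).map D2 = (Jm n' K).map D2 := by rw [h2]
      rw [map_mul_D, map_mul_D, Jm_D, Jm_D, Matrix.mul_zero, add_zero] at h4
      exact h4
    have h5 : Y = -(τ * β.map D2) := eq_neg_of_add_eq_zero_left h1
    change Yᵀ * Jm n' K + Jm n' K * Y = 0
    rw [h5, transpose_neg, transpose_mul, Matrix.neg_mul, Matrix.mul_neg, Matrix.mul_assoc,
      ← hadj', ← Matrix.mul_assoc (Jm n' K), ← hadj, ← Matrix.mul_assoc, ← neg_add, h3, neg_zero]
  refine ⟨D1 + D2, Y, hY, ?_, ?_⟩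
  · intro F' hF'
    have hA : F'.map D1 - FO.act c.arm P F' ∈ (redCfg c f hf).N g' :=
      FO3.onN (redCfg c f hf) D1 hP2 hF'
    have hB : F'.map D2 - FO.act c.arm (fun s => (X' s - P s) + Y) F' ∈
        (redCfg c f hf).N g' := by
      obtain ⟨F, hF1, hF2, rfl⟩ := h.mem_N.1 hF'
      refine h.mem_N.2 ⟨F.map D2 - FO.act c.arm X F, hD2N F hF1, ?_, ?_⟩
      · refine Submodule.sub_mem _ (fun d => hD2P _ (hF2 d)) ?_
        intro d
        have h1 : (fun q => FO.act c.arm X F q d) =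
            β *ᵥ (((X' (c.arm d) - P (c.arm d)) * τ) *ᵥ fun q => F q d) := by
          funext q
          rw [act_apply, mulVec_mulVec, ← Matrix.mul_assoc]
          rfl
        rw [h1]
        exact h.sec.beta_mem _
      · have e1 : τ * F.map D2 = (τ * F).map D2 - τ.map D2 * F := by
          rw [map_mul_D]; abel
        have e2 : τ.map D2 * F = Y * (τ * F) := by
          ext q d
          have h1 := h.sec.dec _ (hF2 d)
          have h2 := hτS _ h1
          rw [mulVec_sub, sub_eq_zero] at h2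
          have h3 := congrFun h2 q
          rw [mulVec_mulVec, mulVec_mulVec] at h3
          rw [← Matrix.mul_assoc]
          exact h3
        have e3 : τ * FO.act c.arm X F = FO.act c.arm (fun s => X' s - P s) (τ * F) := by
          ext q d
          have h1 : (τ * FO.act c.arm X F) q d = (τ *ᵥ fun r => FO.act c.arm X F r d) q := rfl
          have h2 : (fun q => FO.act c.arm X F q d) =
              β *ᵥ (((X' (c.arm d) - P (c.arm d)) * τ) *ᵥ fun q => F q d) := by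
            funext q
            rw [act_apply, mulVec_mulVec, ← Matrix.mul_assoc]
            rfl
          rw [h1, h2, h.sec.tau_beta, act_apply, ← mulVec_mulVec]
          rfl
        rw [Matrix.mul_sub, e1, e2, e3, act_add', act_diag]
        abel
    have e : F'.map (D1 + D2) - FO.act c.arm (fun s => X' s + Y) F' =
        (F'.map D1 - FO.act c.arm P F') +
          (F'.map D2 - FO.act c.arm (fun s => (X' s - P s) + Y) F') := by
      have e1 : F'.map (D1 + D2) = F'.map D1 + F'.map D2 := by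
        ext q d; rfl
      have e2 : FO.act c.arm (fun s => X' s + Y) F' = FO.act c.arm P F' +
          FO.act c.arm (fun s => (X' s - P s) + Y) F' := by
        rw [← act_add']
        congr 1
        funext s
        abel
      rw [e1, e2]
      abel
    have e' : F'.map (D1 + D2) - FO.act c.arm (fun s => X' s + Y) F' ∈
        (redCfg c f hf).N g' := by
      rw [e]
      exact Submodule.add_mem _ hA hB
    exact e'
  · have e1 : H.map (D1 + D2) = H.map D1 + H.map D2 := by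
      ext q d; rfl
    rw [e1, hD1, hD2H, add_zero]

end Crest.Agent.R172.Ind
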