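import Crest.Agent.R172.Ind3
import Crest.Agent.R172.FO3

/-!
Row 172 (S0260), node IND: the dimension count for `N ∩ (W + S ⊗ U)`.
-/

set_option autoImplicit false
set_option linter.unusedSectionVars false
set_option maxHeartbeats 400000

namespace Crest.Agent.R172.Ext

open Matrix Crest.AlgebraR.SpinSaturation Crest.Agent.R172.SoGrade Crest.Agent.R172.Sp
open Crest.Agent.R172.Gen (Jm Ix emb IsSo)
open Crest.Agent.R172.CF Crest.Agent.R172.HM8 Crest.Agent.R172.HM9 Module
open Crest.Agent.R172.Ind (GI kk mu perp Bd)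

variable {n : ℕ} {a : Fin 3 → Fin n → ℤ} {c : Cfg n a}

/-- the form of `V ⊗ U` -/
noncomputable def om (c : Cfg n a) (K : Type) [Field K] :
    LinearMap.BilinForm K (Matrix (Ix n) c.δ K) :=
  LinearMap.mk₂ K (fun F G => FO.pair (Jm n K) (c.B K) F G)
    (fun F F' G => by
      rw [FO.pair, FO.pair, FO.pair, transpose_add, Matrix.add_mul, Matrix.add_mul,
        Matrix.add_mul, trace_add])
    (fun t F G => by
      rw [FO.pair, FO.pair, transpose_smul, Matrix.smul_mul, Matrix.smul_mul, Matrix.smul_mul,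
        trace_smul])
    (fun F G G' => by
      rw [FO.pair, FO.pair, FO.pair, Matrix.mul_add, Matrix.add_mul, trace_add])
    (fun t F G => by
      rw [FO.pair, FO.pair, Matrix.mul_smul, Matrix.smul_mul, trace_smul])

variable {K : Type} [Field K]

theorem om_apply (F G : Matrix (Ix n) c.δ K) : om c K F G = FO.pair (Jm n K) (c.B K) F G := rfl

theorem om_symm (F G : Matrix (Ix n) c.δ K) : om c K F G = om c K G F := by
  rw [om_apply, om_apply, FO.pair, FO.pair, ← trace_transpose (Fᵀ * Jm n K * G * c.B K)]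
  rw [transpose_mul, transpose_mul, transpose_mul, transpose_transpose, c.B_transpose,
    Jm_transpose, trace_mul_comm]
  simp only [Matrix.mul_assoc]


theorem om_nondeg : (om c K).Nondegenerate := by
  have hsep : ∀ F : Matrix (Ix n) c.δ K, (∀ G, om c K F G = 0) → F = 0 := by
    intro F h
    have h1 : c.B K * (Fᵀ * Jm n K) = 0 := by
      apply Matrix.ext_iff_trace_mul_right.2
      intro G
      rw [Matrix.zero_mul, trace_zero, ← h G, om_apply, FO.pair]
      rw [Matrix.mul_assoc, trace_mul_comm]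
    have h2 : Fᵀ = (c.B K * (c.B K * (Fᵀ * Jm n K))) * Jm n K := by
      rw [← Matrix.mul_assoc (c.B K) (c.B K), c.B_sq, Matrix.one_mul, Matrix.mul_assoc, Jm_sq,
        Matrix.mul_one]
    rw [h1, Matrix.mul_zero, Matrix.zero_mul] at h2
    rw [← transpose_transpose F, h2, transpose_zero]
  refine ⟨hsep, fun F h => hsep F fun G => ?_⟩
  rw [om_symm]
  exact h G

theorem finrank_M : finrank K (Matrix (Ix n) c.δ K) = 2 * n * Fintype.card c.δ := by
  rw [Module.finrank_matrix, Module.finrank_self, Fintype.card_sum, Fintype.card_fin]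
  ring

theorem finrank_orth (A : Submodule K (Matrix (Ix n) c.δ K)) :
    finrank K ((om c K).orthogonal A) + finrank K A = 2 * n * Fintype.card c.δ := by
  have h1 := LinearMap.BilinForm.finrank_orthogonal (om_nondeg (c := c) (K := K)) A
  have h2 := Submodule.finrank_le A
  rw [finrank_M] at h1 h2
  omega

theorem orth_lag {A : Submodule K (Matrix (Ix n) c.δ K)} (h : ∀ F ∈ A, ∀ G ∈ A, om c K F G = 0)
    (hd : finrank K A = n * Fintype.card c.δ) : (om c K).orthogonal A = A := by
  symm
  have h1 : A ≤ (om c K).orthogonal A := by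
    intro G hG
    rw [LinearMap.BilinForm.mem_orthogonal_iff]
    intro F hF
    exact h F hF G hG
  apply Submodule.eq_of_le_of_finrank_eq h1
  have h2 := finrank_orth (c := c) A
  rw [hd] at h2 ⊢
  have h3 : 2 * n * Fintype.card c.δ = n * Fintype.card c.δ + n * Fintype.card c.δ := by ring
  omega

theorem orth_SU [Algebra ℂ K] (S : Submodule K (Ix n → K)) :
    (om c K).orthogonal (SU S) = SU (perp S) := by
  ext G
  rw [LinearMap.BilinForm.mem_orthogonal_iff, mem_SU]
  constructor
  · intro h d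
    rw [Ind.mem_perp]
    intro s hs
    have h1 := h (Matrix.of fun p e => if e = c.σ d then s p else 0) (by
      intro e
      by_cases he : e = c.σ d
      · simp only [of_apply, if_pos he]; exact hs
      · simp only [of_apply, if_neg he]; exact S.zero_mem)
    change om c K _ G = 0 at h1
    rw [om_apply, FO3.pair_eq, Finset.sum_eq_single (c.σ d)] at h1
    · rw [Ind.form_isSymm.eq, form_eq, ← h1, c.inv, Matrix.mul_assoc, Matrix.mul_apply]
      rw [dotProduct]
      refine Finset.sum_congr rfl fun p _ => ?_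
      rw [transpose_apply, of_apply, if_pos rfl]
      rfl
    · intro e _ he
      rw [Matrix.mul_assoc, Matrix.mul_apply]
      refine Finset.sum_eq_zero fun p _ => ?_
      rw [transpose_apply, of_apply, if_neg he, zero_mul]
    · simp
  · intro h F hF
    change om c K F G = 0
    rw [om_apply, FO3.pair_eq]
    refine Finset.sum_eq_zero fun d _ => ?_
    have h1 := h (c.σ d) _ (hF d)
    rw [HM2.form_symm, form_eq] at h1
    rw [← h1, Matrix.mul_assoc, Matrix.mul_apply]
    rfl

theorem finrank_SU {δ : Type} [Fintype δ] (S : Submodule K (Ix n → K)) :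
    finrank K (SU S : Submodule K (Matrix (Ix n) δ K)) = Fintype.card δ * finrank K S := by
  let e : (SU S : Submodule K (Matrix (Ix n) δ K)) ≃ₗ[K] (δ → S) :=
    { toFun := fun F d => ⟨fun p => F.1 p d, F.2 d⟩
      invFun := fun f => ⟨Matrix.of fun p d => (f d).1 p, fun d => (f d).2⟩
      map_add' := fun F G => rfl
      map_smul' := fun t F => rfl
      left_inv := fun F => rfl
      right_inv := fun f => rfl }
  rw [e.finrank_eq, Module.finrank_pi_fintype, Finset.sum_const, Finset.card_univ, smul_eq_mul]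

theorem SU_mul {δ ε : Type} [Fintype δ] {S : Submodule K (Ix n → K)} {F : Matrix (Ix n) δ K}
    (hF : F ∈ (SU S : Submodule K (Matrix (Ix n) δ K))) (A : Matrix δ ε K) :
    F * A ∈ (SU S : Submodule K (Matrix (Ix n) ε K)) := by
  intro d
  have h1 : (fun p => (F * A) p d) = ∑ e, A e d • (fun p => F p e) := by
    funext p
    rw [Matrix.mul_apply, Finset.sum_apply]
    exact Finset.sum_congr rfl fun e _ => mul_comm _ _
  rw [h1]
  exact Submodule.sum_mem _ fun e _ => S.smul_mem _ (hF e)

variable [Algebra ℂ K] (p : Pol c)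

theorem mem_VL_LH {H : Matrix (Fin p.m) (Fin p.m) K} {F : Matrix (Ix n) c.δ K} :
    F ∈ VL (p.LH H) ↔ ∃ R : Matrix (Ix n) (Fin p.m) K, F = R * (p.P H)ᵀ := by
  constructor
  · intro h
    choose R hR using fun q => (p.mem_LH).1 (h q)
    refine ⟨Matrix.of R, ?_⟩
    ext q d
    have h1 := congrFun (hR q) d
    rw [← h1, Matrix.mul_apply, mulVec, dotProduct]
    exact Finset.sum_congr rfl fun i _ => mul_comm _ _
  · rintro ⟨R, rfl⟩ q
    rw [p.mem_LH]
    refine ⟨fun i => R q i, ?_⟩
    funext d
    rw [Matrix.mul_apply, mulVec, dotProduct]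
    exact Finset.sum_congr rfl fun i _ => mul_comm _ _

theorem finrank_W_SU (H : Matrix (Fin p.m) (Fin p.m) K) (S : Submodule K (Ix n → K)) :
    finrank K ↥(VL (p.LH H) ⊓ SU S : Submodule K (Matrix (Ix n) c.δ K)) = p.m * finrank K S := by
  have h0 : finrank K (SU S : Submodule K (Matrix (Ix n) (Fin p.m) K)) = p.m * finrank K S := by
    rw [finrank_SU, Fintype.card_fin]
  rw [← h0]
  symm
  let φ : Matrix (Ix n) (Fin p.m) K →ₗ[K] Matrix (Ix n) c.δ K :=
    { toFun := fun R => R * (p.P H)ᵀ
      map_add' := fun R R' => Matrix.add_mul _ _ _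
      map_smul' := fun t R => Matrix.smul_mul _ _ _ }
  have hφ : Function.Injective φ := by
    intro R R' h
    have h1 : R * (p.P H)ᵀ = R' * (p.P H)ᵀ := h
    have h2 := congrArg (fun A => A * (p.Q K)ᵀ) h1
    simp only [Matrix.mul_assoc, ← transpose_mul, p.left_inv H, transpose_one,
      Matrix.mul_one] at h2
    exact h2
  have h1 : (VL (p.LH H) ⊓ SU S : Submodule K (Matrix (Ix n) c.δ K)) =
      (SU S : Submodule K (Matrix (Ix n) (Fin p.m) K)).map φ := by
    ext F
    constructor
    · rintro ⟨hF, hS⟩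
      obtain ⟨R, rfl⟩ := (mem_VL_LH p).1 hF
      refine ⟨R, ?_, rfl⟩
      have h2 := SU_mul hS (p.Q K)ᵀ
      rw [Matrix.mul_assoc, ← transpose_mul, p.left_inv H, transpose_one, Matrix.mul_one] at h2
      exact h2
    · rintro ⟨R, hR, rfl⟩
      exact ⟨(mem_VL_LH p).2 ⟨R, rfl⟩, SU_mul hR _⟩
  rw [h1]
  exact (LinearEquiv.finrank_eq (Submodule.equivMapOfInjective φ hφ _))

/-- **The count**: `dim (N ∩ (W + S ⊗ U)) = m dim S + k(V)` as soon as
`N ∩ (W + S ⊗ U) ⊂ S^⊥ ⊗ U`. -/
theorem count {g : Fin 3 → Matrix (Ix n) (Ix n) K}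
    (hg : ∀ s, (g s)ᵀ * Jm n K * g s = Jm n K) {H : Matrix (Fin p.m) (Fin p.m) K} (hH : Hᵀ = -H)
    {S : Submodule K (Ix n → K)}
    (hb : c.N g ⊓ (VL (p.LH H) ⊔ SU S) ≤ SU (perp S)) :
    finrank K ↥(c.N g ⊓ (VL (p.LH H) ⊔ SU S) : Submodule K (Matrix (Ix n) c.δ K)) =
      p.m * finrank K S + kk c p g H := by
  set N : Submodule K (Matrix (Ix n) c.δ K) := c.N g with hN
  set W : Submodule K (Matrix (Ix n) c.δ K) := VL (p.LH H) with hW
  set Z : Submodule K (Matrix (Ix n) c.δ K) := SU S with hZ
  have dN : finrank K N = n * Fintype.card c.δ := c.finrank_N hg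
  have dW : finrank K W = n * Fintype.card c.δ := by
    rw [hW, finrank_VL, ← p.finrank_LH H]; ring
  have oN : (om c K).orthogonal N = N :=
    orth_lag (fun F hF G hG => FO3.N_iso c hg hF hG) dN
  have oW : (om c K).orthogonal W = W :=
    orth_lag (fun F hF G hG => by
      rw [om_apply, FO.pair, trace_mul_comm, ← Matrix.mul_assoc, ← Matrix.mul_assoc,
        trace_mul_comm, ← Matrix.mul_assoc, ← Matrix.mul_assoc]
      rw [FO3.W_iso p hH hG hF, Matrix.zero_mul, trace_zero]) dW
  have oZ : (om c K).orthogonal Z = SU (perp S) := orth_SU S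
  have o1 : (om c K).orthogonal (N ⊔ (W ⊔ Z)) = W ⊓ N := by
    have e : (om c K).orthogonal (N ⊔ (W ⊔ Z)) = N ⊓ (W ⊓ SU (perp S)) := by
      conv_rhs => rw [← oN, ← oW, ← oZ]
      ext F
      simp only [LinearMap.BilinForm.mem_orthogonal_iff, Submodule.mem_inf]
      constructor
      · intro h
        exact ⟨fun x hx => h x (Submodule.mem_sup_left hx),
          fun x hx => h x (Submodule.mem_sup_right (Submodule.mem_sup_left hx)),
          fun x hx => h x (Submodule.mem_sup_right (Submodule.mem_sup_right hx))⟩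
      · rintro ⟨h1, h2, h3⟩ x hx
        obtain ⟨x1, hx1, y, hy, rfl⟩ := Submodule.mem_sup.1 hx
        obtain ⟨x2, hx2, x3, hx3, rfl⟩ := Submodule.mem_sup.1 hy
        change om c K _ F = 0
        rw [map_add, map_add, LinearMap.add_apply, LinearMap.add_apply]
        have e1 : om c K x1 F = 0 := h1 x1 hx1
        have e2 : om c K x2 F = 0 := h2 x2 hx2
        have e3 : om c K x3 F = 0 := h3 x3 hx3
        rw [e1, e2, e3, add_zero, add_zero]
    rw [e]
    apply le_antisymm
    · exact fun F h => ⟨h.2.1, h.1⟩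
    · exact fun F h => ⟨h.2, h.1, hb ⟨h.2, Submodule.mem_sup_left h.1⟩⟩
  have f1 := finrank_orth (c := c) (N ⊔ (W ⊔ Z))
  have f2 := Submodule.finrank_sup_add_finrank_inf_eq N (W ⊔ Z)
  have f3 := Submodule.finrank_sup_add_finrank_inf_eq W Z
  have f4 : finrank K ↥(W ⊓ Z) = p.m * finrank K S := finrank_W_SU p H S
  have f5 : finrank K Z = Fintype.card c.δ * finrank K S := finrank_SU S
  rw [o1] at f1
  have f6 : finrank K ↥(W ⊓ N) = kk c p g H := rfl
  have f7 : Fintype.card c.δ * finrank K S = p.m * finrank K S + p.m * finrank K S := by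
    rw [p.card]; ring
  have f8 : 2 * n * Fintype.card c.δ = n * Fintype.card c.δ + n * Fintype.card c.δ := by ring
  rw [f6, f8] at f1
  rw [f4, f5, f7, dW] at f3
  rw [dN] at f2
  omega

end Crest.Agent.R172.Ext
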