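import Crest.Agent.R172.StarDefs
import Mathlib
import Crest.Prelude.Def_SpinSaturation

-- ▼ part R172/HermSplit
section

/-!
Row 172.  Consequences of a star form: complements, irreducibility of the module generated by a
highest weight vector, invariant vectors versus invariant functionals, `HasInvariant` in terms of
invariant functionals on a model.
-/

set_option autoImplicit false
set_option linter.unusedSectionVars false

open Crest.AlgebraR.SpinSaturation
open scoped Matrix TensorProduct ComplexConjugate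

namespace Crest.Agent.R172.Star

open Crest.Agent.R172.SoGrade Crest.Agent.R172.HwUnique

variable {n : ℕ}

section one

variable {X : Type*} [AddCommGroup X] [Module ℂ X] [LieRingModule (soD n) X]
  [LieModule ℂ (soD n) X]


theorem StarForm.adj' (s : StarForm n X) (A : soD n) (x y : X) :
    s.core.inner x ⁅A, y⁆ = s.core.inner ⁅hc A, x⁆ y := by
  rw [s.adj, hc_hc]

/-- the orthogonal complement -/
def StarForm.perp (s : StarForm n X) (N : LieSubmodule ℂ (soD n) X) :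
    LieSubmodule ℂ (soD n) X where
  carrier := {y | ∀ x ∈ N, s.core.inner x y = 0}
  add_mem' := by
    intro a b ha hb x hx
    rw [core_add_right, ha x hx, hb x hx, add_zero]
  zero_mem' := by
    intro x _
    exact core_zero_right _ _
  smul_mem' := by
    intro t a ha x hx
    rw [core_smul_right, ha x hx, mul_zero]
  lie_mem := by
    intro A y hy x hx
    rw [s.adj']
    exact hy _ (N.lie_mem hx)

theorem StarForm.mem_perp (s : StarForm n X) (N : LieSubmodule ℂ (soD n) X) {y : X} :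
    y ∈ s.perp N ↔ ∀ x ∈ N, s.core.inner x y = 0 := Iff.rfl

theorem StarForm.disj (s : StarForm n X) (N : LieSubmodule ℂ (soD n) X) {y : X} (h : y ∈ N)
    (h' : y ∈ s.perp N) : y = 0 :=
  s.core.definite y (h' y h)

theorem StarForm.decomp [FiniteDimensional ℂ X] (s : StarForm n X)
    (N : LieSubmodule ℂ (soD n) X) (v : X) :
    ∃ a ∈ N, ∃ b ∈ s.perp N, v = a + b := by
  let nX : NormedAddCommGroup X := s.core.toNormedAddCommGroup
  let iX : InnerProductSpace ℂ X := InnerProductSpace.ofCore s.core.toCore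
  let K : Submodule ℂ X := N.toSubmodule
  have : FiniteDimensional ℂ K := inferInstance
  obtain ⟨y, hy, z, hz, h⟩ := K.exists_add_mem_mem_orthogonal v
  refine ⟨y, hy, z, ?_, h⟩
  intro x hx
  exact (Submodule.mem_orthogonal K z).1 hz x hx

/-- restriction of a star form to a submodule -/
def StarForm.restrict (s : StarForm n X) (N : LieSubmodule ℂ (soD n) X) : StarForm n N where
  core :=
    { inner := fun x y => s.core.inner x.1 y.1
      conj_inner_symm := fun x y => s.core.conj_inner_symm x.1 y.1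
      re_inner_nonneg := fun x => s.core.re_inner_nonneg x.1
      add_left := fun x y z => s.core.add_left x.1 y.1 z.1
      smul_left := fun x y r => s.core.smul_left x.1 y.1 r
      definite := fun x hx => Subtype.ext (s.core.definite x.1 hx) }
  adj := fun A x y => s.adj A x.1 y.1

/-- the equivariant projection to a submodule -/
theorem StarForm.exists_proj [FiniteDimensional ℂ X] (s : StarForm n X)
    (N : LieSubmodule ℂ (soD n) X) :
    ∃ p : X →ₗ⁅ℂ, soD n⁆ N, ∀ x : N, p x = x := by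
  classical
  choose a ha b hb hab using s.decomp N
  have key : ∀ v a' b', a' ∈ N → b' ∈ s.perp N → v = a' + b' → a v = a' := by
    intro v a' b' ha' hb' h
    have h1 : a v - a' = b' - b v := by
      have h2 : a v + b v = a' + b' := (hab v).symm.trans h
      have h3 : a v = a' + b' - b v := eq_sub_of_add_eq h2
      rw [h3]; abel
    have h4 : a v - a' ∈ s.perp N := by rw [h1]; exact (s.perp N).sub_mem hb' (hb v)
    have h5 := s.disj N (N.sub_mem (ha v) ha') h4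
    exact sub_eq_zero.1 h5
  refine ⟨{ toFun := fun v => ⟨a v, ha v⟩, map_add' := ?_, map_smul' := ?_, map_lie' := ?_ }, ?_⟩
  · intro v w
    apply Subtype.ext
    refine key _ (a v + a w) (b v + b w) (N.add_mem (ha v) (ha w))
      ((s.perp N).add_mem (hb v) (hb w)) ?_
    nth_rewrite 1 [hab v, hab w]
    abel
  · intro t v
    apply Subtype.ext
    refine key _ (t • a v) (t • b v) (N.smul_mem t (ha v))
      ((s.perp N).smul_mem t (hb v)) ?_
    nth_rewrite 1 [hab v]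
    rw [smul_add]
  · intro A v
    apply Subtype.ext
    refine key _ (⁅A, a v⁆) (⁅A, b v⁆) (N.lie_mem (ha v)) ((s.perp N).lie_mem (hb v)) ?_
    nth_rewrite 1 [hab v]
    rw [lie_add]
  · intro x
    apply Subtype.ext
    exact key x.1 x.1 0 x.2 (s.perp N).zero_mem (by rw [add_zero])

/-- nonzero invariant functional gives a nonzero invariant vector -/
theorem StarForm.inv_of_functional [FiniteDimensional ℂ X] (s : StarForm n X) (l : X →ₗ[ℂ] ℂ)
    (hl : l ≠ 0) (hinv : ∀ (A : soD n) (x : X), l ⁅A, x⁆ = 0) :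
    ∃ t : X, l t ≠ 0 ∧ ∀ A : soD n, ⁅A, t⁆ = 0 := by
  let K : LieSubmodule ℂ (soD n) X :=
    { LinearMap.ker l with
      lie_mem := by
        intro A x _
        exact LinearMap.mem_ker.2 (hinv A x) }
  have hK : ∀ x, x ∈ K ↔ l x = 0 := fun x => LinearMap.mem_ker
  obtain ⟨v, hv⟩ : ∃ v, l v ≠ 0 := by
    by_contra h
    push Not at h
    exact hl (LinearMap.ext h)
  obtain ⟨a, ha, b, hb, h⟩ := s.decomp K v
  have hlb : l b ≠ 0 := by
    intro h0
    apply hv
    rw [h, map_add, (hK a).1 ha, h0, add_zero]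
  refine ⟨b, hlb, fun A => ?_⟩
  exact s.disj K ((hK _).2 (hinv A b)) ((s.perp K).lie_mem hb)

/-- a nonzero invariant vector gives an invariant functional not vanishing on it -/
theorem StarForm.functional_of_inv (s : StarForm n X) (t : X) (ht : t ≠ 0)
    (hinv : ∀ A : soD n, ⁅A, t⁆ = 0) :
    ∃ l : X →ₗ[ℂ] ℂ, l t ≠ 0 ∧ ∀ (A : soD n) (x : X), l ⁅A, x⁆ = 0 := by
  refine ⟨{ toFun := fun y => s.core.inner t y, map_add' := ?_, map_smul' := ?_ }, ?_, ?_⟩
  · intro x y; exact core_add_right _ _ _ _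
  · intro r x; exact core_smul_right _ _ _ _
  · exact fun h => ht (s.core.definite t h)
  · intro A x
    change s.core.inner t ⁅A, x⁆ = 0
    rw [s.adj', hinv, core_zero_left]

variable {a : Fin n → ℤ}

/-- the module generated by a vector -/
abbrev gen (n : ℕ) {X : Type*} [AddCommGroup X] [Module ℂ X] [LieRingModule (soD n) X]
    [LieModule ℂ (soD n) X] (x : X) : LieSubmodule ℂ (soD n) X :=
  LieSubmodule.lieSpan ℂ (soD n) ({x} : Set X)

theorem mem_gen (x : X) : x ∈ gen n x := LieSubmodule.subset_lieSpan (Set.mem_singleton x)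

theorem gen_le {x : X} {N : LieSubmodule ℂ (soD n) X} (h : x ∈ N) : gen n x ≤ N := by
  rw [LieSubmodule.lieSpan_le]
  rintro _ rfl
  exact h

/-- the submodule generated by a highest weight vector is irreducible -/
theorem StarForm.gen_minimal [FiniteDimensional ℂ X] (s : StarForm n X) {x : X}
    (hx : IsHighestWeightVector n a x) (N : LieSubmodule ℂ (soD n) X) (hN : N ≤ gen n x) :
    N = ⊥ ∨ N = gen n x := by
  obtain ⟨u, hu, v, hv, h⟩ := s.decomp N x
  have hvg : v ∈ gen n x := by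
    have : v = x - u := by rw [h]; abel
    rw [this]
    exact (gen n x).sub_mem (mem_gen x) (hN hu)
  have hD := hw_DD hx
  -- both components are eigenvectors
  have h1 : ⁅DD n, u⁆ - topEig a • u = topEig a • v - ⁅DD n, v⁆ := by
    have : ⁅DD n, u⁆ + ⁅DD n, v⁆ = topEig a • u + topEig a • v := by
      rw [← lie_add, ← smul_add, ← h]; exact hD
    have h3 : ⁅DD n, u⁆ = topEig a • u + topEig a • v - ⁅DD n, v⁆ := eq_sub_of_add_eq this
    rw [h3]; abel
  have h2 : ⁅DD n, u⁆ - topEig a • u = 0 := by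
    refine s.disj N (N.sub_mem (N.lie_mem hu) (N.smul_mem _ hu)) ?_
    rw [h1]
    exact (s.perp N).sub_mem ((s.perp N).smul_mem _ hv) ((s.perp N).lie_mem hv)
  have h4 : ⁅DD n, v⁆ = topEig a • v := by
    rw [h2] at h1
    exact (sub_eq_zero.1 h1.symm).symm
  obtain ⟨t, ht⟩ := hw_top_line hx hvg h4
  by_cases ht0 : t = 0
  · right
    rw [ht0, zero_smul] at ht
    rw [ht, add_zero] at h
    apply le_antisymm hN
    apply gen_le
    rw [h]; exact hu
  · left
    have hxp : x ∈ s.perp N := by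
      have : x = t⁻¹ • v := by rw [ht, smul_smul, inv_mul_cancel₀ ht0, one_smul]
      rw [this]
      exact (s.perp N).smul_mem _ hv
    have hle := gen_le hxp
    rw [eq_bot_iff]
    intro y hy
    rw [LieSubmodule.mem_bot]
    exact s.disj N hy (hle (hN hy))

theorem StarForm.gen_irreducible [FiniteDimensional ℂ X] (s : StarForm n X) {x : X}
    (hx : IsHighestWeightVector n a x) : LieModule.IsIrreducible ℂ (soD n) (gen n x) := by
  have : Nontrivial (gen n x) := by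
    refine ⟨⟨⟨x, mem_gen x⟩, 0, ?_⟩⟩
    intro h
    exact hx.1 (congrArg Subtype.val h)
  apply LieModule.IsIrreducible.mk
  intro N hN
  rcases s.gen_minimal hx (N.map (gen n x).incl) (by
    intro y hy
    rw [LieSubmodule.mem_map] at hy
    obtain ⟨m, _, rfl⟩ := hy
    exact m.2) with h | h
  · exfalso
    apply hN
    rw [eq_bot_iff]
    intro y hy
    rw [LieSubmodule.mem_bot]
    have : (y : X) ∈ N.map (gen n x).incl := by
      rw [LieSubmodule.mem_map]; exact ⟨y, hy, rfl⟩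
    rw [h, LieSubmodule.mem_bot] at this
    exact Subtype.ext this
  · rw [eq_top_iff]
    intro y _
    have : (y : X) ∈ N.map (gen n x).incl := by rw [h]; exact y.2
    rw [LieSubmodule.mem_map] at this
    obtain ⟨m, hm, hmy⟩ := this
    have : m = y := Subtype.ext hmy
    rw [← this]; exact hm

theorem hw_gen {x : X} (hx : IsHighestWeightVector n a x) :
    IsHighestWeightVector n a (⟨x, mem_gen x⟩ : gen n x) := by
  refine ⟨fun h => hx.1 (congrArg Subtype.val h), ?_, ?_⟩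
  · intro h A hA
    apply Subtype.ext
    exact hx.2.1 h A hA
  · intro A h1 h2
    apply Subtype.ext
    exact hx.2.2 A h1 h2

/-- every irreducible representation of highest weight `a` is the module generated by the
highest weight vector of the model -/
theorem StarForm.exists_equiv [FiniteDimensional ℂ X] (s : StarForm n X) {x : X}
    (hx : IsHighestWeightVector n a x) (U : Irrep n a) :
    Nonempty (U.V ≃ₗ⁅ℂ, soD n⁆ gen n x) := by
  obtain ⟨v, hv⟩ := U.highestWeight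
  have := U.irreducible
  have := s.gen_irreducible hx
  obtain ⟨e, _⟩ := irrep_unique hv (hw_gen hx)
  exact ⟨e⟩

end one

section equiv

variable {X Y : Type*} [AddCommGroup X] [Module ℂ X] [LieRingModule (soD n) X]
  [LieModule ℂ (soD n) X]
  [AddCommGroup Y] [Module ℂ Y] [LieRingModule (soD n) Y] [LieModule ℂ (soD n) Y]

/-- existence of a nonzero invariant vector -/
def HasInvVec (n : ℕ) (X : Type*) [AddCommGroup X] [Module ℂ X] [LieRingModule (soD n) X] :
    Prop :=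
  ∃ t : X, t ≠ 0 ∧ ∀ A : soD n, ⁅A, t⁆ = 0

theorem HasInvVec.of_inj (f : X →ₗ⁅ℂ, soD n⁆ Y) (hf : Function.Injective f)
    (h : HasInvVec n X) : HasInvVec n Y := by
  obtain ⟨t, ht, hA⟩ := h
  refine ⟨f t, fun h0 => ht (hf (by rw [h0, map_zero])), fun A => ?_⟩
  rw [← LieModuleHom.map_lie, hA, map_zero]

end equiv

section three

variable {X Y Z : Type*} [AddCommGroup X] [Module ℂ X] [LieRingModule (soD n) X]
  [LieModule ℂ (soD n) X]
  [AddCommGroup Y] [Module ℂ Y] [LieRingModule (soD n) Y] [LieModule ℂ (soD n) Y]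
  [AddCommGroup Z] [Module ℂ Z] [LieRingModule (soD n) Z] [LieModule ℂ (soD n) Z]
  {X' Y' Z' : Type*} [AddCommGroup X'] [Module ℂ X'] [LieRingModule (soD n) X']
  [LieModule ℂ (soD n) X']
  [AddCommGroup Y'] [Module ℂ Y'] [LieRingModule (soD n) Y'] [LieModule ℂ (soD n) Y']
  [AddCommGroup Z'] [Module ℂ Z'] [LieRingModule (soD n) Z'] [LieModule ℂ (soD n) Z']

theorem hasInvVec_congr3 (e : X ≃ₗ⁅ℂ, soD n⁆ X') (f : Y ≃ₗ⁅ℂ, soD n⁆ Y')
    (g : Z ≃ₗ⁅ℂ, soD n⁆ Z') :
    HasInvVec n (X ⊗[ℂ] (Y ⊗[ℂ] Z)) → HasInvVec n (X' ⊗[ℂ] (Y' ⊗[ℂ] Z')) := by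
  intro h
  let F : (X ⊗[ℂ] (Y ⊗[ℂ] Z)) →ₗ⁅ℂ, soD n⁆ (X' ⊗[ℂ] (Y' ⊗[ℂ] Z')) :=
    TensorProduct.LieModule.map e.toLieModuleHom
      (TensorProduct.LieModule.map f.toLieModuleHom g.toLieModuleHom)
  let G : (X' ⊗[ℂ] (Y' ⊗[ℂ] Z')) →ₗ⁅ℂ, soD n⁆ (X ⊗[ℂ] (Y ⊗[ℂ] Z)) :=
    TensorProduct.LieModule.map e.symm.toLieModuleHom
      (TensorProduct.LieModule.map f.symm.toLieModuleHom g.symm.toLieModuleHom)
  refine h.of_inj F ?_
  have hGF : ∀ t, G (F t) = t := by
    intro t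
    have hlin : (G : (X' ⊗[ℂ] (Y' ⊗[ℂ] Z')) →ₗ[ℂ] (X ⊗[ℂ] (Y ⊗[ℂ] Z))) ∘ₗ
        (F : (X ⊗[ℂ] (Y ⊗[ℂ] Z)) →ₗ[ℂ] (X' ⊗[ℂ] (Y' ⊗[ℂ] Z'))) = LinearMap.id := by
      apply TensorProduct.ext'
      intro x yz
      induction yz using TensorProduct.induction_on with
      | zero => simp
      | add a b ha hb => rw [TensorProduct.tmul_add, map_add, map_add, ha, hb]
      | tmul y z =>
        change G (F (x ⊗ₜ[ℂ] (y ⊗ₜ[ℂ] z))) = x ⊗ₜ[ℂ] (y ⊗ₜ[ℂ] z)
        have h1 : F (x ⊗ₜ[ℂ] (y ⊗ₜ[ℂ] z)) = e x ⊗ₜ[ℂ] (f y ⊗ₜ[ℂ] g z) := rfl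
        have h2 : G (e x ⊗ₜ[ℂ] (f y ⊗ₜ[ℂ] g z)) =
          e.symm (e x) ⊗ₜ[ℂ] (f.symm (f y) ⊗ₜ[ℂ] g.symm (g z)) := rfl
        rw [h1, h2, e.symm_apply_apply, f.symm_apply_apply, g.symm_apply_apply]
    exact LinearMap.congr_fun hlin t
  intro a b hab
  rw [← hGF a, ← hGF b, hab]

/-- **Invariant vectors versus invariant functionals on a model.** -/
theorem hasInvVec_gen_iff [FiniteDimensional ℂ X] [FiniteDimensional ℂ Y] [FiniteDimensional ℂ Z]
    (sX : StarForm n X) (sY : StarForm n Y) (sZ : StarForm n Z)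
    (M : LieSubmodule ℂ (soD n) X) (M' : LieSubmodule ℂ (soD n) Y)
    (M'' : LieSubmodule ℂ (soD n) Z) :
    HasInvVec n (M ⊗[ℂ] (M' ⊗[ℂ] M'')) ↔
      ∃ l : X ⊗[ℂ] (Y ⊗[ℂ] Z) →ₗ[ℂ] ℂ, (∀ (A : soD n) (t : X ⊗[ℂ] (Y ⊗[ℂ] Z)), l ⁅A, t⁆ = 0) ∧
        ∃ p ∈ M, ∃ q ∈ M', ∃ r ∈ M'', l (p ⊗ₜ[ℂ] (q ⊗ₜ[ℂ] r)) ≠ 0 := by
  let s : StarForm n (M ⊗[ℂ] (M' ⊗[ℂ] M'')) :=
    (sX.restrict M).tensor ((sY.restrict M').tensor (sZ.restrict M''))
  constructor
  · rintro ⟨t, ht, hA⟩
    obtain ⟨l, hlt, hl⟩ := s.functional_of_inv t ht hA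
    obtain ⟨pX, hpX⟩ := sX.exists_proj M
    obtain ⟨pY, hpY⟩ := sY.exists_proj M'
    obtain ⟨pZ, hpZ⟩ := sZ.exists_proj M''
    let Pr : (X ⊗[ℂ] (Y ⊗[ℂ] Z)) →ₗ⁅ℂ, soD n⁆ (M ⊗[ℂ] (M' ⊗[ℂ] M'')) :=
      TensorProduct.LieModule.map pX (TensorProduct.LieModule.map pY pZ)
    refine ⟨l ∘ₗ (Pr : (X ⊗[ℂ] (Y ⊗[ℂ] Z)) →ₗ[ℂ] (M ⊗[ℂ] (M' ⊗[ℂ] M''))), ?_, ?_⟩
    · intro A u
      change l (Pr ⁅A, u⁆) = 0
      rw [LieModuleHom.map_lie]
      exact hl A _
    · by_contra hcon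
      push Not at hcon
      apply hlt
      have hz : l = 0 := by
        apply TensorProduct.ext'
        intro x yz
        induction yz using TensorProduct.induction_on with
        | zero => simp
        | add a b ha hb => rw [TensorProduct.tmul_add, map_add, map_add, ha, hb]
        | tmul y z =>
          have := hcon x x.2 y y.2 z z.2
          have h1 : (l ∘ₗ (Pr : (X ⊗[ℂ] (Y ⊗[ℂ] Z)) →ₗ[ℂ] (M ⊗[ℂ] (M' ⊗[ℂ] M''))))
              ((x : X) ⊗ₜ[ℂ] ((y : Y) ⊗ₜ[ℂ] (z : Z))) = l (pX x ⊗ₜ[ℂ] (pY y ⊗ₜ[ℂ] pZ z)) := rfl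
          rw [h1, hpX, hpY, hpZ] at this
          rw [this]; rfl
      rw [hz]; rfl
  · rintro ⟨l, hl, p, hp, q, hq, r, hr, hne⟩
    let I : (M ⊗[ℂ] (M' ⊗[ℂ] M'')) →ₗ⁅ℂ, soD n⁆ (X ⊗[ℂ] (Y ⊗[ℂ] Z)) :=
      TensorProduct.LieModule.map M.incl (TensorProduct.LieModule.map M'.incl M''.incl)
    let l' : (M ⊗[ℂ] (M' ⊗[ℂ] M'')) →ₗ[ℂ] ℂ :=
      l ∘ₗ (I : (M ⊗[ℂ] (M' ⊗[ℂ] M'')) →ₗ[ℂ] (X ⊗[ℂ] (Y ⊗[ℂ] Z)))
    have hl' : ∀ (A : soD n) (t : M ⊗[ℂ] (M' ⊗[ℂ] M'')), l' ⁅A, t⁆ = 0 := by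
      intro A t
      change l (I ⁅A, t⁆) = 0
      rw [LieModuleHom.map_lie]
      exact hl A _
    have hne' : l' ≠ 0 := by
      intro h0
      apply hne
      have : l' ((⟨p, hp⟩ : M) ⊗ₜ[ℂ] ((⟨q, hq⟩ : M') ⊗ₜ[ℂ] (⟨r, hr⟩ : M''))) = 0 := by
        rw [h0]; rfl
      exact this
    obtain ⟨t, ht, hA⟩ := s.inv_of_functional l' hne' hl'
    exact ⟨t, fun h0 => ht (by rw [h0, map_zero]), hA⟩

/-- **`HasInvariant` through models.** -/
theorem hasInvariant_iff [FiniteDimensional ℂ X] [FiniteDimensional ℂ Y] [FiniteDimensional ℂ Z]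
    (sX : StarForm n X) (sY : StarForm n Y) (sZ : StarForm n Z) {a b c : Fin n → ℤ}
    {x : X} {y : Y} {z : Z} (hx : IsHighestWeightVector n a x)
    (hy : IsHighestWeightVector n b y) (hz : IsHighestWeightVector n c z)
    (U : Irrep n a) (V : Irrep n b) (W : Irrep n c) :
    HasInvariant U V W ↔
      ∃ l : X ⊗[ℂ] (Y ⊗[ℂ] Z) →ₗ[ℂ] ℂ, (∀ (A : soD n) (t : X ⊗[ℂ] (Y ⊗[ℂ] Z)), l ⁅A, t⁆ = 0) ∧
        ∃ p ∈ gen n x, ∃ q ∈ gen n y, ∃ r ∈ gen n z, l (p ⊗ₜ[ℂ] (q ⊗ₜ[ℂ] r)) ≠ 0 := by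
  rw [← hasInvVec_gen_iff sX sY sZ]
  obtain ⟨e⟩ := sX.exists_equiv hx U
  obtain ⟨f⟩ := sY.exists_equiv hy V
  obtain ⟨g⟩ := sZ.exists_equiv hz W
  constructor
  · intro h
    exact hasInvVec_congr3 e f g h
  · intro h
    exact hasInvVec_congr3 e.symm f.symm g.symm h

end three

end Crest.Agent.R172.Star
end

-- ▼ part R172/TPow
section

/-!
Row 172.  Tensor powers of the standard module of `soD n` in coordinates.
-/

set_option autoImplicit false
set_option linter.unusedSectionVars false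

open Crest.AlgebraR.SpinSaturation
open scoped Matrix TensorProduct ComplexConjugate

namespace Crest.Agent.R172.TPow

open Crest.Agent.R172.SoGrade Crest.Agent.R172.Star

/-- The tensor power of `ℂ^(Fin n ⊕ Fin n)` indexed by `ι`, in coordinates. -/
def TP (n : ℕ) (ι : Type*) : Type _ := (ι → Fin n ⊕ Fin n) → ℂ

variable {n : ℕ} {ι : Type*}

noncomputable instance : AddCommGroup (TP n ι) :=
  inferInstanceAs (AddCommGroup ((ι → Fin n ⊕ Fin n) → ℂ))

noncomputable instance : Module ℂ (TP n ι) :=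
  inferInstanceAs (Module ℂ ((ι → Fin n ⊕ Fin n) → ℂ))

noncomputable instance [Fintype ι] [DecidableEq ι] : FiniteDimensional ℂ (TP n ι) :=
  inferInstanceAs (FiniteDimensional ℂ ((ι → Fin n ⊕ Fin n) → ℂ))

theorem add_apply' (f g : TP n ι) (p : ι → Fin n ⊕ Fin n) : (f + g) p = f p + g p := rfl
theorem smul_apply' (c : ℂ) (f : TP n ι) (p : ι → Fin n ⊕ Fin n) : (c • f) p = c * f p := rfl
theorem sub_apply' (f g : TP n ι) (p : ι → Fin n ⊕ Fin n) : (f - g) p = f p - g p := rfl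
theorem sum_apply' {α : Type*} (s : Finset α) (f : α → TP n ι) (p : ι → Fin n ⊕ Fin n) :
    (∑ a ∈ s, f a) p = ∑ a ∈ s, f a p :=
  Finset.sum_apply p s f

@[ext] theorem TP.ext' {f g : TP n ι} (h : ∀ p, f p = g p) : f = g := funext h

variable [DecidableEq ι]

/-- the matrix `A` acting in slot `s` -/
noncomputable def slot (s : ι) (A : Matrix (Fin n ⊕ Fin n) (Fin n ⊕ Fin n) ℂ) :
    TP n ι →ₗ[ℂ] TP n ι where
  toFun f := fun p => ∑ q, A (p s) q * f (Function.update p s q)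
  map_add' f g := by
    ext p
    change ∑ q, A (p s) q * (f (Function.update p s q) + g (Function.update p s q)) =
      (∑ q, A (p s) q * f (Function.update p s q)) + ∑ q, A (p s) q * g (Function.update p s q)
    simp only [mul_add, Finset.sum_add_distrib]
  map_smul' c f := by
    ext p
    change ∑ q, A (p s) q * (c * f (Function.update p s q)) =
      c * ∑ q, A (p s) q * f (Function.update p s q)
    rw [Finset.mul_sum]
    exact Finset.sum_congr rfl fun q _ => by ring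

theorem slot_apply (s : ι) (A : Matrix (Fin n ⊕ Fin n) (Fin n ⊕ Fin n) ℂ) (f : TP n ι)
    (p : ι → Fin n ⊕ Fin n) :
    slot s A f p = ∑ q, A (p s) q * f (Function.update p s q) := rfl

theorem slot_add (s : ι) (A B : Matrix (Fin n ⊕ Fin n) (Fin n ⊕ Fin n) ℂ) :
    slot s (A + B) = slot s A + slot s B := by
  ext f p
  rw [LinearMap.add_apply, add_apply']
  simp only [slot_apply, Matrix.add_apply, add_mul, Finset.sum_add_distrib]

theorem slot_smul (s : ι) (c : ℂ) (A : Matrix (Fin n ⊕ Fin n) (Fin n ⊕ Fin n) ℂ) :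
    slot s (c • A) = c • slot s A := by
  ext f p
  rw [LinearMap.smul_apply, smul_apply']
  simp only [slot_apply, Matrix.smul_apply, smul_eq_mul, Finset.mul_sum, mul_assoc]

theorem slot_sub (s : ι) (A B : Matrix (Fin n ⊕ Fin n) (Fin n ⊕ Fin n) ℂ) :
    slot s (A - B) = slot s A - slot s B := by
  ext f p
  rw [LinearMap.sub_apply, sub_apply']
  simp only [slot_apply, Matrix.sub_apply, sub_mul, Finset.sum_sub_distrib]

theorem slot_mul (s : ι) (A B : Matrix (Fin n ⊕ Fin n) (Fin n ⊕ Fin n) ℂ) :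
    slot s (A * B) = slot s A ∘ₗ slot s B := by
  ext f p
  rw [LinearMap.comp_apply]
  simp only [slot_apply, Matrix.mul_apply, Function.update_self, Function.update_idem,
    Finset.mul_sum, Finset.sum_mul]
  rw [Finset.sum_comm]
  exact Finset.sum_congr rfl fun q _ => Finset.sum_congr rfl fun r _ => by ring

theorem slot_comm {s t : ι} (hst : s ≠ t) (A B : Matrix (Fin n ⊕ Fin n) (Fin n ⊕ Fin n) ℂ) :
    slot s A ∘ₗ slot t B = slot t B ∘ₗ slot s A := by
  ext f p
  rw [LinearMap.comp_apply, LinearMap.comp_apply]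
  simp only [slot_apply, Function.update_of_ne hst, Function.update_of_ne hst.symm,
    Finset.mul_sum]
  rw [Finset.sum_comm]
  refine Finset.sum_congr rfl fun q _ => Finset.sum_congr rfl fun r _ => ?_
  rw [Function.update_comm hst]
  ring

variable [Fintype ι]

/-- the action of matrices on the tensor power -/
noncomputable def rho (A : Matrix (Fin n ⊕ Fin n) (Fin n ⊕ Fin n) ℂ) :
    TP n ι →ₗ[ℂ] TP n ι := ∑ s, slot s A

theorem rho_apply (A : Matrix (Fin n ⊕ Fin n) (Fin n ⊕ Fin n) ℂ) (f : TP n ι)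
    (p : ι → Fin n ⊕ Fin n) :
    rho A f p = ∑ s, ∑ q, A (p s) q * f (Function.update p s q) := by
  unfold rho
  rw [LinearMap.sum_apply, sum_apply']
  rfl

theorem rho_lie (A B : Matrix (Fin n ⊕ Fin n) (Fin n ⊕ Fin n) ℂ) :
    rho (ι := ι) (A * B - B * A) = rho A ∘ₗ rho B - rho B ∘ₗ rho A := by
  unfold rho
  have h : ∀ A B : Matrix (Fin n ⊕ Fin n) (Fin n ⊕ Fin n) ℂ,
      (∑ s, slot (ι := ι) s A) ∘ₗ (∑ s, slot s B) = ∑ s, ∑ t, slot s A ∘ₗ slot t B := by
    intro A B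
    ext f : 1
    simp only [LinearMap.comp_apply, LinearMap.sum_apply, map_sum]
    exact Finset.sum_comm
  rw [h, h]
  have h2 : (∑ s, ∑ t, slot (ι := ι) s B ∘ₗ slot t A) =
      ∑ s, ∑ t, slot t B ∘ₗ slot s A := Finset.sum_comm
  rw [h2, ← Finset.sum_sub_distrib]
  refine Finset.sum_congr rfl fun s _ => ?_
  rw [← Finset.sum_sub_distrib, Finset.sum_eq_single s]
  · rw [slot_sub, slot_mul, slot_mul]
  · intro t _ hts
    rw [slot_comm (Ne.symm hts), sub_self]
  · intro h; exact absurd (Finset.mem_univ s) h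

theorem rho_add (A B : Matrix (Fin n ⊕ Fin n) (Fin n ⊕ Fin n) ℂ) :
    rho (ι := ι) (A + B) = rho A + rho B := by
  unfold rho
  simp only [slot_add, Finset.sum_add_distrib]

theorem rho_smul (c : ℂ) (A : Matrix (Fin n ⊕ Fin n) (Fin n ⊕ Fin n) ℂ) :
    rho (ι := ι) (c • A) = c • rho A := by
  unfold rho
  simp only [slot_smul, Finset.smul_sum]

noncomputable instance : LieRingModule (soD n) (TP n ι) where
  bracket A f := rho A.1 f
  add_lie A B f := by
    change rho (A.1 + B.1) f = rho A.1 f + rho B.1 f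
    rw [rho_add]; rfl
  lie_add A f g := map_add _ _ _
  leibniz_lie A B f := by
    change rho A.1 (rho B.1 f) = rho (A.1 * B.1 - B.1 * A.1) f + rho B.1 (rho A.1 f)
    rw [rho_lie, LinearMap.sub_apply, LinearMap.comp_apply, LinearMap.comp_apply]
    abel

theorem lie_def (A : soD n) (f : TP n ι) : ⁅A, f⁆ = rho A.1 f := rfl

theorem lie_apply (A : soD n) (f : TP n ι) (p : ι → Fin n ⊕ Fin n) :
    ⁅A, f⁆ p = ∑ s, ∑ q, A.1 (p s) q * f (Function.update p s q) := by
  rw [lie_def, rho_apply]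

noncomputable instance : LieModule ℂ (soD n) (TP n ι) where
  smul_lie c A f := by
    change rho (c • A.1) f = c • rho A.1 f
    rw [rho_smul]; rfl
  lie_smul c A f := map_smul _ _ _

/-- the tensor product of vectors -/
noncomputable def tp (v : ι → Fin n ⊕ Fin n → ℂ) : TP n ι := fun p => ∏ s, v s (p s)

theorem tp_apply (v : ι → Fin n ⊕ Fin n → ℂ) (p : ι → Fin n ⊕ Fin n) :
    tp v p = ∏ s, v s (p s) := rfl

theorem slot_tp (s : ι) (A : Matrix (Fin n ⊕ Fin n) (Fin n ⊕ Fin n) ℂ)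
    (v : ι → Fin n ⊕ Fin n → ℂ) :
    slot s A (tp v) = tp (Function.update v s (A *ᵥ v s)) := by
  ext p
  rw [slot_apply, tp_apply]
  have h1 : ∀ q, tp v (Function.update p s q) =
      v s q * ∏ t ∈ Finset.univ.erase s, v t (p t) := by
    intro q
    rw [tp_apply, ← Finset.mul_prod_erase _ _ (Finset.mem_univ s), Function.update_self]
    congr 1
    refine Finset.prod_congr rfl fun t ht => ?_
    rw [Function.update_of_ne (Finset.ne_of_mem_erase ht)]
  simp only [h1]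
  rw [← Finset.mul_prod_erase _ _ (Finset.mem_univ s), Function.update_self]
  have h2 : ∏ t ∈ Finset.univ.erase s, Function.update v s (A *ᵥ v s) t (p t) =
      ∏ t ∈ Finset.univ.erase s, v t (p t) := by
    refine Finset.prod_congr rfl fun t ht => ?_
    rw [Function.update_of_ne (Finset.ne_of_mem_erase ht)]
  rw [h2, Matrix.mulVec, dotProduct, Finset.sum_mul]
  exact Finset.sum_congr rfl fun q _ => by ring

theorem lie_tp (A : soD n) (v : ι → Fin n ⊕ Fin n → ℂ) :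
    ⁅A, tp v⁆ = ∑ s, tp (Function.update v s (A.1 *ᵥ v s)) := by
  rw [lie_def]
  unfold rho
  rw [LinearMap.sum_apply]
  exact Finset.sum_congr rfl fun s _ => slot_tp s A.1 v

/-- `tp` as a multilinear map -/
noncomputable def tpM (n : ℕ) (ι : Type*) [DecidableEq ι] [Fintype ι] :
    MultilinearMap ℂ (fun _ : ι => Fin n ⊕ Fin n → ℂ) (TP n ι) where
  toFun := tp
  map_update_add' := by
    intro inst v s x y
    ext p
    rw [add_apply', tp_apply, tp_apply, tp_apply]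
    have h : ∀ z : Fin n ⊕ Fin n → ℂ, ∏ t, Function.update v s z t (p t) =
        z (p s) * ∏ t ∈ Finset.univ.erase s, v t (p t) := by
      intro z
      rw [← Finset.mul_prod_erase _ _ (Finset.mem_univ s), Function.update_self]
      congr 1
      refine Finset.prod_congr rfl fun t ht => ?_
      rw [Function.update_of_ne (Finset.ne_of_mem_erase ht)]
    rw [h, h, h, Pi.add_apply, add_mul]
  map_update_smul' := by
    intro inst v s c x
    ext p
    rw [smul_apply', tp_apply, tp_apply]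
    have h : ∀ z : Fin n ⊕ Fin n → ℂ, ∏ t, Function.update v s z t (p t) =
        z (p s) * ∏ t ∈ Finset.univ.erase s, v t (p t) := by
      intro z
      rw [← Finset.mul_prod_erase _ _ (Finset.mem_univ s), Function.update_self]
      congr 1
      refine Finset.prod_congr rfl fun t ht => ?_
      rw [Function.update_of_ne (Finset.ne_of_mem_erase ht)]
    rw [h, h, Pi.smul_apply, smul_eq_mul, mul_assoc]

@[simp] theorem tpM_apply (v : ι → Fin n ⊕ Fin n → ℂ) : tpM n ι v = tp v := rfl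





theorem slot_adj (s : ι) (A : Matrix (Fin n ⊕ Fin n) (Fin n ⊕ Fin n) ℂ) (x y : TP n ι) :
    ∑ p, conj (slot s A x p) * y p = ∑ p, conj (x p) * slot s Aᴴ y p := by
  simp only [slot_apply, map_sum, map_mul, Finset.sum_mul, Finset.mul_sum,
    Matrix.conjTranspose_apply]
  rw [← Fintype.sum_prod_type', ← Fintype.sum_prod_type']
  let e : (ι → Fin n ⊕ Fin n) × (Fin n ⊕ Fin n) ≃ (ι → Fin n ⊕ Fin n) × (Fin n ⊕ Fin n) :=
    { toFun := fun pq => (Function.update pq.1 s pq.2, pq.1 s)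
      invFun := fun pq => (Function.update pq.1 s pq.2, pq.1 s)
      left_inv := by
        rintro ⟨p, q⟩
        simp
      right_inv := by
        rintro ⟨p, q⟩
        simp }
  refine Fintype.sum_equiv e _ _ ?_
  rintro ⟨p, q⟩
  change conj (A (p s) q) * conj (x (Function.update p s q)) * y p =
    conj (x (Function.update p s q)) * (star (A (p s) (Function.update p s q s)) *
      y (Function.update (Function.update p s q) s (p s)))
  rw [Function.update_self, Function.update_idem, Function.update_eq_self]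
  change _ = conj (x (Function.update p s q)) * (conj (A (p s) q) * y p)
  ring

/-- the standard star form on the tensor power -/
noncomputable def starTP (n : ℕ) (ι : Type*) [DecidableEq ι] [Fintype ι] :
    StarForm n (TP n ι) where
  core := piCore (ι → Fin n ⊕ Fin n)
  adj := by
    intro A x y
    change ∑ p, conj (⁅A, x⁆ p) * y p = ∑ p, conj (x p) * ⁅hc A, y⁆ p
    rw [lie_def, lie_def]
    unfold rho
    simp only [LinearMap.sum_apply, sum_apply', map_sum, Finset.sum_mul, Finset.mul_sum]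
    rw [Finset.sum_comm, Finset.sum_comm (s := Finset.univ (α := ι → Fin n ⊕ Fin n))]
    exact Finset.sum_congr rfl fun s _ => slot_adj s A.1 x y

end Crest.Agent.R172.TPow
end

-- ▼ part R172/Fwd1
section

/-!
Row 172, translation T4 (forward direction), general part: exponentials of nilpotent elements acting on
modules of a complex Lie algebra, words of exponentials, and the power lemma.
-/

set_option autoImplicit false

namespace Crest.Agent.R172.Fwd

open TensorProduct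

section Exp

variable {M N : Type*} [AddCommGroup M] [Module ℂ M] [AddCommGroup N] [Module ℂ N]

/-- exponential of a nilpotent endomorphism. -/
noncomputable def ex (A : Module.End ℂ M) : Module.End ℂ M :=
  letI : Module ℚ (Module.End ℂ M) := Module.compHom _ (algebraMap ℚ ℂ)
  IsNilpotent.exp A

theorem ex_eq_sum {A : Module.End ℂ M} {m : ℕ} (h : A ^ m = 0) :
    ex A = ∑ k ∈ Finset.range m, ((k.factorial : ℂ)⁻¹) • A ^ k := by
  let i0 : Module ℚ (Module.End ℂ M) := Module.compHom _ (algebraMap ℚ ℂ)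
  have h1 : ex A = ∑ i ∈ Finset.range m, ((i.factorial : ℚ)⁻¹) • (A ^ i) :=
    IsNilpotent.exp_eq_sum h
  rw [h1]
  refine Finset.sum_congr rfl fun k _ => ?_
  change (algebraMap ℚ ℂ ((k.factorial : ℚ)⁻¹)) • A ^ k = _
  simp

theorem ex_tensor {A : Module.End ℂ M} {B : Module.End ℂ N} (hA : IsNilpotent A)
    (hB : IsNilpotent B) :
    ex (LinearMap.rTensor N A + LinearMap.lTensor M B : Module.End ℂ (M ⊗[ℂ] N)) =
      TensorProduct.map (ex A) (ex B) := by
  let i1 : Module ℚ (Module.End ℂ M) := Module.compHom _ (algebraMap ℚ ℂ)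
  let i2 : Module ℚ (Module.End ℂ N) := Module.compHom _ (algebraMap ℚ ℂ)
  let i3 : Module ℚ (Module.End ℂ (M ⊗[ℂ] N)) := Module.compHom _ (algebraMap ℚ ℂ)
  have hA' : IsNilpotent (LinearMap.rTensor N A : Module.End ℂ (M ⊗[ℂ] N)) := by
    obtain ⟨k, hk⟩ := hA
    refine ⟨k, ?_⟩
    rw [LinearMap.rTensor_pow, hk, LinearMap.rTensor_zero]
  have hB' : IsNilpotent (LinearMap.lTensor M B : Module.End ℂ (M ⊗[ℂ] N)) := by
    obtain ⟨k, hk⟩ := hB
    refine ⟨k, ?_⟩
    rw [LinearMap.lTensor_pow, hk, LinearMap.lTensor_zero]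
  have hc : Commute (LinearMap.rTensor N A : Module.End ℂ (M ⊗[ℂ] N)) (LinearMap.lTensor M B) := by
    change _ * _ = _ * _
    ext m n
    simp
  have h1 : ex (LinearMap.rTensor N A + LinearMap.lTensor M B : Module.End ℂ (M ⊗[ℂ] N)) =
      ex (LinearMap.rTensor N A : Module.End ℂ (M ⊗[ℂ] N)) *
        ex (LinearMap.lTensor M B : Module.End ℂ (M ⊗[ℂ] N)) := by
    exact IsNilpotent.exp_add_of_commute hc hA' hB'
  obtain ⟨a, ha⟩ := hA
  obtain ⟨b, hb⟩ := hB
  have ha' : (LinearMap.rTensor N A : Module.End ℂ (M ⊗[ℂ] N)) ^ a = 0 := by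
    rw [LinearMap.rTensor_pow, ha, LinearMap.rTensor_zero]
  have hb' : (LinearMap.lTensor M B : Module.End ℂ (M ⊗[ℂ] N)) ^ b = 0 := by
    rw [LinearMap.lTensor_pow, hb, LinearMap.lTensor_zero]
  rw [h1, ex_eq_sum ha', ex_eq_sum hb', ex_eq_sum ha, ex_eq_sum hb]
  ext m n
  simp only [LinearMap.rTensor_pow, LinearMap.lTensor_pow]
  simp only [TensorProduct.AlgebraTensorModule.curry_apply, LinearMap.restrictScalars_self,
    TensorProduct.curry_apply, Module.End.mul_apply, LinearMap.sum_apply, LinearMap.smul_apply,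
    LinearMap.lTensor_tmul, LinearMap.rTensor_tmul, TensorProduct.map_tmul,
    TensorProduct.sum_tmul, TensorProduct.tmul_sum, map_sum, map_smul]
  refine Finset.sum_congr rfl fun i _ => ?_
  rw [Finset.smul_sum]
  refine Finset.sum_congr rfl fun j _ => ?_
  rw [TensorProduct.smul_tmul_smul, smul_smul, mul_comm]

end Exp

/-- A vector-valued polynomial with values in a subspace has its coefficients there. -/
theorem coeff_mem {M : Type*} [AddCommGroup M] [Module ℂ M] (W : Submodule ℂ M) (m : ℕ)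
    (p : ℕ → M) (h : ∀ t : ℂ, ∑ k ∈ Finset.range m, t ^ k • p k ∈ W) :
    ∀ k < m, p k ∈ W := by
  intro k hk
  rw [← Submodule.Quotient.mk_eq_zero, ← Module.forall_dual_apply_eq_zero_iff ℂ]
  intro φ
  let P : Polynomial ℂ := ∑ j ∈ Finset.range m,
    Polynomial.C (φ (Submodule.Quotient.mk (p j))) * Polynomial.X ^ j
  have hP : P = 0 := by
    refine Polynomial.funext fun t => ?_
    have h1 := (Submodule.Quotient.mk_eq_zero W).2 (h t)
    have h2 : φ (Submodule.Quotient.mk (∑ k ∈ Finset.range m, t ^ k • p k)) = 0 := by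
      rw [h1, map_zero]
    simp only [P, Polynomial.eval_finsetSum, Polynomial.eval_mul, Polynomial.eval_C,
      Polynomial.eval_pow, Polynomial.eval_X, Polynomial.eval_zero]
    rw [← h2, ← Submodule.mkQ_apply, map_sum, map_sum]
    refine Finset.sum_congr rfl fun j _ => ?_
    rw [map_smul, map_smul, smul_eq_mul, mul_comm]
    rfl
  have h3 : P.coeff k = φ (Submodule.Quotient.mk (p k)) := by
    simp only [P, Polynomial.finsetSum_coeff, Polynomial.coeff_C_mul, Polynomial.coeff_X_pow]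
    rw [Finset.sum_eq_single k]
    · simp
    · intro j _ hj
      simp [Ne.symm hj]
    · intro h
      exact absurd (Finset.mem_range.2 hk) h
  rw [← h3, hP, Polynomial.coeff_zero]

section Words

variable {L : Type*} [LieRing L] [LieAlgebra ℂ L]

/-- "root vectors": eigenvectors of some `ad h` for a nonzero eigenvalue. -/
def Rt (z : L) : Prop := ∃ (h : L) (c : ℂ), c ≠ 0 ∧ ⁅h, z⁆ = c • z

theorem Rt.smul {z : L} (hz : Rt z) (t : ℂ) : Rt (t • z) := by
  obtain ⟨h, c, hc, e⟩ := hz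
  refine ⟨h, c, hc, ?_⟩
  rw [lie_smul, e, smul_comm]

variable {M : Type*} [AddCommGroup M] [Module ℂ M]

theorem nilpotent_of_comm [FiniteDimensional ℂ M] {A B : Module.End ℂ M} {c : ℂ} (hc : c ≠ 0)
    (h : A * B - B * A = c • B) : IsNilpotent B := by
  have key : ∀ k : ℕ, A * B ^ k - B ^ k * A = ((k : ℂ) * c) • B ^ k := by
    intro k
    induction k with
    | zero => simp
    | succ k ih =>
      have e1 : A * B ^ (k + 1) - B ^ (k + 1) * A =
          (A * B ^ k - B ^ k * A) * B + B ^ k * (A * B - B * A) := by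
        rw [pow_succ]; noncomm_ring
      rw [e1, ih, h, smul_mul_assoc, mul_smul_comm, ← pow_succ, ← add_smul]
      congr 1
      push_cast
      ring
  by_contra hn
  have hne : ∀ k : ℕ, B ^ k ≠ 0 := fun k hk => hn ⟨k, hk⟩
  let T : Module.End ℂ (Module.End ℂ M) := LinearMap.mulLeft ℂ A - LinearMap.mulRight ℂ A
  have hfin : Set.Finite {μ | T.HasEigenvalue μ} := Module.End.finite_hasEigenvalue T
  have hinj : Function.Injective fun k : ℕ => ((k : ℂ) * c) := by
    intro i j hij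
    have := mul_right_cancel₀ hc hij
    exact_mod_cast this
  have hsub : Set.range (fun k : ℕ => ((k : ℂ) * c)) ⊆ {μ | T.HasEigenvalue μ} := by
    rintro _ ⟨k, rfl⟩
    refine Module.End.hasEigenvalue_of_hasEigenvector (x := B ^ k) ⟨?_, hne k⟩
    rw [Module.End.mem_eigenspace_iff]
    exact key k
  exact (Set.infinite_range_of_injective hinj) (hfin.subset hsub)

variable [LieRingModule L M] [LieModule ℂ L M]

theorem Rt.nilpotent [FiniteDimensional ℂ M] {z : L} (hz : Rt z) :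
    IsNilpotent (LieModule.toEnd ℂ L M z) := by
  obtain ⟨h, c, hc, e⟩ := hz
  refine nilpotent_of_comm (A := LieModule.toEnd ℂ L M h) hc ?_
  have h1 : LieModule.toEnd ℂ L M ⁅h, z⁆ = c • LieModule.toEnd ℂ L M z := by rw [e, map_smul]
  rw [← h1]
  refine LinearMap.ext fun v => ?_
  simp [Module.End.mul_apply]

/-- the action of a word `exp z₁ ⋯ exp z_k`. -/
noncomputable def act (M : Type*) [AddCommGroup M] [Module ℂ M] [LieRingModule L M]
    [LieModule ℂ L M] : List L → Module.End ℂ M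
  | [] => 1
  | z :: w => ex (LieModule.toEnd ℂ L M z) * act M w

@[simp] theorem act_nil : act M ([] : List L) = 1 := rfl

@[simp] theorem act_cons (z : L) (w : List L) :
    act M (z :: w) = ex (LieModule.toEnd ℂ L M z) * act M w := rfl

theorem act_append (w w' : List L) : act M (w ++ w') = act M w * act M w' := by
  induction w with
  | nil => simp
  | cons z w ih => rw [List.cons_append, act_cons, act_cons, ih, mul_assoc]

/-- words of root vectors -/
def Wd (w : List L) : Prop := ∀ z ∈ w, Rt z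

theorem ex_mem [FiniteDimensional ℂ M] (N : LieSubmodule ℂ L M) {z : L} (hz : Rt z) {v : M}
    (hv : v ∈ N) : ex (LieModule.toEnd ℂ L M z) v ∈ N := by
  obtain ⟨m, hm⟩ := hz.nilpotent (M := M)
  rw [ex_eq_sum hm, LinearMap.sum_apply]
  refine N.toSubmodule.sum_mem fun k _ => ?_
  rw [LinearMap.smul_apply]
  refine N.toSubmodule.smul_mem _ ?_
  have : ∀ k : ℕ, ((LieModule.toEnd ℂ L M z) ^ k) v ∈ N := by
    intro k
    induction k with
    | zero => simpa using hv
    | succ k ih =>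
      rw [pow_succ', Module.End.mul_apply, LieModule.toEnd_apply_apply]
      exact N.lie_mem ih
  exact this k

theorem act_mem [FiniteDimensional ℂ M] (N : LieSubmodule ℂ L M) {w : List L} (hw : Wd w) {v : M}
    (hv : v ∈ N) : act M w v ∈ N := by
  induction w with
  | nil => simpa using hv
  | cons z w ih =>
    rw [act_cons, Module.End.mul_apply]
    exact ex_mem N (hw z (by simp)) (ih fun z hz => hw z (by simp [hz]))

/-- The span of the orbit of `x` under the words contains the cyclic submodule. -/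
theorem mem_span_words [FiniteDimensional ℂ M]
    (hL : LieSubalgebra.lieSpan ℂ L {z : L | Rt z} = ⊤) (x : M) {v : M}
    (hv : v ∈ LieSubmodule.lieSpan ℂ L {x}) :
    v ∈ Submodule.span ℂ {u : M | ∃ w : List L, Wd w ∧ u = act M w x} := by
  set W := Submodule.span ℂ {u : M | ∃ w : List L, Wd w ∧ u = act M w x} with hW
  have h1 : ∀ z : L, Rt z → ∀ u ∈ W, ⁅z, u⁆ ∈ W := by
    intro z hz u hu
    refine Submodule.span_induction (p := fun u _ => ⁅z, u⁆ ∈ W) ?_ ?_ ?_ ?_ hu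
    · rintro _ ⟨w, hw, rfl⟩
      obtain ⟨m, hm⟩ := hz.nilpotent (M := M)
      have hm' : (LieModule.toEnd ℂ L M z) ^ (m + 2) = 0 := by
        rw [pow_add, hm, zero_mul]
      have h2 := coeff_mem W (m + 2)
        (fun k => ((k.factorial : ℂ)⁻¹) • ((LieModule.toEnd ℂ L M z) ^ k) (act M w x)) ?_ 1 (by omega)
      · simpa using h2
      · intro t
        have h3 : act M ((t • z) :: w) x ∈ W := by
          refine Submodule.subset_span ⟨(t • z) :: w, ?_, rfl⟩
          intro y hy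
          rcases List.mem_cons.1 hy with rfl | hy
          · exact hz.smul t
          · exact hw y hy
        have h4 : (LieModule.toEnd ℂ L M (t • z)) ^ (m + 2) = 0 := by
          rw [map_smul, smul_pow, hm', smul_zero]
        rw [act_cons, Module.End.mul_apply, ex_eq_sum h4, LinearMap.sum_apply] at h3
        convert h3 using 2 with k
        rw [map_smul, smul_pow, LinearMap.smul_apply, LinearMap.smul_apply, smul_comm]
    · simp
    · intro a b _ _ ha hb
      rw [lie_add]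
      exact W.add_mem ha hb
    · intro c a _ ha
      rw [lie_smul]
      exact W.smul_mem c ha
  -- the stabiliser of `W`
  let K : LieSubalgebra ℂ L :=
    { carrier := {z | ∀ u ∈ W, ⁅z, u⁆ ∈ W}
      add_mem' := fun {a b} ha hb u hu => by
        rw [add_lie]; exact W.add_mem (ha u hu) (hb u hu)
      zero_mem' := fun u _ => by rw [zero_lie]; exact W.zero_mem
      smul_mem' := fun c {a} ha u hu => by
        rw [smul_lie]; exact W.smul_mem c (ha u hu)
      lie_mem' := fun {a b} ha hb u hu => by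
        rw [lie_lie]; exact W.sub_mem (ha _ (hb u hu)) (hb _ (ha u hu)) }
  have hK : K = ⊤ := by
    rw [eq_top_iff, ← hL, LieSubalgebra.lieSpan_le]
    intro z hz
    exact h1 z hz
  let WL : LieSubmodule ℂ L M :=
    { W with
      lie_mem := fun {z u} hu => by
        have : z ∈ K := by rw [hK]; exact LieSubalgebra.mem_top z
        exact this u hu }
  have h5 : LieSubmodule.lieSpan ℂ L {x} ≤ WL := by
    rw [LieSubmodule.lieSpan_le]
    rintro _ rfl
    exact Submodule.subset_span ⟨[], fun _ h => absurd h (by simp), by simp⟩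
  exact h5 hv

/-- act on tensor products -/
theorem act_tmul {N : Type*} [AddCommGroup N] [Module ℂ N] [LieRingModule L N] [LieModule ℂ L N]
    [FiniteDimensional ℂ M] [FiniteDimensional ℂ N] {w : List L} (hw : Wd w) (x : M) (y : N) :
    act (M ⊗[ℂ] N) w (x ⊗ₜ[ℂ] y) = (act M w x) ⊗ₜ[ℂ] (act N w y) := by
  induction w with
  | nil => simp
  | cons z w ih =>
    have hz : Rt z := hw z (by simp)
    rw [act_cons, act_cons, act_cons, Module.End.mul_apply,
      ih (fun z hz => hw z (by simp [hz])), Module.End.mul_apply, Module.End.mul_apply]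
    have e : LieModule.toEnd ℂ L (M ⊗[ℂ] N) z =
        LinearMap.rTensor N (LieModule.toEnd ℂ L M z) +
          LinearMap.lTensor M (LieModule.toEnd ℂ L N z) := by
      ext m n
      simp [TensorProduct.LieModule.lie_tmul_right]
    rw [e, ex_tensor hz.nilpotent hz.nilpotent, TensorProduct.map_tmul]

end Words

end Crest.Agent.R172.Fwd
end

-- ▼ part R172/Fwd2
section

/-!
Row 172, translation T4: generation of `so(2n, ℂ)` by root vectors, invariant trilinear forms and the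
power lemma.
-/

set_option autoImplicit false

namespace Crest.Agent.R172.Fwd

open TensorProduct Matrix Crest.AlgebraR.SpinSaturation

section SoD

variable {n : ℕ}

theorem mem_typeD_iff (X : Matrix (Fin n ⊕ Fin n) (Fin n ⊕ Fin n) ℂ) :
    X ∈ LieAlgebra.Orthogonal.typeD (Fin n) ℂ ↔
      X.toBlocks₂₂ = -(X.toBlocks₁₁)ᵀ ∧ X.toBlocks₁₂ᵀ = -X.toBlocks₁₂ ∧
        X.toBlocks₂₁ᵀ = -X.toBlocks₂₁ := by
  rw [LieAlgebra.Orthogonal.typeD, mem_skewAdjointMatricesLieSubalgebra,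
    mem_skewAdjointMatricesSubmodule, Matrix.IsSkewAdjoint, Matrix.IsAdjointPair]
  obtain ⟨A, B, C, D, rfl⟩ : ∃ A B C D, X = Matrix.fromBlocks A B C D :=
    ⟨_, _, _, _, (Matrix.fromBlocks_toBlocks X).symm⟩
  simp only [LieAlgebra.Orthogonal.JD, Matrix.fromBlocks_transpose, Matrix.fromBlocks_multiply,
    Matrix.fromBlocks_neg, Matrix.fromBlocks_inj, Matrix.toBlocks_fromBlocks₁₁,
    Matrix.toBlocks_fromBlocks₁₂, Matrix.toBlocks_fromBlocks₂₁, Matrix.toBlocks_fromBlocks₂₂]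
  simp only [Matrix.mul_zero, Matrix.mul_one, zero_add, add_zero, Matrix.zero_mul, Matrix.one_mul]
  constructor
  · rintro ⟨h1, h2, h3, h4⟩
    refine ⟨?_, h4, h1⟩
    rw [h2, neg_neg]
  · rintro ⟨h1, h2, h3⟩
    refine ⟨h3, ?_, ?_, h2⟩
    · rw [h1, neg_neg]
    · rw [h1, Matrix.transpose_neg, Matrix.transpose_transpose]

theorem z0 : (0 : Matrix (Fin n) (Fin n) ℂ)ᵀ = -0 := by simp

/-- the element `[[A, B], [C, -Aᵀ]]`. -/
def mk (A B C : Matrix (Fin n) (Fin n) ℂ) (hB : Bᵀ = -B) (hC : Cᵀ = -C) : soD n :=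
  ⟨Matrix.fromBlocks A B C (-Aᵀ), by
    rw [mem_typeD_iff]
    simp [hB, hC]⟩

theorem exists_mk (X : soD n) : ∃ (A B C : Matrix (Fin n) (Fin n) ℂ) (hB : Bᵀ = -B)
    (hC : Cᵀ = -C), X = mk A B C hB hC := by
  obtain ⟨X, hX⟩ := X
  have h := (mem_typeD_iff X).1 hX
  refine ⟨X.toBlocks₁₁, X.toBlocks₁₂, X.toBlocks₂₁, h.2.1, h.2.2, ?_⟩
  apply Subtype.ext
  change X = Matrix.fromBlocks _ _ _ _
  rw [← h.1, Matrix.fromBlocks_toBlocks]

theorem lie_mk (A B C A' B' C' : Matrix (Fin n) (Fin n) ℂ) (hB : Bᵀ = -B) (hC : Cᵀ = -C)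
    (hB' : B'ᵀ = -B') (hC' : C'ᵀ = -C') :
    ((⁅mk A B C hB hC, mk A' B' C' hB' hC'⁆ : soD n) : Matrix (Fin n ⊕ Fin n) (Fin n ⊕ Fin n) ℂ) =
      Matrix.fromBlocks (A * A' + B * C' - (A' * A + B' * C)) (A * B' - B * A'ᵀ - (A' * B - B' * Aᵀ))
        (C * A' - Aᵀ * C' - (C' * A - A'ᵀ * C)) (C * B' + Aᵀ * A'ᵀ - (C' * B + A'ᵀ * Aᵀ)) := by
  change ⁅(Matrix.fromBlocks A B C (-Aᵀ)), (Matrix.fromBlocks A' B' C' (-A'ᵀ))⁆ = _
  rw [Ring.lie_def, Matrix.fromBlocks_multiply, Matrix.fromBlocks_multiply,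
    sub_eq_add_neg, Matrix.fromBlocks_neg, Matrix.fromBlocks_add]
  congr 1 <;> simp [sub_eq_add_neg]

theorem mk_zero_B (B : Matrix (Fin n) (Fin n) ℂ) (hB : Bᵀ = -B) :
    Rt (mk 0 B 0 hB z0) := by
  refine ⟨mk 1 0 0 z0 z0, 2, two_ne_zero, ?_⟩
  apply Subtype.ext
  rw [lie_mk]
  change _ = (2 : ℂ) • (Matrix.fromBlocks 0 B 0 (-0ᵀ) : Matrix (Fin n ⊕ Fin n) (Fin n ⊕ Fin n) ℂ)
  rw [Matrix.fromBlocks_smul]
  congr 1 <;> simp [two_smul]

theorem mk_zero_C (C : Matrix (Fin n) (Fin n) ℂ) (hC : Cᵀ = -C) :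
    Rt (mk 0 0 C z0 hC) := by
  refine ⟨mk 1 0 0 z0 z0, -2, by norm_num, ?_⟩
  apply Subtype.ext
  rw [lie_mk]
  change _ = (-2 : ℂ) • (Matrix.fromBlocks 0 0 C (-0ᵀ) : Matrix (Fin n ⊕ Fin n) (Fin n ⊕ Fin n) ℂ)
  rw [Matrix.fromBlocks_smul]
  congr 1 <;> simp [two_smul, sub_eq_add_neg]

theorem mk_single (i j : Fin n) (hij : i ≠ j) :
    Rt (mk (Matrix.single i j 1) 0 0 z0 z0) := by
  refine ⟨mk (Matrix.single i i 1) 0 0 z0 z0, 1, one_ne_zero, ?_⟩
  apply Subtype.ext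
  rw [lie_mk, one_smul]
  change _ = (Matrix.fromBlocks (Matrix.single i j 1) 0 0 (-(Matrix.single i j 1)ᵀ) :
    Matrix (Fin n ⊕ Fin n) (Fin n ⊕ Fin n) ℂ)
  congr 1
  · simp [Matrix.single_mul_single_of_ne, hij, hij.symm]
  · simp
  · simp
  · simp [Matrix.transpose_single, hij, hij.symm]

theorem single_skew (i j : Fin n) :
    (Matrix.single i j (1 : ℂ) - Matrix.single j i 1)ᵀ = -(Matrix.single i j 1 - Matrix.single j i 1) := by
  simp [Matrix.transpose_sub, Matrix.transpose_single]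

/-- `so(2n)` is generated by root vectors. -/
theorem lieSpan_rt (hn : 2 ≤ n) : LieSubalgebra.lieSpan ℂ (soD n) {z : soD n | Rt z} = ⊤ := by
  set K := LieSubalgebra.lieSpan ℂ (soD n) {z : soD n | Rt z} with hK
  have hsub : ∀ z : soD n, Rt z → z ∈ K := fun z hz => LieSubalgebra.subset_lieSpan hz
  -- diagonal units
  have hA : ∀ i j : Fin n, i ≠ j → mk (Matrix.single i j 1) 0 0 z0 z0 ∈ K :=
    fun i j hij => hsub _ (mk_single i j hij)
  have hd1 : ∀ i j : Fin n, i ≠ j →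
      mk (Matrix.single i i 1 - Matrix.single j j 1) 0 0 z0 z0 ∈ K := by
    intro i j hij
    have h := K.lie_mem (hA i j hij) (hA j i hij.symm)
    convert h using 1
    apply Subtype.ext
    rw [lie_mk]
    change Matrix.fromBlocks _ _ _ _ = _
    congr 1
    · simp
    · simp
    · simp
    · simp [Matrix.transpose_sub, Matrix.transpose_single]
  have hd2 : ∀ i j : Fin n, i ≠ j →
      mk (Matrix.single i i 1 + Matrix.single j j 1) 0 0 z0 z0 ∈ K := by
    intro i j hij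
    have h := K.lie_mem (hsub _ (mk_zero_B _ (single_skew i j))) (hsub _ (mk_zero_C _ (single_skew j i)))
    convert h using 1
    apply Subtype.ext
    rw [lie_mk]
    change Matrix.fromBlocks _ _ _ _ = _
    congr 1
    · simp [Matrix.mul_sub, Matrix.sub_mul, Matrix.single_mul_single_of_ne, hij, hij.symm, add_comm]
    · simp
    · simp
    · simp [Matrix.mul_sub, Matrix.sub_mul, Matrix.single_mul_single_of_ne, hij, hij.symm,
        Matrix.transpose_add, Matrix.transpose_single, add_comm]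
  have hd : ∀ i : Fin n, mk (Matrix.single i i 1) 0 0 z0 z0 ∈ K := by
    intro i
    obtain ⟨j, hj⟩ : ∃ j : Fin n, i ≠ j := by
      haveI : Nontrivial (Fin n) := Fin.nontrivial_iff_two_le.2 hn
      obtain ⟨j, hj⟩ := exists_ne i
      exact ⟨j, hj.symm⟩
    have h := K.smul_mem (2⁻¹ : ℂ) (K.add_mem (hd1 i j hj) (hd2 i j hj))
    convert h using 1
    apply Subtype.ext
    change Matrix.fromBlocks _ _ _ _ =
      (2⁻¹ : ℂ) • (Matrix.fromBlocks _ _ _ _ + Matrix.fromBlocks _ _ _ _)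
    rw [Matrix.fromBlocks_add, Matrix.fromBlocks_smul]
    have e : (2⁻¹ : ℂ) • (Matrix.single i i (1 : ℂ) - Matrix.single j j 1 +
        (Matrix.single i i 1 + Matrix.single j j 1)) = Matrix.single i i 1 := by
      rw [sub_add_add_cancel, ← two_smul ℂ, smul_smul]; norm_num
    congr 1
    · exact e.symm
    · simp
    · simp
    · have h6 : ∀ P Q : Matrix (Fin n) (Fin n) ℂ,
          -Pᵀ = (2⁻¹ : ℂ) • (-(P - Q)ᵀ + -(P + Q)ᵀ) := by
        intro P Q
        rw [Matrix.transpose_sub, Matrix.transpose_add]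
        module
      exact h6 _ _
  have hall : ∀ A : Matrix (Fin n) (Fin n) ℂ, mk A 0 0 z0 z0 ∈ K := by
    intro A
    have e : mk A 0 0 z0 z0 = ∑ i, ∑ j, (A i j) • mk (Matrix.single i j 1) 0 0 z0 z0 := by
      apply Subtype.ext
      have e1 : ((∑ i, ∑ j, (A i j) • mk (Matrix.single i j 1) 0 0 z0 z0 : soD n) :
          Matrix (Fin n ⊕ Fin n) (Fin n ⊕ Fin n) ℂ) =
          ∑ i, ∑ j, (A i j) • (Matrix.fromBlocks (Matrix.single i j 1) 0 0
            (-(Matrix.single i j 1)ᵀ) : Matrix (Fin n ⊕ Fin n) (Fin n ⊕ Fin n) ℂ) := by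
        push_cast
        rfl
      rw [e1]
      change (Matrix.fromBlocks A 0 0 (-Aᵀ)) = _
      ext a b
      rcases a with a | a <;> rcases b with b | b <;>
        simp [Matrix.sum_apply, Matrix.fromBlocks_smul, Matrix.single_apply, Finset.sum_ite_eq,
          ite_and]
    rw [e]
    refine K.toSubmodule.sum_mem fun i _ => K.toSubmodule.sum_mem fun j _ =>
      K.toSubmodule.smul_mem _ ?_
    by_cases hij : i = j
    · subst hij; exact hd i
    · exact hA i j hij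
  rw [eq_top_iff]
  intro X _
  obtain ⟨A, B, C, hB, hC, rfl⟩ := exists_mk X
  have e : mk A B C hB hC = mk A 0 0 z0 z0 + (mk 0 B 0 hB z0 + mk 0 0 C z0 hC) := by
    apply Subtype.ext
    change Matrix.fromBlocks _ _ _ _ =
      Matrix.fromBlocks _ _ _ _ + (Matrix.fromBlocks _ _ _ _ + Matrix.fromBlocks _ _ _ _)
    rw [Matrix.fromBlocks_add, Matrix.fromBlocks_add]
    congr 1 <;> simp
  rw [e]
  exact K.add_mem (hall A) (K.add_mem (hsub _ (mk_zero_B B hB)) (hsub _ (mk_zero_C C hC)))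

end SoD

end Crest.Agent.R172.Fwd
end

-- ▼ part R172/Fwd3

/-!
Row 172, translation T4: invariant functionals on triple tensor products, products of invariant
functionals, tensor powers of highest weight vectors.
-/

set_option autoImplicit false

namespace Crest.Agent.R172.Fwd

open TensorProduct Crest.AlgebraR.SpinSaturation

section General

variable {L : Type*} [LieRing L] [LieAlgebra ℂ L]
variable {X Y Z X' Y' Z' : Type*}
  [AddCommGroup X] [Module ℂ X] [LieRingModule L X] [LieModule ℂ L X]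
  [AddCommGroup Y] [Module ℂ Y] [LieRingModule L Y] [LieModule ℂ L Y]
  [AddCommGroup Z] [Module ℂ Z] [LieRingModule L Z] [LieModule ℂ L Z]
  [AddCommGroup X'] [Module ℂ X'] [LieRingModule L X'] [LieModule ℂ L X']
  [AddCommGroup Y'] [Module ℂ Y'] [LieRingModule L Y'] [LieModule ℂ L Y']
  [AddCommGroup Z'] [Module ℂ Z'] [LieRingModule L Z'] [LieModule ℂ L Z']

theorem exists_words [FiniteDimensional ℂ X] [FiniteDimensional ℂ Y] [FiniteDimensional ℂ Z]
    (hL : LieSubalgebra.lieSpan ℂ L {z : L | Rt z} = ⊤)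
    (lam : X ⊗[ℂ] (Y ⊗[ℂ] Z) →ₗ[ℂ] ℂ) (x : X) (y : Y) (z : Z) {p : X} {q : Y} {r : Z}
    (hp : p ∈ LieSubmodule.lieSpan ℂ L {x}) (hq : q ∈ LieSubmodule.lieSpan ℂ L {y})
    (hr : r ∈ LieSubmodule.lieSpan ℂ L {z}) (h : lam (p ⊗ₜ[ℂ] (q ⊗ₜ[ℂ] r)) ≠ 0) :
    ∃ w₁ w₂ w₃ : List L, Wd w₁ ∧ Wd w₂ ∧ Wd w₃ ∧
      lam ((act X w₁ x) ⊗ₜ[ℂ] ((act Y w₂ y) ⊗ₜ[ℂ] (act Z w₃ z))) ≠ 0 := by
  by_contra hcon
  push Not at hcon
  have h3 : ∀ w₁ w₂ : List L, Wd w₁ → Wd w₂ →
      lam ((act X w₁ x) ⊗ₜ[ℂ] ((act Y w₂ y) ⊗ₜ[ℂ] r)) = 0 := by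
    intro w₁ w₂ hw₁ hw₂
    refine Submodule.span_induction
      (p := fun r _ => lam ((act X w₁ x) ⊗ₜ[ℂ] ((act Y w₂ y) ⊗ₜ[ℂ] r)) = 0) ?_ ?_ ?_ ?_
      (mem_span_words hL z hr)
    · rintro _ ⟨w₃, hw₃, rfl⟩
      exact hcon w₁ w₂ w₃ hw₁ hw₂ hw₃
    · simp
    · intro a b _ _ ha hb
      rw [TensorProduct.tmul_add, TensorProduct.tmul_add, map_add, ha, hb, add_zero]
    · intro c a _ ha
      rw [TensorProduct.tmul_smul, TensorProduct.tmul_smul, map_smul, ha, smul_zero]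
  have h2 : ∀ w₁ : List L, Wd w₁ → lam ((act X w₁ x) ⊗ₜ[ℂ] (q ⊗ₜ[ℂ] r)) = 0 := by
    intro w₁ hw₁
    refine Submodule.span_induction
      (p := fun q _ => lam ((act X w₁ x) ⊗ₜ[ℂ] (q ⊗ₜ[ℂ] r)) = 0) ?_ ?_ ?_ ?_
      (mem_span_words hL y hq)
    · rintro _ ⟨w₂, hw₂, rfl⟩
      exact h3 w₁ w₂ hw₁ hw₂
    · simp
    · intro a b _ _ ha hb
      rw [TensorProduct.add_tmul, TensorProduct.tmul_add, map_add, ha, hb, add_zero]
    · intro c a _ ha
      rw [← TensorProduct.smul_tmul', TensorProduct.tmul_smul, map_smul, ha, smul_zero]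
  refine h (Submodule.span_induction
      (p := fun p _ => lam (p ⊗ₜ[ℂ] (q ⊗ₜ[ℂ] r)) = 0) ?_ ?_ ?_ ?_
      (mem_span_words hL x hp))
  · rintro _ ⟨w₁, hw₁, rfl⟩
    exact h2 w₁ hw₁
  · simp
  · intro a b _ _ ha hb
    rw [TensorProduct.add_tmul, map_add, ha, hb, add_zero]
  · intro c a _ ha
    rw [← TensorProduct.smul_tmul', map_smul, ha, smul_zero]

/-- words map the highest weight vector into its cyclic submodule -/
theorem act_mem_lieSpan [FiniteDimensional ℂ X] {w : List L} (hw : Wd w) (x : X) :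
    act X w x ∈ LieSubmodule.lieSpan ℂ L {x} :=
  act_mem _ hw (LieSubmodule.subset_lieSpan (Set.mem_singleton x))

/-- product of two functionals -/
noncomputable def prodF (lam : X ⊗[ℂ] (Y ⊗[ℂ] Z) →ₗ[ℂ] ℂ) (mu : X' ⊗[ℂ] (Y' ⊗[ℂ] Z') →ₗ[ℂ] ℂ) :
    (X ⊗[ℂ] X') ⊗[ℂ] ((Y ⊗[ℂ] Y') ⊗[ℂ] (Z ⊗[ℂ] Z')) →ₗ[ℂ] ℂ :=
  (TensorProduct.lid ℂ ℂ).toLinearMap ∘ₗ (TensorProduct.map lam mu) ∘ₗ
    (TensorProduct.tensorTensorTensorComm ℂ X X' (Y ⊗[ℂ] Z) (Y' ⊗[ℂ] Z')).toLinearMap ∘ₗ
      (LinearMap.lTensor (X ⊗[ℂ] X')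
        (TensorProduct.tensorTensorTensorComm ℂ Y Y' Z Z').toLinearMap)

theorem prodF_tmul (lam : X ⊗[ℂ] (Y ⊗[ℂ] Z) →ₗ[ℂ] ℂ) (mu : X' ⊗[ℂ] (Y' ⊗[ℂ] Z') →ₗ[ℂ] ℂ)
    (x : X) (x' : X') (y : Y) (y' : Y') (z : Z) (z' : Z') :
    prodF lam mu ((x ⊗ₜ[ℂ] x') ⊗ₜ[ℂ] ((y ⊗ₜ[ℂ] y') ⊗ₜ[ℂ] (z ⊗ₜ[ℂ] z'))) =
      lam (x ⊗ₜ[ℂ] (y ⊗ₜ[ℂ] z)) * mu (x' ⊗ₜ[ℂ] (y' ⊗ₜ[ℂ] z')) := by
  simp [prodF]

theorem prodF_inv {lam : X ⊗[ℂ] (Y ⊗[ℂ] Z) →ₗ[ℂ] ℂ} {mu : X' ⊗[ℂ] (Y' ⊗[ℂ] Z') →ₗ[ℂ] ℂ}
    (h : ∀ (A : L) (t : X ⊗[ℂ] (Y ⊗[ℂ] Z)), lam ⁅A, t⁆ = 0)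
    (h' : ∀ (A : L) (t : X' ⊗[ℂ] (Y' ⊗[ℂ] Z')), mu ⁅A, t⁆ = 0)
    (A : L) (t : (X ⊗[ℂ] X') ⊗[ℂ] ((Y ⊗[ℂ] Y') ⊗[ℂ] (Z ⊗[ℂ] Z'))) :
    prodF lam mu ⁅A, t⁆ = 0 := by
  have key : (prodF lam mu) ∘ₗ (LieModule.toEnd ℂ L
      ((X ⊗[ℂ] X') ⊗[ℂ] ((Y ⊗[ℂ] Y') ⊗[ℂ] (Z ⊗[ℂ] Z'))) A) = 0 := by
    ext x x' y y' z z'
    simp only [TensorProduct.AlgebraTensorModule.curry_apply, TensorProduct.curry_apply,
      LinearMap.restrictScalars_self, LinearMap.coe_comp, Function.comp_apply,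
      LieModule.toEnd_apply_apply, TensorProduct.LieModule.lie_tmul_right,
      TensorProduct.add_tmul, TensorProduct.tmul_add, map_add, prodF_tmul, LinearMap.zero_apply]
    have e1 := h A (x ⊗ₜ[ℂ] (y ⊗ₜ[ℂ] z))
    have e2 := h' A (x' ⊗ₜ[ℂ] (y' ⊗ₜ[ℂ] z'))
    simp only [TensorProduct.LieModule.lie_tmul_right, TensorProduct.tmul_add, map_add] at e1 e2
    linear_combination (mu (x' ⊗ₜ[ℂ] (y' ⊗ₜ[ℂ] z'))) * e1 + (lam (x ⊗ₜ[ℂ] (y ⊗ₜ[ℂ] z))) * e2
  exact LinearMap.congr_fun key t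

end General

section HW

variable {n : ℕ}

theorem hwv_tensor {a b : Fin n → ℤ} {X Y : Type*} [AddCommGroup X] [Module ℂ X]
    [LieRingModule (soD n) X] [LieModule ℂ (soD n) X]
    [AddCommGroup Y] [Module ℂ Y] [LieRingModule (soD n) Y] [LieModule ℂ (soD n) Y]
    {x : X} {y : Y} (hx : IsHighestWeightVector n a x) (hy : IsHighestWeightVector n b y) :
    IsHighestWeightVector n (a + b) (x ⊗ₜ[ℂ] y) := by
  obtain ⟨hx0, hx1, hx2⟩ := hx
  obtain ⟨hy0, hy1, hy2⟩ := hy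
  refine ⟨?_, ?_, ?_⟩
  · intro h
    obtain ⟨φ, hφ⟩ : ∃ φ : Module.Dual ℂ X, φ x ≠ 0 := by
      by_contra hc
      push Not at hc
      exact hx0 ((Module.forall_dual_apply_eq_zero_iff ℂ x).1 hc)
    obtain ⟨ψ, hψ⟩ : ∃ ψ : Module.Dual ℂ Y, ψ y ≠ 0 := by
      by_contra hc
      push Not at hc
      exact hy0 ((Module.forall_dual_apply_eq_zero_iff ℂ y).1 hc)
    have h2 := congrArg (fun t => TensorProduct.lid ℂ ℂ (TensorProduct.map φ ψ t)) h
    simp only [TensorProduct.map_tmul, TensorProduct.lid_tmul, map_zero, smul_eq_mul] at h2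
    exact mul_ne_zero hφ hψ h2
  · intro h A hA
    rw [TensorProduct.LieModule.lie_tmul_right, hx1 h A hA, hy1 h A hA,
      TensorProduct.tmul_smul, ← TensorProduct.smul_tmul', ← add_smul]
    congr 1
    rw [← Finset.sum_add_distrib]
    refine Finset.sum_congr rfl fun i _ => ?_
    rw [Pi.add_apply]
    push_cast
    ring
  · intro A h1 h2
    rw [TensorProduct.LieModule.lie_tmul_right, hx2 A h1 h2, hy2 A h1 h2]
    simp

/-- A finite dimensional `soD n`-module with star form and highest weight vector of weight `a`. -/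
structure HW (n : ℕ) (a : Fin n → ℤ) where
  /-- the space -/
  V : Type
  [i1 : AddCommGroup V]
  [i2 : Module ℂ V]
  [i3 : LieRingModule (soD n) V]
  [i4 : LieModule ℂ (soD n) V]
  fd : FiniteDimensional ℂ V
  /-- the star form -/
  star : Star.StarForm n V
  /-- the highest weight vector -/
  x : V
  hx : IsHighestWeightVector n a x

attribute [instance] HW.i1 HW.i2 HW.i3 HW.i4 HW.fd

/-- tensor product -/
noncomputable def HW.tensor {a b : Fin n → ℤ} (M : HW n a) (N : HW n b) : HW n (a + b) where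
  V := M.V ⊗[ℂ] N.V
  fd := inferInstance
  star := M.star.tensor N.star
  x := M.x ⊗ₜ[ℂ] N.x
  hx := hwv_tensor M.hx N.hx

/-- The power lemma. -/
theorem power_lemma {a b c : Fin n → ℤ} (X : HW n a) (Y : HW n b) (Z : HW n c)
    (lam : X.V ⊗[ℂ] (Y.V ⊗[ℂ] Z.V) →ₗ[ℂ] ℂ)
    (hinv : ∀ (A : soD n) (t : X.V ⊗[ℂ] (Y.V ⊗[ℂ] Z.V)), lam ⁅A, t⁆ = 0)
    (w₁ w₂ w₃ : List (soD n)) (hw₁ : Wd w₁) (hw₂ : Wd w₂) (hw₃ : Wd w₃)
    (hne : lam ((act X.V w₁ X.x) ⊗ₜ[ℂ] ((act Y.V w₂ Y.x) ⊗ₜ[ℂ] (act Z.V w₃ Z.x))) ≠ 0) (k : ℕ) :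
    ∃ (X' : HW n ((k + 1) • a)) (Y' : HW n ((k + 1) • b)) (Z' : HW n ((k + 1) • c))
      (mu : X'.V ⊗[ℂ] (Y'.V ⊗[ℂ] Z'.V) →ₗ[ℂ] ℂ),
      (∀ (A : soD n) (t : X'.V ⊗[ℂ] (Y'.V ⊗[ℂ] Z'.V)), mu ⁅A, t⁆ = 0) ∧
      mu ((act X'.V w₁ X'.x) ⊗ₜ[ℂ] ((act Y'.V w₂ Y'.x) ⊗ₜ[ℂ] (act Z'.V w₃ Z'.x))) ≠ 0 := by
  induction k with
  | zero =>
    rw [zero_add, one_smul, one_smul, one_smul]
    exact ⟨X, Y, Z, lam, hinv, hne⟩
  | succ k ih =>
    obtain ⟨X', Y', Z', mu, h1, h2⟩ := ih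
    rw [add_smul (k + 1) 1 a, add_smul (k + 1) 1 b, add_smul (k + 1) 1 c, one_smul, one_smul,
      one_smul]
    refine ⟨X'.tensor X, Y'.tensor Y, Z'.tensor Z, prodF mu lam, ?_, ?_⟩
    · exact prodF_inv h1 hinv
    · have e := prodF_tmul mu lam (act X'.V w₁ X'.x) (act X.V w₁ X.x) (act Y'.V w₂ Y'.x)
        (act Y.V w₂ Y.x) (act Z'.V w₃ Z'.x) (act Z.V w₃ Z.x)
      rw [← act_tmul hw₁, ← act_tmul hw₂, ← act_tmul hw₃] at e
      have e' : prodF mu lam ((act (X'.V ⊗[ℂ] X.V) w₁ (X'.x ⊗ₜ[ℂ] X.x)) ⊗ₜ[ℂ]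
          ((act (Y'.V ⊗[ℂ] Y.V) w₂ (Y'.x ⊗ₜ[ℂ] Y.x)) ⊗ₜ[ℂ]
            (act (Z'.V ⊗[ℂ] Z.V) w₃ (Z'.x ⊗ₜ[ℂ] Z.x)))) ≠ 0 := by
        rw [e]
        exact mul_ne_zero h2 hne
      exact e'

end HW

end Crest.Agent.R172.Fwd
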