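import Mathlib
import Crest.Prelude.Def_SpinSaturation
import Crest.Agent.R172.Fwd3_Mg
import Crest.Agent.R172.Fwd4

-- ▼ part R172/HM
section

/-!
Row 172 (S0260), step T5: the easy half of the Hilbert--Mumford criterion in multilinear form.

`V` is a finite dimensional orthogonal space over a field of characteristic zero.
`F` is multilinear in the vectors of all columns, alternating inside each column and infinitesimally
`so(V)`-invariant.  If `F Y ≠ 0` then for every isotropic subspace `S`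
`∑_x (dim (S ∩ E_x) + dim (S^⊥ ∩ E_x) - dim E_x) ≤ 0`, `E_x` the span of column `x` of `Y`.
-/

set_option autoImplicit false

namespace Crest.Agent.R172.HM

open Module

variable {K : Type*} [Field K]
variable {V : Type*} [AddCommGroup V] [Module K V]

/-- `A` is infinitesimally orthogonal for `B`. -/
def Skew (B : LinearMap.BilinForm K V) (A : V →ₗ[K] V) : Prop :=
  ∀ u v, B (A u) v + B u (A v) = 0

/-- the grading operator of an isotropic subspace -/
theorem exists_grading [FiniteDimensional K V] (B : LinearMap.BilinForm K V)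
    (hsym : ∀ u v, B u v = B v u)
    (hnd : B.Nondegenerate) (S : Submodule K V) (hS : ∀ u ∈ S, ∀ v ∈ S, B u v = 0) :
    ∃ A : V →ₗ[K] V, Skew B A ∧ (∀ s ∈ S, A s = s) ∧
      (∀ u, (∀ s ∈ S, B u s = 0) → A u ∈ S) ∧
      (∀ v, ∀ s ∈ S, B (A v + v) s = 0) := by
  classical
  obtain ⟨C, hC⟩ := Submodule.exists_isCompl S
  set π : V →ₗ[K] V := S.subtype ∘ₗ (Submodule.projectionOnto S C hC) with hπ
  have hπS : ∀ s ∈ S, π s = s := by
    intro s hs
    have := Submodule.projectionOnto_apply_left hC ⟨s, hs⟩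
    simp only [hπ, LinearMap.comp_apply, Submodule.subtype_apply]
    exact congrArg Subtype.val this
  have hπmem : ∀ v, π v ∈ S := by
    intro v
    simp only [hπ, LinearMap.comp_apply, Submodule.subtype_apply]
    exact Subtype.mem _
  set π' : V →ₗ[K] V := B.leftAdjointOfNondegenerate hnd π with hπ'
  have hadj : ∀ u v, B (π' u) v = B u (π v) := by
    intro u v
    exact B.isAdjointPairLeftAdjointOfNondegenerate hnd π u v
  refine ⟨π - π', ?_, ?_, ?_, ?_⟩
  · intro u v
    have e1 : B u (π' v) = B (π u) v := by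
      rw [hsym u (π' v), hadj v u, hsym]
    simp only [LinearMap.sub_apply, map_sub]
    rw [hadj u v, e1]
    ring
  · intro s hs
    have h0 : π' s = 0 := by
      refine hnd.1 _ ?_
      intro v
      rw [hadj]
      exact hS s hs _ (hπmem v)
    simp [hπS s hs, h0]
  · intro u hu
    have h0 : π' u = 0 := by
      refine hnd.1 _ ?_
      intro v
      rw [hadj]
      exact hu _ (hπmem v)
    simp only [LinearMap.sub_apply, h0, sub_zero]
    exact hπmem u
  · intro v s hs
    simp only [LinearMap.sub_apply, map_sub, map_add, LinearMap.add_apply]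
    rw [hadj v s, hπS s hs, hS _ (hπmem v) s hs]
    ring

/-- weights `1, 0, -1` -/
def wt : Fin 3 → ℤ := ![1, 0, -1]

theorem wt_anti {a b : Fin 3} (h : a ≤ b) : wt b ≤ wt a := by
  revert a b; decide

/-- spectral projections of an operator with `A ^ 3 = A` -/
noncomputable def proj (A : V →ₗ[K] V) : Fin 3 → V →ₗ[K] V :=
  ![(2⁻¹ : K) • (A ∘ₗ A + A), LinearMap.id - A ∘ₗ A, (2⁻¹ : K) • (A ∘ₗ A - A)]

theorem proj_sum [CharZero K] (A : V →ₗ[K] V) (v : V) : ∑ a, proj A a v = v := by
  have h2 : (2 : K) ≠ 0 := two_ne_zero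
  simp only [Fin.sum_univ_three, proj, Matrix.cons_val_zero, Matrix.cons_val_one,
    Matrix.cons_val_two, Matrix.head_cons, Matrix.tail_cons, LinearMap.smul_apply,
    LinearMap.add_apply, LinearMap.sub_apply, LinearMap.comp_apply, LinearMap.id_apply,
    Matrix.cons_val]
  have h1 : (2⁻¹ : K) • (A (A v) + A v) + (2⁻¹ : K) • (A (A v) - A v) = A (A v) := by
    rw [← smul_add]
    have : A (A v) + A v + (A (A v) - A v) = (2 : K) • A (A v) := by
      rw [two_smul]; abel
    rw [this, smul_smul, inv_mul_cancel₀ h2, one_smul]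
  calc _ = ((2⁻¹ : K) • (A (A v) + A v) + (2⁻¹ : K) • (A (A v) - A v)) + (v - A (A v)) := by abel
    _ = v := by rw [h1]; abel

theorem proj_eig (A : V →ₗ[K] V) (hA : ∀ v, A (A (A v)) = A v) (a : Fin 3) (v : V) :
    A (proj A a v) = (wt a : K) • proj A a v := by
  fin_cases a
  · simp [proj, wt, hA, add_comm]
  · simp [proj, wt, hA]
  · simp only [proj, wt, Fin.reduceFinMk, Matrix.cons_val, LinearMap.smul_apply,
      LinearMap.sub_apply, LinearMap.comp_apply, map_smul, map_sub, hA, Int.reduceNeg,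
      Int.cast_neg, Int.cast_one, neg_smul, one_smul]
    rw [← smul_neg, neg_sub]

/-- the filtration levels attached to `S` -/
def InLevel (B : LinearMap.BilinForm K V) (S : Submodule K V) (a : Fin 3) (v : V) : Prop :=
  (a = 0 → v ∈ S) ∧ (a = 1 → ∀ s ∈ S, B v s = 0)

theorem proj_zero (B : LinearMap.BilinForm K V) (S : Submodule K V)
    (A : V →ₗ[K] V) (h1 : ∀ s ∈ S, A s = s)
    (h2 : ∀ u, (∀ s ∈ S, B u s = 0) → A u ∈ S) {a b : Fin 3} {v : V} (hv : InLevel B S b v)
    (hne : proj A a v ≠ 0) : a ≤ b := by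
  by_contra hab
  have hab' : b < a := not_le.mp hab
  apply hne
  fin_cases b
  · have hvS : v ∈ S := hv.1 rfl
    have := h1 v hvS
    fin_cases a
    · exact absurd hab' (by decide)
    · simp [proj, this]
    · simp [proj, this]
  · have hvS : ∀ s ∈ S, B v s = 0 := hv.2 rfl
    have hA := h2 v hvS
    have := h1 _ hA
    fin_cases a
    · exact absurd hab' (by decide)
    · exact absurd hab' (by decide)
    · simp [proj, this]
  · fin_cases a <;> exact absurd hab' (by decide)

/-- the weight argument -/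
theorem sum_wt_le [CharZero K] [FiniteDimensional K V] (B : LinearMap.BilinForm K V)
    (hsym : ∀ u v, B u v = B v u)
    (hnd : B.Nondegenerate) (S : Submodule K V) (hS : ∀ u ∈ S, ∀ v ∈ S, B u v = 0)
    {ι : Type*} [Fintype ι] [DecidableEq ι] (F : MultilinearMap K (fun _ : ι => V) K)
    (hF : ∀ A : V →ₗ[K] V, Skew B A → ∀ Y : ι → V,
      ∑ p, F (Function.update Y p (A (Y p))) = 0)
    (z : ι → V) (lev : ι → Fin 3) (hz : ∀ p, InLevel B S (lev p) (z p)) (hne : F z ≠ 0) :
    ∑ p, wt (lev p) ≤ 0 := by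
  obtain ⟨A, hA, h1, h2, h3⟩ := exists_grading B hsym hnd S hS
  have hA3 : ∀ v, A (A (A v)) = A v := by
    intro v
    have hm : A (A v + v) ∈ S := h2 _ (fun s hs => h3 v s hs)
    have := h1 _ hm
    simp only [map_add] at this
    have h4 : A (A (A v)) + A (A v) = A v + A (A v) := by rw [this]; abel
    exact add_right_cancel h4
  have hexp : F z = ∑ r : ι → Fin 3, F (fun p => proj A (r p) (z p)) := by
    have e := F.map_sum (fun p (a : Fin 3) => proj A a (z p))
    rw [← e]
    congr 1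
    funext p
    rw [proj_sum]
  rw [hexp] at hne
  obtain ⟨r, -, hr⟩ := Finset.exists_ne_zero_of_sum_ne_zero hne
  have hcomp : ∀ p, proj A (r p) (z p) ≠ 0 := by
    intro p hp
    exact hr (F.map_coord_zero p hp)
  have hle : ∀ p, wt (lev p) ≤ wt (r p) := fun p =>
    wt_anti (proj_zero B S A h1 h2 (hz p) (hcomp p))
  have hinv := hF A hA (fun p => proj A (r p) (z p))
  have hinv' : ((∑ p, wt (r p) : ℤ) : K) * F (fun p => proj A (r p) (z p)) = 0 := by
    rw [← hinv, Int.cast_sum, Finset.sum_mul]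
    refine Finset.sum_congr rfl fun p _ => ?_
    rw [proj_eig A hA3, F.map_update_smul, Function.update_eq_self, smul_eq_mul]
  have h0 : (∑ p, wt (r p) : ℤ) = 0 := by
    rcases mul_eq_zero.mp hinv' with h | h
    · exact_mod_cast h
    · exact absurd h hr
  calc ∑ p, wt (lev p) ≤ ∑ p, wt (r p) := Finset.sum_le_sum fun p _ => hle p
    _ = 0 := h0

/-- complement inside a bigger subspace -/
theorem exists_rel_compl [FiniteDimensional K V] (P Q : Submodule K V) (h : P ≤ Q) :
    ∃ C : Submodule K V, C ≤ Q ∧ P ⊔ C = Q ∧ finrank K P + finrank K C = finrank K Q := by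
  obtain ⟨D, hD⟩ := Submodule.exists_isCompl P
  refine ⟨D ⊓ Q, inf_le_right, ?_, ?_⟩
  · rw [← sup_inf_assoc_of_le D h, hD.sup_eq_top, top_inf_eq]
  · have h1 : P ⊔ (D ⊓ Q) = Q := by
      rw [← sup_inf_assoc_of_le D h, hD.sup_eq_top, top_inf_eq]
    have h2 : P ⊓ (D ⊓ Q) = ⊥ := by
      rw [← inf_assoc, hD.inf_eq_bot, bot_inf_eq]
    have := Submodule.finrank_sup_add_finrank_inf_eq P (D ⊓ Q)
    rw [h1, h2, finrank_bot, add_zero] at this
    exact this.symm

/-- adapted spanning families -/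
theorem exists_adapted [FiniteDimensional K V] (B : LinearMap.BilinForm K V)
    (S E T : Submodule K V) (hT : ∀ v, v ∈ T ↔ ∀ s ∈ S, B v s = 0) (hST : S ≤ T) :
    ∃ (J : Type) (_ : Fintype J) (e : J → V) (lev : J → Fin 3),
      Submodule.span K (Set.range e) = E ∧ Fintype.card J = finrank K E ∧
      (∀ j, InLevel B S (lev j) (e j)) ∧
      ∑ j, wt (lev j) = (finrank K ↥(S ⊓ E) : ℤ) + finrank K ↥(T ⊓ E) - finrank K E := by
  obtain ⟨C2, hC2, hs2, hf2⟩ := exists_rel_compl (S ⊓ E) (T ⊓ E) (inf_le_inf_right E hST)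
  obtain ⟨C3, hC3, hs3, hf3⟩ := exists_rel_compl (T ⊓ E) E inf_le_right
  refine ⟨Fin (finrank K ↥(S ⊓ E)) ⊕ (Fin (finrank K C2) ⊕ Fin (finrank K C3)), inferInstance,
    Sum.elim (fun i => (finBasis K ↥(S ⊓ E) i : V))
      (Sum.elim (fun i => (finBasis K C2 i : V)) (fun i => (finBasis K C3 i : V))),
    Sum.elim (fun _ => 0) (Sum.elim (fun _ => 1) (fun _ => 2)), ?_, ?_, ?_, ?_⟩
  · have hspan : ∀ (W : Submodule K V),
        Submodule.span K (Set.range fun i => ((finBasis K W i : W) : V)) = W := by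
      intro W
      have : (Set.range fun i => ((finBasis K W i : W) : V)) =
          W.subtype '' (Set.range (finBasis K W)) := by
        rw [← Set.range_comp]; rfl
      rw [this, ← Submodule.map_span, (finBasis K W).span_eq, Submodule.map_top,
        Submodule.range_subtype]
    rw [Set.Sum.elim_range, Set.Sum.elim_range, Submodule.span_union, Submodule.span_union,
      hspan, hspan, hspan, ← sup_assoc, hs2, hs3]
  · simp only [Fintype.card_sum, Fintype.card_fin]
    omega
  · rintro (i | i | i)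
    · refine ⟨fun _ => ?_, fun h => absurd h (show (0 : Fin 3) ≠ 1 by decide)⟩
      exact (Submodule.mem_inf.mp (finBasis K ↥(S ⊓ E) i).2).1
    · refine ⟨fun h => absurd h (show (1 : Fin 3) ≠ 0 by decide), fun _ => ?_⟩
      have := hC2 (finBasis K C2 i).2
      exact (hT _).mp (Submodule.mem_inf.mp this).1
    · exact ⟨fun h => absurd h (show (2 : Fin 3) ≠ 0 by decide),
        fun h => absurd h (show (2 : Fin 3) ≠ 1 by decide)⟩
  · simp only [Fintype.sum_sum_type, Sum.elim_inl, Sum.elim_inr, Finset.sum_const,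
      Finset.card_univ, Fintype.card_fin, wt, Matrix.cons_val_zero, Matrix.cons_val_one,
      Matrix.cons_val, nsmul_eq_mul, mul_one, mul_zero, zero_add, Int.reduceNeg, mul_neg]
    push_cast [← hf3, ← hf2]
    ring

/-- **T5'**: easy half of Hilbert--Mumford in multilinear form. -/
theorem hm_le [CharZero K] [FiniteDimensional K V] (B : LinearMap.BilinForm K V)
    (hsym : ∀ u v, B u v = B v u) (hnd : B.Nondegenerate)
    {X : Type*} [Fintype X] [DecidableEq X] (h : X → ℕ)
    (F : MultilinearMap K (fun _ : (Σ x, Fin (h x)) => V) K)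
    (halt : ∀ (Y : (Σ x, Fin (h x)) → V) (x : X) (i j : Fin (h x)), i ≠ j →
      Y ⟨x, i⟩ = Y ⟨x, j⟩ → F Y = 0)
    (hF : ∀ A : V →ₗ[K] V, Skew B A → ∀ Y : (Σ x, Fin (h x)) → V,
      ∑ p, F (Function.update Y p (A (Y p))) = 0)
    (Y : (Σ x, Fin (h x)) → V) (hY : F Y ≠ 0)
    (S T : Submodule K V) (hS : ∀ u ∈ S, ∀ v ∈ S, B u v = 0)
    (hT : ∀ v, v ∈ T ↔ ∀ s ∈ S, B v s = 0)
    (E : X → Submodule K V)
    (hE : ∀ x, E x = Submodule.span K (Set.range fun i : Fin (h x) => Y ⟨x, i⟩)) :
    ∑ x, ((finrank K ↥(S ⊓ E x) : ℤ) + finrank K ↥(T ⊓ E x) - finrank K (E x)) ≤ 0 := by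
  classical
  have hST : S ≤ T := fun s hs => (hT s).mpr fun t ht => hS s hs t ht
  choose J hJ e lev hspan hcard hlev hsum using fun x => exists_adapted B S (E x) T hT hST
  have hmem : ∀ p : (Σ x, Fin (h x)), ∃ c : J p.1 → K, ∑ j, c j • e p.1 j = Y p := by
    rintro ⟨x, i⟩
    have : Y ⟨x, i⟩ ∈ Submodule.span K (Set.range (e x)) := by
      rw [hspan x, hE x]
      exact Submodule.subset_span ⟨i, rfl⟩
    exact (Submodule.mem_span_range_iff_exists_fun K).mp this
  choose c hc using hmem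
  have hexp : F Y = ∑ r : (p : (Σ x, Fin (h x))) → J p.1,
      F (fun p => c p (r p) • e p.1 (r p)) := by
    have e1 := F.map_sum (fun p (j : J p.1) => c p j • e p.1 j)
    rw [← e1]
    congr 1
    funext p
    exact (hc p).symm
  rw [hexp] at hY
  obtain ⟨r, -, hr⟩ := Finset.exists_ne_zero_of_sum_ne_zero hY
  rw [MultilinearMap.map_smul_univ] at hr
  have hr' : F (fun p => e p.1 (r p)) ≠ 0 := by
    intro h0
    exact hr (by rw [h0, smul_zero])
  have hinj : ∀ x, Function.Injective fun i : Fin (h x) => r ⟨x, i⟩ := by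
    intro x i j hij
    by_contra hne
    refine hr' (halt _ x i j hne ?_)
    have : r ⟨x, i⟩ = r ⟨x, j⟩ := hij
    simp only [this]
  have hcardle : ∀ x, Fintype.card (J x) ≤ h x := by
    intro x
    rw [hcard x, hE x]
    exact (finrank_range_le_card _).trans_eq (Fintype.card_fin _)
  have hbij : ∀ x, Function.Bijective fun i : Fin (h x) => r ⟨x, i⟩ := by
    intro x
    refine (Fintype.bijective_iff_injective_and_card _).mpr ⟨hinj x, ?_⟩
    refine le_antisymm (Fintype.card_le_of_injective _ (hinj x)) ?_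
    rw [Fintype.card_fin]
    exact hcardle x
  have key := sum_wt_le B hsym hnd S hS F hF (fun p => e p.1 (r p)) (fun p => lev p.1 (r p))
    (fun p => hlev p.1 (r p)) hr'
  rw [Fintype.sum_sigma] at key
  have h2 : ∀ x, ∑ i : Fin (h x), wt (lev x (r ⟨x, i⟩)) =
      (finrank K ↥(S ⊓ E x) : ℤ) + finrank K ↥(T ⊓ E x) - finrank K (E x) := by
    intro x
    rw [← hsum x]
    exact Fintype.sum_bijective _ (hbij x) _ _ fun i => rfl
  calc _ = ∑ x, ∑ i : Fin (h x), wt (lev x (r ⟨x, i⟩)) :=
        Finset.sum_congr rfl fun x _ => (h2 x).symm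
    _ ≤ 0 := key

end Crest.Agent.R172.HM
end

-- ▼ part R172/HM2
section

/-!
Row 172 (S0260), T5: the multilinear Hilbert--Mumford inequality for the scalar extension of an
invariant form given by its coefficients `c : (slots → index) → ℂ`.
-/

set_option autoImplicit false

namespace Crest.Agent.R172.HM2

open Module Crest.Agent.R172.HM

variable {n : ℕ}

/-- swap of the two halves of the index set -/
def sw : Fin n ⊕ Fin n → Fin n ⊕ Fin n := Sum.swap

@[simp] theorem sw_sw (p : Fin n ⊕ Fin n) : sw (sw p) = p := by cases p <;> rfl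

theorem sw_inj {p q : Fin n ⊕ Fin n} (h : sw p = sw q) : p = q := by
  rw [← sw_sw p, h, sw_sw]

theorem sw_bij : Function.Bijective (sw : Fin n ⊕ Fin n → Fin n ⊕ Fin n) :=
  ⟨fun _ _ h => sw_inj h, fun p => ⟨sw p, sw_sw p⟩⟩

variable {K : Type*} [Field K]

/-- the standard symmetric form on `K^{2n}` -/
noncomputable def form (n : ℕ) (K : Type*) [Field K] : LinearMap.BilinForm K (Fin n ⊕ Fin n → K) :=
  LinearMap.mk₂ K (fun x y => ∑ p, x p * y (sw p))
    (fun x x' y => by simp [add_mul, Finset.sum_add_distrib])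
    (fun a x y => by
      simp only [Pi.smul_apply, smul_eq_mul, Finset.mul_sum]
      exact Finset.sum_congr rfl fun p _ => by ring)
    (fun x y y' => by simp [mul_add, Finset.sum_add_distrib])
    (fun a x y => by
      simp only [Pi.smul_apply, smul_eq_mul, Finset.mul_sum]
      exact Finset.sum_congr rfl fun p _ => by ring)

theorem form_apply (x y : Fin n ⊕ Fin n → K) : form n K x y = ∑ p, x p * y (sw p) := rfl

theorem form_symm (x y : Fin n ⊕ Fin n → K) : form n K x y = form n K y x := by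
  rw [form_apply, form_apply]
  refine Fintype.sum_bijective sw sw_bij _ _ fun p => ?_
  rw [sw_sw, mul_comm]

theorem form_single (x : Fin n ⊕ Fin n → K) (q : Fin n ⊕ Fin n) :
    form n K x (Pi.single q 1) = x (sw q) := by
  rw [form_apply, Finset.sum_eq_single (sw q)]
  · simp
  · intro p _ hp
    rw [Pi.single_eq_of_ne, mul_zero]
    intro h
    exact hp (by rw [← h, sw_sw])
  · simp

theorem form_nondeg : (form n K).Nondegenerate := by
  have hl : ∀ x, (∀ y, form n K x y = 0) → x = 0 := by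
    intro x hx
    funext p
    have := hx (Pi.single (sw p) 1)
    rwa [form_single, sw_sw] at this
  refine ⟨hl, ?_⟩
  intro x hx
  exact hl x fun y => by rw [form_symm]; exact hx y

/-- matrix entries of a skew operator -/
theorem skew_entry {A : (Fin n ⊕ Fin n → K) →ₗ[K] (Fin n ⊕ Fin n → K)}
    (hA : Skew (form n K) A) (p q : Fin n ⊕ Fin n) :
    A (Pi.single q 1) p = - A (Pi.single (sw p) 1) (sw q) := by
  have h := hA (Pi.single q 1) (Pi.single (sw p) 1)
  rw [form_single, sw_sw, form_symm, form_single] at h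
  exact eq_neg_of_add_eq_zero_left h

variable {ι : Type*} [Fintype ι] [DecidableEq ι] [Algebra ℂ K]

/-- scalar extension of the multilinear form with coefficients `c` -/
noncomputable def FK (K : Type*) [Field K] [Algebra ℂ K] (c : (ι → Fin n ⊕ Fin n) → ℂ) :
    MultilinearMap K (fun _ : ι => (Fin n ⊕ Fin n → K)) K :=
  ∑ β : ι → Fin n ⊕ Fin n, (algebraMap ℂ K (c β)) •
    ((MultilinearMap.mkPiAlgebra K ι K).compLinearMap fun p => LinearMap.proj (β p))

theorem FK_apply (c : (ι → Fin n ⊕ Fin n) → ℂ) (Y : ι → (Fin n ⊕ Fin n → K)) :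
    FK K c Y = ∑ β : ι → Fin n ⊕ Fin n, algebraMap ℂ K (c β) * ∏ p, Y p (β p) := by
  simp [FK]

theorem FK_basis (c : (ι → Fin n ⊕ Fin n) → ℂ) (β : ι → Fin n ⊕ Fin n) :
    FK K c (fun p => Pi.single (β p) 1) = algebraMap ℂ K (c β) := by
  classical
  rw [FK_apply, Finset.sum_eq_single β]
  · simp
  · intro γ _ hγ
    obtain ⟨p, hp⟩ := Function.ne_iff.mp hγ
    rw [Finset.prod_eq_zero (Finset.mem_univ p), mul_zero]
    exact Pi.single_eq_of_ne hp _
  · simp

/-- antisymmetry of the coefficients gives alternation over `K` -/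
theorem FK_alt [CharZero K] (c : (ι → Fin n ⊕ Fin n) → ℂ) {a b : ι}
    (hc : ∀ β : ι → Fin n ⊕ Fin n, c (β ∘ Equiv.swap a b) = - c β)
    (Y : ι → (Fin n ⊕ Fin n → K)) (hY : Y a = Y b) : FK K c Y = 0 := by
  have h1 : FK K c Y = - FK K c Y := by
    conv_lhs => rw [FK_apply]
    rw [FK_apply, ← Finset.sum_neg_distrib]
    refine Fintype.sum_equiv ((Equiv.swap a b).arrowCongr (Equiv.refl _)) _ _ fun β => ?_
    have e1 : ((Equiv.swap a b).arrowCongr (Equiv.refl (Fin n ⊕ Fin n))) β =
        β ∘ Equiv.swap a b := by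
      funext p
      simp [Equiv.arrowCongr]
    rw [e1, hc β, map_neg, neg_mul, neg_neg]
    congr 1
    refine Fintype.prod_equiv (Equiv.swap a b) _ _ fun p => ?_
    simp only [Function.comp_apply, Equiv.swap_apply_self]
    have hYs : Y (Equiv.swap a b p) = Y p := by
      by_cases hpa : p = a
      · subst hpa; rw [Equiv.swap_apply_left, hY]
      · by_cases hpb : p = b
        · subst hpb; rw [Equiv.swap_apply_right, hY]
        · rw [Equiv.swap_apply_of_ne_of_ne hpa hpb]
    rw [hYs]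
  have h2 : (2 : K) * FK K c Y = 0 := by
    rw [two_mul]
    nth_rewrite 1 [h1]
    ring
  exact (mul_eq_zero.mp h2).resolve_left two_ne_zero

/-- infinitesimal invariance of the coefficients, elementary skew matrices -/
def InvCoeff (c : (ι → Fin n ⊕ Fin n) → ℂ) : Prop :=
  ∀ (r t : Fin n ⊕ Fin n) (β : ι → Fin n ⊕ Fin n),
    ∑ p, ((if β p = t then c (Function.update β p r) else 0) -
      (if β p = sw r then c (Function.update β p (sw t)) else 0)) = 0

theorem FK_inv [CharZero K] (c : (ι → Fin n ⊕ Fin n) → ℂ) (hc : InvCoeff c)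
    (A : (Fin n ⊕ Fin n → K) →ₗ[K] (Fin n ⊕ Fin n → K)) (hA : Skew (form n K) A)
    (Y : ι → (Fin n ⊕ Fin n → K)) :
    ∑ p, FK K c (Function.update Y p (A (Y p))) = 0 := by
  classical
  set G : MultilinearMap K (fun _ : ι => (Fin n ⊕ Fin n → K)) K :=
    ∑ p, (FK K c).compLinearMap (Function.update (fun _ => LinearMap.id) p A) with hG
  have hGa : ∀ Y, G Y = ∑ p, FK K c (Function.update Y p (A (Y p))) := by
    intro Y
    rw [hG, sum_apply]
    refine Finset.sum_congr rfl fun p _ => ?_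
    rw [MultilinearMap.compLinearMap_apply]
    congr 1
    funext q
    by_cases hq : q = p
    · subst hq; simp
    · simp [Function.update_of_ne hq]
  rw [← hGa]
  have hG0 : G = 0 := by
    refine Basis.ext_multilinear (e := fun _ => Pi.basisFun K (Fin n ⊕ Fin n)) ?_
    intro β
    rw [hGa]
    simp only [Pi.basisFun_apply, zero_apply]
    have hW : ∀ r t, ∑ p, (if β p = t then c (Function.update β p r) else 0) =
        ∑ p, (if β p = sw r then c (Function.update β p (sw t)) else 0) := by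
      intro r t
      have := hc r t β
      rw [Finset.sum_sub_distrib] at this
      exact sub_eq_zero.mp this
    set W : Fin n ⊕ Fin n → Fin n ⊕ Fin n → ℂ := fun r t =>
      ∑ p, (if β p = t then c (Function.update β p r) else 0) with hWdef
    have hWs : ∀ r t, W r t = W (sw t) (sw r) := fun r t => hW r t
    have hexp : ∀ p, FK K c (Function.update (fun p => Pi.single (β p) (1 : K)) p
        (A (Pi.single (β p) 1))) =
        ∑ q, A (Pi.single (β p) 1) q * algebraMap ℂ K (c (Function.update β p q)) := by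
      intro p
      have hA1 : A (Pi.single (β p) (1 : K)) =
          ∑ q, A (Pi.single (β p) (1 : K)) q • (Pi.single q (1 : K) : Fin n ⊕ Fin n → K) := by
        funext r
        simp [Finset.sum_apply, Pi.single_apply]
      conv_lhs => rw [hA1]
      rw [MultilinearMap.map_update_sum]
      refine Finset.sum_congr rfl fun q _ => ?_
      rw [MultilinearMap.map_update_smul, smul_eq_mul]
      congr 1
      rw [← FK_basis (K := K) c (Function.update β p q)]
      congr 1
      funext r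
      by_cases hr : r = p
      · subst hr; simp
      · simp [Function.update_of_ne hr]
    have htot : ∑ p, FK K c (Function.update (fun p => Pi.single (β p) (1 : K)) p
        (A (Pi.single (β p) 1))) =
        ∑ r, ∑ t, A (Pi.single t 1) r * algebraMap ℂ K (W r t) := by
      simp_rw [hexp]
      rw [Finset.sum_comm]
      refine Finset.sum_congr rfl fun r _ => ?_
      simp only [hWdef, map_sum, Finset.mul_sum]
      rw [Finset.sum_comm]
      refine Finset.sum_congr rfl fun p _ => ?_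
      rw [Finset.sum_eq_single (β p)]
      · simp
      · intro t _ ht
        rw [if_neg (Ne.symm ht)]; simp
      · simp
    rw [htot]
    have hneg : ∑ r, ∑ t, A (Pi.single t 1) r * algebraMap ℂ K (W r t) =
        - ∑ r, ∑ t, A (Pi.single t 1) r * algebraMap ℂ K (W r t) := by
      conv_lhs => rw [Finset.sum_comm]
      rw [← Finset.sum_neg_distrib]
      refine Fintype.sum_bijective sw sw_bij _ _ fun t => ?_
      rw [← Finset.sum_neg_distrib]
      refine Fintype.sum_bijective sw sw_bij _ _ fun r => ?_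
      rw [skew_entry hA r t, hWs r t, neg_mul]
    have h2 : (2 : K) * ∑ r, ∑ t, A (Pi.single t 1) r * algebraMap ℂ K (W r t) = 0 := by
      rw [two_mul]
      nth_rewrite 1 [hneg]
      ring
    exact (mul_eq_zero.mp h2).resolve_left two_ne_zero
  rw [hG0, zero_apply]

/-- Hilbert--Mumford for the scalar extension of an invariant alternating form. -/
theorem hm_coeff [CharZero K] {X : Type*} [Fintype X] [DecidableEq X] (h : X → ℕ)
    (c : ((Σ x, Fin (h x)) → Fin n ⊕ Fin n) → ℂ)
    (hcalt : ∀ (x : X) (i j : Fin (h x)), i ≠ j → ∀ β,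
      c (β ∘ Equiv.swap (⟨x, i⟩ : Σ x, Fin (h x)) ⟨x, j⟩) = - c β)
    (hcinv : InvCoeff c)
    (Y : (Σ x, Fin (h x)) → (Fin n ⊕ Fin n → K)) (hY : FK K c Y ≠ 0)
    (S T : Submodule K (Fin n ⊕ Fin n → K)) (hS : ∀ u ∈ S, ∀ v ∈ S, form n K u v = 0)
    (hT : ∀ v, v ∈ T ↔ ∀ s ∈ S, form n K v s = 0)
    (E : X → Submodule K (Fin n ⊕ Fin n → K))
    (hE : ∀ x, E x = Submodule.span K (Set.range fun i : Fin (h x) => Y ⟨x, i⟩)) :
    ∑ x, ((finrank K ↥(S ⊓ E x) : ℤ) + finrank K ↥(T ⊓ E x) - finrank K (E x)) ≤ 0 := by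
  classical
  refine hm_le (form n K) form_symm form_nondeg h (FK K c) ?_ ?_ Y hY S T hS hT E hE
  · intro Y x i j hij hYij
    exact FK_alt c (hcalt x i j hij) Y hYij
  · intro A hA Y
    exact FK_inv c hcinv A hA Y

end Crest.Agent.R172.HM2
end

-- ▼ part R172/HM3
section

/-!
Row 172 (S0260), T5: column antisymmetrisation in coordinates.
-/

set_option autoImplicit false

namespace Crest.Agent.R172.HM3

open Equiv

variable {κ : Type*}

/-- decomposable tensors in coordinates, as a multilinear map -/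
noncomputable def tpM (ι κ : Type*) [Fintype ι] :
    MultilinearMap ℂ (fun _ : ι => (κ → ℂ)) ((ι → κ) → ℂ) :=
  MultilinearMap.pi fun q : ι → κ =>
    (MultilinearMap.mkPiAlgebra ℂ ι ℂ).compLinearMap fun p => LinearMap.proj (q p)

theorem tpM_apply {ι : Type*} [Fintype ι] (v : ι → κ → ℂ) (q : ι → κ) :
    tpM ι κ v q = ∏ p, v p (q p) := by
  simp [tpM]

variable {X : Type*} [Fintype X] [DecidableEq X] {h : X → ℕ}

/-- column permutations -/
abbrev CP (h : X → ℕ) := ∀ x, Perm (Fin (h x))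

/-- sign of a column permutation -/
noncomputable def sg (σ : CP h) : ℂ := ∏ x, ((Perm.sign (σ x) : ℤ) : ℂ)

theorem sg_mul (σ τ : CP h) : sg (σ * τ) = sg σ * sg τ := by
  unfold sg
  rw [← Finset.prod_mul_distrib]
  refine Finset.prod_congr rfl fun x _ => ?_
  rw [Pi.mul_apply, Perm.sign_mul]
  push_cast
  ring

/-- permutation of the slots -/
def slot (σ : CP h) : Perm (Σ x, Fin (h x)) := Equiv.sigmaCongrRight σ

theorem slot_apply (σ : CP h) (p : Σ x, Fin (h x)) : slot σ p = ⟨p.1, σ p.1 p.2⟩ := by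
  cases p; rfl

/-- column antisymmetrisation -/
noncomputable def altM (κ : Type*) (h : X → ℕ) :
    MultilinearMap ℂ (fun _ : (Σ x, Fin (h x)) => (κ → ℂ)) (((Σ x, Fin (h x)) → κ) → ℂ) :=
  ∑ σ : CP h, sg σ • (tpM (Σ x, Fin (h x)) κ).domDomCongr (slot σ)

theorem altM_apply (Y : (Σ x, Fin (h x)) → κ → ℂ) :
    altM κ h Y = ∑ σ : CP h, sg σ • tpM _ κ (fun p => Y (slot σ p)) := by
  simp [altM]

theorem altM_swap (Y : (Σ x, Fin (h x)) → κ → ℂ) (x : X) {i j : Fin (h x)} (hij : i ≠ j) :
    altM κ h (Y ∘ Equiv.swap (⟨x, i⟩ : Σ x, Fin (h x)) ⟨x, j⟩) = - altM κ h Y := by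
  classical
  set τ : CP h := Pi.mulSingle x (Equiv.swap i j) with hτ
  have hsg : sg τ = -1 := by
    unfold sg
    rw [Finset.prod_eq_single x]
    · rw [hτ, Pi.mulSingle_eq_same, Perm.sign_swap hij]
      simp
    · intro y _ hy
      rw [hτ, Pi.mulSingle_eq_of_ne hy]
      simp
    · simp
  have hslot : ∀ p, Equiv.swap (⟨x, i⟩ : Σ x, Fin (h x)) ⟨x, j⟩ p = slot τ p := by
    rintro ⟨y, k⟩
    rw [slot_apply]
    by_cases hy : y = x
    · subst hy
      simp only [hτ, Pi.mulSingle_eq_same]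
      by_cases hki : k = i
      · subst hki; rw [Equiv.swap_apply_left, Equiv.swap_apply_left]
      · by_cases hkj : k = j
        · subst hkj; rw [Equiv.swap_apply_right, Equiv.swap_apply_right]
        · rw [Equiv.swap_apply_of_ne_of_ne hki hkj, Equiv.swap_apply_of_ne_of_ne]
          · intro e; apply hki; simpa using e
          · intro e; apply hkj; simpa using e
    · simp only [hτ, Pi.mulSingle_eq_of_ne hy, Perm.one_apply]
      rw [Equiv.swap_apply_of_ne_of_ne]
      · intro e; exact hy (congrArg Sigma.fst e)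
      · intro e; exact hy (congrArg Sigma.fst e)
  have hmul : ∀ (σ : CP h) p, slot τ (slot σ p) = slot (τ * σ) p := by
    intro σ p
    rw [slot_apply, slot_apply, slot_apply]
    rfl
  rw [altM_apply, altM_apply, ← Finset.sum_neg_distrib]
  refine Fintype.sum_equiv (Equiv.mulLeft τ) _ _ fun σ => ?_
  rw [Equiv.coe_mulLeft, sg_mul, hsg, neg_one_mul, neg_smul, neg_neg]
  congr 2
  funext p
  rw [Function.comp_apply, hslot, hmul]

theorem altM_eq_zero (Y : (Σ x, Fin (h x)) → κ → ℂ) (x : X) {i j : Fin (h x)} (hij : i ≠ j)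
    (hY : Y ⟨x, i⟩ = Y ⟨x, j⟩) : altM κ h Y = 0 := by
  have h1 := altM_swap Y x hij
  have h2 : Y ∘ Equiv.swap (⟨x, i⟩ : Σ x, Fin (h x)) ⟨x, j⟩ = Y := by
    funext p
    by_cases hpa : p = ⟨x, i⟩
    · subst hpa; rw [Function.comp_apply, Equiv.swap_apply_left, hY]
    · by_cases hpb : p = ⟨x, j⟩
      · subst hpb; rw [Function.comp_apply, Equiv.swap_apply_right, hY]
      · rw [Function.comp_apply, Equiv.swap_apply_of_ne_of_ne hpa hpb]
  rw [h2] at h1
  have h3 : (2 : ℂ) • altM κ h Y = 0 := by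
    rw [two_smul]
    nth_rewrite 1 [h1]
    exact neg_add_cancel _
  exact (smul_eq_zero.mp h3).resolve_left two_ne_zero

/-- expansion of a multilinear map over coordinate vectors -/
theorem multilinear_expand {ι : Type*} [Fintype ι] [DecidableEq ι] [Fintype κ] [DecidableEq κ]
    {M : Type*} [AddCommGroup M] [Module ℂ M]
    (F : MultilinearMap ℂ (fun _ : ι => (κ → ℂ)) M) (Y : ι → κ → ℂ) :
    F Y = ∑ β : ι → κ, (∏ p, Y p (β p)) • F (fun p => Pi.single (β p) 1) := by
  classical
  have h1 : Y = fun p => ∑ k, Y p k • (Pi.single k (1 : ℂ) : κ → ℂ) := by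
    funext p r
    simp [Finset.sum_apply, Pi.single_apply]
  conv_lhs => rw [h1]
  rw [F.map_sum]
  refine Finset.sum_congr rfl fun β _ => ?_
  rw [F.map_smul_univ]

/-- nonvanishing at coordinate vectors with distinct indices in each column -/
theorem altM_single_ne_zero [DecidableEq κ] (idx : (Σ x, Fin (h x)) → κ)
    (hinj : ∀ x, Function.Injective fun i : Fin (h x) => idx ⟨x, i⟩) :
    altM κ h (fun p => Pi.single (idx p) 1) ≠ 0 := by
  classical
  intro h0
  have h1 := congrFun h0 idx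
  rw [altM_apply, Finset.sum_apply, Finset.sum_eq_single (1 : CP h)] at h1
  · simp only [Pi.smul_apply, tpM_apply, Pi.zero_apply, smul_eq_mul] at h1
    have h2 : sg (1 : CP h) = 1 := by simp [sg]
    rw [h2, one_mul, Finset.prod_eq_one] at h1
    · exact one_ne_zero h1
    · rintro ⟨x, i⟩ _
      rw [slot_apply]
      simp
  · intro σ _ hσ
    obtain ⟨x, hx⟩ := Function.ne_iff.mp hσ
    have : ∃ i, σ x i ≠ i := by
      by_contra hcon
      push Not at hcon
      exact hx (Equiv.ext hcon)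
    obtain ⟨i, hi⟩ := this
    rw [Pi.smul_apply, tpM_apply, Finset.prod_eq_zero (Finset.mem_univ ⟨x, i⟩), smul_zero]
    rw [slot_apply]
    refine Pi.single_eq_of_ne ?_ _
    intro e
    exact hi (hinj x e).symm
  · simp



end Crest.Agent.R172.HM3
end

-- ▼ part R172/HM4
section

/-!
Row 172 (S0260), T5/T2: columns attached to a dominant weight.
`a` is an integral vector (actual weight, not doubled) or a doubled weight: only dominance is used.
-/

set_option autoImplicit false

namespace Crest.Agent.R172.HM4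

open Module Crest.Agent.R172.HM2

variable {n : ℕ}

/-- the partition attached to `a`: the last entry is replaced by its absolute value, `0` after -/
def bb (a : Fin n → ℤ) (i : ℕ) : ℤ :=
  if h : i + 1 < n then a ⟨i, by omega⟩ else if h : i < n then |a ⟨i, h⟩| else 0

theorem bb_lt (a : Fin n → ℤ) {i : ℕ} (h : i + 1 < n) : bb a i = a ⟨i, by omega⟩ := by
  unfold bb; rw [dif_pos h]

theorem bb_last (a : Fin n → ℤ) {i : ℕ} (h : i + 1 = n) : bb a i = |a ⟨i, by omega⟩| := by
  unfold bb; rw [dif_neg (by omega), dif_pos (by omega)]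

theorem bb_ge (a : Fin n → ℤ) {i : ℕ} (h : n ≤ i) : bb a i = 0 := by
  unfold bb; rw [dif_neg (by omega), dif_neg (by omega)]

/-- dominance (of the doubled or the actual weight) -/
def Dom (a : Fin n → ℤ) : Prop :=
  (∀ i j : Fin n, i ≤ j → (j : ℕ) + 2 ≤ n → a j ≤ a i) ∧
    (∀ i j : Fin n, (i : ℕ) + 2 = n → (j : ℕ) + 1 = n → |a j| ≤ a i)

theorem bb_step {a : Fin n → ℤ} (ha : Dom a) (i : ℕ) : bb a (i + 1) ≤ bb a i := by
  rcases lt_trichotomy (i + 2) n with h | h | h
  · rw [bb_lt a (by omega), bb_lt a (by omega)]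
    exact ha.1 ⟨i, by omega⟩ ⟨i + 1, by omega⟩ (by simp) (by simp; omega)
  · rw [bb_last a (by omega), bb_lt a (by omega)]
    exact ha.2 ⟨i, by omega⟩ ⟨i + 1, by omega⟩ (by simp; omega) (by simp; omega)
  · rw [bb_ge a (by omega)]
    rcases Nat.lt_or_ge i n with h2 | h2
    · rw [bb_last a (by omega)]; exact abs_nonneg _
    · rw [bb_ge a h2]

/-- multiplicity of the columns of height `i + 1` -/
def mult (a : Fin n → ℤ) (i : Fin n) : ℕ := (bb a i - bb a ((i : ℕ) + 1)).toNat

theorem mult_eq {a : Fin n → ℤ} (ha : Dom a) (i : Fin n) :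
    (mult a i : ℤ) = bb a i - bb a ((i : ℕ) + 1) := by
  unfold mult
  exact Int.toNat_of_nonneg (sub_nonneg.mpr (bb_step ha i))

/-- columns -/
abbrev Col (a : Fin n → ℤ) : Type := Σ i : Fin n, Fin (mult a i)

/-- heights -/
abbrev ht (a : Fin n → ℤ) (x : Col a) : ℕ := (x.1 : ℕ) + 1

/-- last entry negative -/
def Neg (a : Fin n → ℤ) : Prop := ∃ i : Fin n, (i : ℕ) + 1 = n ∧ a i < 0

instance (a : Fin n → ℤ) : Decidable (Neg a) := by unfold Neg; infer_instance

/-- index of the `j`-th vector of the standard column of height `i + 1` -/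
def ix (a : Fin n → ℤ) (i : Fin n) (j : Fin ((i : ℕ) + 1)) : Fin n ⊕ Fin n :=
  if Neg a ∧ (j : ℕ) + 1 = n then Sum.inr ⟨j, by omega⟩ else Sum.inl ⟨j, by omega⟩

theorem ix_inj (a : Fin n → ℤ) (i : Fin n) : Function.Injective (ix a i) := by
  intro j k hjk
  unfold ix at hjk
  split_ifs at hjk with h1 h2 h2
  · simpa [Fin.ext_iff] using hjk
  · simpa [Fin.ext_iff] using hjk

/-- index of a slot -/
def idx (a : Fin n → ℤ) (p : Σ x : Col a, Fin (ht a x)) : Fin n ⊕ Fin n := ix a p.1.1 p.2

theorem idx_inj (a : Fin n → ℤ) (x : Col a) :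
    Function.Injective fun i : Fin (ht a x) => idx a ⟨x, i⟩ := by
  intro j k h
  exact ix_inj a x.1 h

/-- the space spanned by the first `i + 1` columns of the frame `g` -/
def Efl {K : Type*} [Field K] (a : Fin n → ℤ) (g : Matrix (Fin n ⊕ Fin n) (Fin n ⊕ Fin n) K)
    (i : Fin n) : Submodule K (Fin n ⊕ Fin n → K) :=
  Submodule.span K (Set.range fun j : Fin ((i : ℕ) + 1) => fun q => g q (ix a i j))

/-- value of the diagonal element `h, -h` at an index -/
def dval {R : Type*} [Ring R] (h : Fin n → R) : Fin n ⊕ Fin n → R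
  | Sum.inl i => h i
  | Sum.inr i => - h i

theorem sum_tail (b : ℕ → ℤ) (m n : ℕ) (hmn : m ≤ n) :
    ∑ i ∈ Finset.Ico m n, (b i - b (i + 1)) = b m - b n := by
  induction n, hmn using Nat.le_induction with
  | base => simp
  | succ n hn ih => rw [Finset.sum_Ico_succ_top hn, ih]; ring

/-- total weight of the standard columns -/
theorem sum_dval {a : Fin n → ℤ} (ha : Dom a) (h : Fin n → ℂ) :
    ∑ p : (Σ x : Col a, Fin (ht a x)), dval h (idx a p) = ∑ i, (a i : ℂ) * h i := by
  classical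
  rw [Fintype.sum_sigma, Fintype.sum_sigma]
  have h1 : ∀ i : Fin n, ∑ k : Fin (mult a i), ∑ j : Fin (ht a ⟨i, k⟩),
      dval h (idx a ⟨⟨i, k⟩, j⟩) = ∑ j : Fin n,
        (if j ≤ i then ((bb a i - bb a ((i : ℕ) + 1) : ℤ) : ℂ) *
          (if Neg a ∧ (j : ℕ) + 1 = n then -h j else h j) else 0) := by
    intro i
    have h2 : ∀ k : Fin (mult a i), ∑ j : Fin (ht a ⟨i, k⟩), dval h (idx a ⟨⟨i, k⟩, j⟩) =
        ∑ j : Fin n, (if j ≤ i then (if Neg a ∧ (j : ℕ) + 1 = n then -h j else h j) else 0) := by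
      intro k
      rw [← Finset.sum_filter]
      refine Finset.sum_bij (fun j _ => (⟨j, by have := j.2; have := i.2; simp only [ht] at *; omega⟩ : Fin n))
        ?_ ?_ ?_ ?_
      · intro j _
        simp only [Finset.mem_filter, Finset.mem_univ, true_and, Fin.le_def]
        have := j.2
        simp only [ht] at this
        omega
      · intro j _ k _ hjk
        simpa [Fin.ext_iff] using hjk
      · intro j hj
        simp only [Finset.mem_filter, Finset.mem_univ, true_and, Fin.le_def] at hj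
        exact ⟨⟨j, by simp only [ht]; omega⟩, Finset.mem_univ _, by simp⟩
      · intro j _
        simp only [idx, ix]
        split_ifs <;> rfl
    rw [Finset.sum_congr rfl fun k _ => h2 k, Finset.sum_const, Finset.card_univ,
      Fintype.card_fin, nsmul_eq_mul, Finset.mul_sum]
    refine Finset.sum_congr rfl fun j _ => ?_
    have h3 : ((mult a i : ℕ) : ℂ) = ((bb a i - bb a ((i : ℕ) + 1) : ℤ) : ℂ) := by
      rw [← mult_eq ha i]; simp
    rw [h3]
    split_ifs <;> simp
  rw [Finset.sum_congr rfl fun i _ => h1 i, Finset.sum_comm]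
  refine Finset.sum_congr rfl fun j _ => ?_
  have h4 : ∑ i : Fin n, (if j ≤ i then ((bb a i - bb a ((i : ℕ) + 1) : ℤ) : ℂ) *
      (if Neg a ∧ (j : ℕ) + 1 = n then -h j else h j) else 0) =
      ((bb a j : ℤ) : ℂ) * (if Neg a ∧ (j : ℕ) + 1 = n then -h j else h j) := by
    rw [← Finset.sum_filter, ← Finset.sum_mul]
    congr 1
    have h5 : ∑ i ∈ Finset.univ.filter (fun i : Fin n => j ≤ i),
        (bb a i - bb a ((i : ℕ) + 1)) = bb a j := by
      have h6 : ∑ i ∈ Finset.univ.filter (fun i : Fin n => j ≤ i),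
          (bb a i - bb a ((i : ℕ) + 1)) =
          ∑ i ∈ Finset.Ico (j : ℕ) n, (bb a i - bb a (i + 1)) := by
        refine Finset.sum_bij (fun i _ => (i : ℕ)) ?_ ?_ ?_ ?_
        · intro i hi
          simp only [Finset.mem_filter, Finset.mem_univ, true_and, Fin.le_def] at hi
          exact Finset.mem_Ico.mpr ⟨hi, i.2⟩
        · intro i _ k _ hik
          exact Fin.ext hik
        · intro i hi
          have := Finset.mem_Ico.mp hi
          exact ⟨⟨i, this.2⟩, Finset.mem_filter.mpr ⟨Finset.mem_univ _, Fin.le_def.mpr this.1⟩, rfl⟩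
        · intro i _; rfl
      rw [h6, sum_tail _ _ _ j.2.le, bb_ge a le_rfl, sub_zero]
    rw [← h5]
    push_cast
    rfl
  rw [h4]
  rcases Nat.lt_or_ge ((j : ℕ) + 1) n with hj | hj
  · rw [bb_lt a hj, if_neg (by rintro ⟨-, h⟩; omega)]
  · have hj' : (j : ℕ) + 1 = n := by have := j.2; omega
    rw [bb_last a hj']
    by_cases hneg : Neg a
    · rw [if_pos ⟨hneg, hj'⟩]
      obtain ⟨i, hi, hi2⟩ := hneg
      have hij : i = j := Fin.ext (by omega)
      subst hij
      rw [Fin.eta, abs_of_neg hi2]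
      push_cast
      ring
    · rw [if_neg (by rintro ⟨h, -⟩; exact hneg h)]
      have : 0 ≤ a j := by
        by_contra hcon
        exact hneg ⟨j, hj', not_le.mp hcon⟩
      rw [Fin.eta, abs_of_nonneg this]

end Crest.Agent.R172.HM4
private theorem rz_6f6f011808 : type_of% @_root_.Crest.Agent.R172.HM4.dval.eq_1 := @_root_.Crest.Agent.R172.HM4.dval.eq_1 -- L90
end

-- ▼ part R172/HM5
section

/-!
Row 172 (S0260), T2 (integral weights): the column vector is a highest weight vector in the tensor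
power; words of exponentials act on it through the matrices `gm w`.
-/

set_option autoImplicit false
set_option linter.unusedSectionVars false

open Crest.AlgebraR.SpinSaturation
open scoped Matrix TensorProduct

namespace Crest.Agent.R172.HM5

open Crest.Agent.R172.SoGrade Crest.Agent.R172.TPow Crest.Agent.R172.HM4
open Crest.Agent.R172.Fwd

variable {n : ℕ}

section alt

variable {X : Type*} [Fintype X] [DecidableEq X] {h : X → ℕ}

/-- column antisymmetrisation, with values in the tensor power -/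
noncomputable def altT (n : ℕ) (h : X → ℕ) :
    MultilinearMap ℂ (fun _ : (Σ x, Fin (h x)) => (Fin n ⊕ Fin n → ℂ)) (TP n (Σ x, Fin (h x))) :=
  ∑ σ : HM3.CP h, HM3.sg σ • (TPow.tpM n (Σ x, Fin (h x))).domDomCongr (HM3.slot σ)

theorem altT_apply (Y : (Σ x, Fin (h x)) → Fin n ⊕ Fin n → ℂ) :
    altT n h Y = ∑ σ : HM3.CP h, HM3.sg σ • tp (fun p => Y (HM3.slot σ p)) := by
  simp [altT]

theorem altT_eq (Y : (Σ x, Fin (h x)) → Fin n ⊕ Fin n → ℂ) :
    (altT n h Y : ((Σ x, Fin (h x)) → Fin n ⊕ Fin n) → ℂ) = HM3.altM (Fin n ⊕ Fin n) h Y := by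
  funext q
  rw [altT_apply, HM3.altM_apply, sum_apply', Finset.sum_apply]
  refine Finset.sum_congr rfl fun σ _ => ?_
  rw [smul_apply', Pi.smul_apply, HM3.tpM_apply, tp_apply, smul_eq_mul]

theorem altT_eq_zero (Y : (Σ x, Fin (h x)) → Fin n ⊕ Fin n → ℂ) (x : X) {i j : Fin (h x)}
    (hij : i ≠ j) (hY : Y ⟨x, i⟩ = Y ⟨x, j⟩) : altT n h Y = 0 := by
  have := HM3.altM_eq_zero (κ := Fin n ⊕ Fin n) Y x hij hY
  rw [← altT_eq] at this
  exact this

theorem altT_swap (Y : (Σ x, Fin (h x)) → Fin n ⊕ Fin n → ℂ) (x : X) {i j : Fin (h x)}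
    (hij : i ≠ j) :
    altT n h (Y ∘ Equiv.swap (⟨x, i⟩ : Σ x, Fin (h x)) ⟨x, j⟩) = - altT n h Y := by
  have := HM3.altM_swap (κ := Fin n ⊕ Fin n) Y x hij
  rw [← altT_eq, ← altT_eq] at this
  exact this

theorem lie_altT (A : soD n) (Y : (Σ x, Fin (h x)) → Fin n ⊕ Fin n → ℂ) :
    ⁅A, altT n h Y⁆ = ∑ p, altT n h (Function.update Y p (A.1 *ᵥ Y p)) := by
  classical
  have e : ⁅A, altT n h Y⁆ = ∑ σ : HM3.CP h, HM3.sg σ • ⁅A, tp (fun p => Y (HM3.slot σ p))⁆ := by
    rw [altT_apply, lie_sum]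
    exact Finset.sum_congr rfl fun σ _ => lie_smul _ _ _
  rw [e]
  simp only [altT_apply]
  rw [Finset.sum_comm]
  refine Finset.sum_congr rfl fun σ _ => ?_
  rw [← Finset.smul_sum, lie_tp]
  congr 1
  refine Fintype.sum_equiv (HM3.slot σ) _ _ fun p => ?_
  congr 1
  funext q
  by_cases hq : q = p
  · subst hq; simp
  · rw [Function.update_of_ne hq, Function.update_of_ne]
    intro e
    exact hq ((HM3.slot σ).injective e)

end alt

/-- the standard frame vectors of the columns of `a` -/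
noncomputable def fr (a : Fin n → ℤ) (p : Σ x : Col a, Fin (ht a x)) : Fin n ⊕ Fin n → ℂ :=
  Pi.single (idx a p) 1

/-- the column vector of the integral weight `a` -/
noncomputable def colv (a : Fin n → ℤ) : TP n (Σ x : Col a, Fin (ht a x)) := altT n (ht a) (fr a)

theorem mulVec_single_one' (A : Matrix (Fin n ⊕ Fin n) (Fin n ⊕ Fin n) ℂ) (r : Fin n ⊕ Fin n) :
    A *ᵥ (Pi.single r (1 : ℂ)) = fun q => A q r := by
  funext q
  rw [Matrix.mulVec, dotProduct, Finset.sum_eq_single r]
  · rw [Pi.single_eq_same, mul_one]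
  · intro k _ hk
    rw [Pi.single_eq_of_ne hk, mul_zero]
  · intro h
    exact absurd (Finset.mem_univ r) h

theorem cartan_col (h : Fin n → ℂ) (r : Fin n ⊕ Fin n) :
    (Matrix.fromBlocks (Matrix.diagonal h) 0 0 (-Matrix.diagonal h) :
      Matrix (Fin n ⊕ Fin n) (Fin n ⊕ Fin n) ℂ) *ᵥ (Pi.single r (1 : ℂ)) =
      dval h r • Pi.single r (1 : ℂ) := by
  rw [mulVec_single_one']
  funext q
  rcases q with i | i <;> rcases r with j | j
  · by_cases hij : i = j
    · subst hij; simp [dval]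
    · simp [hij, Ne.symm hij]
  · simp
  · simp
  · by_cases hij : i = j
    · subst hij; simp [dval]
    · simp [hij, Ne.symm hij]

theorem colv_hw {a : Fin n → ℤ} (ha : Dom a) :
    IsHighestWeightVector n (fun i => 2 * a i) (colv a) := by
  classical
  refine ⟨?_, ?_, ?_⟩
  · intro h0
    have := HM3.altM_single_ne_zero (h := ht a) (idx a) (idx_inj a)
    apply this
    rw [← altT_eq]
    exact h0
  · intro h A hA
    rw [colv, lie_altT]
    have h1 : ∀ p, altT n (ht a) (Function.update (fr a) p (A.1 *ᵥ fr a p)) =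
        dval h (idx a p) • altT n (ht a) (fr a) := by
      intro p
      rw [hA, fr, cartan_col, MultilinearMap.map_update_smul]
      congr 1
      congr 1
      exact Function.update_eq_self p (fr a)
    rw [Finset.sum_congr rfl fun p _ => h1 p, ← Finset.sum_smul, sum_dval ha h]
    congr 1
    refine Finset.sum_congr rfl fun i _ => ?_
    push_cast
    ring
  · intro A h1 h2
    rw [colv, lie_altT]
    refine Finset.sum_eq_zero fun p _ => ?_
    have hA := mem_soD.1 A.2
    have hcol : A.1 *ᵥ fr a p = ∑ q, A.1 q (idx a p) • (Pi.single q (1 : ℂ) : Fin n ⊕ Fin n → ℂ) := by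
      rw [fr, mulVec_single_one']
      funext r
      simp [Finset.sum_apply, Pi.single_apply]
    rw [hcol, MultilinearMap.map_update_sum]
    refine Finset.sum_eq_zero fun q _ => ?_
    rw [MultilinearMap.map_update_smul]
    by_cases hz : A.1 q (idx a p) = 0
    · rw [hz, zero_smul]
    · -- `q` is the index of an earlier slot of the same column
      obtain ⟨⟨i0, k⟩, j⟩ := p
      have hlt : ∃ i : Fin n, q = Sum.inl i ∧ (i : ℕ) < (j : ℕ) := by
        simp only [idx, ix] at hz
        split_ifs at hz with hsp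
        · rcases q with i | i
          · refine ⟨i, rfl, ?_⟩
            have hjn : (j : ℕ) + 1 = n := hsp.2
            by_contra hcon
            have hij : (i : ℕ) = j := by have := i.2; omega
            apply hz
            have h3 := hA (Sum.inl i) (Sum.inr ⟨j, by omega⟩)
            simp only [sw_inl, sw_inr] at h3
            have hij' : (⟨(j : ℕ), by omega⟩ : Fin n) = i := Fin.ext hij.symm
            rw [hij'] at h3 ⊢
            exact self_eq_neg.mp h3
          · exfalso
            apply hz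
            rw [hA, sw_inr, sw_inr, neg_eq_zero]
            apply h2
            have := i.2
            rw [Fin.le_def]
            change (i : ℕ) ≤ (j : ℕ)
            omega
        · rcases q with i | i
          · refine ⟨i, rfl, ?_⟩
            by_contra hcon
            apply hz
            apply h2
            rw [Fin.le_def]
            change (j : ℕ) ≤ (i : ℕ)
            omega
          · exact absurd (h1 i _) hz
      obtain ⟨i, rfl, hij⟩ := hlt
      have hjb : (j : ℕ) < (i0 : ℕ) + 1 := j.2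
      have hj' : (i : ℕ) < ht a ⟨i0, k⟩ := by change (i : ℕ) < (i0 : ℕ) + 1; omega
      rw [altT_eq_zero _ (⟨i0, k⟩ : Col a) (i := j) (j := ⟨i, hj'⟩), smul_zero]
      · intro e
        have := congrArg Fin.val e
        simp only at this
        omega
      · rw [Function.update_self, Function.update_of_ne]
        · rw [fr, idx, ix, if_neg]
          rintro ⟨-, h⟩
          have := i0.2
          change (i : ℕ) + 1 = n at h
          omega
        · intro e
          rw [Sigma.mk.injEq] at e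
          have := congrArg Fin.val (eq_of_heq e.2)
          simp only at this
          omega

end Crest.Agent.R172.HM5
end

-- ▼ part R172/HM6
section

/-!
Row 172 (S0260), **T5**: an invariant of an integral triple gives a polynomial `P` in the entries of
three frames, nonzero at three words of exponentials, whose nonvanishing over any field `K` of
characteristic zero implies all the numerical inequalities `μ(S) ≤ 0`.
-/

set_option autoImplicit false
set_option linter.unusedSectionVars false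

open Crest.AlgebraR.SpinSaturation
open scoped Matrix TensorProduct

namespace Crest.Agent.R172.HM6

open Module Crest.Agent.R172.SoGrade Crest.Agent.R172.TPow Crest.Agent.R172.HM4
open Crest.Agent.R172.Fwd Crest.Agent.R172.HM5

universe u

variable {n : ℕ} (a : Fin 3 → Fin n → ℤ)

/-- all columns -/
abbrev AX : Type := Σ s : Fin 3, Col (a s)

/-- their heights -/
abbrev hh (x : AX a) : ℕ := ht (a x.1) x.2

/-- all slots -/
abbrev Sl : Type := Σ x : AX a, Fin (hh a x)

variable {a}

/-- restriction to an arm -/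
def Yr {R : Type*} (Y : Sl a → R) (s : Fin 3) (p : Σ x : Col (a s), Fin (ht (a s) x)) : R :=
  Y ⟨⟨s, p.1⟩, p.2⟩

theorem Yr_update_same {R : Type*} [DecidableEq (Sl a)] (Y : Sl a → R) (s : Fin 3) (c : Col (a s))
    (i : Fin (ht (a s) c)) (v : R) :
    Yr (Function.update Y ⟨⟨s, c⟩, i⟩ v) s = Function.update (Yr Y s) ⟨c, i⟩ v := by
  funext p
  by_cases hp : p = ⟨c, i⟩
  · subst hp
    rw [Function.update_self, Yr, Function.update_self]
  · rw [Function.update_of_ne hp, Yr, Function.update_of_ne, Yr]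
    intro e
    apply hp
    obtain ⟨c', i'⟩ := p
    rw [Sigma.mk.injEq] at e
    obtain ⟨e1, e2⟩ := e
    rw [Sigma.mk.injEq] at e1
    have e3 := eq_of_heq e1.2
    subst e3
    have e4 := eq_of_heq e2
    subst e4
    rfl

theorem Yr_update_ne {R : Type*} [DecidableEq (Sl a)] (Y : Sl a → R) (s s' : Fin 3) (h : s' ≠ s) (c : Col (a s))
    (i : Fin (ht (a s) c)) (v : R) :
    Yr (Function.update Y ⟨⟨s, c⟩, i⟩ v) s' = Yr Y s' := by
  funext p
  rw [Yr, Function.update_of_ne, Yr]
  intro e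
  rw [Sigma.mk.injEq] at e
  obtain ⟨e1, -⟩ := e
  rw [Sigma.mk.injEq] at e1
  exact h e1.1

section functional

variable (lam : TP n (Σ x : Col (a 0), Fin (ht (a 0) x)) ⊗[ℂ]
  (TP n (Σ x : Col (a 1), Fin (ht (a 1) x)) ⊗[ℂ] TP n (Σ x : Col (a 2), Fin (ht (a 2) x))) →ₗ[ℂ] ℂ)

/-- the multilinear function of all frame vectors -/
noncomputable def Fm (Y : Sl a → Fin n ⊕ Fin n → ℂ) : ℂ :=
  lam (altT n (ht (a 0)) (Yr Y 0) ⊗ₜ[ℂ] (altT n (ht (a 1)) (Yr Y 1) ⊗ₜ[ℂ]
    altT n (ht (a 2)) (Yr Y 2)))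

/-- `Fm` as a multilinear map -/
noncomputable def FM : MultilinearMap ℂ (fun _ : Sl a => (Fin n ⊕ Fin n → ℂ)) ℂ where
  toFun := Fm lam
  map_update_add' := by
    intro inst Y p x y
    obtain ⟨⟨s, c⟩, i⟩ := p
    obtain rfl | rfl | rfl : s = 0 ∨ s = 1 ∨ s = 2 := by fin_cases s <;> simp
    · simp only [Fm, Yr_update_same, Yr_update_ne _ 0 1 (by decide),
        Yr_update_ne _ 0 2 (by decide), MultilinearMap.map_update_add, TensorProduct.add_tmul,
        map_add]
    · simp only [Fm, Yr_update_same, Yr_update_ne _ 1 0 (by decide),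
        Yr_update_ne _ 1 2 (by decide), MultilinearMap.map_update_add, TensorProduct.add_tmul,
        TensorProduct.tmul_add, map_add]
    · simp only [Fm, Yr_update_same, Yr_update_ne _ 2 0 (by decide),
        Yr_update_ne _ 2 1 (by decide), MultilinearMap.map_update_add,
        TensorProduct.tmul_add, map_add]
  map_update_smul' := by
    intro inst Y p r x
    obtain ⟨⟨s, c⟩, i⟩ := p
    obtain rfl | rfl | rfl : s = 0 ∨ s = 1 ∨ s = 2 := by fin_cases s <;> simp
    · simp only [Fm, Yr_update_same, Yr_update_ne _ 0 1 (by decide),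
        Yr_update_ne _ 0 2 (by decide), MultilinearMap.map_update_smul,
        ← TensorProduct.smul_tmul', map_smul]
    · simp only [Fm, Yr_update_same, Yr_update_ne _ 1 0 (by decide),
        Yr_update_ne _ 1 2 (by decide), MultilinearMap.map_update_smul,
        ← TensorProduct.smul_tmul', TensorProduct.tmul_smul, map_smul]
    · simp only [Fm, Yr_update_same, Yr_update_ne _ 2 0 (by decide),
        Yr_update_ne _ 2 1 (by decide), MultilinearMap.map_update_smul,
        TensorProduct.tmul_smul, map_smul]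

theorem FM_apply (Y : Sl a → Fin n ⊕ Fin n → ℂ) : FM lam Y = Fm lam Y := rfl

/-- coefficients -/
noncomputable def cf (β : Sl a → Fin n ⊕ Fin n) : ℂ := FM lam (fun p => Pi.single (β p) 1)

theorem cf_alt (x : AX a) (i j : Fin (hh a x)) (hij : i ≠ j) (β : Sl a → Fin n ⊕ Fin n) :
    cf lam (β ∘ Equiv.swap (⟨x, i⟩ : Sl a) ⟨x, j⟩) = - cf lam β := by
  classical
  obtain ⟨s, c⟩ := x
  set Y : Sl a → Fin n ⊕ Fin n → ℂ := fun p => Pi.single (β p) 1 with hY
  have h1 : (fun p => (Pi.single ((β ∘ Equiv.swap (⟨⟨s, c⟩, i⟩ : Sl a) ⟨⟨s, c⟩, j⟩) p) (1 : ℂ) :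
      Fin n ⊕ Fin n → ℂ)) = Y ∘ Equiv.swap (⟨⟨s, c⟩, i⟩ : Sl a) ⟨⟨s, c⟩, j⟩ := rfl
  have hs : Yr (Y ∘ Equiv.swap (⟨⟨s, c⟩, i⟩ : Sl a) ⟨⟨s, c⟩, j⟩) s =
      (Yr Y s) ∘ Equiv.swap (⟨c, i⟩ : Σ x : Col (a s), Fin (ht (a s) x)) ⟨c, j⟩ := by
    funext p
    by_cases hpi : p = ⟨c, i⟩
    · subst hpi
      rw [Function.comp_apply, Equiv.swap_apply_left]
      change Y (Equiv.swap (⟨⟨s, c⟩, i⟩ : Sl a) ⟨⟨s, c⟩, j⟩ ⟨⟨s, c⟩, i⟩) = Y ⟨⟨s, c⟩, j⟩
      rw [Equiv.swap_apply_left]
    · by_cases hpj : p = ⟨c, j⟩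
      · subst hpj
        rw [Function.comp_apply, Equiv.swap_apply_right]
        change Y (Equiv.swap (⟨⟨s, c⟩, i⟩ : Sl a) ⟨⟨s, c⟩, j⟩ ⟨⟨s, c⟩, j⟩) = Y ⟨⟨s, c⟩, i⟩
        rw [Equiv.swap_apply_right]
      · rw [Function.comp_apply, Equiv.swap_apply_of_ne_of_ne hpi hpj]
        change Y (Equiv.swap (⟨⟨s, c⟩, i⟩ : Sl a) ⟨⟨s, c⟩, j⟩ ⟨⟨s, p.1⟩, p.2⟩) =
          Y ⟨⟨s, p.1⟩, p.2⟩
        rw [Equiv.swap_apply_of_ne_of_ne]
        · intro e
          apply hpi
          obtain ⟨c', i'⟩ := p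
          rw [Sigma.mk.injEq] at e
          obtain ⟨e1, e2⟩ := e
          rw [Sigma.mk.injEq] at e1
          have e3 := eq_of_heq e1.2
          subst e3
          have e4 : i' = i := eq_of_heq e2
          subst e4
          rfl
        · intro e
          apply hpj
          obtain ⟨c', i'⟩ := p
          rw [Sigma.mk.injEq] at e
          obtain ⟨e1, e2⟩ := e
          rw [Sigma.mk.injEq] at e1
          have e3 := eq_of_heq e1.2
          subst e3
          have e4 : i' = j := eq_of_heq e2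
          subst e4
          rfl
  have hs' : ∀ s', s' ≠ s → Yr (Y ∘ Equiv.swap (⟨⟨s, c⟩, i⟩ : Sl a) ⟨⟨s, c⟩, j⟩) s' =
      Yr Y s' := by
    intro s' hne
    funext p
    change Y (Equiv.swap (⟨⟨s, c⟩, i⟩ : Sl a) ⟨⟨s, c⟩, j⟩ ⟨⟨s', p.1⟩, p.2⟩) =
      Y ⟨⟨s', p.1⟩, p.2⟩
    rw [Equiv.swap_apply_of_ne_of_ne]
    · intro e
      rw [Sigma.mk.injEq] at e
      obtain ⟨e1, -⟩ := e
      rw [Sigma.mk.injEq] at e1
      exact hne e1.1
    · intro e
      rw [Sigma.mk.injEq] at e
      obtain ⟨e1, -⟩ := e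
      rw [Sigma.mk.injEq] at e1
      exact hne e1.1
  unfold cf
  rw [h1, FM_apply, FM_apply, Fm, Fm]
  obtain rfl | rfl | rfl : s = 0 ∨ s = 1 ∨ s = 2 := by fin_cases s <;> simp
  · rw [hs, hs' 1 (by decide), hs' 2 (by decide), altT_swap _ c hij, TensorProduct.neg_tmul,
      map_neg]
  · rw [hs, hs' 0 (by decide), hs' 2 (by decide), altT_swap _ c hij, TensorProduct.neg_tmul,
      TensorProduct.tmul_neg, map_neg]
  · rw [hs, hs' 0 (by decide), hs' 1 (by decide), altT_swap _ c hij, TensorProduct.tmul_neg,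
      TensorProduct.tmul_neg, map_neg]

variable {lam}

theorem FM_inv (hinv : ∀ (A : soD n) t, lam ⁅A, t⁆ = 0) (A : soD n)
    (Y : Sl a → Fin n ⊕ Fin n → ℂ) :
    ∑ p, FM lam (Function.update Y p (A.1 *ᵥ Y p)) = 0 := by
  classical
  have h := hinv A (altT n (ht (a 0)) (Yr Y 0) ⊗ₜ[ℂ] (altT n (ht (a 1)) (Yr Y 1) ⊗ₜ[ℂ]
    altT n (ht (a 2)) (Yr Y 2)))
  rw [TensorProduct.LieModule.lie_tmul_right, TensorProduct.LieModule.lie_tmul_right,
    lie_altT, lie_altT, lie_altT, TensorProduct.tmul_add, map_add, map_add] at h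
  rw [← h, Fintype.sum_sigma, Fintype.sum_sigma, Fin.sum_univ_three]
  rw [← add_assoc]
  congr 1
  · congr 1
    · rw [TensorProduct.sum_tmul, map_sum]
      refine Eq.trans ?_ (Fintype.sum_sigma _).symm
      refine Finset.sum_congr rfl fun c _ => Finset.sum_congr rfl fun i _ => ?_
      rw [FM_apply, Fm, Yr_update_same, Yr_update_ne _ 0 1 (by decide),
        Yr_update_ne _ 0 2 (by decide)]
      rfl
    · rw [TensorProduct.sum_tmul, TensorProduct.tmul_sum, map_sum]
      refine Eq.trans ?_ (Fintype.sum_sigma _).symm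
      refine Finset.sum_congr rfl fun c _ => Finset.sum_congr rfl fun i _ => ?_
      rw [FM_apply, Fm, Yr_update_same, Yr_update_ne _ 1 0 (by decide),
        Yr_update_ne _ 1 2 (by decide)]
      rfl
  · rw [TensorProduct.tmul_sum, TensorProduct.tmul_sum, map_sum]
    refine Eq.trans ?_ (Fintype.sum_sigma _).symm
    refine Finset.sum_congr rfl fun c _ => Finset.sum_congr rfl fun i _ => ?_
    rw [FM_apply, Fm, Yr_update_same, Yr_update_ne _ 2 0 (by decide),
      Yr_update_ne _ 2 1 (by decide)]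
    rfl

/-- elementary skew matrices -/
noncomputable def el (r t : Fin n ⊕ Fin n) : soD n :=
  ⟨fun p q => (if p = r ∧ q = t then 1 else 0) -
    (if p = HM2.sw t ∧ q = HM2.sw r then 1 else 0), by
    rw [mem_soD]
    intro p q
    have h1 : (SoGrade.sw q = r ∧ SoGrade.sw p = t) ↔ (p = HM2.sw t ∧ q = HM2.sw r) := by
      constructor
      · rintro ⟨rfl, rfl⟩
        exact ⟨(SoGrade.sw_sw p).symm, (SoGrade.sw_sw q).symm⟩
      · rintro ⟨rfl, rfl⟩
        exact ⟨HM2.sw_sw r, HM2.sw_sw t⟩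
    have h2 : (SoGrade.sw q = HM2.sw t ∧ SoGrade.sw p = HM2.sw r) ↔ (p = r ∧ q = t) := by
      constructor
      · rintro ⟨h, h'⟩
        exact ⟨HM2.sw_inj h', HM2.sw_inj h⟩
      · rintro ⟨rfl, rfl⟩
        exact ⟨rfl, rfl⟩
    simp only [h1, h2]
    ring⟩

theorem ite_and_mul (P Q : Prop) [Decidable P] [Decidable Q] :
    (if P ∧ Q then (1 : ℂ) else 0) = (if Q then 1 else 0) * (if P then 1 else 0) := by
  by_cases hP : P <;> by_cases hQ : Q <;> simp [hP, hQ]

theorem cf_inv (hinv : ∀ (A : soD n) t, lam ⁅A, t⁆ = 0) : HM2.InvCoeff (cf lam) := by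
  classical
  intro r t β
  have h := FM_inv hinv (el r t) (fun p => Pi.single (β p) 1)
  refine (Finset.sum_congr rfl fun p _ => ?_).trans h
  have h1 : (el r t).1 *ᵥ (Pi.single (β p) (1 : ℂ) : Fin n ⊕ Fin n → ℂ) =
      (if β p = t then (1 : ℂ) else 0) • (Pi.single r (1 : ℂ) : Fin n ⊕ Fin n → ℂ) -
      (if β p = HM2.sw r then (1 : ℂ) else 0) •
        (Pi.single (HM2.sw t) (1 : ℂ) : Fin n ⊕ Fin n → ℂ) := by
    rw [mulVec_single_one']
    funext q
    change (if q = r ∧ β p = t then (1 : ℂ) else 0) -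
      (if q = HM2.sw t ∧ β p = HM2.sw r then 1 else 0) = _
    simp only [Pi.sub_apply, Pi.smul_apply, Pi.single_apply, smul_eq_mul]
    rw [ite_and_mul, ite_and_mul]
  rw [h1, MultilinearMap.map_update_sub, MultilinearMap.map_update_smul,
    MultilinearMap.map_update_smul]
  have h2 : ∀ q : Fin n ⊕ Fin n, FM lam (Function.update
      (fun p => (Pi.single (β p) (1 : ℂ) : Fin n ⊕ Fin n → ℂ)) p (Pi.single q 1)) =
      cf lam (Function.update β p q) := by
    intro q
    unfold cf
    congr 1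
    funext p'
    by_cases hp : p' = p
    · subst hp; simp
    · simp [Function.update_of_ne hp]
  rw [h2, h2]
  simp only [smul_eq_mul, ite_mul, one_mul, zero_mul]

/-- words act on antisymmetrised tensors through matrices -/
theorem act_altT {X : Type} [Fintype X] [DecidableEq X] {h : X → ℕ} {w : List (soD n)}
    (hw : Wd w) (Y : (Σ x, Fin (h x)) → Fin n ⊕ Fin n → ℂ) :
    act (TP n (Σ x, Fin (h x))) w (altT n h Y) = altT n h (fun p => gm w *ᵥ Y p) := by
  rw [altT_apply, altT_apply, map_sum]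
  refine Finset.sum_congr rfl fun σ _ => ?_
  rw [map_smul, act_tp hw]

end functional

/-- index of a slot among all arms -/
def ixp (p : Sl a) : Fin n ⊕ Fin n := ix (a p.1.1) p.1.2.1 p.2

/-- the polynomial -/
noncomputable def PP (c : (Sl a → Fin n ⊕ Fin n) → ℂ) :
    MvPolynomial (Fin 3 × (Fin n ⊕ Fin n) × (Fin n ⊕ Fin n)) ℂ :=
  ∑ β : Sl a → Fin n ⊕ Fin n, MvPolynomial.C (c β) *
    ∏ p : Sl a, MvPolynomial.X (p.1.1, β p, ixp p)

theorem aeval_PP {K : Type*} [Field K] [Algebra ℂ K] (c : (Sl a → Fin n ⊕ Fin n) → ℂ)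
    (g : Fin 3 → Matrix (Fin n ⊕ Fin n) (Fin n ⊕ Fin n) K) :
    MvPolynomial.aeval (fun x : Fin 3 × (Fin n ⊕ Fin n) × (Fin n ⊕ Fin n) =>
      g x.1 x.2.1 x.2.2) (PP c) = HM2.FK K c (fun p q => g p.1.1 q (ixp p)) := by
  rw [HM2.FK_apply, PP, map_sum]
  refine Finset.sum_congr rfl fun β _ => ?_
  rw [map_mul, MvPolynomial.aeval_C, map_prod]
  congr 1
  refine Finset.prod_congr rfl fun p _ => ?_
  rw [MvPolynomial.aeval_X]

theorem hm_poly (hn : 2 ≤ n) (ha : ∀ s, Dom (a s))
    (U : Irrep n (fun i => 2 * a 0 i)) (V : Irrep n (fun i => 2 * a 1 i))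
    (W : Irrep n (fun i => 2 * a 2 i)) (h : HasInvariant U V W) :
    ∃ P : MvPolynomial (Fin 3 × (Fin n ⊕ Fin n) × (Fin n ⊕ Fin n)) ℂ,
      (∃ w : Fin 3 → List (soD n), (∀ s, Wd (w s)) ∧
        MvPolynomial.eval (fun x : Fin 3 × (Fin n ⊕ Fin n) × (Fin n ⊕ Fin n) =>
          gm (w x.1) x.2.1 x.2.2) P ≠ 0) ∧
      ∀ (K : Type u) [Field K] [CharZero K] [Algebra ℂ K]
        (g : Fin 3 → Matrix (Fin n ⊕ Fin n) (Fin n ⊕ Fin n) K),
        MvPolynomial.aeval (fun x : Fin 3 × (Fin n ⊕ Fin n) × (Fin n ⊕ Fin n) =>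
          g x.1 x.2.1 x.2.2) P ≠ 0 →
        ∀ S T : Submodule K (Fin n ⊕ Fin n → K),
          (∀ x ∈ S, ∀ y ∈ S, HM2.form n K x y = 0) →
          (∀ v, v ∈ T ↔ ∀ s ∈ S, HM2.form n K v s = 0) →
          ∑ s, ∑ i : Fin n, (bb (a s) i - bb (a s) ((i : ℕ) + 1)) *
            ((finrank K ↥(S ⊓ Efl (a s) (g s) i) : ℤ) + finrank K ↥(T ⊓ Efl (a s) (g s) i) -
              finrank K (Efl (a s) (g s) i)) ≤ 0 := by
  classical
  obtain ⟨lam, hinv, p, hp, q, hq, r, hr, hne⟩ :=
    (Star.hasInvariant_iff (starTP n _) (starTP n _) (starTP n _) (colv_hw (ha 0))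
      (colv_hw (ha 1)) (colv_hw (ha 2)) U V W).1 h
  obtain ⟨w₁, w₂, w₃, hw₁, hw₂, hw₃, hne'⟩ :=
    exists_words (lieSpan_rt hn) lam _ _ _ hp hq hr hne
  have hfr : ∀ (s : Fin 3) (w : List (soD n)),
      (fun p : (Σ x : Col (a s), Fin (ht (a s) x)) => gm w *ᵥ fr (a s) p) =
      fun p q => gm w q (idx (a s) p) := by
    intro s w
    funext p
    rw [fr, mulVec_single_one']
  refine ⟨PP (cf lam), ⟨![w₁, w₂, w₃], ?_, ?_⟩, ?_⟩
  · intro s
    fin_cases s
    · exact hw₁
    · exact hw₂
    · exact hw₃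
  · have h1 := aeval_PP (K := ℂ) (cf lam) (fun s => gm ((![w₁, w₂, w₃] : Fin 3 → List (soD n)) s))
    have h2 : MvPolynomial.eval (fun x : Fin 3 × (Fin n ⊕ Fin n) × (Fin n ⊕ Fin n) =>
          gm ((![w₁, w₂, w₃] : Fin 3 → List (soD n)) x.1) x.2.1 x.2.2) (PP (cf lam)) =
        FM lam (fun p q => gm ((![w₁, w₂, w₃] : Fin 3 → List (soD n)) p.1.1) q (ixp p)) := by
      rw [HM3.multilinear_expand]
      rw [HM2.FK_apply] at h1
      rw [MvPolynomial.aeval_eq_eval] at h1
      refine h1.trans (Finset.sum_congr rfl fun β _ => ?_)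
      rw [smul_eq_mul, mul_comm]
      rfl
    rw [h2, FM_apply, Fm]
    rw [colv, colv, colv, act_altT hw₁, act_altT hw₂, act_altT hw₃, hfr, hfr, hfr] at hne'
    exact hne'
  · intro K _ _ _ g hg S T hS hT
    rw [aeval_PP] at hg
    have key := HM2.hm_coeff (K := K) (hh a) (cf lam) (fun x i j hij β => cf_alt lam x i j hij β)
      (cf_inv hinv) _ hg S T hS hT
      (fun x => Efl (a x.1) (g x.1) x.2.1) (fun x => rfl)
    refine le_trans (le_of_eq ?_) key
    rw [Fintype.sum_sigma]
    refine Finset.sum_congr rfl fun s _ => ?_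
    rw [Fintype.sum_sigma]
    refine Finset.sum_congr rfl fun i _ => ?_
    change _ = ∑ _y : Fin (mult (a s) i), ((finrank K ↥(S ⊓ Efl (a s) (g s) i) : ℤ) +
      finrank K ↥(T ⊓ Efl (a s) (g s) i) - finrank K (Efl (a s) (g s) i))
    rw [Finset.sum_const, Finset.card_univ, Fintype.card_fin, nsmul_eq_mul, mult_eq (ha s)]

end Crest.Agent.R172.HM6
end

-- ▼ part R172/HM7

/-!
Row 172 (S0260), T5 final: the necessary inequalities for any dominant integral weights
(doubled coordinates) and any multiple `N ≥ 1`.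
-/

set_option autoImplicit false
set_option maxHeartbeats 400000

namespace Crest.Agent.R172.HM7

open Module Crest.AlgebraR.SpinSaturation
open Crest.Agent.R172 Crest.Agent.R172.TPow Crest.Agent.R172.HM4 Crest.Agent.R172.HM5 Crest.Agent.R172.Fwd
open Crest.Agent.R172.HM6

universe u

variable {n : ℕ}

theorem dom_of_integral {a : Fin n → ℤ} (ha : IsDominantIntegral n a) : Dom a := ⟨ha.2.1, ha.2.2⟩

theorem bb_smul (N : ℕ) (a : Fin n → ℤ) (i : ℕ) : bb (N • a) i = N * bb a i := by
  unfold bb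
  split_ifs with h1 h2
  · simp
  · simp [abs_mul]
  · simp

theorem neg_smul {N : ℕ} (hN : 1 ≤ N) (a : Fin n → ℤ) : HM4.Neg (N • a) ↔ HM4.Neg a := by
  unfold HM4.Neg
  refine exists_congr fun i => and_congr_right fun _ => ?_
  have : (0 : ℤ) < N := by exact_mod_cast hN
  rw [Pi.smul_apply, nsmul_eq_mul]
  constructor
  · intro h
    by_contra h'
    have := mul_nonneg this.le (not_lt.mp h')
    omega
  · intro h
    exact mul_neg_of_pos_of_neg this h

theorem ix_smul {N : ℕ} (hN : 1 ≤ N) (a : Fin n → ℤ) (i : Fin n) (j : Fin ((i : ℕ) + 1)) :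
    ix (N • a) i j = ix a i j := by
  unfold ix
  simp only [neg_smul hN]

theorem Efl_smul {K : Type*} [Field K] {N : ℕ} (hN : 1 ≤ N) (a : Fin n → ℤ)
    (g : Matrix (Fin n ⊕ Fin n) (Fin n ⊕ Fin n) K) (i : Fin n) :
    Efl (N • a) g i = Efl a g i := by
  unfold Efl
  simp only [ix_smul hN]

theorem dom_smul {N : ℕ} {a : Fin n → ℤ} (ha : Dom a) : Dom (N • a) := by
  have h0 : (0 : ℤ) ≤ N := by positivity
  refine ⟨fun i j h1 h2 => ?_, fun i j h1 h2 => ?_⟩
  · simp only [Pi.smul_apply, nsmul_eq_mul]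
    exact mul_le_mul_of_nonneg_left (ha.1 i j h1 h2) h0
  · simp only [Pi.smul_apply, nsmul_eq_mul, abs_mul]
    rw [abs_of_nonneg h0]
    exact mul_le_mul_of_nonneg_left (ha.2 i j h1 h2) h0

/-- the standard model of an integral weight -/
noncomputable def hwInt {a : Fin n → ℤ} (ha : Dom a) : HW n (fun i => 2 * a i) where
  V := TP n (Σ x : Col a, Fin (ht a x))
  fd := inferInstance
  star := starTP n _
  x := colv a
  hx := colv_hw ha

/-- an irreducible representation out of a model -/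
noncomputable def irr {a : Fin n → ℤ} (M : HW n a) : Irrep n a where
  V := Star.gen n M.x
  finiteDimensional := inferInstance
  irreducible := M.star.gen_irreducible M.hx
  highestWeight := ⟨_, Star.hw_gen M.hx⟩

/-- The necessary inequalities: `a` in doubled coordinates, for some multiple `N`. -/
theorem hm_final {N : ℕ} {a : Fin 3 → Fin n → ℤ} (hn : 2 ≤ n) (ha : ∀ s, Dom (a s)) (hN : 1 ≤ N)
    (X : HW n (N • a 0)) (Y : HW n (N • a 1)) (Z : HW n (N • a 2))
    (U : Irrep n (N • a 0)) (V : Irrep n (N • a 1)) (W : Irrep n (N • a 2))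
    (h : HasInvariant U V W) :
    ∃ P : MvPolynomial (Fin 3 × (Fin n ⊕ Fin n) × (Fin n ⊕ Fin n)) ℂ,
      (∃ w : Fin 3 → List (soD n), (∀ s, Wd (w s)) ∧
        MvPolynomial.eval (fun x : Fin 3 × (Fin n ⊕ Fin n) × (Fin n ⊕ Fin n) =>
          gm (w x.1) x.2.1 x.2.2) P ≠ 0) ∧
      ∀ (K : Type u) [Field K] [CharZero K] [Algebra ℂ K]
        (g : Fin 3 → Matrix (Fin n ⊕ Fin n) (Fin n ⊕ Fin n) K),
        MvPolynomial.aeval (fun x : Fin 3 × (Fin n ⊕ Fin n) × (Fin n ⊕ Fin n) =>
          g x.1 x.2.1 x.2.2) P ≠ 0 →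
        ∀ S T : Submodule K (Fin n ⊕ Fin n → K),
          (∀ x ∈ S, ∀ y ∈ S, HM2.form n K x y = 0) →
          (∀ v, v ∈ T ↔ ∀ s ∈ S, HM2.form n K v s = 0) →
          ∑ s, ∑ i : Fin n, (bb (a s) i - bb (a s) ((i : ℕ) + 1)) *
            ((finrank K ↥(S ⊓ Efl (a s) (g s) i) : ℤ) + finrank K ↥(T ⊓ Efl (a s) (g s) i) -
              finrank K (Efl (a s) (g s) i)) ≤ 0 := by
  have e2 : ∀ s, (fun i => 2 * (N • a s) i : Fin n → ℤ) = (1 + 1) • (N • a s) := by
    intro s
    funext i
    change 2 * (N • a s) i = (1 + 1) • ((N • a s) i)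
    rw [nsmul_eq_mul]
    norm_num
  have hd : ∀ s, Dom (N • a s) := fun s => dom_smul (ha s)
  have h2 : ∀ (A B C : Fin n → ℤ) (_ : A = (1 + 1) • (N • a 0)) (_ : B = (1 + 1) • (N • a 1))
      (_ : C = (1 + 1) • (N • a 2)) (U' : Irrep n A) (V' : Irrep n B)
      (W' : Irrep n C), HasInvariant U' V' W' := by
    rintro A B C rfl rfl rfl U' V' W'
    exact hasInvariant_mul hn X Y Z U V W h 1 U' V' W'
  obtain ⟨P, hP, hmain⟩ := hm_poly hn (a := fun s => N • a s) hd (irr (hwInt (hd 0)))
    (irr (hwInt (hd 1))) (irr (hwInt (hd 2))) (h2 _ _ _ (e2 0) (e2 1) (e2 2) _ _ _)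
  refine ⟨P, hP, ?_⟩
  intro K _ _ _ g hg S T hS hT
  have key := hmain K g hg S T hS hT
  have h0 : (0 : ℤ) < N := by exact_mod_cast hN
  refine nonpos_of_mul_nonpos_right (le_trans (le_of_eq ?_) key) h0
  rw [Finset.mul_sum]
  refine Finset.sum_congr rfl fun s _ => ?_
  rw [Finset.mul_sum]
  refine Finset.sum_congr rfl fun i _ => ?_
  rw [bb_smul, bb_smul, Efl_smul hN, ← mul_sub, mul_assoc]

end Crest.Agent.R172.HM7
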