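import Crest.Agent.R172.Cfg
import Crest.Agent.R172.Gen4
import Crest.Agent.R172.GenSO
import Crest.Agent.R172.StarDefs
import Crest.Agent.R172.SpHw
import Crest.Agent.R172.HM7
import Crest.Agent.R172.HM9
import Crest.Agent.R172.Core2
import Crest.Agent.R172.FO1

-- ▼ part R172/Pol
section

/-!
R172: polarisation of `U` (constant hyperbolic basis), the family of Lagrangian subspaces `L_H`, and the
polynomial linear system whose solutions are the elements of `(V ⊗ L_H) ∩ N(g)`.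
-/

set_option autoImplicit false
set_option linter.unusedSectionVars false

namespace Crest.Agent.R172.CF

open Matrix Crest.AlgebraR.SpinSaturation Crest.Agent.R172.SoGrade
open Crest.Agent.R172.Gen (Jm Ix emb Ent ent)

/-! ### Complex symmetric matrices -/



theorem Jm_transpose (m : ℕ) (K : Type*) [Field K] : (Jm m K)ᵀ = Jm m K := by
  simp [LieAlgebra.Orthogonal.JD, fromBlocks_transpose]

theorem Jm_sq (m : ℕ) (K : Type*) [Field K] : Jm m K * Jm m K = 1 := by
  simp [LieAlgebra.Orthogonal.JD, fromBlocks_multiply]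


variable {n : ℕ} {a : Fin 3 → Fin n → ℤ}

section formB

variable (c : Cfg n a) (K : Type*) [Field K]

theorem Cfg.B_transpose : (c.B K)ᵀ = c.B K := by
  ext d e
  rw [transpose_apply, Cfg.B, of_apply, of_apply]
  by_cases h : e = c.σ d
  · rw [if_pos h, if_pos (by rw [h, c.inv])]
  · rw [if_neg h, if_neg]
    intro h'
    exact h (by rw [h', c.inv])

theorem Cfg.B_sq : c.B K * c.B K = 1 := by
  ext d e
  rw [Matrix.mul_apply, Finset.sum_eq_single (c.σ d)]
  · rw [Cfg.B, of_apply, of_apply, if_pos rfl, c.inv, one_mul, Matrix.one_apply]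
    by_cases h : d = e
    · rw [if_pos h, if_pos h.symm]
    · rw [if_neg h, if_neg (fun h' => h h'.symm)]
  · intro x _ hx
    rw [Cfg.B, of_apply, if_neg hx, zero_mul]
  · intro h
    exact absurd (Finset.mem_univ _) h

theorem Cfg.B_map (L : Type*) [Field L] (f : K →+* L) : (c.B K).map f = c.B L := by
  ext d e
  rw [map_apply, Cfg.B, Cfg.B, of_apply, of_apply]
  split_ifs <;> simp

theorem Cfg.mulVec_B (v : c.δ → K) (d : c.δ) : (c.B K *ᵥ v) d = v (c.σ d) := by
  rw [mulVec, dotProduct, Finset.sum_eq_single (c.σ d)]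
  · rw [Cfg.B, of_apply, if_pos rfl, one_mul]
  · intro x _ hx
    rw [Cfg.B, of_apply, if_neg hx, zero_mul]
  · intro h
    exact absurd (Finset.mem_univ _) h

theorem Cfg.ub_eq (u v : c.δ → K) : c.ub u v = u ⬝ᵥ (c.B K *ᵥ v) := by
  rw [Cfg.ub, dotProduct]
  exact Finset.sum_congr rfl fun d _ => by rw [c.mulVec_B]


end formB

/-- A polarisation of `U`: a constant hyperbolic basis. -/
structure Pol (c : Cfg n a) where
  m : ℕ
  card : Fintype.card c.δ = 2 * m
  T : Matrix c.δ (Fin m ⊕ Fin m) ℂ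
  hT : Tᵀ * c.B ℂ * T = Jm m ℂ


namespace Pol

variable {c : Cfg n a} (p : Pol c) {K : Type} [Field K] [Algebra ℂ K]

variable (K) in
/-- the hyperbolic basis over `K` -/
noncomputable def TK : Matrix c.δ (Fin p.m ⊕ Fin p.m) K := p.T.map (algebraMap ℂ K)

variable (K) in
theorem hTK : (p.TK K)ᵀ * c.B K * p.TK K = Jm p.m K := by
  have h := congrArg (fun A : Matrix (Fin p.m ⊕ Fin p.m) (Fin p.m ⊕ Fin p.m) ℂ =>
    A.map (algebraMap ℂ K)) p.hT
  simp only [Matrix.map_mul, c.B_map] at h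
  have h2 : (Jm p.m ℂ).map (algebraMap ℂ K) = Jm p.m K := by
    simp only [LieAlgebra.Orthogonal.JD, fromBlocks_map]
    congr 1 <;> ext i j <;> by_cases h : i = j <;> simp [Matrix.one_apply, h]
  rw [h2] at h
  exact h

/-- the stacked matrix `(H, 1)` -/
def st {R : Type*} [CommRing R] (m : ℕ) (H : Matrix (Fin m) (Fin m) R) :
    Matrix (Fin m ⊕ Fin m) (Fin m) R :=
  Matrix.fromRows H (1 : Matrix (Fin m) (Fin m) R)

variable (K) in
/-- the projection `(0, 1)` -/
def pr (m : ℕ) : Matrix (Fin m) (Fin m ⊕ Fin m) K :=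
  Matrix.fromCols (0 : Matrix (Fin m) (Fin m) K) (1 : Matrix (Fin m) (Fin m) K)

theorem pr_st (m : ℕ) (H : Matrix (Fin m) (Fin m) K) : pr K m * st m H = 1 := by
  rw [pr, st, Matrix.fromCols_mul_fromRows, Matrix.zero_mul, Matrix.one_mul, zero_add]

theorem st_iso (m : ℕ) {H : Matrix (Fin m) (Fin m) K} (hH : Hᵀ = -H) :
    (st m H)ᵀ * Jm m K * st m H = 0 := by
  have h1 : Jm m K * st m H = Matrix.fromRows (1 : Matrix (Fin m) (Fin m) K) H := by
    rw [st]
    simp only [LieAlgebra.Orthogonal.JD]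
    rw [Matrix.fromBlocks_mul_fromRows]
    simp
  rw [Matrix.mul_assoc, h1, st, Matrix.transpose_fromRows, Matrix.fromCols_mul_fromRows, hH]
  simp

/-- the basis matrix of `L_H` -/
noncomputable def P (H : Matrix (Fin p.m) (Fin p.m) K) : Matrix c.δ (Fin p.m) K :=
  p.TK K * st p.m H

/-- the Lagrangian subspace `L_H` -/
noncomputable def LH (H : Matrix (Fin p.m) (Fin p.m) K) : Submodule K (c.δ → K) :=
  LinearMap.range (Matrix.toLin' (p.P H))

theorem mem_LH {H : Matrix (Fin p.m) (Fin p.m) K} {u : c.δ → K} :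
    u ∈ p.LH H ↔ ∃ x, p.P H *ᵥ x = u := by
  rw [LH, LinearMap.mem_range]
  rfl

variable (K) in
/-- the left inverse of `P` -/
noncomputable def Q : Matrix (Fin p.m) c.δ K := pr K p.m * (Jm p.m K * (p.TK K)ᵀ * c.B K)

/-- a left inverse of `P` -/
theorem left_inv (H : Matrix (Fin p.m) (Fin p.m) K) : p.Q K * p.P H = 1 := by
  rw [P, Q]
  have h1 : pr K p.m * (Jm p.m K * (p.TK K)ᵀ * c.B K) * (p.TK K * st p.m H)
      = pr K p.m * (Jm p.m K * ((p.TK K)ᵀ * c.B K * p.TK K)) * st p.m H := by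
    simp only [Matrix.mul_assoc]
  rw [h1, p.hTK, Jm_sq, Matrix.mul_one, pr_st]

theorem P_injective (H : Matrix (Fin p.m) (Fin p.m) K) :
    Function.Injective (Matrix.toLin' (p.P H)) := by
  intro x y h
  have h1 : p.P H *ᵥ x = p.P H *ᵥ y := h
  have h2 := congrArg (fun z => p.Q K *ᵥ z) h1
  simp only [Matrix.mulVec_mulVec] at h2
  rw [p.left_inv H, one_mulVec, one_mulVec] at h2
  exact h2

theorem finrank_LH (H : Matrix (Fin p.m) (Fin p.m) K) :
    2 * Module.finrank K (p.LH H) = Fintype.card c.δ := by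
  rw [p.card, LH, LinearMap.finrank_range_of_inj (p.P_injective H),
    Module.finrank_fintype_fun_eq_card, Fintype.card_fin]

theorem P_iso {H : Matrix (Fin p.m) (Fin p.m) K} (hH : Hᵀ = -H) :
    (p.P H)ᵀ * c.B K * p.P H = 0 := by
  rw [P, transpose_mul]
  have h1 : (st p.m H)ᵀ * (p.TK K)ᵀ * c.B K * (p.TK K * st p.m H)
      = (st p.m H)ᵀ * ((p.TK K)ᵀ * c.B K * p.TK K) * st p.m H := by
    simp only [Matrix.mul_assoc]
  rw [h1, p.hTK, st_iso p.m hH]

theorem LH_iso {H : Matrix (Fin p.m) (Fin p.m) K} (hH : Hᵀ = -H) :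
    ∀ u ∈ p.LH H, ∀ v ∈ p.LH H, c.ub u v = 0 := by
  intro u hu v hv
  obtain ⟨x, rfl⟩ := p.mem_LH.1 hu
  obtain ⟨y, rfl⟩ := p.mem_LH.1 hv
  have h1 : (p.P H *ᵥ x) ⬝ᵥ (c.B K *ᵥ (p.P H *ᵥ y)) =
      x ⬝ᵥ (((p.P H)ᵀ * c.B K * p.P H) *ᵥ y) := by
    rw [← mulVec_mulVec, ← mulVec_mulVec, dotProduct_comm, dotProduct_mulVec, ← mulVec_transpose,
      dotProduct_comm]
  rw [c.ub_eq, h1, p.P_iso hH, zero_mulVec, dotProduct_zero]

/-! ### The elements of `V ⊗ L_H` -/

theorem mem_VL_iff {H : Matrix (Fin p.m) (Fin p.m) K} {F : Matrix (Ix n) c.δ K} :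
    F ∈ VL (p.LH H) ↔ ∃ R : Matrix (Ix n) (Fin p.m) K, F = R * (p.P H)ᵀ := by
  constructor
  · intro h
    have h1 : ∀ q, ∃ x : Fin p.m → K, p.P H *ᵥ x = fun d => F q d := fun q => p.mem_LH.1 (h q)
    choose R hR using h1
    refine ⟨Matrix.of R, ?_⟩
    ext q d
    rw [← congrFun (hR q) d, Matrix.mul_apply, mulVec, dotProduct]
    exact Finset.sum_congr rfl fun i _ => mul_comm _ _
  · rintro ⟨R, rfl⟩ q
    refine p.mem_LH.2 ⟨R q, ?_⟩
    funext d
    rw [Matrix.mul_apply, mulVec, dotProduct]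
    exact Finset.sum_congr rfl fun i _ => mul_comm _ _

/-- the positions where the elements of the standard Lagrangian vanish -/
def Zer (c : Cfg n a) : Ix n → c.δ → Prop
  | Sum.inl i, d => ¬ c.A i d
  | Sum.inr i, d => c.A i (c.σ d)

instance (q : Ix n) (d : c.δ) : Decidable (Zer c q d) := by
  rcases q with i | i
  · exact inferInstanceAs (Decidable (¬ c.A i d))
  · exact inferInstanceAs (Decidable (c.A i (c.σ d)))

theorem mem_nstd_iff {F : Matrix (Ix n) c.δ K} :
    F ∈ c.nstd K ↔ ∀ q d, Zer c q d → F q d = 0 := by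
  rw [c.mem_nstd]
  constructor
  · intro h q d hq
    rcases q with i | i
    · exact (h i d).1 hq
    · exact (h i d).2 hq
  · intro h i d
    exact ⟨fun hq => h (Sum.inl i) d hq, fun hq => h (Sum.inr i) d hq⟩

theorem mem_N_iff {g : Fin 3 → Matrix (Ix n) (Ix n) K}
    (hg : ∀ s, (g s)ᵀ * Jm n K * g s = Jm n K) {F : Matrix (Ix n) c.δ K} :
    F ∈ c.N g ↔ ∀ q d, Zer c q d → ((Jm n K * (g (c.arm d))ᵀ * Jm n K) * F) q d = 0 := by
  rw [c.mem_N]
  constructor
  · rintro ⟨G, hG, rfl⟩ q d hz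
    have h1 := mem_nstd_iff.1 hG q d hz
    rw [← h1, ← act_apply c.arm (fun s => Jm n K * (g s)ᵀ * Jm n K), act_act,
      act_one c.arm (fun s => Gen.orth_left_inv (hg s))]
  · intro h
    refine ⟨FO.act c.arm (fun s => Jm n K * (g s)ᵀ * Jm n K) F, ?_, ?_⟩
    · rw [mem_nstd_iff]
      intro q d hz
      rw [act_apply]
      exact h q d hz
    · rw [act_act]
      exact act_one c.arm (fun s => Gen.orth_right_inv (hg s)) F

/-! ### The polynomial system -/

/-- the ring of polynomials in the entries -/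
abbrev PR (n m : ℕ) : Type := MvPolynomial (Ent n (Fin m)) ℂ

/-- the generic matrices `g_s` -/
noncomputable def gX (m : ℕ) (s : Fin 3) : Matrix (Ix n) (Ix n) (PR n m) :=
  Matrix.of fun i j => MvPolynomial.X (Sum.inl (s, i, j))

/-- the generic matrix `H` -/
noncomputable def HX (n m : ℕ) : Matrix (Fin m) (Fin m) (PR n m) :=
  Matrix.of fun i j => MvPolynomial.X (Sum.inr (i, j))

/-- the generic inverse -/
noncomputable def gi (m : ℕ) (s : Fin 3) : Matrix (Ix n) (Ix n) (PR n m) :=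
  Jm n (PR n m) * (gX m s)ᵀ * Jm n (PR n m)

/-- the generic basis matrix -/
noncomputable def PX : Matrix c.δ (Fin p.m) (PR n p.m) :=
  (p.T.map (MvPolynomial.C : ℂ →+* PR n p.m)) * st p.m (HX n p.m)

/-- The system of equations for `R`. -/
noncomputable def Lam : Matrix (Ix n × c.δ) (Ix n × Fin p.m) (PR n p.m) :=
  Matrix.of fun x y => if Zer c x.1 x.2 then gi p.m (c.arm x.2) x.1 y.1 * p.PX x.2 y.2 else 0

/-- the inverse of an orthogonal matrix -/
def go (g : Matrix (Ix n) (Ix n) K) : Matrix (Ix n) (Ix n) K := Jm n K * gᵀ * Jm n K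

theorem Jm_map {R S : Type*} [CommRing R] [CommRing S] (f : R →+* S) :
    (Jm n R).map f = Jm n S := by
  simp only [LieAlgebra.Orthogonal.JD, fromBlocks_map]
  congr 1 <;> ext i j <;> by_cases h : i = j <;> simp [Matrix.one_apply, h]

theorem gi_map (m : ℕ) (g : Fin 3 → Matrix (Ix n) (Ix n) K) (H : Matrix (Fin m) (Fin m) K)
    (s : Fin 3) (i j : Ix n) :
    MvPolynomial.aeval (ent g H) (gi m s i j) = go (g s) i j := by
  let φ : PR n m →+* K := (MvPolynomial.aeval (ent g H) : PR n m →ₐ[ℂ] K).toRingHom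
  have h0 : (gi m s).map φ = go (g s) := by
    rw [gi, go, Matrix.map_mul, Matrix.map_mul, Jm_map]
    have h1 : (gX m s)ᵀ.map φ = (g s)ᵀ := by
      ext i j
      simp [φ, ent, gX]
    rw [h1]
  rw [← h0]
  rfl

theorem PX_map (g : Fin 3 → Matrix (Ix n) (Ix n) K) (H : Matrix (Fin p.m) (Fin p.m) K)
    (d : c.δ) (i : Fin p.m) :
    MvPolynomial.aeval (ent g H) (p.PX d i) = p.P H d i := by
  let φ : PR n p.m →+* K := (MvPolynomial.aeval (ent g H) : PR n p.m →ₐ[ℂ] K).toRingHom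
  have h0 : p.PX.map φ = p.P H := by
    rw [PX, P, TK, Matrix.map_mul]
    have h1 : (p.T.map (MvPolynomial.C : ℂ →+* PR n p.m)).map φ = p.T.map (algebraMap ℂ K) := by
      ext i j
      simp [φ]
    have h2 : (st p.m (HX n p.m)).map φ = st p.m H := by
      ext i j
      rcases i with i | i
      · simp [φ, ent, HX, st]
      · by_cases h : i = j <;> simp [φ, h, st]
    rw [h1, h2]
  rw [← h0]
  rfl

theorem Lam_map (g : Fin 3 → Matrix (Ix n) (Ix n) K) (H : Matrix (Fin p.m) (Fin p.m) K)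
    (x : Ix n × c.δ) (y : Ix n × Fin p.m) :
    p.Lam.map (MvPolynomial.aeval (ent g H)) x y =
      if Zer c x.1 x.2 then go (g (c.arm x.2)) x.1 y.1 * p.P H x.2 y.2 else 0 := by
  rw [map_apply, Lam, of_apply]
  split_ifs with hz
  · rw [map_mul, gi_map, p.PX_map]
  · exact map_zero _

/-- the kernel of the system is `(V ⊗ L_H) ∩ N(g)` -/
theorem Lam_ker {g : Fin 3 → Matrix (Ix n) (Ix n) K} (hg : ∀ s, (g s)ᵀ * Jm n K * g s = Jm n K)
    (H : Matrix (Fin p.m) (Fin p.m) K) (R : Matrix (Ix n) (Fin p.m) K) :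
    (p.Lam.map (MvPolynomial.aeval (ent g H))) *ᵥ (fun y => R y.1 y.2) = 0 ↔
      R * (p.P H)ᵀ ∈ c.N g := by
  rw [mem_N_iff hg]
  have key : ∀ q d, (go (g (c.arm d)) * (R * (p.P H)ᵀ)) q d =
      ∑ y : Ix n × Fin p.m, go (g (c.arm d)) q y.1 * p.P H d y.2 * R y.1 y.2 := by
    intro q d
    rw [Matrix.mul_apply, Fintype.sum_prod_type]
    refine Finset.sum_congr rfl fun r _ => ?_
    rw [Matrix.mul_apply, Finset.mul_sum]
    refine Finset.sum_congr rfl fun i _ => ?_
    rw [transpose_apply]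
    ring
  constructor
  · intro h q d hz
    have h1 := congrFun h (q, d)
    refine (key q d).trans ?_
    rw [mulVec, dotProduct] at h1
    simp only [Lam_map, if_pos hz] at h1
    exact h1
  · intro h
    funext z
    rw [mulVec, dotProduct]
    simp only [Lam_map]
    by_cases hz : Zer c z.1 z.2
    · simp only [if_pos hz]
      rw [← key z.1 z.2]
      exact h _ _ hz
    · simp only [if_neg hz, zero_mul, Finset.sum_const_zero]
      rfl

/-- trivial kernel is equivalent to transversality -/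
theorem Lam_trivial {g : Fin 3 → Matrix (Ix n) (Ix n) K}
    (hg : ∀ s, (g s)ᵀ * Jm n K * g s = Jm n K) (H : Matrix (Fin p.m) (Fin p.m) K) :
    (∀ x : Ix n × Fin p.m → K, (p.Lam.map (MvPolynomial.aeval (ent g H))) *ᵥ x = 0 → x = 0) ↔
      ∀ F ∈ VL (p.LH H), F ∈ c.N g → F = 0 := by
  constructor
  · intro h F hF hN
    obtain ⟨R, rfl⟩ := p.mem_VL_iff.1 hF
    have h1 := h (fun y => R y.1 y.2) ((p.Lam_ker hg H R).2 hN)
    have h2 : R = 0 := by
      ext q i
      exact congrFun h1 (q, i)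
    rw [h2, Matrix.zero_mul]
  · intro h x hx
    let R : Matrix (Ix n) (Fin p.m) K := Matrix.of fun q i => x (q, i)
    have h1 : R * (p.P H)ᵀ = 0 := h _ (p.mem_VL_iff.2 ⟨R, rfl⟩) ((p.Lam_ker hg H R).1 hx)
    have h2 : (R * (p.P H)ᵀ) * (p.Q K)ᵀ = 0 := by
      rw [h1, Matrix.zero_mul]
    rw [Matrix.mul_assoc, ← transpose_mul, p.left_inv, transpose_one, Matrix.mul_one] at h2
    funext y
    exact congrFun (congrFun h2 y.1) y.2

end Pol

end Crest.Agent.R172.CF
end

-- ▼ part R172/GmSO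
section

/-!
R172: the matrix `gm w` of a word of root vectors is in `SO(V)`.
-/

set_option autoImplicit false

namespace Crest.Agent.R172.GmSO

open Matrix Crest.AlgebraR.SpinSaturation Crest.Agent.R172.Fwd Crest.Agent.R172.SoGrade

variable {n : ℕ}

/-- exponential of a nilpotent matrix in `so(V)` is in `SO(V)` -/
theorem exp_so {ι : Type} [Fintype ι] [DecidableEq ι] {A J : Matrix ι ι ℂ} (hA : IsNilpotent A)
    (h : Aᵀ * J = -(J * A)) :
    (IsNilpotent.exp A)ᵀ * J * IsNilpotent.exp A = J ∧ (IsNilpotent.exp A).det = 1 := by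
  constructor
  · obtain ⟨m, hm⟩ := hA
    have h1 : ∀ k : ℕ, (A ^ k)ᵀ * J = J * (-A) ^ k := by
      intro k
      induction k with
      | zero => simp
      | succ k ih =>
        rw [pow_succ, transpose_mul, Matrix.mul_assoc, ih, ← Matrix.mul_assoc, h, pow_succ',
          ← Matrix.mul_assoc, Matrix.mul_neg]
    have h2 : (IsNilpotent.exp A)ᵀ * J = J * IsNilpotent.exp (-A) := by
      have hm' : (-A) ^ m = 0 := by rw [neg_pow, hm, mul_zero]
      rw [IsNilpotent.exp_eq_sum hm, IsNilpotent.exp_eq_sum hm', transpose_sum, Matrix.sum_mul,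
        Matrix.mul_sum]
      refine Finset.sum_congr rfl fun k _ => ?_
      rw [transpose_smul, Matrix.smul_mul, h1 k, Matrix.mul_smul]
    rw [h2, Matrix.mul_assoc, IsNilpotent.exp_neg_mul_exp_self ⟨m, hm⟩, Matrix.mul_one]
  · have h1 := (IsNilpotent.isNilpotent_exp_sub_one hA).neg
    have h2 := Matrix.isNilpotent_charpoly_sub_pow_of_isNilpotent h1
    have h3 := sub_eq_zero.1 h2.eq_zero
    have h4 := congrArg (Polynomial.eval 1) h3
    rw [Matrix.eval_charpoly, Polynomial.eval_pow, Polynomial.eval_X, one_pow] at h4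
    rw [← h4]
    congr 1
    simp

theorem toEnd_pow (z : soD n) (k : ℕ) (v : Fin n ⊕ Fin n → ℂ) :
    (((LieModule.toEnd ℂ (soD n) (SV n) z) ^ k) (v : SV n) : SV n) = (z.1 ^ k).mulVec v := by
  induction k generalizing v with
  | zero =>
    have h : (1 : Matrix (Fin n ⊕ Fin n) (Fin n ⊕ Fin n) ℂ).mulVec v = v := Matrix.one_mulVec v
    rw [pow_zero, pow_zero]
    exact h.symm
  | succ k ih =>
    rw [pow_succ]
    have h1 : (LieModule.toEnd ℂ (soD n) (SV n) z) (v : SV n) =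
        (z.1.mulVec v : Fin n ⊕ Fin n → ℂ) := rfl
    refine (Module.End.mul_apply _ _ _).trans ?_
    refine (congrArg _ h1).trans ?_
    refine (ih (z.1.mulVec v)).trans ?_
    rw [pow_succ]
    exact Matrix.mulVec_mulVec _ _ _

theorem gm_single {z : soD n} (hz : Rt z) :
    IsNilpotent z.1 ∧ gm [z] = IsNilpotent.exp z.1 := by
  obtain ⟨m, hm⟩ := hz.nilpotent (M := SV n)
  have hm' : z.1 ^ m = 0 := by
    apply Matrix.toLin'.injective
    apply LinearMap.ext
    intro v
    rw [Matrix.toLin'_apply, map_zero, LinearMap.zero_apply]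
    exact (toEnd_pow z m v).symm.trans (by rw [hm]; rfl)
  refine ⟨⟨m, hm'⟩, ?_⟩
  apply Matrix.toLin'.injective
  apply LinearMap.ext
  intro v
  rw [Matrix.toLin'_apply, Matrix.toLin'_apply, gm_mulVec, act_cons, act_nil, mul_one,
    ex_eq_sum hm, IsNilpotent.exp_eq_sum hm']
  have h1 : (∑ k ∈ Finset.range m, ((k.factorial : ℂ)⁻¹) •
      (LieModule.toEnd ℂ (soD n) (SV n) z) ^ k) (v : SV n) =
      ∑ k ∈ Finset.range m, (((k.factorial : ℂ)⁻¹) •
        ((z.1 ^ k).mulVec v : Fin n ⊕ Fin n → ℂ) : Fin n ⊕ Fin n → ℂ) := by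
    refine (LinearMap.sum_apply _ _ _).trans ?_
    refine Finset.sum_congr rfl fun k _ => ?_
    refine (LinearMap.smul_apply _ _ _).trans ?_
    exact congrArg (fun x : SV n => ((k.factorial : ℂ)⁻¹) • x) (toEnd_pow z k v)
  refine h1.trans ?_
  rw [Matrix.sum_mulVec]
  refine Finset.sum_congr rfl fun k _ => ?_
  rw [← Matrix.smul_mulVec]
  congr 1
  ext a b
  simp [Rat.smul_def]

theorem gm_orth {w : List (soD n)} (hw : Wd w) :
    (gm w)ᵀ * LieAlgebra.Orthogonal.JD (Fin n) ℂ * gm w = LieAlgebra.Orthogonal.JD (Fin n) ℂ ∧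
      (gm w).det = 1 := by
  induction w with
  | nil => rw [GenSO.gm_nil]; simp
  | cons z w ih =>
    obtain ⟨h1, h2⟩ := ih (fun z hz => hw z (by simp [hz]))
    have hz : Rt z := hw z (by simp)
    obtain ⟨h3, h4⟩ := gm_single hz
    have h5 : z.1ᵀ * LieAlgebra.Orthogonal.JD (Fin n) ℂ =
        -(LieAlgebra.Orthogonal.JD (Fin n) ℂ * z.1) := by
      have h := z.2
      unfold LieAlgebra.Orthogonal.typeD at h
      rw [mem_skewAdjointMatricesLieSubalgebra, mem_skewAdjointMatricesSubmodule] at h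
      unfold Matrix.IsSkewAdjoint Matrix.IsAdjointPair at h
      rw [h, Matrix.mul_neg]
    obtain ⟨h6, h7⟩ := exp_so h3 h5
    rw [← h4] at h6 h7
    have h8 : gm (z :: w) = gm [z] * gm w := GenSO.gm_append [z] w
    rw [h8]
    refine ⟨?_, by rw [Matrix.det_mul, h7, h2, one_mul]⟩
    rw [transpose_mul]
    calc (gm w)ᵀ * (gm [z])ᵀ * LieAlgebra.Orthogonal.JD (Fin n) ℂ * (gm [z] * gm w)
        = (gm w)ᵀ * ((gm [z])ᵀ * LieAlgebra.Orthogonal.JD (Fin n) ℂ * gm [z]) * gm w := by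
          simp only [Matrix.mul_assoc]
      _ = LieAlgebra.Orthogonal.JD (Fin n) ℂ := by rw [h6, h1]

end Crest.Agent.R172.GmSO
end

-- ▼ part R172/SpTri
section

/-!
R172, spinor translation, part 6: products of Fock modules.
-/

set_option autoImplicit false
set_option linter.unusedSectionVars false

namespace Crest.Agent.R172.Sp

open Matrix Kronecker Crest.AlgebraR.SpinSaturation Crest.Agent.R172.SoGrade
open Crest.Agent.R172.Star Crest.Agent.R172.Fwd
open scoped TensorProduct ComplexConjugate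

variable {n : ℕ} {D₁ D₂ : Type}

/-- the involution on a disjoint sum -/
def Inv.sum (s₁ : Inv D₁) (s₂ : Inv D₂) : Inv (D₁ ⊕ D₂) where
  σ := Sum.map s₁.σ s₂.σ
  inv := by rintro (d | d) <;> simp [s₁.inv, s₂.inv]

@[simp] theorem Inv.sum_inl (s₁ : Inv D₁) (s₂ : Inv D₂) (d : D₁) :
    (s₁.sum s₂).σ (Sum.inl d) = Sum.inl (s₁.σ d) := rfl
@[simp] theorem Inv.sum_inr (s₁ : Inv D₁) (s₂ : Inv D₂) (d : D₂) :
    (s₁.sum s₂).σ (Sum.inr d) = Sum.inr (s₂.σ d) := rfl

/-- the product Fock space -/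
def prodCAR (C₁ : CAR (Fin n × D₁)) (C₂ : CAR (Fin n × D₂)) : CAR (Fin n × (D₁ ⊕ D₂)) :=
  (C₁.sum C₂).map (Equiv.prodSumDistrib (Fin n) D₁ D₂).symm

variable (C₁ : CAR (Fin n × D₁)) (C₂ : CAR (Fin n × D₂)) (s₁ : Inv D₁) (s₂ : Inv D₂)

theorem gam_inl (p : VI n) (d : D₁) :
    gam (prodCAR C₁ C₂) (s₁.sum s₂) p (Sum.inl d) =
      (gam C₁ s₁ p d ⊗ₖ (1 : Matrix C₂.ι C₂.ι ℂ) : Matrix (C₁.ι × C₂.ι) (C₁.ι × C₂.ι) ℂ) := by
  rcases p with i | i
  · change (C₁.c (i, d) ⊗ₖ (1 : Matrix C₂.ι C₂.ι ℂ))ᴴ = _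
    rw [Matrix.conjTranspose_kronecker, Matrix.conjTranspose_one]
    rfl
  · rfl

theorem gam_inr (p : VI n) (d : D₂) :
    gam (prodCAR C₁ C₂) (s₁.sum s₂) p (Sum.inr d) =
      (C₁.Z ⊗ₖ gam C₂ s₂ p d : Matrix (C₁.ι × C₂.ι) (C₁.ι × C₂.ι) ℂ) := by
  rcases p with i | i
  · change (C₁.Z ⊗ₖ C₂.c (i, d))ᴴ = _
    rw [Matrix.conjTranspose_kronecker, C₁.ZH]
    rfl
  · rfl

variable [Fintype D₁] [Fintype D₂]

theorem rho_prod (X : Matrix (VI n) (VI n) ℂ) :
    rho (prodCAR C₁ C₂) (s₁.sum s₂) X =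
      (rho C₁ s₁ X ⊗ₖ (1 : Matrix C₂.ι C₂.ι ℂ) + (1 : Matrix C₁.ι C₁.ι ℂ) ⊗ₖ rho C₂ s₂ X :
        Matrix (C₁.ι × C₂.ι) (C₁.ι × C₂.ι) ℂ) := by
  have h1 : ∀ (d : D₁) (p q : VI n),
      gam (prodCAR C₁ C₂) (s₁.sum s₂) q (Sum.inl d) *
        gam (prodCAR C₁ C₂) (s₁.sum s₂) (sw p) ((s₁.sum s₂).σ (Sum.inl d)) =
      ((gam C₁ s₁ q d * gam C₁ s₁ (sw p) (s₁.σ d)) ⊗ₖ (1 : Matrix C₂.ι C₂.ι ℂ) :
        Matrix (C₁.ι × C₂.ι) (C₁.ι × C₂.ι) ℂ) := by
    intro d p q
    rw [Inv.sum_inl, gam_inl, gam_inl]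
    refine (Matrix.mul_kronecker_mul (gam C₁ s₁ q d) (gam C₁ s₁ (sw p) (s₁.σ d))
      (1 : Matrix C₂.ι C₂.ι ℂ) 1).symm.trans ?_
    rw [mul_one]
  have h2 : ∀ (d : D₂) (p q : VI n),
      gam (prodCAR C₁ C₂) (s₁.sum s₂) q (Sum.inr d) *
        gam (prodCAR C₁ C₂) (s₁.sum s₂) (sw p) ((s₁.sum s₂).σ (Sum.inr d)) =
      ((1 : Matrix C₁.ι C₁.ι ℂ) ⊗ₖ (gam C₂ s₂ q d * gam C₂ s₂ (sw p) (s₂.σ d)) :
        Matrix (C₁.ι × C₂.ι) (C₁.ι × C₂.ι) ℂ) := by
    intro d p q
    rw [Inv.sum_inr, gam_inr, gam_inr]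
    refine (Matrix.mul_kronecker_mul C₁.Z C₁.Z (gam C₂ s₂ q d)
      (gam C₂ s₂ (sw p) (s₂.σ d))).symm.trans ?_
    rw [C₁.ZZ]
  have k1 : ∀ (t : ℂ) (A : Matrix C₁.ι C₁.ι ℂ),
      t • (A ⊗ₖ (1 : Matrix C₂.ι C₂.ι ℂ)) = (t • A) ⊗ₖ (1 : Matrix C₂.ι C₂.ι ℂ) := by
    intro t A; rw [Matrix.smul_kronecker]
  have k2 : ∀ (t : ℂ) (A : Matrix C₂.ι C₂.ι ℂ),
      t • ((1 : Matrix C₁.ι C₁.ι ℂ) ⊗ₖ A) = (1 : Matrix C₁.ι C₁.ι ℂ) ⊗ₖ (t • A) := by
    intro t A; rw [Matrix.kronecker_smul]
  have s1 : ∀ {κ : Type} (S : Finset κ) (f : κ → Matrix C₁.ι C₁.ι ℂ),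
      ∑ k ∈ S, (f k ⊗ₖ (1 : Matrix C₂.ι C₂.ι ℂ)) = (∑ k ∈ S, f k) ⊗ₖ (1 : Matrix C₂.ι C₂.ι ℂ) := by
    intro κ S f
    classical
    induction S using Finset.induction_on with
    | empty => simp
    | insert a S ha ih => rw [Finset.sum_insert ha, Finset.sum_insert ha, ih, Matrix.add_kronecker]
  have s2 : ∀ {κ : Type} (S : Finset κ) (f : κ → Matrix C₂.ι C₂.ι ℂ),
      ∑ k ∈ S, ((1 : Matrix C₁.ι C₁.ι ℂ) ⊗ₖ f k) = (1 : Matrix C₁.ι C₁.ι ℂ) ⊗ₖ (∑ k ∈ S, f k) := by
    intro κ S f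
    classical
    induction S using Finset.induction_on with
    | empty => simp
    | insert a S ha ih => rw [Finset.sum_insert ha, Finset.sum_insert ha, ih, Matrix.kronecker_add]
  rw [rho, rho, rho, Fintype.sum_sum_type, smul_add]
  simp only [h1, h2]
  have e1 : ∑ d : D₁, ∑ p : VI n, ∑ q : VI n, X q p •
      ((gam C₁ s₁ q d * gam C₁ s₁ (sw p) (s₁.σ d)) ⊗ₖ (1 : Matrix C₂.ι C₂.ι ℂ)) =
      (∑ d : D₁, ∑ p : VI n, ∑ q : VI n, X q p •
      (gam C₁ s₁ q d * gam C₁ s₁ (sw p) (s₁.σ d))) ⊗ₖ (1 : Matrix C₂.ι C₂.ι ℂ) := by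
    simp only [k1, s1]
  have e2 : ∑ d : D₂, ∑ p : VI n, ∑ q : VI n, X q p •
      ((1 : Matrix C₁.ι C₁.ι ℂ) ⊗ₖ (gam C₂ s₂ q d * gam C₂ s₂ (sw p) (s₂.σ d))) =
      (1 : Matrix C₁.ι C₁.ι ℂ) ⊗ₖ (∑ d : D₂, ∑ p : VI n, ∑ q : VI n, X q p •
      (gam C₂ s₂ q d * gam C₂ s₂ (sw p) (s₂.σ d))) := by
    simp only [k2, s2]
  rw [← k1, ← k2]
  exact congrArg₂ (fun x y => (1 / 2 : ℂ) • x + (1 / 2 : ℂ) • y) e1 e2

/-- restriction of `F` to the first block of columns -/
def resL (F : Matrix (VI n) (D₁ ⊕ D₂) ℂ) : Matrix (VI n) D₁ ℂ := fun p d => F p (Sum.inl d)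
/-- restriction of `F` to the second block of columns -/
def resR (F : Matrix (VI n) (D₁ ⊕ D₂) ℂ) : Matrix (VI n) D₂ ℂ := fun p d => F p (Sum.inr d)

theorem Gam_prod (F : Matrix (VI n) (D₁ ⊕ D₂) ℂ) :
    Gam (prodCAR C₁ C₂) (s₁.sum s₂) F =
      (Gam C₁ s₁ (resL F) ⊗ₖ (1 : Matrix C₂.ι C₂.ι ℂ) + C₁.Z ⊗ₖ Gam C₂ s₂ (resR F) :
        Matrix (C₁.ι × C₂.ι) (C₁.ι × C₂.ι) ℂ) := by
  have s1 : ∀ {κ : Type} (S : Finset κ) (f : κ → Matrix C₁.ι C₁.ι ℂ),
      ∑ k ∈ S, (f k ⊗ₖ (1 : Matrix C₂.ι C₂.ι ℂ)) = (∑ k ∈ S, f k) ⊗ₖ (1 : Matrix C₂.ι C₂.ι ℂ) := by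
    intro κ S f
    classical
    induction S using Finset.induction_on with
    | empty => simp
    | insert a S ha ih => rw [Finset.sum_insert ha, Finset.sum_insert ha, ih, Matrix.add_kronecker]
  have s2 : ∀ {κ : Type} (S : Finset κ) (f : κ → Matrix C₂.ι C₂.ι ℂ),
      ∑ k ∈ S, (C₁.Z ⊗ₖ f k) = C₁.Z ⊗ₖ (∑ k ∈ S, f k) := by
    intro κ S f
    classical
    induction S using Finset.induction_on with
    | empty => simp
    | insert a S ha ih => rw [Finset.sum_insert ha, Finset.sum_insert ha, ih, Matrix.kronecker_add]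
  have e0 : ∀ p : VI n, ∑ d : D₁ ⊕ D₂, F p d • gam (prodCAR C₁ C₂) (s₁.sum s₂) p d =
      ∑ d : D₁, F p (Sum.inl d) • gam (prodCAR C₁ C₂) (s₁.sum s₂) p (Sum.inl d) +
      ∑ d : D₂, F p (Sum.inr d) • gam (prodCAR C₁ C₂) (s₁.sum s₂) p (Sum.inr d) :=
    fun p => Fintype.sum_sum_type _
  rw [Gam, Gam, Gam, Finset.sum_congr rfl (fun p _ => e0 p), Finset.sum_add_distrib]
  simp only [gam_inl, gam_inr]
  have e1 : ∀ (p : VI n) (d : D₁), F p (Sum.inl d) • (gam C₁ s₁ p d ⊗ₖ (1 : Matrix C₂.ι C₂.ι ℂ)) =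
      (resL F p d • gam C₁ s₁ p d) ⊗ₖ (1 : Matrix C₂.ι C₂.ι ℂ) := by
    intro p d; rw [Matrix.smul_kronecker]; rfl
  have e2 : ∀ (p : VI n) (d : D₂), F p (Sum.inr d) • (C₁.Z ⊗ₖ gam C₂ s₂ p d) =
      C₁.Z ⊗ₖ (resR F p d • gam C₂ s₂ p d) := by
    intro p d; rw [Matrix.kronecker_smul]; rfl
  have e3 : ∑ p : VI n, ∑ d : D₁, F p (Sum.inl d) • (gam C₁ s₁ p d ⊗ₖ (1 : Matrix C₂.ι C₂.ι ℂ)) =
      (∑ p : VI n, ∑ d : D₁, resL F p d • gam C₁ s₁ p d) ⊗ₖ (1 : Matrix C₂.ι C₂.ι ℂ) := by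
    simp only [e1, s1]
  have e4 : ∑ p : VI n, ∑ d : D₂, F p (Sum.inr d) • (C₁.Z ⊗ₖ gam C₂ s₂ p d) =
      C₁.Z ⊗ₖ (∑ p : VI n, ∑ d : D₂, resR F p d • gam C₂ s₂ p d) := by
    simp only [e2, s2]
  exact congrArg₂ (fun x y => x + y) e3 e4

/-- product of vectors -/
def vprod {α β : Type} (x : α → ℂ) (y : β → ℂ) : α × β → ℂ := fun p => x p.1 * y p.2

theorem Gam_vprod (F : Matrix (VI n) (D₁ ⊕ D₂) ℂ) (x : C₁.ι → ℂ) (y : C₂.ι → ℂ) :
    Gam (prodCAR C₁ C₂) (s₁.sum s₂) F *ᵥ (vprod x y : (prodCAR C₁ C₂).ι → ℂ) =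
      (vprod (Gam C₁ s₁ (resL F) *ᵥ x) y + vprod (C₁.Z *ᵥ x) (Gam C₂ s₂ (resR F) *ᵥ y) :
        C₁.ι × C₂.ι → ℂ) := by
  rw [Gam_prod]
  change (_ + _ : Matrix (C₁.ι × C₂.ι) (C₁.ι × C₂.ι) ℂ) *ᵥ (vprod x y : C₁.ι × C₂.ι → ℂ) = _
  rw [Matrix.add_mulVec]
  unfold vprod
  rw [CAR.kron_mulVec_prod, CAR.kron_mulVec_prod, Matrix.one_mulVec]

theorem rho_vprod (X : Matrix (VI n) (VI n) ℂ) (x : C₁.ι → ℂ) (y : C₂.ι → ℂ) :
    rho (prodCAR C₁ C₂) (s₁.sum s₂) X *ᵥ (vprod x y : (prodCAR C₁ C₂).ι → ℂ) =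
      (vprod (rho C₁ s₁ X *ᵥ x) y + vprod x (rho C₂ s₂ X *ᵥ y) : C₁.ι × C₂.ι → ℂ) := by
  rw [rho_prod]
  change (_ + _ : Matrix (C₁.ι × C₂.ι) (C₁.ι × C₂.ι) ℂ) *ᵥ (vprod x y : C₁.ι × C₂.ι → ℂ) = _
  rw [Matrix.add_mulVec]
  unfold vprod
  rw [CAR.kron_mulVec_prod, CAR.kron_mulVec_prod, Matrix.one_mulVec, Matrix.one_mulVec]

end Crest.Agent.R172.Sp
end

-- ▼ part R172/SpFinal
section

/-!
R172, spinor translation, part 7: the invariant functional attached to a Lagrangian `L ⊆ U` and the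
final translation theorem.
-/

set_option autoImplicit false
set_option linter.unusedSectionVars false

namespace Crest.Agent.R172.Sp

open Matrix Kronecker Crest.AlgebraR.SpinSaturation Crest.Agent.R172.SoGrade
open Crest.Agent.R172.Star Crest.Agent.R172.Fwd
open scoped TensorProduct ComplexConjugate

variable {n : ℕ}

section prod

variable {D₁ D₂ : Type} [Fintype D₁] [Fintype D₂]
variable (C₁ : CAR (Fin n × D₁)) (C₂ : CAR (Fin n × D₂)) (s₁ : Inv D₁) (s₂ : Inv D₂)

/-- product map, bilinear -/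
noncomputable def vpB : Spn C₁ s₁ →ₗ[ℂ] Spn C₂ s₂ →ₗ[ℂ] Spn (prodCAR C₁ C₂) (s₁.sum s₂) :=
  LinearMap.mk₂ ℂ (fun (x : C₁.ι → ℂ) (y : C₂.ι → ℂ) => (vprod x y : C₁.ι × C₂.ι → ℂ))
    (by
      have h : ∀ (x x' : C₁.ι → ℂ) (y : C₂.ι → ℂ),
          (vprod (x + x') y : C₁.ι × C₂.ι → ℂ) = vprod x y + vprod x' y := by
        intro x x' y; funext p; simp only [vprod, Pi.add_apply]; ring
      exact h)
    (by
      have h : ∀ (t : ℂ) (x : C₁.ι → ℂ) (y : C₂.ι → ℂ),
          (vprod (t • x) y : C₁.ι × C₂.ι → ℂ) = t • vprod x y := by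
        intro t x y; funext p; simp only [vprod, Pi.smul_apply, smul_eq_mul]; ring
      exact h)
    (by
      have h : ∀ (x : C₁.ι → ℂ) (y y' : C₂.ι → ℂ),
          (vprod x (y + y') : C₁.ι × C₂.ι → ℂ) = vprod x y + vprod x y' := by
        intro x y y'; funext p; simp only [vprod, Pi.add_apply]; ring
      exact h)
    (by
      have h : ∀ (t : ℂ) (x : C₁.ι → ℂ) (y : C₂.ι → ℂ),
          (vprod x (t • y) : C₁.ι × C₂.ι → ℂ) = t • vprod x y := by
        intro t x y; funext p; simp only [vprod, Pi.smul_apply, smul_eq_mul]; ring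
      exact h)

/-- product map, equivariant -/
noncomputable def vpL : (Spn C₁ s₁ ⊗[ℂ] Spn C₂ s₂) →ₗ⁅ℂ, soD n⁆ Spn (prodCAR C₁ C₂) (s₁.sum s₂) :=
  { TensorProduct.lift (vpB C₁ C₂ s₁ s₂) with
    map_lie' := by
      intro A t
      change TensorProduct.lift (vpB C₁ C₂ s₁ s₂) ⁅A, t⁆ =
        ⁅A, TensorProduct.lift (vpB C₁ C₂ s₁ s₂) t⁆
      induction t using TensorProduct.induction_on with
      | zero => simp
      | add a b ha hb => rw [lie_add, map_add, ha, hb, map_add, lie_add]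
      | tmul x y =>
        rw [TensorProduct.LieModule.lie_tmul_right, map_add, TensorProduct.lift.tmul,
          TensorProduct.lift.tmul, TensorProduct.lift.tmul]
        have h := rho_vprod C₁ C₂ s₁ s₂ A.1 x y
        exact h.symm }


/-- direct sum of subspaces -/
def sumLag (Λ₁ : Submodule ℂ (Matrix (VI n) D₁ ℂ)) (Λ₂ : Submodule ℂ (Matrix (VI n) D₂ ℂ)) :
    Submodule ℂ (Matrix (VI n) (D₁ ⊕ D₂) ℂ) where
  carrier := {F | resL F ∈ Λ₁ ∧ resR F ∈ Λ₂}
  add_mem' := fun {a b} ha hb => ⟨Λ₁.add_mem ha.1 hb.1, Λ₂.add_mem ha.2 hb.2⟩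
  zero_mem' := ⟨Λ₁.zero_mem, Λ₂.zero_mem⟩
  smul_mem' := fun t {a} ha => ⟨Λ₁.smul_mem t ha.1, Λ₂.smul_mem t ha.2⟩


theorem killed_sum {Λ₁ : Submodule ℂ (Matrix (VI n) D₁ ℂ)}
    {Λ₂ : Submodule ℂ (Matrix (VI n) D₂ ℂ)} {x : C₁.ι → ℂ} {y : C₂.ι → ℂ}
    (hx : Killed C₁ s₁ Λ₁ x) (hy : Killed C₂ s₂ Λ₂ y) :
    Killed (prodCAR C₁ C₂) (s₁.sum s₂) (sumLag Λ₁ Λ₂) (vprod x y : C₁.ι × C₂.ι → ℂ) := by
  intro F hF
  refine (Gam_vprod C₁ C₂ s₁ s₂ F x y).trans ?_
  rw [hx _ hF.1, hy _ hF.2]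
  funext p
  change _ = (0 : ℂ)
  simp [vprod]

theorem isot_sum {Λ₁ : Submodule ℂ (Matrix (VI n) D₁ ℂ)}
    {Λ₂ : Submodule ℂ (Matrix (VI n) D₂ ℂ)} (h₁ : Isot s₁ Λ₁) (h₂ : Isot s₂ Λ₂) :
    Isot (s₁.sum s₂) (sumLag Λ₁ Λ₂) := by
  intro F hF G hG
  have e1 : bil (s₁.sum s₂) F G = bil s₁ (resL F) (resL G) + bil s₂ (resR F) (resR G) := by
    have e0 : ∀ p : VI n, ∑ d : D₁ ⊕ D₂, F p d * G (sw p) ((s₁.sum s₂).σ d) =
        ∑ d : D₁, resL F p d * resL G (sw p) (s₁.σ d) +
        ∑ d : D₂, resR F p d * resR G (sw p) (s₂.σ d) := fun p => Fintype.sum_sum_type _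
    rw [bil, Finset.sum_congr rfl (fun p _ => e0 p), Finset.sum_add_distrib]
    rfl
  rw [e1, h₁ _ hF.1 _ hG.1, h₂ _ hF.2 _ hG.2, add_zero]

theorem vprod_ne_zero {α β : Type} {x : α → ℂ} {y : β → ℂ} (hx : x ≠ 0) (hy : y ≠ 0) :
    vprod x y ≠ 0 := by
  obtain ⟨i, hi⟩ := Function.ne_iff.mp hx
  obtain ⟨j, hj⟩ := Function.ne_iff.mp hy
  exact Function.ne_iff.mpr ⟨(i, j), mul_ne_zero hi hj⟩

end prod

section VL

variable {D : Type} [Fintype D]

/-- `V ⊗ L` -/
def VL (n : ℕ) (L : Submodule ℂ (D → ℂ)) : Submodule ℂ (Matrix (VI n) D ℂ) where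
  carrier := {F | ∀ p, (fun d => F p d) ∈ L}
  add_mem' := fun {a b} ha hb p => L.add_mem (ha p) (hb p)
  zero_mem' := fun _ => L.zero_mem
  smul_mem' := fun t {a} ha p => L.smul_mem t (ha p)


theorem VL_mul {L : Submodule ℂ (D → ℂ)} (X : Matrix (VI n) (VI n) ℂ) {F : Matrix (VI n) D ℂ}
    (hF : F ∈ VL n L) : X * F ∈ VL n L := by
  intro p
  have : (fun d => (X * F) p d) = ∑ q, X p q • (fun d => F q d) := by
    funext d
    rw [Matrix.mul_apply, Finset.sum_apply]
    rfl
  rw [this]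
  exact L.sum_mem fun q _ => L.smul_mem _ (hF q)

theorem VL_isot {s : Inv D} {L : Submodule ℂ (D → ℂ)}
    (hL : ∀ u ∈ L, ∀ v ∈ L, ∑ d, u d * v (s.σ d) = 0) : Isot (n := n) s (VL n L) := by
  intro F hF G hG
  rw [bil]
  exact Finset.sum_eq_zero fun p _ => hL _ (hF p) _ (hG (sw p))

theorem cst_mul (s : Inv D) (X : Matrix (VI n) (VI n) ℂ) (F : Matrix (VI n) D ℂ) :
    cst s (X * F) = (Matrix.of fun p q => star (X (sw p) (sw q))) * cst s F := by
  ext p d
  rw [cst, Matrix.mul_apply, Matrix.mul_apply, star_sum, ← sum_sw]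
  refine Finset.sum_congr rfl fun q _ => ?_
  rw [star_mul', cst, Matrix.of_apply]

theorem cstVL_mul {s : Inv D} {L : Submodule ℂ (D → ℂ)} (X : Matrix (VI n) (VI n) ℂ)
    {F : Matrix (VI n) D ℂ} (hF : F ∈ cstSub s (VL n L)) : X * F ∈ cstSub s (VL n L) := by
  rw [mem_cstSub, cst_mul]
  exact VL_mul _ hF

theorem cstSub_sup {s : Inv D} {Λ₁ Λ₂ : Submodule ℂ (Matrix (VI n) D ℂ)} (h : Λ₁ ⊔ Λ₂ = ⊤) :
    cstSub s Λ₂ ⊔ cstSub s Λ₁ = ⊤ := by
  rw [eq_top_iff]
  intro F _
  have hF : cst s F ∈ Λ₁ ⊔ Λ₂ := by rw [h]; exact Submodule.mem_top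
  obtain ⟨F₁, h₁, F₂, h₂, e⟩ := Submodule.mem_sup.1 hF
  rw [Submodule.mem_sup]
  refine ⟨cst s F₂, ?_, cst s F₁, ?_, ?_⟩
  · rw [mem_cstSub, cst_cst]; exact h₂
  · rw [mem_cstSub, cst_cst]; exact h₁
  · rw [← cst_cst s F, ← e]
    ext p d
    simp [cst, add_comm]

/-- The pure spinor of the conjugate of `V ⊗ L` is `so(V)`-invariant. -/
theorem exists_inv_spinor (hn : 2 ≤ n) (C : CAR (Fin n × D)) (s : Inv D)
    {L : Submodule ℂ (D → ℂ)} (hL : ∀ u ∈ L, ∀ v ∈ L, ∑ d, u d * v (s.σ d) = 0)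
    {Λ : Submodule ℂ (Matrix (VI n) D ℂ)} (hΛ : Isot s Λ) (h : VL n L ⊔ Λ = ⊤) :
    ∃ Ψ : C.ι → ℂ, Ψ ≠ 0 ∧ (∀ F ∈ VL n L, Gam C s (cst s F) *ᵥ Ψ = 0) ∧
      ∀ X : soD n, rho C s X.1 *ᵥ Ψ = 0 := by
  obtain ⟨Ψ, h0, hk⟩ := exists_killed C s (cstSub s (VL n L)) (isot_cstSub (VL_isot hL))
  refine ⟨Ψ, h0, ?_, ?_⟩
  · intro F hF
    apply hk
    rw [mem_cstSub, cst_cst]
    exact hF
  · have hchi : ∀ X : soD n, ∃ t : ℂ, rho C s X.1 *ᵥ Ψ = t • Ψ := by
      intro X
      apply killed_unique C s (cstSub s Λ) (cstSub s (VL n L)) (cstSub_sup h) (isot_cstSub hΛ) h0 hk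
      intro F hF
      have h1 := rho_Gam C s X.2 F
      have h2 : Gam C s F * rho C s X.1 = rho C s X.1 * Gam C s F - Gam C s (X.1 * F) := by
        rw [← h1]; abel
      rw [Matrix.mulVec_mulVec, h2, Matrix.sub_mulVec, ← Matrix.mulVec_mulVec, hk F hF,
        hk _ (cstVL_mul X.1 hF), Matrix.mulVec_zero, sub_zero]
    let K : LieSubalgebra ℂ (soD n) :=
      { carrier := {X | rho C s X.1 *ᵥ Ψ = 0}
        add_mem' := by
          intro X Y hX hY
          change rho C s (X.1 + Y.1) *ᵥ Ψ = 0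
          rw [rho_add, Matrix.add_mulVec, hX, hY, add_zero]
        zero_mem' := by
          change rho C s (0 : Matrix (VI n) (VI n) ℂ) *ᵥ Ψ = 0
          have : rho C s (0 : Matrix (VI n) (VI n) ℂ) = 0 := by
            have := rho_smul C s (0 : ℂ) (0 : Matrix (VI n) (VI n) ℂ)
            simpa using this
          rw [this, Matrix.zero_mulVec]
        smul_mem' := by
          intro t X hX
          change rho C s (t • X.1) *ᵥ Ψ = 0
          rw [rho_smul, Matrix.smul_mulVec, hX, smul_zero]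
        lie_mem' := by
          intro X Y hX hY
          change rho C s (X.1 * Y.1 - Y.1 * X.1) *ᵥ Ψ = 0
          rw [rho_lie C s X.2, Matrix.sub_mulVec, ← Matrix.mulVec_mulVec, ← Matrix.mulVec_mulVec]
          have hX' : rho C s X.1 *ᵥ Ψ = 0 := hX
          have hY' : rho C s Y.1 *ᵥ Ψ = 0 := hY
          rw [hX', hY', Matrix.mulVec_zero, Matrix.mulVec_zero, sub_zero] }
    have hK : K = ⊤ := by
      rw [eq_top_iff, ← lieSpan_rt hn, LieSubalgebra.lieSpan_le]
      rintro z ⟨x, c, hc, e⟩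
      change rho C s z.1 *ᵥ Ψ = 0
      obtain ⟨t, ht⟩ := hchi x
      obtain ⟨u, hu⟩ := hchi z
      have h1 : rho C s (x.1 * z.1 - z.1 * x.1) = c • rho C s z.1 := by
        rw [← rho_smul]
        congr 1
        exact congrArg Subtype.val e
      have h2 : c • (rho C s z.1 *ᵥ Ψ) = 0 := by
        rw [← Matrix.smul_mulVec, ← h1, rho_lie C s x.2, Matrix.sub_mulVec,
          ← Matrix.mulVec_mulVec, ← Matrix.mulVec_mulVec, hu, ht, Matrix.mulVec_smul,
          Matrix.mulVec_smul, ht, hu, smul_smul, smul_smul, mul_comm, sub_self]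
      exact (smul_eq_zero.1 h2).resolve_left hc
    intro X
    have : X ∈ K := by rw [hK]; exact LieSubalgebra.mem_top X
    exact this

end VL

section final

variable {D₁ D₂ D₃ : Type} [Fintype D₁] [Fintype D₂] [Fintype D₃]
  [DecidableEq D₁] [DecidableEq D₂] [DecidableEq D₃]
  {s₁ : Inv D₁} {s₂ : Inv D₂} {s₃ : Inv D₃}

/-- `Σ u_d v_{σ d}`: the symmetric form of `U = ℂ^D` -/
def ub {D : Type} [Fintype D] (s : Inv D) (u v : D → ℂ) : ℂ := ∑ d, u d * v (s.σ d)

/-- **Translation theorem.** If for some exponential words `w₁, w₂, w₃` and some isotropic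
`L ⊆ U₁ ⊕ U₂ ⊕ U₃` the space `V ⊗ L` together with `g₁ n_a ⊕ g₂ n_b ⊕ g₃ n_c` spans `V ⊗ U`, then
every triple of irreducible representations of highest weights `a, b, c` has an invariant. -/
theorem hasInvariant_of_sup (hn : 2 ≤ n) {a b c : Fin n → ℤ} (Ra : Arm n s₁ a) (Rb : Arm n s₂ b)
    (Rc : Arm n s₃ c) {w₁ w₂ w₃ : List (soD n)} (hw₁ : Wd w₁) (hw₂ : Wd w₂) (hw₃ : Wd w₃)
    (L : Submodule ℂ (D₁ ⊕ (D₂ ⊕ D₃) → ℂ))
    (hL : ∀ u ∈ L, ∀ v ∈ L, ub (s₁.sum (s₂.sum s₃)) u v = 0)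
    (hiso : Isot (s₁.sum (s₂.sum s₃)) (sumLag (gsub (gm w₁) Ra.lag)
      (sumLag (gsub (gm w₂) Rb.lag) (gsub (gm w₃) Rc.lag))))
    (h : VL n L ⊔ sumLag (gsub (gm w₁) Ra.lag)
      (sumLag (gsub (gm w₂) Rb.lag) (gsub (gm w₃) Rc.lag)) = ⊤)
    (U : Irrep n a) (V : Irrep n b) (W : Irrep n c) : HasInvariant U V W := by
  obtain ⟨C₁⟩ := CAR.exists_car (Fin n × D₁)
  obtain ⟨C₂⟩ := CAR.exists_car (Fin n × D₂)
  obtain ⟨C₃⟩ := CAR.exists_car (Fin n × D₃)
  obtain ⟨x, hx0, hxk⟩ := exists_killed C₁ s₁ Ra.lag Ra.isot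
  obtain ⟨y, hy0, hyk⟩ := exists_killed C₂ s₂ Rb.lag Rb.isot
  obtain ⟨z, hz0, hzk⟩ := exists_killed C₃ s₃ Rc.lag Rc.isot
  obtain ⟨Ψ, hΨ0, hΨk, hΨi⟩ := exists_inv_spinor hn (prodCAR C₁ (prodCAR C₂ C₃))
    (s₁.sum (s₂.sum s₃)) hL hiso h
  let T : Spn C₁ s₁ ⊗[ℂ] (Spn C₂ s₂ ⊗[ℂ] Spn C₃ s₃) →ₗ⁅ℂ, soD n⁆
      Spn (prodCAR C₁ (prodCAR C₂ C₃)) (s₁.sum (s₂.sum s₃)) :=
    (vpL C₁ (prodCAR C₂ C₃) s₁ (s₂.sum s₃)).comp
      (TensorProduct.LieModule.map (LieModuleHom.id : Spn C₁ s₁ →ₗ⁅ℂ, soD n⁆ Spn C₁ s₁)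
        (vpL C₂ C₃ s₂ s₃))
  let hΨl : Spn (prodCAR C₁ (prodCAR C₂ C₃)) (s₁.sum (s₂.sum s₃)) →ₗ[ℂ] ℂ :=
    { toFun := fun v => hp Ψ v
      map_add' := fun v w => hp_add_right Ψ v w
      map_smul' := fun t v => hp_smul_right t Ψ v }
  let l : Spn C₁ s₁ ⊗[ℂ] (Spn C₂ s₂ ⊗[ℂ] Spn C₃ s₃) →ₗ[ℂ] ℂ := hΨl ∘ₗ (T : _ →ₗ[ℂ] _)
  refine (Star.hasInvariant_iff (starSpn C₁ s₁) (starSpn C₂ s₂) (starSpn C₃ s₃)
    (Ra.hwv C₁ hx0 hxk) (Rb.hwv C₂ hy0 hyk) (Rc.hwv C₃ hz0 hzk) U V W).2
    ⟨l, ?_, actV C₁ s₁ w₁ x, ?_, actV C₂ s₂ w₂ y, ?_, actV C₃ s₃ w₃ z, ?_, ?_⟩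
  · intro A t
    change hp Ψ (T ⁅A, t⁆) = 0
    rw [LieModuleHom.map_lie]
    have h1 : ∀ v : (prodCAR C₁ (prodCAR C₂ C₃)).ι → ℂ,
        hp Ψ (rho (prodCAR C₁ (prodCAR C₂ C₃)) (s₁.sum (s₂.sum s₃)) A.1 *ᵥ v) = 0 := by
      intro v
      rw [hp_mulVec, rho_star]
      have h2 := hΨi (hc A)
      have h3 : ((hc A : soD n) : Matrix (VI n) (VI n) ℂ) = (A.1)ᴴ := rfl
      rw [h3] at h2
      rw [h2, hp_zero_left]
    exact h1 _
  · exact act_mem_lieSpan (X := Spn C₁ s₁) hw₁ x
  · exact act_mem_lieSpan (X := Spn C₂ s₂) hw₂ y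
  · exact act_mem_lieSpan (X := Spn C₃ s₃) hw₃ z
  · change hp Ψ (vprod (actV C₁ s₁ w₁ x) (vprod (actV C₂ s₂ w₂ y) (actV C₃ s₃ w₃ z)) :
      C₁.ι × (C₂.ι × C₃.ι) → ℂ) ≠ 0
    refine hp_ne_zero (prodCAR C₁ (prodCAR C₂ C₃)) (s₁.sum (s₂.sum s₃)) (VL n L) _ h hΨ0
      (vprod_ne_zero (actV_ne_zero C₁ s₁ hw₁ hx0)
        (vprod_ne_zero (actV_ne_zero C₂ s₂ hw₂ hy0) (actV_ne_zero C₃ s₃ hw₃ hz0))) hΨk ?_
    exact killed_sum C₁ (prodCAR C₂ C₃) s₁ (s₂.sum s₃) (act_killed C₁ s₁ hw₁ hxk)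
      (killed_sum C₂ C₃ s₂ s₃ (act_killed C₂ s₂ hw₂ hyk) (act_killed C₃ s₃ hw₃ hzk))

end final

end Crest.Agent.R172.Sp
end

-- ▼ part R172/SpLink
section

/-!
R172: the final link: transversality at one complex point of `SO(V)^3 × OGr(U)` gives invariants.
-/

set_option autoImplicit false
set_option linter.unusedSectionVars false

namespace Crest.Agent.R172.SpLink

open Matrix Crest.AlgebraR.SpinSaturation Crest.Agent.R172.SoGrade Crest.Agent.R172.Sp
open Crest.Agent.R172.Fwd Crest.Agent.R172.CF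
open Crest.Agent.R172.Gen (Jm Ix)

variable {n : ℕ}

/-- orthogonal matrices preserve the form of `V ⊗ U` -/
theorem bil_orth {D : Type} [Fintype D] (s : Sp.Inv D) {g : Matrix (VI n) (VI n) ℂ}
    (hg : gᵀ * Jm n ℂ * g = Jm n ℂ) (F G : Matrix (VI n) D ℂ) :
    bil s (g * F) (g * G) = bil s F G := by
  have key : ∀ F G : Matrix (VI n) D ℂ, bil s F G = ∑ d, (Fᵀ * Jm n ℂ * G) d (s.σ d) := by
    intro F G
    rw [bil, Finset.sum_comm]
    refine Finset.sum_congr rfl fun d _ => ?_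
    rw [Matrix.mul_assoc, Matrix.mul_apply]
    refine Finset.sum_congr rfl fun p _ => ?_
    rw [Matrix.transpose_apply]
    congr 1
    have hJ : ∀ p q : Fin n ⊕ Fin n, Jm n ℂ p q = if p = sw q then 1 else 0 := JD_apply
    rw [Matrix.mul_apply, Finset.sum_eq_single (sw p)]
    · rw [hJ, if_pos (by rw [sw_sw]), one_mul]
    · intro q _ hq
      rw [hJ, if_neg, zero_mul]
      intro h
      apply hq
      rw [h, sw_sw]
    · simp
  rw [key, key]
  have h1 : (g * F)ᵀ * Jm n ℂ * (g * G) = Fᵀ * Jm n ℂ * G := by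
    rw [Matrix.transpose_mul]
    calc Fᵀ * gᵀ * Jm n ℂ * (g * G) = Fᵀ * (gᵀ * Jm n ℂ * g) * G := by
          simp only [Matrix.mul_assoc]
      _ = Fᵀ * Jm n ℂ * G := by rw [hg]
  rw [h1]

theorem isot_gsub {D : Type} [Fintype D] {s : Sp.Inv D} {g : Matrix (VI n) (VI n) ℂ}
    (hg : gᵀ * Jm n ℂ * g = Jm n ℂ) {Λ : Submodule ℂ (Matrix (VI n) D ℂ)} (h : Isot s Λ) :
    Isot s (gsub g Λ) := by
  rintro _ ⟨F, hF, rfl⟩ _ ⟨G, hG, rfl⟩
  rw [bil_orth s hg]
  exact h F hF G hG

section link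

variable {a : Fin 3 → Fin n → ℤ} (c : Cfg n a)

/-- the index set of one arm -/
abbrev Dm (k : Fin 3) : Type := {d : c.δ // c.arm d = k}

/-- the involution of one arm -/
def invm (k : Fin 3) : Sp.Inv (Dm c k) where
  σ d := ⟨c.σ d.1, by rw [c.arm_σ]; exact d.2⟩
  inv d := Subtype.ext (c.inv d.1)

/-- the arm -/
def armm (k : Fin 3) : Arm n (invm c k) (a k) where
  A i d := c.A i d.1
  dec i := fun d => inferInstanceAs (Decidable (c.A i d.1))
  mono i j h d := c.mono i j h d.1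
  perp i j h d := c.perp i j h d.1
  count i := by
    rw [c.count k i]
    congr 2
    · have h1 : (Finset.univ.filter (fun d : c.δ => c.arm d = k ∧ c.A i d)).card =
          Fintype.card {d : c.δ // c.arm d = k ∧ c.A i d} := by
        rw [Fintype.card_subtype]
      have h2 : (Finset.univ.filter (fun d : Dm c k => c.A i d.1)).card =
          Fintype.card {d : Dm c k // c.A i d.1} := by
        rw [Fintype.card_subtype]
      rw [h1]
      refine Eq.trans ?_ (congrArg (fun m : ℕ => (m : ℤ)) h2.symm)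
      congr 1
      exact Fintype.card_congr
        { toFun := fun d => ⟨⟨d.1, d.2.1⟩, d.2.2⟩
          invFun := fun d => ⟨d.1.1, d.1.2, d.2⟩
          left_inv := fun _ => rfl
          right_inv := fun _ => rfl }
    · rw [Fintype.card_subtype]

/-- the decomposition of the index set -/
def eqv : c.δ ≃ Dm c 0 ⊕ (Dm c 1 ⊕ Dm c 2) where
  toFun d := if h0 : c.arm d = 0 then Sum.inl ⟨d, h0⟩ else
    if h1 : c.arm d = 1 then Sum.inr (Sum.inl ⟨d, h1⟩) else
      Sum.inr (Sum.inr ⟨d, by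
        have := c.arm d |>.2
        apply Fin.ext
        have h0' : (c.arm d : ℕ) ≠ 0 := fun h => h0 (Fin.ext h)
        have h1' : (c.arm d : ℕ) ≠ 1 := fun h => h1 (Fin.ext h)
        show (c.arm d : ℕ) = 2
        omega⟩)
  invFun := Sum.elim (fun d => d.1) (Sum.elim (fun d => d.1) (fun d => d.1))
  left_inv d := by
    by_cases h0 : c.arm d = 0
    · simp [h0]
    · by_cases h1 : c.arm d = 1
      · simp [h1]
      · simp [h0, h1]
  right_inv := by
    rintro (⟨d, hd⟩ | ⟨d, hd⟩ | ⟨d, hd⟩) <;> simp [hd]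

theorem eqv_symm_σ (x : Dm c 0 ⊕ (Dm c 1 ⊕ Dm c 2)) :
    (eqv c).symm (((invm c 0).sum ((invm c 1).sum (invm c 2))).σ x) = c.σ ((eqv c).symm x) := by
  rcases x with x | x | x <;> rfl

/-- **The final link.** -/
theorem hasInvariant (hn : 2 ≤ n) (g : Fin 3 → Matrix (Ix n) (Ix n) ℂ)
    (hg : ∀ s, (g s)ᵀ * Jm n ℂ * g s = Jm n ℂ) (hdet : ∀ s, (g s).det = 1)
    (L : Submodule ℂ (c.δ → ℂ)) (hL : ∀ u ∈ L, ∀ v ∈ L, c.ub u v = 0)
    (hL2 : 2 * Module.finrank ℂ L = Fintype.card c.δ)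
    (h : ∀ F ∈ VL L, F ∈ c.N g → F = 0)
    (U : Irrep n (a 0)) (V : Irrep n (a 1)) (W : Irrep n (a 2)) : HasInvariant U V W := by
  have htop := c.sup_eq_top hg hL2 h
  have hw : ∀ s, ∃ w : List (soD n), Wd w ∧ gm w = g s := by
    intro s
    exact GenSO.exists_word hn (g s) (hg s) (hdet s)
  choose w hw1 hw2 using hw
  let e := eqv c
  let L' : Submodule ℂ (Dm c 0 ⊕ (Dm c 1 ⊕ Dm c 2) → ℂ) := L.comap (LinearMap.funLeft ℂ ℂ e)
  have hL' : ∀ u ∈ L', ∀ v ∈ L', Sp.ub ((invm c 0).sum ((invm c 1).sum (invm c 2))) u v = 0 := by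
    intro u hu v hv
    have h1 := hL _ hu _ hv
    rw [Sp.ub, ← e.sum_comp]
    rw [Cfg.ub] at h1
    rw [← h1]
    refine Finset.sum_congr rfl fun d _ => ?_
    have h2 := eqv_symm_σ c (e d)
    have h3 : e.symm (e d) = d := e.symm_apply_apply d
    change e.symm _ = c.σ (e.symm (e d)) at h2
    rw [h3] at h2
    have h4 : ((invm c 0).sum ((invm c 1).sum (invm c 2))).σ (e d) = e (c.σ d) := by
      rw [← h2, e.apply_symm_apply]
    rw [h4]
    rfl
  refine hasInvariant_of_sup hn (armm c 0) (armm c 1) (armm c 2) (hw1 0) (hw1 1) (hw1 2) L' hL'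
    ?_ ?_ U V W
  · refine isot_sum _ _ (isot_gsub (by rw [hw2]; exact hg 0) (armm c 0).isot)
      (isot_sum _ _ (isot_gsub (by rw [hw2]; exact hg 1) (armm c 1).isot)
        (isot_gsub (by rw [hw2]; exact hg 2) (armm c 2).isot))
  · rw [eq_top_iff]
    intro F _
    have hF : (Matrix.of fun p d => F p (e d) : Matrix (Ix n) c.δ ℂ) ∈ VL L ⊔ c.N g := by
      rw [htop]; exact Submodule.mem_top
    obtain ⟨F₁, h₁, F₂, h₂, hs⟩ := Submodule.mem_sup.1 hF
    obtain ⟨G, hG, hGF⟩ := c.mem_N.1 h₂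
    rw [Submodule.mem_sup]
    refine ⟨Matrix.of fun p x => F₁ p (e.symm x), ?_, Matrix.of fun p x => F₂ p (e.symm x), ?_, ?_⟩
    · intro p
      change (fun d => F₁ p (e.symm (e d))) ∈ L
      have : (fun d => F₁ p (e.symm (e d))) = fun d => F₁ p d := by
        funext d; rw [e.symm_apply_apply]
      rw [this]
      exact h₁ p
    · have hres : ∀ (k : Fin 3) (X : Matrix (VI n) (Dm c k) ℂ),
          X = (fun p d => F₂ p d.1) → X ∈ gsub (gm (w k)) (armm c k).lag := by
        intro k X hX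
        refine ⟨fun p d => G p d.1, fun i d => ⟨fun h => (hG i d.1).1 h, fun h => (hG i d.1).2 h⟩, ?_⟩
        rw [hX, hw2]
        funext p d
        rw [← hGF, act_apply, d.2]
        rfl
      exact ⟨hres 0 _ rfl, hres 1 _ rfl, hres 2 _ rfl⟩
    · ext p x
      have h5 := congrFun (congrFun hs p) (e.symm x)
      change F₁ p (e.symm x) + F₂ p (e.symm x) = F p x
      rw [Matrix.add_apply] at h5
      rw [h5]
      change F p (e (e.symm x)) = F p x
      rw [e.apply_symm_apply]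

end link

/-! ### Existence of the data -/

/-- the standard index set -/
abbrev Dst (m : Fin 3 → ℕ) : Type := Σ s : Fin 3, Fin (m s)


end Crest.Agent.R172.SpLink
end

-- ▼ part R172/SpHW2
section

/-!
R172: star-form models of all dominant integral weights; the forward direction of S0260; existence of
the concrete data for a triple in the root lattice.
-/

set_option autoImplicit false
set_option linter.unusedSectionVars false

namespace Crest.Agent.R172.SpHW2

open Matrix Crest.AlgebraR.SpinSaturation Crest.Agent.R172.Sp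
open Crest.Agent.R172.Fwd Crest.Agent.R172.CF

variable {n : ℕ}

/-- the largest coordinate as a natural number -/
def top (hn : 2 ≤ n) (a : Fin n → ℤ) : ℕ := (a ⟨0, by omega⟩).toNat

theorem top_nonneg (hn : 2 ≤ n) {a : Fin n → ℤ} (ha : IsDominantIntegral n a) :
    0 ≤ a ⟨0, by omega⟩ := by
  have h := dom_neg hn ha ⟨1, by omega⟩ ⟨0, by omega⟩ (by simp [Fin.ext_iff])
  have h1 := dom_mono hn ha ⟨0, by omega⟩ ⟨1, by omega⟩ (by simp [Fin.lt_def])
  omega

theorem top_coe (hn : 2 ≤ n) {a : Fin n → ℤ} (ha : IsDominantIntegral n a) :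
    ((top hn a : ℕ) : ℤ) = a ⟨0, by omega⟩ := Int.toNat_of_nonneg (top_nonneg hn ha)

theorem le_top (hn : 2 ≤ n) {a : Fin n → ℤ} (ha : IsDominantIntegral n a) (i : Fin n) :
    a i ≤ top hn a := by
  rw [top_coe hn ha]
  by_cases h : i = ⟨0, by omega⟩
  · rw [h]
  · apply dom_mono hn ha
    rw [Fin.lt_def]
    have : (i : ℕ) ≠ 0 := fun h' => h (Fin.ext h')
    simp
    omega

theorem par_top (hn : 2 ≤ n) {a : Fin n → ℤ} (ha : IsDominantIntegral n a) (i : Fin n) :
    Even ((top hn a : ℤ) - a i) := by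
  rw [top_coe hn ha]
  exact ha.1 _ _

/-- star-form models exist for all dominant integral weights -/
theorem exists_HW (hn : 2 ≤ n) {a : Fin n → ℤ} (ha : IsDominantIntegral n a) :
    Nonempty (HW n a) := by
  obtain ⟨R⟩ := exists_arm hn ha (top hn a) (le_top hn ha) (par_top hn ha)
  obtain ⟨C⟩ := CAR.exists_car (Fin n × Fin (top hn a))
  obtain ⟨x, hx0, hxk⟩ := exists_killed C (revInv (top hn a)) R.lag R.isot
  exact ⟨{ V := Spn C (revInv (top hn a)), fd := inferInstance, star := starSpn C _,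
           x := x, hx := R.hwv C hx0 hxk }⟩

/-- **Forward direction of S0260.** -/
theorem forward (hn : 2 ≤ n) {a b c : Fin n → ℤ}
    (ha : IsDominantIntegral n a) (hb : IsDominantIntegral n b) (hc : IsDominantIntegral n c)
    (N : ℕ) (hN : 1 ≤ N) (U : Irrep n a) (V : Irrep n b) (W : Irrep n c)
    (U' : Irrep n (N • a)) (V' : Irrep n (N • b)) (W' : Irrep n (N • c))
    (h : HasInvariant U V W) : HasInvariant U' V' W' := by
  obtain ⟨X⟩ := exists_HW hn ha
  obtain ⟨Y⟩ := exists_HW hn hb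
  obtain ⟨Z⟩ := exists_HW hn hc
  obtain ⟨k, rfl⟩ : ∃ k, N = k + 1 := ⟨N - 1, by omega⟩
  exact hasInvariant_mul hn X Y Z U V W h k U' V' W'

/-- multiples of dominant integral weights -/
theorem dom_smul {a : Fin n → ℤ} (ha : IsDominantIntegral n a) (N : ℕ) :
    IsDominantIntegral n (N • a) := by
  obtain ⟨h1, h2, h3⟩ := ha
  refine ⟨?_, ?_, ?_⟩
  · intro i j
    obtain ⟨k, hk⟩ := h1 i j
    refine ⟨N * k, ?_⟩
    simp only [Pi.smul_apply, nsmul_eq_mul]
    rw [← mul_sub, hk]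
    ring
  · intro i j hij hj
    simp only [Pi.smul_apply, nsmul_eq_mul]
    exact mul_le_mul_of_nonneg_left (h2 i j hij hj) (by positivity)
  · intro i j hi hj
    simp only [Pi.smul_apply, nsmul_eq_mul]
    rw [abs_mul, Nat.abs_cast]
    exact mul_le_mul_of_nonneg_left (h3 i j hi hj) (by positivity)


end Crest.Agent.R172.SpHW2
end

-- ▼ part R172/Top
section

/-!
R172: the outer assembly. `Core n` is the statement of the core of the proof, at the generic point
`(g, H)`; `result_of_core` deduces the statement of S0260 from it.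
-/

set_option autoImplicit false
set_option linter.unusedSectionVars false

namespace Crest.Agent.R172.Top

open Matrix Crest.AlgebraR.SpinSaturation Crest.Agent.R172.Fwd Crest.Agent.R172.CF
open Crest.Agent.R172.Gen (Jm Ix emb Ent ent IsSo)
open Crest.Agent.R172.HM4 (bb Efl)

variable {n : ℕ}

/-- The generic point `(g, H)` of `SO(V)^3 × Λ²`, with everything that is known about it. -/
structure GPt (n m : ℕ) (K : Type) [Field K] [Algebra ℂ K]
    (g : Fin 3 → Matrix (Ix n) (Ix n) K) (H : Matrix (Fin m) (Fin m) K) : Prop where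
  closed : IsAlgClosed K
  orth : ∀ s, (g s)ᵀ * Jm n K * g s = Jm n K
  det : ∀ s, (g s).det = 1
  skew : Hᵀ = -H
  diag : ∀ x, H x x = 0
  /-- (b) every polynomial over `ℂ` which is nonzero at some point above a certain complex point
  `g0 ∈ SO(V)^3` is nonzero at the generic point -/
  nonzero : ∃ g0 : Fin 3 → Matrix (Ix n) (Ix n) ℂ,
    (∀ s, (g0 s)ᵀ * Jm n ℂ * g0 s = Jm n ℂ ∧ (g0 s).det = 1) ∧
    ∀ (P : MvPolynomial (Ent n (Fin m)) ℂ) (H0 : Matrix (Fin m) (Fin m) ℂ), H0ᵀ = -H0 →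
      MvPolynomial.aeval (ent g0 H0) P ≠ 0 → MvPolynomial.aeval (ent g H) P ≠ 0
  /-- (d) all directions are realised by derivations -/
  dir : ∀ (L : Type) [Field L] [Algebra K L] [Algebra ℂ L] [IsScalarTower ℂ K L]
    (X : Fin 3 → Matrix (Ix n) (Ix n) L), (∀ s, IsSo (X s)) →
      ∀ (G : Matrix (Fin m) (Fin m) L), Gᵀ = -G →
        ∃ D : Derivation ℂ L L, (∀ s, (emb K L (g s)).map D = X s * emb K L (g s)) ∧
          (emb K L H).map D = G
  /-- (e) generic solutions of linear systems over `K` -/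
  ker : ∀ (a b : Type) [Fintype a] [Fintype b] [DecidableEq a] [DecidableEq b] (A : Matrix a b K),
    ∃ (L : Type) (_ : Field L) (_ : Algebra K L) (_ : Algebra ℂ L) (_ : IsScalarTower ℂ K L)
      (_ : IsAlgClosed L) (_ : CharZero L) (F : b → L),
      emb K L A *ᵥ F = 0 ∧
      (∀ p : MvPolynomial b K, MvPolynomial.aeval F p = 0 →
        ∀ x : b → K, A *ᵥ x = 0 → MvPolynomial.aeval x p = 0) ∧
      (∀ (X : Fin 3 → Matrix (Ix n) (Ix n) L), (∀ s, IsSo (X s)) →
        ∀ (G : Matrix (Fin m) (Fin m) L), Gᵀ = -G →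
        ∃ δ : Derivation ℂ L L,
          (∀ s, (emb K L (g s)).map δ = X s * emb K L (g s)) ∧ (emb K L H).map δ = G ∧
          ∀ w : b → L, emb K L A *ᵥ w + (emb K L A).map δ *ᵥ F = 0 →
            ∃ D : Derivation ℂ L L, (∀ a : K, D (algebraMap K L a) = δ (algebraMap K L a)) ∧
              (∀ s, (emb K L (g s)).map D = X s * emb K L (g s)) ∧ (emb K L H).map D = G ∧
              ∀ j, D (F j) = w j)

/-- The necessary inequalities at `g`, over all extensions of `K`. -/
def HMIneq (a : Fin 3 → Fin n → ℤ) (K : Type) [Field K]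
    (g : Fin 3 → Matrix (Ix n) (Ix n) K) : Prop :=
  ∀ (L : Type) [Field L] [Algebra K L] (S T : Submodule L (Ix n → L)),
    (∀ x ∈ S, ∀ y ∈ S, HM2.form n L x y = 0) →
    (∀ v, v ∈ T ↔ ∀ s ∈ S, HM2.form n L v s = 0) →
    ∑ s, ∑ i : Fin n, (bb (a s) i - bb (a s) ((i : ℕ) + 1)) *
      ((Module.finrank L ↥(S ⊓ Efl (a s) (emb K L (g s)) i) : ℤ) +
        Module.finrank L ↥(T ⊓ Efl (a s) (emb K L (g s)) i) -
        Module.finrank L (Efl (a s) (emb K L (g s)) i)) ≤ 0

/-- **The statement of the core.** -/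
def Core (n : ℕ) : Prop :=
  ∀ (a : Fin 3 → Fin n → ℤ), (∀ s, IsDominantIntegral n (a s)) →
    InRootLattice n (a 0 + a 1 + a 2) →
    ∀ (c : Cfg n a) (p : Pol c) (K : Type) [Field K] [Algebra ℂ K]
      (g : Fin 3 → Matrix (Ix n) (Ix n) K) (H : Matrix (Fin p.m) (Fin p.m) K),
      GPt n p.m K g H → HMIneq a K g →
      ∀ F ∈ VL (p.LH H), F ∈ c.N g → F = 0

/-- direction (⇐) of S0260 from the statement of the core at one configuration. -/
theorem invariant_of_at (hn : 2 ≤ n) (A : Fin 3 → Fin n → ℤ)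
    (hA : ∀ s, IsDominantIntegral n (A s)) (cfg : Cfg n A) (p : Pol cfg)
    (hcore : ∀ (K : Type) [Field K] [Algebra ℂ K] (g : Fin 3 → Matrix (Ix n) (Ix n) K)
      (H : Matrix (Fin p.m) (Fin p.m) K), GPt n p.m K g H → HMIneq A K g →
        ∀ F ∈ VL (p.LH H), F ∈ cfg.N g → F = 0) (N : ℕ) (hN : 1 ≤ N)
    (U : Irrep n (A 0)) (V : Irrep n (A 1)) (W : Irrep n (A 2))
    (U' : Irrep n (N • A 0)) (V' : Irrep n (N • A 1)) (W' : Irrep n (N • A 2))
    (h : HasInvariant U' V' W') : HasInvariant U V W := by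
  obtain ⟨X⟩ := SpHW2.exists_HW hn (SpHW2.dom_smul (hA 0) N)
  obtain ⟨Y⟩ := SpHW2.exists_HW hn (SpHW2.dom_smul (hA 1) N)
  obtain ⟨Z⟩ := SpHW2.exists_HW hn (SpHW2.dom_smul (hA 2) N)
  obtain ⟨P, ⟨w, hw, hP⟩, hineq⟩ := HM7.hm_final.{0} (a := A) hn
    (fun s => HM7.dom_of_integral (hA s)) hN X Y Z U' V' W' h
  -- the generic package
  obtain ⟨K, iK, iA, hcl, h0, g, H, horth, hskew, hdiag, hb', hc', hd', he'⟩ :=
    Gen.package ℂ (M := Fin p.m) (fun s => gm (w s)) (fun s => (GmSO.gm_orth (hw s)).1)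
  have hG : GPt n p.m K g H :=
    { closed := hcl
      orth := horth
      det := by
        intro s
        -- the polynomial `det g_s + 1` is nonzero
        let Q : MvPolynomial (Ent n (Fin p.m)) ℂ := (Pol.gX p.m s).det + 1
        have hQ : ∀ (L : Type) [Field L] [Algebra ℂ L] (g' : Fin 3 → Matrix (Ix n) (Ix n) L)
            (H' : Matrix (Fin p.m) (Fin p.m) L),
            MvPolynomial.aeval (ent g' H') Q = (g' s).det + 1 := by
          intro L _ _ g' H'
          let φ : Pol.PR n p.m →+* L :=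
            (MvPolynomial.aeval (ent g' H') : Pol.PR n p.m →ₐ[ℂ] L).toRingHom
          have h1 : φ (Pol.gX p.m s).det = (g' s).det := by
            rw [RingHom.map_det]
            congr 1
            ext i j
            simp [φ, Pol.gX, ent]
          have h2 : φ Q = (g' s).det + 1 := by
            rw [← h1]
            simp only [Q, map_add, map_one]
          exact h2
        have h1 := hb' Q 0 (by simp) (by
          rw [hQ, (GmSO.gm_orth (hw s)).2]
          norm_num)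
        rw [hQ] at h1
        have h2 : (g s).det * (g s).det = 1 := by
          have h3 := congrArg Matrix.det (horth s)
          have h4 := congrArg Matrix.det (Jm_sq n K)
          rw [det_mul, det_one] at h4
          rw [det_mul, det_mul, det_transpose] at h3
          have h5 : (Jm n K).det ≠ 0 := left_ne_zero_of_mul (h4 ▸ one_ne_zero)
          apply mul_right_cancel₀ h5
          linear_combination h3
        have h3 : ((g s).det - 1) * ((g s).det + 1) = 0 := by
          rw [sub_mul, mul_add, h2]; ring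
        exact sub_eq_zero.1 ((mul_eq_zero.1 h3).resolve_right h1)
      skew := hskew
      diag := hdiag
      nonzero := ⟨fun s => gm (w s), fun s => GmSO.gm_orth (hw s), hb'⟩
      dir := hd'
      ker := he' }
  have hI : HMIneq A K g := by
    intro L _ _ S T hS hT
    let _ : Algebra ℂ L := ((algebraMap K L).comp (algebraMap ℂ K)).toAlgebra
    have hst : IsScalarTower ℂ K L := IsScalarTower.of_algebraMap_eq (fun x => rfl)
    have hcz : CharZero L := charZero_of_injective_algebraMap (algebraMap K L).injective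
    refine hineq L (fun s => emb K L (g s)) ?_ S T hS hT
    -- transport the nonvanishing
    have h1 := hb' (MvPolynomial.rename Sum.inl P) 0 (by simp) (by
      rw [MvPolynomial.aeval_rename, ← MvPolynomial.coe_aeval_eq_eval] at *
      exact hP)
    rw [MvPolynomial.aeval_rename] at h1
    intro h2
    apply h1
    apply (algebraMap K L).injective
    rw [map_zero, ← h2, ← MvPolynomial.aeval_algebraMap_apply]
    rfl
  have hker := hcore K g H hG hI
  obtain ⟨h', H', hh', hH', _, hker'⟩ := hc' _ _ p.Lam ((p.Lam_trivial horth H).2 hker)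
  have ho' : ∀ s, (h' s)ᵀ * Jm n ℂ * h' s = Jm n ℂ := fun s => (hh' s).1
  exact SpLink.hasInvariant cfg hn h' ho'
    (fun s => by rw [(hh' s).2]; exact (GmSO.gm_orth (hw s)).2) (p.LH H') (p.LH_iso hH')
    (p.finrank_LH H') ((p.Lam_trivial ho' H').1 hker') U V W


end Crest.Agent.R172.Top
end

-- ▼ part R172/HM10
section

/-!
Row 172 (S0260), T5 in the language of `Cfg`: if the irreducible representations of weights
`N • a` have an invariant then, at the generic point, every isotropic subspace `S` satisfies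
`2 dim (N g ∩ S ⊗ U) ≤ |δ| dim S`.
-/

set_option autoImplicit false
set_option maxHeartbeats 400000
set_option linter.unusedSectionVars false

namespace Crest.Agent.R172.HM10

open Module Matrix Crest.AlgebraR.SpinSaturation
open Crest.Agent.R172.HM2 Crest.Agent.R172.HM4 Crest.Agent.R172.HM8
open Crest.Agent.R172.HM9 Crest.Agent.R172.Fwd
open Crest.Agent.R172.Gen (Jm Ix)
open Crest.Agent.R172.CF

universe u

variable {n : ℕ}

/-- `S` is isotropic -/
def Iso {K : Type*} [Field K] (S : Submodule K (Ix n → K)) : Prop :=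
  ∀ x ∈ S, ∀ y ∈ S, form n K x y = 0

/-- semistability of `N g`. -/
def Semi {a : Fin 3 → Fin n → ℤ} {K : Type*} [Field K] (c : Cfg n a)
    (g : Fin 3 → Matrix (Ix n) (Ix n) K) : Prop :=
  ∀ S : Submodule K (Ix n → K), Iso S →
    2 * finrank K ↥(c.N g ⊓ SU S) ≤ Fintype.card c.δ * finrank K S

theorem semi_of {a : Fin 3 → Fin n → ℤ} {K : Type*} [Field K] [CharZero K] (c : Cfg n a)
    {g : Fin 3 → Matrix (Ix n) (Ix n) K} (hg : ∀ s, Orth (g s))
    (h : ∀ S T : Submodule K (Fin n ⊕ Fin n → K),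
          (∀ x ∈ S, ∀ y ∈ S, HM2.form n K x y = 0) →
          (∀ v, v ∈ T ↔ ∀ s ∈ S, HM2.form n K v s = 0) →
          ∑ s, ∑ i : Fin n, (bb (a s) i - bb (a s) ((i : ℕ) + 1)) *
            ((finrank K ↥(S ⊓ Efl (a s) (g s) i) : ℤ) + finrank K ↥(T ⊓ Efl (a s) (g s) i) -
              finrank K (Efl (a s) (g s) i)) ≤ 0) : Semi c g := by
  intro S hS
  have hT : ∀ v, v ∈ (form n K).orthogonal S ↔ ∀ s ∈ S, form n K v s = 0 := by
    intro v
    rw [LinearMap.BilinForm.mem_orthogonal_iff]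
    constructor
    · intro h s hs
      rw [form_symm]; exact h s hs
    · intro h s hs
      change form n K s v = 0
      rw [form_symm]; exact h s hs
  have h1 := h S _ hS hT
  rw [hm_cfg_eq c hg hS hT] at h1
  have h2 : (2 * finrank K ↥(c.N g ⊓ SU S) : ℤ) ≤ Fintype.card c.δ * finrank K S := by
    linarith
  exact_mod_cast h2


end Crest.Agent.R172.HM10
end

-- ▼ part R172/Par1
section

/-!
Row 172 (S0260), node PAR, file 1: triple parity for Lagrangian subspaces of a quadratic space.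
-/

set_option autoImplicit false

namespace Crest.Agent.R172.Par

open Module LinearMap Crest.Agent.R172.Core

variable {K : Type*} [Field K] {W : Type*} [AddCommGroup W] [Module K W]

/-- A skew-symmetric form in which only `0` is in the left radical lives on an even dimensional
space. -/
theorem even_of_skew [FiniteDimensional K W] (h2 : (2 : K) ≠ 0) (ω : LinearMap.BilinForm K W)
    (hs : ∀ x y, ω x y = - ω y x) (hnd : ∀ x, (∀ y, ω x y = 0) → x = 0) :
    Even (finrank K W) := by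
  classical
  let b := Module.finBasis K W
  have hN : ω.Nondegenerate := ⟨fun x h => hnd x h, fun y h => hnd y (fun x => by
    rw [hs, h x, neg_zero])⟩
  have hdet := (LinearMap.BilinForm.nondegenerate_iff_det_ne_zero b).1 hN
  have hT : (LinearMap.BilinForm.toMatrix b ω).transpose = - LinearMap.BilinForm.toMatrix b ω := by
    ext i j
    rw [Matrix.transpose_apply, Matrix.neg_apply, LinearMap.BilinForm.toMatrix_apply,
      LinearMap.BilinForm.toMatrix_apply]
    exact hs _ _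
  have h1 : (LinearMap.BilinForm.toMatrix b ω).det = (-1) ^ (finrank K W) * (LinearMap.BilinForm.toMatrix b ω).det := by
    conv_lhs => rw [← Matrix.det_transpose, hT, Matrix.det_neg]
    simp
  rcases Nat.even_or_odd (finrank K W) with h | h
  · exact h
  · exfalso
    rw [h.neg_one_pow] at h1
    have h3 : (2 : K) * (LinearMap.BilinForm.toMatrix b ω).det = 0 := by linear_combination h1
    rcases mul_eq_zero.1 h3 with h | h
    · exact h2 h
    · exact hdet h

/-- rank parity of a skew form. -/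
theorem even_sub_of_skew [FiniteDimensional K W] (h2 : (2 : K) ≠ 0) (ω : LinearMap.BilinForm K W)
    (hs : ∀ x y, ω x y = - ω y x) (R : Submodule K W) (hR : ∀ x, x ∈ R ↔ ∀ y, ω x y = 0) :
    Even (finrank K W + finrank K R) := by
  obtain ⟨C, hC⟩ := Submodule.exists_isCompl R
  have h1 := Submodule.finrank_add_eq_of_isCompl hC
  have h3 : Even (finrank K C) := by
    apply even_of_skew h2 (ω.restrict C) (fun x y => hs _ _)
    intro x hx
    have hxR : (x : W) ∈ R := by
      rw [hR]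
      intro y
      have hy : y ∈ R ⊔ C := by rw [hC.sup_eq_top]; trivial
      obtain ⟨r, hr, c, hc, rfl⟩ := Submodule.mem_sup.1 hy
      rw [map_add, hs _ r, (hR r).1 hr, neg_zero, zero_add]
      exact hx ⟨c, hc⟩
    have := (Submodule.disjoint_def.1 hC.disjoint) _ hxR x.2
    exact Subtype.ext this
  obtain ⟨k, hk⟩ := h3
  exact ⟨finrank K R + k, by omega⟩

section Lag

variable {B : LinearMap.BilinForm K W}

theorem orth_sup (L M : Submodule K W) :
    B.orthogonal (L ⊔ M) = B.orthogonal L ⊓ B.orthogonal M := by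
  apply le_antisymm
  · exact le_inf (LinearMap.BilinForm.orthogonal_le le_sup_left)
      (LinearMap.BilinForm.orthogonal_le le_sup_right)
  · rintro x ⟨h1, h2⟩ y hy
    obtain ⟨l, hl, m, hm, rfl⟩ := Submodule.mem_sup.1 hy
    have e1 : B l x = 0 := h1 l hl
    have e2 : B m x = 0 := h2 m hm
    change B (l + m) x = 0
    rw [map_add, LinearMap.add_apply, e1, e2, add_zero]

theorem orth_inf [FiniteDimensional K W] (hB : NS B) (L M : Submodule K W) :
    B.orthogonal (L ⊓ M) = B.orthogonal L ⊔ B.orthogonal M := by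
  rw [← hB.oo (B.orthogonal L ⊔ B.orthogonal M), orth_sup, hB.oo, hB.oo]

/-- `L` is Lagrangian. -/
def Lag (B : LinearMap.BilinForm K W) (L : Submodule K W) : Prop := B.orthogonal L = L

theorem Lag.finrank [FiniteDimensional K W] (hB : NS B) {L : Submodule K W} (hL : Lag B L) :
    2 * finrank K L = finrank K W := by
  have h := LinearMap.BilinForm.finrank_orthogonal hB.nondeg L
  unfold Lag at hL
  rw [hL] at h
  have h2 := Submodule.finrank_le L
  omega

theorem Lag.iso {L : Submodule K W} (hL : Lag B L) {x y : W} (hx : x ∈ L) (hy : y ∈ L) :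
    B x y = 0 := by
  unfold Lag at hL
  rw [← hL] at hy
  exact hy x hx

/-- **Triple parity.** -/
theorem triple_parity [FiniteDimensional K W] (h2 : (2 : K) ≠ 0) (hB : NS B)
    {L₁ L₂ L₃ : Submodule K W} (h₁ : Lag B L₁) (h₂ : Lag B L₂) (h₃ : Lag B L₃) :
    Even (finrank K (L₁ ⊓ L₂ : Submodule K W) + finrank K (L₂ ⊓ L₃ : Submodule K W) +
      finrank K (L₁ ⊓ L₃ : Submodule K W) + finrank K L₁) := by
  classical
  have m1 := h₁.finrank hB
  have m2 := h₂.finrank hB
  have m3 := h₃.finrank hB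
  -- the space `Q`
  let S : (L₁ × L₂) →ₗ[K] (W ⧸ L₃) :=
    L₃.mkQ ∘ₗ (LinearMap.coprod L₁.subtype L₂.subtype)
  have hS : ∀ z : L₁ × L₂, z ∈ ker S ↔ (z.1 : W) + z.2 ∈ L₃ := by
    intro z
    rw [LinearMap.mem_ker]
    change L₃.mkQ ((z.1 : W) + z.2) = 0 ↔ _
    rw [Submodule.mkQ_apply, Submodule.Quotient.mk_eq_zero]
  -- dimension of `Q`
  have hdQ : finrank K (ker S) =
      finrank K L₁ + finrank K (L₁ ⊓ L₂ ⊓ L₃ : Submodule K W) := by
    have e1 := LinearMap.finrank_range_add_finrank_ker S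
    rw [Module.finrank_prod] at e1
    have hr : LinearMap.range S = (L₁ ⊔ L₂).map L₃.mkQ := by
      rw [LinearMap.range_comp, LinearMap.range_coprod, Submodule.range_subtype,
        Submodule.range_subtype]
    have e2 := LinearMap.finrank_range_add_finrank_ker (L₃.mkQ.domRestrict (L₁ ⊔ L₂))
    have hr2 : LinearMap.range (L₃.mkQ.domRestrict (L₁ ⊔ L₂)) = (L₁ ⊔ L₂).map L₃.mkQ := by
      rw [LinearMap.range_domRestrict]
    have hk2 : finrank K (ker (L₃.mkQ.domRestrict (L₁ ⊔ L₂))) =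
        finrank K ((L₁ ⊔ L₂) ⊓ L₃ : Submodule K W) := by
      have hm : (ker (L₃.mkQ.domRestrict (L₁ ⊔ L₂))).map (L₁ ⊔ L₂).subtype =
          (L₁ ⊔ L₂) ⊓ L₃ := by
        ext x
        constructor
        · rintro ⟨y, hy, rfl⟩
          refine ⟨y.2, ?_⟩
          have := LinearMap.mem_ker.1 hy
          change L₃.mkQ (y : W) = 0 at this
          rwa [Submodule.mkQ_apply, Submodule.Quotient.mk_eq_zero] at this
        · rintro ⟨hx1, hx2⟩
          refine ⟨⟨x, hx1⟩, ?_, rfl⟩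
          change L₃.mkQ.domRestrict (L₁ ⊔ L₂) ⟨x, hx1⟩ = 0
          change L₃.mkQ x = 0
          rwa [Submodule.mkQ_apply, Submodule.Quotient.mk_eq_zero]
      rw [← hm]
      exact LinearEquiv.finrank_eq
        (Submodule.equivMapOfInjective _ (Submodule.injective_subtype _) _)
    have e3 := Submodule.finrank_sup_add_finrank_inf_eq L₁ L₂
    have e4 : B.orthogonal ((L₁ ⊔ L₂) ⊓ L₃) = (L₁ ⊓ L₂) ⊔ L₃ := by
      have h₁' : B.orthogonal L₁ = L₁ := h₁
      have h₂' : B.orthogonal L₂ = L₂ := h₂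
      have h₃' : B.orthogonal L₃ = L₃ := h₃
      rw [orth_inf hB, orth_sup, h₁', h₂', h₃']
    have e5 := LinearMap.BilinForm.finrank_orthogonal hB.nondeg ((L₁ ⊔ L₂) ⊓ L₃)
    rw [e4] at e5
    have e6 := Submodule.finrank_sup_add_finrank_inf_eq (L₁ ⊓ L₂) L₃
    have e7 := Submodule.finrank_le ((L₁ ⊔ L₂) ⊓ L₃)
    have e8 := Submodule.finrank_mono (inf_le_left : L₁ ⊓ L₂ ≤ L₁)
    rw [hr] at e1
    rw [hr2, hk2] at e2
    have e9 : finrank K (L₁ ⊔ L₂ : Submodule K W) = finrank K (↥(L₁ ⊔ L₂)) := rfl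
    omega
  -- the form
  let ω : LinearMap.BilinForm K (ker S) :=
    LinearMap.mk₂ K (fun x y => B ((x : L₁ × L₂).1 : W) ((y : L₁ × L₂).2 : W))
      (by intro x y z; simp) (by intro c x y; simp) (by intro x y z; simp) (by intro c x y; simp)
  have hω : ∀ x y, ω x y = B ((x : L₁ × L₂).1 : W) ((y : L₁ × L₂).2 : W) := fun x y => rfl
  have hskew : ∀ x y, ω x y = - ω y x := by
    intro x y
    have hx := (hS _).1 x.2
    have hy := (hS _).1 y.2
    have h0 := h₃.iso hx hy
    rw [map_add, map_add, LinearMap.add_apply, LinearMap.add_apply,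
      h₁.iso (x : L₁ × L₂).1.2 (y : L₁ × L₂).1.2, h₂.iso (x : L₁ × L₂).2.2 (y : L₁ × L₂).2.2,
      hB.symm ((x : L₁ × L₂).2 : W) ((y : L₁ × L₂).1 : W)] at h0
    rw [hω, hω]
    linear_combination h0
  -- the radical as the range of `Ψ`
  let Ψ : ((L₁ ⊓ L₂ : Submodule K W) × (L₁ ⊓ L₃ : Submodule K W) × (L₂ ⊓ L₃ : Submodule K W))
      →ₗ[K] ker S :=
    { toFun := fun z => ⟨(⟨(z.1 : W) + z.2.1, L₁.add_mem z.1.2.1 z.2.1.2.1⟩,
          ⟨-(z.1 : W) + z.2.2, L₂.add_mem (L₂.neg_mem z.1.2.2) z.2.2.2.1⟩), by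
          rw [hS]
          have : ((z.1 : W) + z.2.1) + (-(z.1 : W) + z.2.2) = (z.2.1 : W) + z.2.2 := by abel
          change ((z.1 : W) + z.2.1) + (-(z.1 : W) + z.2.2) ∈ L₃
          rw [this]
          exact L₃.add_mem z.2.1.2.2 z.2.2.2.2⟩
      map_add' := by
        intro x y
        apply Subtype.ext
        refine Prod.ext (Subtype.ext ?_) (Subtype.ext ?_)
        · change ((x.1 : W) + y.1) + ((x.2.1 : W) + y.2.1) =
            ((x.1 : W) + x.2.1) + ((y.1 : W) + y.2.1)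
          abel
        · change -((x.1 : W) + y.1) + ((x.2.2 : W) + y.2.2) =
            (-(x.1 : W) + x.2.2) + (-(y.1 : W) + y.2.2)
          abel
      map_smul' := by
        intro c x
        apply Subtype.ext
        refine Prod.ext (Subtype.ext ?_) (Subtype.ext ?_)
        · change c • (x.1 : W) + c • (x.2.1 : W) = c • ((x.1 : W) + x.2.1)
          rw [smul_add]
        · change -(c • (x.1 : W)) + c • (x.2.2 : W) = c • (-(x.1 : W) + x.2.2)
          rw [smul_add, smul_neg] }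
  have hΨ1 : ∀ z, (((Ψ z : ker S) : L₁ × L₂).1 : W) = (z.1 : W) + z.2.1 := fun z => rfl
  have hΨ2 : ∀ z, (((Ψ z : ker S) : L₁ × L₂).2 : W) = -(z.1 : W) + z.2.2 := fun z => rfl
  have hrad : ∀ x, x ∈ LinearMap.range Ψ ↔ ∀ y, ω x y = 0 := by
    intro x
    constructor
    · rintro ⟨z, rfl⟩ y
      rw [hω, hΨ1, map_add, LinearMap.add_apply,
        h₂.iso z.1.2.2 (y : L₁ × L₂).2.2, zero_add]
      -- `z.2.1 ∈ L₁ ⊓ L₃`
      have hy := (hS _).1 y.2
      have h0 := h₃.iso z.2.1.2.2 hy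
      rw [map_add, h₁.iso z.2.1.2.1 (y : L₁ × L₂).1.2, zero_add] at h0
      exact h0
    · intro hx
      -- `x₁ ∈ L₂ ⊔ (L₁ ⊓ L₃)`
      have hmem : ((x : L₁ × L₂).1 : W) ∈ L₂ ⊔ (L₁ ⊓ L₃) := by
        have h₁' : B.orthogonal L₁ = L₁ := h₁
        have h₂' : B.orthogonal L₂ = L₂ := h₂
        have h₃' : B.orthogonal L₃ = L₃ := h₃
        have he : B.orthogonal (L₂ ⊓ (L₁ ⊔ L₃)) = L₂ ⊔ (L₁ ⊓ L₃) := by
          rw [orth_inf hB, orth_sup, h₁', h₂', h₃']
        rw [← he]
        rintro y ⟨hy2, hy13⟩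
        obtain ⟨a, ha, c, hc, hac⟩ := Submodule.mem_sup.1 hy13
        have hq : ((⟨-a, L₁.neg_mem ha⟩, ⟨y, hy2⟩) : L₁ × L₂) ∈ ker S := by
          rw [hS]
          change -a + y ∈ L₃
          rw [← hac]
          have : -a + (a + c) = c := by abel
          rw [this]
          exact hc
        have := hx ⟨_, hq⟩
        rw [hω] at this
        change B y ((x : L₁ × L₂).1 : W) = 0
        rw [hB.symm]
        exact this
      obtain ⟨a, ha, c, hc, hac⟩ := Submodule.mem_sup.1 hmem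
      have ha1 : a ∈ L₁ := by
        have : a = ((x : L₁ × L₂).1 : W) - c := by rw [← hac]; abel
        rw [this]
        exact L₁.sub_mem (x : L₁ × L₂).1.2 hc.1
      have hxS := (hS _).1 x.2
      have hd3 : a + ((x : L₁ × L₂).2 : W) ∈ L₃ := by
        have : a + ((x : L₁ × L₂).2 : W) =
            (((x : L₁ × L₂).1 : W) + ((x : L₁ × L₂).2 : W)) - c := by rw [← hac]; abel
        rw [this]
        exact L₃.sub_mem hxS hc.2
      refine ⟨(⟨a, ha1, ha⟩, ⟨c, hc⟩, ⟨a + ((x : L₁ × L₂).2 : W),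
        L₂.add_mem ha (x : L₁ × L₂).2.2, hd3⟩), ?_⟩
      apply Subtype.ext
      refine Prod.ext (Subtype.ext ?_) (Subtype.ext ?_)
      · exact hac
      · change -a + (a + ((x : L₁ × L₂).2 : W)) = ((x : L₁ × L₂).2 : W)
        abel
  have heven := even_sub_of_skew h2 ω hskew (LinearMap.range Ψ) hrad
  -- dimension of the radical
  have hdR := LinearMap.finrank_range_add_finrank_ker Ψ
  rw [Module.finrank_prod, Module.finrank_prod] at hdR
  have hkΨ : finrank K (ker Ψ) = finrank K (L₁ ⊓ L₂ ⊓ L₃ : Submodule K W) := by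
    let κ : (L₁ ⊓ L₂ ⊓ L₃ : Submodule K W) ≃ₗ[K] ker Ψ :=
      { toFun := fun a => ⟨(⟨a, a.2.1⟩, ⟨-(a : W), L₁.neg_mem a.2.1.1, L₃.neg_mem a.2.2⟩,
            ⟨a, a.2.1.2, a.2.2⟩), by
            rw [LinearMap.mem_ker]
            apply Subtype.ext
            refine Prod.ext (Subtype.ext ?_) (Subtype.ext ?_)
            · change (a : W) + -(a : W) = 0
              abel
            · change -(a : W) + (a : W) = 0
              abel⟩
        map_add' := by
          intro a b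
          apply Subtype.ext
          refine Prod.ext (Subtype.ext rfl) (Prod.ext (Subtype.ext ?_) (Subtype.ext rfl))
          change -((a : W) + b) = -(a : W) + -(b : W)
          abel
        map_smul' := by
          intro c a
          apply Subtype.ext
          refine Prod.ext (Subtype.ext rfl) (Prod.ext (Subtype.ext ?_) (Subtype.ext rfl))
          change -(c • (a : W)) = c • -(a : W)
          rw [smul_neg]
        invFun := fun z => ⟨((z : (L₁ ⊓ L₂ : Submodule K W) × (L₁ ⊓ L₃ : Submodule K W) ×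
            (L₂ ⊓ L₃ : Submodule K W)).1 : W), by
            obtain ⟨⟨a, b, c⟩, hz⟩ := z
            refine ⟨a.2, ?_⟩
            have h1 := congrArg (fun w : ker S => ((w : L₁ × L₂).1 : W)) (LinearMap.mem_ker.1 hz)
            have h2 : (a : W) + b = 0 := h1
            have h3 : (a : W) = -(b : W) := eq_neg_of_add_eq_zero_left h2
            change (a : W) ∈ L₃
            rw [h3]
            exact L₃.neg_mem b.2.2⟩
        left_inv := by
          intro a; rfl
        right_inv := by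
          rintro ⟨⟨a, b, c⟩, hz⟩
          have h1 := congrArg (fun w : ker S => ((w : L₁ × L₂).1 : W)) (LinearMap.mem_ker.1 hz)
          have h2 : (a : W) + b = 0 := h1
          have h3 := congrArg (fun w : ker S => ((w : L₁ × L₂).2 : W)) (LinearMap.mem_ker.1 hz)
          have h4 : -(a : W) + c = 0 := h3
          apply Subtype.ext
          refine Prod.ext (Subtype.ext rfl) (Prod.ext (Subtype.ext ?_) (Subtype.ext ?_))
          · change -(a : W) = b
            exact (neg_eq_of_add_eq_zero_right h2)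
          · change (a : W) = c
            have := eq_neg_of_add_eq_zero_right h4
            rw [this, neg_neg] }
    exact (LinearEquiv.finrank_eq κ).symm
  have hin : L₁ ⊓ L₃ = L₁ ⊓ L₃ := rfl
  rw [Nat.even_iff] at heven ⊢
  omega

end Lag

end Crest.Agent.R172.Par
end

-- ▼ part R172/Par2
section

/-!
Row 172 (S0260), node PAR, file 2: `det γ = (-1)^{rank (1-γ)}` for an isometry (Wall), and the
parity of intersections of Lagrangians.
-/

set_option autoImplicit false

namespace Crest.Agent.R172.Par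

open Module LinearMap Crest.Agent.R172.Core

variable {K : Type*} [Field K] {W : Type*} [AddCommGroup W] [Module K W]

theorem ns_ext {B : LinearMap.BilinForm K W} (hB : NS B) {x y : W} (h : ∀ z, B x z = B y z) :
    x = y := by
  rw [← sub_eq_zero]
  apply hB.nd
  intro z
  rw [map_sub, LinearMap.sub_apply, h, sub_self]

section Wall

variable {B : LinearMap.BilinForm K W}

/-- orthogonality of `ker (1-γ)` and `range (1-γ)` -/
theorem ker_orth {γ : W →ₗ[K] W} (hγ : ∀ x y, B (γ x) (γ y) = B x y) {u : W}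
    (hu : u - γ u = 0) (v : W) : B u (v - γ v) = 0 := by
  have h1 : γ u = u := (sub_eq_zero.1 hu).symm
  rw [map_sub, ← hγ u v, h1, sub_self]

theorem mem_ker_of_orth [FiniteDimensional K W] (hB : NS B) {γ : W →ₗ[K] W}
    (hγ : ∀ x y, B (γ x) (γ y) = B x y)
    {u : W} (hu : ∀ v, B u (v - γ v) = 0) : u - γ u = 0 := by
  have hinj : Function.Injective γ := by
    rw [← LinearMap.ker_eq_bot, LinearMap.ker_eq_bot']
    intro x hx
    apply ns_ext hB
    intro y
    rw [map_zero, LinearMap.zero_apply, ← hγ x y, hx, map_zero, LinearMap.zero_apply]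
  have hsurj : Function.Surjective γ := LinearMap.injective_iff_surjective.1 hinj
  apply ns_ext hB
  intro y
  rw [map_zero, LinearMap.zero_apply]
  obtain ⟨v, rfl⟩ := hsurj y
  have h := hu v
  rw [map_sub, sub_eq_zero] at h
  rw [map_sub, LinearMap.sub_apply, hγ u v, h, sub_self]

/-- **Wall**: `det γ = (-1) ^ rank (1 - γ)`. -/
theorem det_isometry [FiniteDimensional K W] (hB : NS B) {γ : W →ₗ[K] W}
    (hγ : ∀ x y, B (γ x) (γ y) = B x y) :
    LinearMap.det γ = (-1) ^ finrank K (LinearMap.range (LinearMap.id - γ)) := by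
  classical
  set τ : W →ₗ[K] W := LinearMap.id - γ with hτ
  have hτa : ∀ x, τ x = x - γ x := fun x => rfl
  set R := LinearMap.range τ with hR
  have hinv : R ≤ R.comap γ := by
    rintro x ⟨u, rfl⟩
    refine ⟨γ u, ?_⟩
    rw [hτa, hτa, map_sub]
  have hmap : R.mapQ R γ hinv = LinearMap.id := by
    apply Submodule.linearMap_qext
    ext x
    change (R.mapQ R γ hinv) (R.mkQ x) = R.mkQ x
    rw [Submodule.mkQ_apply, Submodule.mapQ_apply, Submodule.Quotient.eq]
    refine ⟨-x, ?_⟩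
    rw [hτa, map_neg]
    abel
  rw [LinearMap.det_eq_det_mul_det R γ hinv, hmap, LinearMap.det_id, mul_one]
  obtain ⟨σ, hσ⟩ := LinearMap.exists_rightInverse_of_surjective τ.rangeRestrict
    (LinearMap.range_rangeRestrict τ)
  have hσa : ∀ x : R, σ x - γ (σ x) = (x : W) := by
    intro x
    have := congrArg (fun f : R →ₗ[K] R => ((f x : R) : W)) hσ
    exact this
  let θ : LinearMap.BilinForm K R := B.compl₁₂ σ R.subtype
  have hθ : ∀ x y : R, θ x y = B (σ x) (y : W) := fun x y => rfl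
  have hθγ : ∀ x y : R, θ (γ.restrict hinv x) y = - θ y x := by
    intro x y
    rw [hθ, hθ]
    have h1 : (σ (γ.restrict hinv x) - γ (σ x)) - γ (σ (γ.restrict hinv x) - γ (σ x)) = 0 := by
      have e1 := hσa (γ.restrict hinv x)
      have e2 := hσa x
      have e3 : ((γ.restrict hinv x : R) : W) = γ x := rfl
      rw [e3, ← e2] at e1
      rw [map_sub] at e1 ⊢
      rw [sub_sub_sub_comm, e1, sub_self]
    have h2 := ker_orth hγ h1 (σ y)
    rw [hσa y, map_sub, LinearMap.sub_apply, sub_eq_zero] at h2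
    rw [h2]
    conv_lhs => rw [← hσa y, map_sub, hγ]
    conv_rhs => rw [← hσa x, map_sub]
    have h3 : B (γ (σ x)) (σ y) = B (σ y) (γ (σ x)) := hB.symm _ _
    have h4 : B (σ x) (σ y) = B (σ y) (σ x) := hB.symm _ _
    rw [h3, h4]
    ring
  have hθnd : θ.Nondegenerate := by
    have hl : ∀ x, (∀ y, θ x y = 0) → x = 0 := by
      intro x hx
      have h1 : σ x - γ (σ x) = 0 := by
        apply mem_ker_of_orth hB hγ
        intro v
        exact hx ⟨v - γ v, v, hτa v⟩
      rw [hσa x] at h1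
      exact Subtype.ext h1
    refine ⟨hl, fun y hy => ?_⟩
    apply hl
    intro x
    have := hθγ x y
    rw [hy] at this
    have h2 : θ y x = 0 := by
      have h3 : θ y x = - (- θ y x) := by ring
      rw [h3, ← this, neg_zero]
    exact h2
  let b := Module.finBasis K R
  have hdet := (LinearMap.BilinForm.nondegenerate_iff_det_ne_zero b).1 hθnd
  have hT : LinearMap.BilinForm.toMatrix b (θ.compLeft (γ.restrict hinv)) =
      - (LinearMap.BilinForm.toMatrix b θ).transpose := by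
    ext i j
    rw [Matrix.neg_apply, Matrix.transpose_apply, LinearMap.BilinForm.toMatrix_apply,
      LinearMap.BilinForm.toMatrix_apply]
    exact hθγ _ _
  rw [LinearMap.BilinForm.toMatrix_compLeft] at hT
  have h1 := congrArg Matrix.det hT
  rw [Matrix.det_mul, Matrix.det_transpose, Matrix.det_neg, Matrix.det_transpose,
    LinearMap.det_toMatrix, Fintype.card_fin] at h1
  exact mul_right_cancel₀ hdet h1

end Wall

section Two

variable {B : LinearMap.BilinForm K W}

/-- the form `B ⊖ B` on `W × W` -/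
def dbl (B : LinearMap.BilinForm K W) : LinearMap.BilinForm K (W × W) :=
  LinearMap.mk₂ K (fun x y => B x.1 y.1 - B x.2 y.2)
    (by intro x y z; simp; ring) (by intro c x y; simp; ring)
    (by intro x y z; simp; ring) (by intro c x y; simp; ring)

theorem dbl_apply (x y : W × W) : dbl B x y = B x.1 y.1 - B x.2 y.2 := rfl

theorem NS_dbl (hB : NS B) : NS (dbl B) := by
  refine ⟨fun x y => ?_, fun x hx => ?_⟩
  · rw [dbl_apply, dbl_apply, hB.symm x.1, hB.symm x.2]
  · apply Prod.ext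
    · apply hB.nd
      intro y
      have := hx (y, 0)
      rw [dbl_apply, map_zero, sub_zero] at this
      exact this
    · apply hB.nd
      intro y
      have := hx (0, y)
      rw [dbl_apply, map_zero, zero_sub, neg_eq_zero] at this
      exact this

theorem Lag_graph (hB : NS B) {γ : W →ₗ[K] W} (hγ : ∀ x y, B (γ x) (γ y) = B x y)
    (hs : Function.Surjective γ) :
    Lag (dbl B) (LinearMap.range (LinearMap.prod LinearMap.id γ)) := by
  apply le_antisymm
  · intro z hz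
    refine ⟨z.1, ?_⟩
    apply Prod.ext
    · rfl
    · change γ z.1 = z.2
      apply ns_ext hB
      intro y
      obtain ⟨x, rfl⟩ := hs y
      rw [hγ]
      have h := hz (x, γ x) ⟨x, rfl⟩
      change dbl B (x, γ x) z = 0 at h
      rw [dbl_apply, sub_eq_zero] at h
      rw [hB.symm, hB.symm z.2]
      exact h
  · rintro _ ⟨x, rfl⟩ _ ⟨y, rfl⟩
    change dbl B (y, γ y) (x, γ x) = 0
    rw [dbl_apply, hγ, sub_self]

theorem Lag_prod {L₁ L₂ : Submodule K W} (h₁ : Lag B L₁) (h₂ : Lag B L₂) :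
    Lag (dbl B) (L₁.prod L₂) := by
  apply le_antisymm
  · intro z hz
    constructor
    · have h : z.1 ∈ B.orthogonal L₁ := by
        intro x hx
        have := hz (x, 0) ⟨hx, L₂.zero_mem⟩
        change dbl B (x, 0) z = 0 at this
        rw [dbl_apply, map_zero, LinearMap.zero_apply, sub_zero] at this
        exact this
      unfold Lag at h₁
      rwa [h₁] at h
    · have h : z.2 ∈ B.orthogonal L₂ := by
        intro x hx
        have := hz (0, x) ⟨L₁.zero_mem, hx⟩
        change dbl B (0, x) z = 0 at this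
        rw [dbl_apply, map_zero, LinearMap.zero_apply, zero_sub, neg_eq_zero] at this
        exact this
      unfold Lag at h₂
      rwa [h₂] at h
  · rintro z ⟨hz1, hz2⟩ w ⟨hw1, hw2⟩
    change dbl B w z = 0
    rw [dbl_apply, h₁.iso hw1 hz1, h₂.iso hw2 hz2, sub_self]

/-- **Parity of intersections**: an isometry of determinant one does not change the parity of the
dimension of the intersection of two Lagrangian subspaces. -/
theorem inter_parity [FiniteDimensional K W] (h2 : (2 : K) ≠ 0) (hB : NS B) {γ : W →ₗ[K] W}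
    (hγ : ∀ x y, B (γ x) (γ y) = B x y) (hdet : LinearMap.det γ = 1)
    {L₁ L₂ : Submodule K W} (h₁ : Lag B L₁) (h₂ : Lag B L₂) :
    Even (finrank K (L₁ ⊓ L₂ : Submodule K W) +
      finrank K (L₁.map γ ⊓ L₂ : Submodule K W)) := by
  classical
  have hinj : Function.Injective γ := by
    rw [← LinearMap.ker_eq_bot, LinearMap.ker_eq_bot']
    intro x hx
    apply hB.nd
    intro y
    rw [← hγ x y, hx, map_zero, LinearMap.zero_apply]
  have hsurj : Function.Surjective γ := LinearMap.injective_iff_surjective.1 hinj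
  -- Wall
  have hr : Even (finrank K (LinearMap.range (LinearMap.id - γ))) := by
    have h := det_isometry hB hγ
    rw [hdet] at h
    rcases Nat.even_or_odd (finrank K (LinearMap.range (LinearMap.id - γ))) with h' | h'
    · exact h'
    · exfalso
      rw [h'.neg_one_pow] at h
      apply h2
      linear_combination h
  -- the triple
  have hD : Lag (dbl B) (LinearMap.range (LinearMap.prod LinearMap.id (LinearMap.id : W →ₗ[K] W))) :=
    Lag_graph hB (fun x y => rfl) Function.surjective_id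
  have hG := Lag_graph hB hγ hsurj
  have hP := Lag_prod h₁ h₂
  have hT := triple_parity h2 (NS_dbl hB) hD hG hP
  -- dimension of the diagonal
  have e0 : finrank K (LinearMap.range (LinearMap.prod LinearMap.id (LinearMap.id : W →ₗ[K] W)))
      = finrank K W := by
    apply LinearMap.finrank_range_of_inj
    intro x y h
    exact congrArg Prod.fst h
  have hWeven : Even (finrank K W) := ⟨finrank K L₁, by have := h₁.finrank hB; omega⟩
  -- general description of the intersections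
  have e1 : finrank K (LinearMap.range (LinearMap.prod LinearMap.id (LinearMap.id : W →ₗ[K] W)) ⊓
      LinearMap.range (LinearMap.prod LinearMap.id γ) : Submodule K (W × W)) =
      finrank K (ker (LinearMap.id - γ)) := by
    have hm : (ker (LinearMap.id - γ)).map (LinearMap.prod LinearMap.id γ) =
        LinearMap.range (LinearMap.prod LinearMap.id (LinearMap.id : W →ₗ[K] W)) ⊓
      LinearMap.range (LinearMap.prod LinearMap.id γ) := by
      ext z
      constructor
      · rintro ⟨x, hx, rfl⟩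
        refine ⟨⟨x, ?_⟩, x, rfl⟩
        have h : x - γ x = 0 := hx
        have h' : γ x = x := (sub_eq_zero.1 h).symm
        change (x, x) = (x, γ x)
        rw [h']
      · rintro ⟨⟨x, rfl⟩, y, hy⟩
        have e1 : y = x := congrArg Prod.fst hy
        have e2 : γ y = x := congrArg Prod.snd hy
        refine ⟨y, ?_, hy⟩
        change y - γ y = 0
        rw [e1] at e2 ⊢
        rw [e2, sub_self]
    rw [← hm]
    exact (LinearEquiv.finrank_eq (Submodule.equivMapOfInjective _ (fun x y h =>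
      congrArg Prod.fst h) _)).symm
  have gen : ∀ ε : W →ₗ[K] W, Function.Injective ε →
      finrank K (LinearMap.range (LinearMap.prod LinearMap.id ε) ⊓ L₁.prod L₂ :
        Submodule K (W × W)) = finrank K (L₁.map ε ⊓ L₂ : Submodule K W) := by
    intro ε hε
    have hm1 : (L₁ ⊓ L₂.comap ε).map (LinearMap.prod LinearMap.id ε) =
        LinearMap.range (LinearMap.prod LinearMap.id ε) ⊓ L₁.prod L₂ := by
      ext z
      constructor
      · rintro ⟨x, hx, rfl⟩
        exact ⟨⟨x, rfl⟩, hx.1, hx.2⟩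
      · rintro ⟨⟨x, rfl⟩, hx⟩
        exact ⟨x, ⟨hx.1, hx.2⟩, rfl⟩
    have hm2 : (L₁ ⊓ L₂.comap ε).map ε = L₁.map ε ⊓ L₂ := by
      ext z
      constructor
      · rintro ⟨x, hx, rfl⟩
        exact ⟨⟨x, hx.1, rfl⟩, hx.2⟩
      · rintro ⟨⟨x, hx, rfl⟩, hz⟩
        exact ⟨x, ⟨hx, hz⟩, rfl⟩
    rw [← hm1, ← hm2]
    rw [← LinearEquiv.finrank_eq (Submodule.equivMapOfInjective (LinearMap.prod LinearMap.id ε)
      (fun x y h => congrArg Prod.fst h) (L₁ ⊓ L₂.comap ε))]
    rw [← LinearEquiv.finrank_eq (Submodule.equivMapOfInjective ε hε (L₁ ⊓ L₂.comap ε))]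
  rw [e0, e1, gen γ hinj, gen LinearMap.id Function.injective_id, Submodule.map_id] at hT
  have e2 := LinearMap.finrank_range_add_finrank_ker (LinearMap.id - γ)
  rw [Nat.even_iff] at *
  omega

end Two

end Crest.Agent.R172.Par
end

-- ▼ part R172/Par3
section

/-!
Row 172 (S0260), node PAR, file 3: the concrete configuration.  `V = Fin n ⊕ Fin n → K`,
`U = δ → K` with the form `B d e = if e = σ d then 1 else 0`, `V ⊗ U = Matrix (Fin n ⊕ Fin n) δ K`.
Main result: `Par.even_finrank`: `dim ((⊕ g_s n_s) ∩ (V ⊗ L))` is even when the total weight is in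
the root lattice.
-/

set_option autoImplicit false
set_option linter.unusedSectionVars false

namespace Crest.Agent.R172.Par

open Module Matrix Crest.Agent.R172.Core Crest.Agent.R172

section Gen

variable {ι : Type*} [Fintype ι] [DecidableEq ι] {δ : Type*} [Fintype δ] [DecidableEq δ]
  {K : Type*} [Field K]

/-- the pairing on `V ⊗ U` as a bilinear form -/
def pf (J : Matrix ι ι K) (B : Matrix δ δ K) : LinearMap.BilinForm K (Matrix ι δ K) :=
  LinearMap.mk₂ K (fun F F' => FO.pair J B F F')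
    (by intro x y z; simp [FO.pair, Matrix.add_mul])
    (by intro c x y; simp [FO.pair])
    (by intro x y z; simp [FO.pair, Matrix.add_mul, Matrix.mul_add])
    (by intro c x y; simp [FO.pair])

theorem pf_apply (J : Matrix ι ι K) (B : Matrix δ δ K) (F F' : Matrix ι δ K) :
    pf J B F F' = trace (Fᵀ * J * F' * B) := rfl

/-- the pairing by rows -/
theorem pf_rows (J : Matrix ι ι K) (B : Matrix δ δ K) (F F' : Matrix ι δ K) :
    pf J B F F' = ∑ i, ∑ j, J i j * (F' j ⬝ᵥ (B *ᵥ (F i))) := by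
  rw [pf_apply]
  have h1 : trace (Fᵀ * J * F' * B) = trace (J * (F' * B * Fᵀ)) := by
    rw [Matrix.mul_assoc, Matrix.mul_assoc, Matrix.trace_mul_comm, Matrix.mul_assoc]
  rw [h1]
  rw [Matrix.trace]
  apply Finset.sum_congr rfl
  intro i _
  rw [Matrix.diag_apply, Matrix.mul_apply]
  apply Finset.sum_congr rfl
  intro j _
  congr 1
  rw [Matrix.mul_assoc, Matrix.mul_apply]
  rfl

theorem NS_pf {J : Matrix ι ι K} {B : Matrix δ δ K} (hJ : Jᵀ = J) (hB : Bᵀ = B)
    (hJ2 : J * J = 1) (hB2 : B * B = 1) : NS (pf J B) := by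
  refine ⟨fun F F' => ?_, fun F hF => ?_⟩
  · rw [pf_apply, pf_apply, ← Matrix.trace_transpose (Fᵀ * J * F' * B)]
    rw [Matrix.transpose_mul, Matrix.transpose_mul, Matrix.transpose_mul, hB, hJ,
      Matrix.transpose_transpose, Matrix.trace_mul_comm]
    simp only [Matrix.mul_assoc]
  · have h : B * Fᵀ * J = 0 := by
      ext d i
      have h1 := hF (Matrix.single i d (1 : K))
      rw [pf_apply] at h1
      have h2 : trace (Fᵀ * J * Matrix.single i d (1 : K) * B) =
          trace (B * Fᵀ * J * Matrix.single i d (1 : K)) := by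
        rw [Matrix.trace_mul_comm (Fᵀ * J * Matrix.single i d 1) B]
        simp only [Matrix.mul_assoc]
      rw [h2, Matrix.trace_mul_single] at h1
      simpa using h1
    have h3 : Fᵀ = 0 := by
      have : Fᵀ = B * (B * Fᵀ * J) * J := by
        rw [← Matrix.mul_assoc, ← Matrix.mul_assoc, hB2, Matrix.one_mul, Matrix.mul_assoc, hJ2,
          Matrix.mul_one]
      rw [this, h, Matrix.mul_zero, Matrix.zero_mul]
    have := congrArg Matrix.transpose h3
    rwa [Matrix.transpose_transpose, Matrix.transpose_zero] at this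

/-- the joint action of `g` as a linear map -/
def actL (arm : δ → Fin 3) (g : Fin 3 → Matrix ι ι K) : Matrix ι δ K →ₗ[K] Matrix ι δ K where
  toFun F := FO.act arm g F
  map_add' x y := by
    simp [FO.act, Matrix.mul_add, Matrix.add_mul, Finset.sum_add_distrib]
  map_smul' c x := by
    simp [FO.act, Finset.smul_sum]

theorem actL_apply (arm : δ → Fin 3) (g : Fin 3 → Matrix ι ι K) (F : Matrix ι δ K) :
    actL arm g F = FO.act arm g F := rfl

theorem act_entry (arm : δ → Fin 3) (g : Fin 3 → Matrix ι ι K) (F : Matrix ι δ K) (i : ι) (d : δ) :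
    FO.act arm g F i d = ∑ j, g (arm d) i j * F j d := by
  unfold FO.act
  rw [Matrix.sum_apply]
  unfold FO.E
  simp only [Matrix.mul_diagonal]
  rw [Finset.sum_eq_single (arm d)]
  · simp [Matrix.mul_apply]
  · intro s _ hs
    rw [if_neg (Ne.symm hs), mul_zero]
  · intro h; exact absurd (Finset.mem_univ _) h

theorem det_actL (arm : δ → Fin 3) (g : Fin 3 → Matrix ι ι K) :
    LinearMap.det (actL arm g) = ∏ d, (g (arm d)).det := by
  let e : Matrix ι δ K ≃ₗ[K] (δ → ι → K) := Matrix.transposeLinearEquiv ι δ K K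
  have h := LinearMap.det_conj (actL arm g) e
  have h1 : (e.toLinearMap ∘ₗ actL arm g ∘ₗ e.symm.toLinearMap) =
      LinearMap.pi (fun d => (Matrix.toLin' (g (arm d))).comp (LinearMap.proj d)) := by
    apply LinearMap.ext
    intro x
    funext d i
    change FO.act arm g (e.symm x) i d = (Matrix.toLin' (g (arm d)) (x d)) i
    rw [act_entry, Matrix.toLin'_apply]
    rfl
  rw [← h, h1, LinearMap.det_pi]
  apply Finset.prod_congr rfl
  intro d _
  rw [LinearMap.det_toLin']

theorem actL_isometry {arm : δ → Fin 3} {g : Fin 3 → Matrix ι ι K} {J : Matrix ι ι K}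
    {B : Matrix δ δ K} (hBE : ∀ s, FO.E K arm s * B = B * FO.E K arm s)
    (hg : ∀ s, (g s)ᵀ * J * g s = J) (F F' : Matrix ι δ K) :
    pf J B (actL arm g F) (actL arm g F') = pf J B F F' := by
  rw [pf_apply, pf_apply, actL_apply, actL_apply]
  have h1 : trace ((FO.act arm g F)ᵀ * J * FO.act arm g F' * B) =
      ∑ s, trace (Fᵀ * J * F' * FO.E K arm s * B) := by
    have e1 : FO.act arm g F = ∑ s, g s * F * FO.E K arm s := rfl
    rw [e1, Matrix.transpose_sum, Matrix.sum_mul, Matrix.sum_mul, Matrix.sum_mul,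
      Matrix.trace_sum]
    apply Finset.sum_congr rfl
    intro s _
    have e2 : ((g s * F * FO.E K arm s)ᵀ * J * FO.act arm g F' * B) =
        FO.E K arm s * (Fᵀ * (g s)ᵀ * J * FO.act arm g F' * B) := by
      rw [Matrix.transpose_mul, Matrix.transpose_mul, FO.E_transpose]
      simp only [Matrix.mul_assoc]
    rw [e2, Matrix.trace_mul_comm]
    have e3 : Fᵀ * (g s)ᵀ * J * FO.act arm g F' * B * FO.E K arm s =
        Fᵀ * (g s)ᵀ * J * (FO.act arm g F' * FO.E K arm s) * B := by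
      rw [Matrix.mul_assoc _ B, ← hBE s]
      simp only [Matrix.mul_assoc]
    rw [e3, FO.act_mul_E]
    have e4 : Fᵀ * (g s)ᵀ * J * (g s * F' * FO.E K arm s) * B =
        Fᵀ * ((g s)ᵀ * J * g s) * F' * FO.E K arm s * B := by
      simp only [Matrix.mul_assoc]
    rw [e4, hg]
  rw [h1, ← Matrix.trace_sum]
  congr 1
  have e5 : ∑ s, Fᵀ * J * F' * FO.E K arm s * B = Fᵀ * J * F' * (∑ s, FO.E K arm s) * B := by
    rw [Matrix.mul_sum, Matrix.sum_mul]
  rw [e5, FO.sum_E, Matrix.mul_one]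

/-- `V ⊗ L` : all the rows are in `L` -/
def VLs (ι : Type*) (L : Submodule K (δ → K)) : Submodule K (Matrix ι δ K) where
  carrier := {F | ∀ i, F i ∈ L}
  add_mem' h1 h2 i := L.add_mem (h1 i) (h2 i)
  zero_mem' _ := L.zero_mem
  smul_mem' c _ h i := L.smul_mem c (h i)


theorem Lag_VLs {J : Matrix ι ι K} {B : Matrix δ δ K} (hB : Bᵀ = B)
    (hJ2 : J * J = 1) {L : Submodule K (δ → K)} (hL : Lag (Matrix.toBilin' B) L) :
    Lag (pf J B) (VLs ι L) := by
  have hBs : ∀ x y : δ → K, x ⬝ᵥ (B *ᵥ y) = y ⬝ᵥ (B *ᵥ x) := by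
    intro x y
    rw [Matrix.dotProduct_mulVec, ← Matrix.mulVec_transpose, hB, dotProduct_comm]
  apply le_antisymm
  · intro F' hF'
    have h1 : ∀ i, (J * F') i ∈ L := by
      intro i
      have hL' : (Matrix.toBilin' B).orthogonal L = L := hL
      rw [← hL']
      intro l hl
      change Matrix.toBilin' B l ((J * F') i) = 0
      rw [Matrix.toBilin'_apply']
      have h := hF' (Matrix.of (fun i' d => if i' = i then l d else 0)) (by
        intro i'
        by_cases hi : i' = i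
        · have : (Matrix.of (fun i' d => if i' = i then l d else 0) : Matrix ι δ K) i' = l := by
            funext d
            simp [hi]
          rw [this]; exact hl
        · have : (Matrix.of (fun i' d => if i' = i then l d else 0) : Matrix ι δ K) i' = 0 := by
            funext d
            simp [hi]
          rw [this]; exact L.zero_mem)
      change pf J B _ F' = 0 at h
      rw [pf_rows, Finset.sum_eq_single i] at h
      · have e1 : (Matrix.of (fun i' d => if i' = i then l d else 0) : Matrix ι δ K) i = l := by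
          funext d
          simp
        rw [e1] at h
        rw [hBs l]
        have e2 : (J * F') i = ∑ j, J i j • F' j := by
          funext d
          simp [Matrix.mul_apply, Finset.sum_apply]
        rw [e2, sum_dotProduct]
        rw [← h]
        apply Finset.sum_congr rfl
        intro j _
        rw [smul_dotProduct, smul_eq_mul]
      · intro i' _ hi
        have e1 : (Matrix.of (fun i' d => if i' = i then l d else 0) : Matrix ι δ K) i' = 0 := by
          funext d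
          simp [hi]
        rw [e1]
        simp
      · intro h; exact absurd (Finset.mem_univ _) h
    intro i
    have e3 : F' i = ∑ j, J i j • (J * F') j := by
      have : F' = J * (J * F') := by rw [← Matrix.mul_assoc, hJ2, Matrix.one_mul]
      conv_lhs => rw [this]
      funext d
      simp [Matrix.mul_apply, Finset.sum_apply]
    rw [e3]
    exact L.sum_mem (fun j _ => L.smul_mem _ (h1 j))
  · intro F' hF' F hF
    change pf J B F F' = 0
    rw [pf_rows]
    apply Finset.sum_eq_zero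
    intro i _
    apply Finset.sum_eq_zero
    intro j _
    have h := hL.iso (hF i) (hF' j)
    rw [Matrix.toBilin'_apply'] at h
    rw [hBs, h, mul_zero]

end Gen

end Crest.Agent.R172.Par
end

-- ▼ part R172/Par4
section

/-!
Row 172 (S0260), node PAR, file 4: the special point and the final parity statement.
-/

set_option autoImplicit false
set_option linter.unusedSectionVars false

namespace Crest.Agent.R172.Par

open Module Matrix Crest.Agent.R172.Core Crest.Agent.R172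

section Special

variable {n : ℕ} {δ : Type*} [Fintype δ] [DecidableEq δ] {K : Type*} [Field K]

/-- the form on `V = (Fin n ⊕ Fin n) → K` -/
def Jn (n : ℕ) (K : Type*) [Field K] : Matrix (Fin n ⊕ Fin n) (Fin n ⊕ Fin n) K :=
  Matrix.fromBlocks 0 1 1 0

theorem Jn_transpose : (Jn n K)ᵀ = Jn n K := by
  simp [Jn, Matrix.fromBlocks_transpose]

theorem Jn_mul_self : Jn n K * Jn n K = 1 := by
  simp [Jn, Matrix.fromBlocks_multiply, Matrix.fromBlocks_one]

/-- the form on `U` -/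
def Bs (K : Type*) [Field K] (σ : δ → δ) : Matrix δ δ K :=
  Matrix.of (fun d e => if e = σ d then 1 else 0)

theorem Bs_transpose {σ : δ → δ} (hσ : ∀ d, σ (σ d) = d) : (Bs K σ)ᵀ = Bs K σ := by
  ext d e
  simp only [Bs, Matrix.transpose_apply, Matrix.of_apply]
  have : (d = σ e) ↔ (e = σ d) :=
    ⟨fun h => by rw [h, hσ], fun h => by rw [h, hσ]⟩
  simp only [this]

theorem Bs_mulVec (σ : δ → δ) (x : δ → K) (d : δ) : (Bs K σ *ᵥ x) d = x (σ d) := by
  simp [Bs, Matrix.mulVec, dotProduct]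

theorem Bs_mul_self {σ : δ → δ} (hσ : ∀ d, σ (σ d) = d) : Bs K σ * Bs K σ = 1 := by
  ext d e
  have h1 : (Bs K σ * Bs K σ) d e = (Bs K σ *ᵥ (fun x => Bs K σ x e)) d := rfl
  rw [h1, Bs_mulVec]
  simp only [Bs, Matrix.of_apply, hσ, Matrix.one_apply]
  have : (e = d) ↔ (d = e) := eq_comm
  simp only [this]

theorem Bs_comm {arm : δ → Fin 3} {σ : δ → δ} (ha : ∀ d, arm (σ d) = arm d) (s : Fin 3) :
    FO.E K arm s * Bs K σ = Bs K σ * FO.E K arm s := by
  ext d e
  unfold FO.E
  rw [Matrix.diagonal_mul, Matrix.mul_diagonal]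
  simp only [Bs, Matrix.of_apply]
  by_cases h : e = σ d
  · subst h
    simp [ha]
  · simp [h]

/-- coordinate subspace of `U` -/
def cs (K : Type*) [Field K] (A : δ → Prop) : Submodule K (δ → K) where
  carrier := {x | ∀ d, ¬ A d → x d = 0}
  add_mem' h1 h2 d hd := by rw [Pi.add_apply, h1 d hd, h2 d hd, add_zero]
  zero_mem' _ _ := rfl
  smul_mem' c _ h d hd := by rw [Pi.smul_apply, h d hd, smul_zero]


theorem finrank_cs (A : δ → Prop) [DecidablePred A] :
    finrank K (cs K A) = (Finset.univ.filter A).card := by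
  let e : cs K A ≃ₗ[K] ({d // A d} → K) :=
    { toFun := fun x d => (x : δ → K) d
      map_add' := fun x y => rfl
      map_smul' := fun c x => rfl
      invFun := fun y => ⟨fun d => if h : A d then y ⟨d, h⟩ else 0, fun d hd => by simp [hd]⟩
      left_inv := by
        intro x
        apply Subtype.ext
        funext d
        by_cases h : A d
        · simp [h]
        · simp [h, x.2 d h]
      right_inv := by
        intro y
        funext d
        simp [d.2] }
  rw [LinearEquiv.finrank_eq e, Module.finrank_fintype_fun_eq_card, Fintype.card_subtype]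

/-- orthogonal of a coordinate subspace -/
theorem orth_cs {σ : δ → δ} (hσ : ∀ d, σ (σ d) = d) (A : δ → Prop) :
    (Matrix.toBilin' (Bs K σ)).orthogonal (cs K A) = cs K (fun d => ¬ A (σ d)) := by
  ext x
  constructor
  · intro hx d hd
    rw [not_not] at hd
    have h := hx (Pi.single (σ d) 1) (by
      intro e he
      have : e ≠ σ d := fun h => he (h ▸ hd)
      rw [Pi.single_eq_of_ne this])
    change Matrix.toBilin' (Bs K σ) _ x = 0 at h
    rw [Matrix.toBilin'_apply', single_one_dotProduct, Bs_mulVec, hσ] at h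
    exact h
  · intro hx y hy
    change Matrix.toBilin' (Bs K σ) y x = 0
    rw [Matrix.toBilin'_apply', dotProduct]
    apply Finset.sum_eq_zero
    intro d _
    rw [Bs_mulVec]
    by_cases h : A d
    · rw [hx (σ d) (by change ¬ ¬ A (σ (σ d)); rw [hσ]; exact not_not.2 h), mul_zero]
    · rw [hy d h, zero_mul]

theorem NS_Bs {σ : δ → δ} (hσ : ∀ d, σ (σ d) = d) : NS (Matrix.toBilin' (Bs K σ)) := by
  refine ⟨fun x y => ?_, fun x hx => ?_⟩
  · rw [Matrix.toBilin'_apply', Matrix.toBilin'_apply', Matrix.dotProduct_mulVec,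
      ← Matrix.mulVec_transpose, Bs_transpose hσ, dotProduct_comm]
  · funext d
    have h := hx (Pi.single (σ d) 1)
    rw [Matrix.toBilin'_apply', Matrix.dotProduct_mulVec, ← Matrix.mulVec_transpose,
      Bs_transpose hσ, dotProduct_single_one, Bs_mulVec, hσ] at h
    exact h

/-- the standard Lagrangian `⊕ e_i ⊗ A_i + e_i^* ⊗ A_i^⊥` -/
def nst (K : Type*) [Field K] (σ : δ → δ) (A : Fin n → δ → Prop) :
    Submodule K (Matrix (Fin n ⊕ Fin n) δ K) where
  carrier := {F | ∀ i, F (Sum.inl i) ∈ cs K (A i) ∧ F (Sum.inr i) ∈ cs K (fun d => ¬ A i (σ d))}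
  add_mem' h1 h2 i := ⟨(cs K _).add_mem (h1 i).1 (h2 i).1, (cs K _).add_mem (h1 i).2 (h2 i).2⟩
  zero_mem' _ := ⟨(cs K _).zero_mem, (cs K _).zero_mem⟩
  smul_mem' c _ h i := ⟨(cs K _).smul_mem c (h i).1, (cs K _).smul_mem c (h i).2⟩

theorem mem_nst {σ : δ → δ} {A : Fin n → δ → Prop} {F : Matrix (Fin n ⊕ Fin n) δ K} :
    F ∈ nst K σ A ↔ ∀ i d, (¬ A i d → F (Sum.inl i) d = 0) ∧
      (A i (σ d) → F (Sum.inr i) d = 0) := by
  constructor
  · intro h i d
    exact ⟨(h i).1 d, fun h' => (h i).2 d (not_not.2 h')⟩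
  · intro h i
    exact ⟨fun d hd => (h i d).1 hd, fun d hd => (h i d).2 (not_not.1 hd)⟩

theorem pf_Jn (B : Matrix δ δ K) (F F' : Matrix (Fin n ⊕ Fin n) δ K) :
    pf (Jn n K) B F F' = ∑ i, (F' (Sum.inr i) ⬝ᵥ (B *ᵥ F (Sum.inl i)) +
      F' (Sum.inl i) ⬝ᵥ (B *ᵥ F (Sum.inr i))) := by
  rw [pf_rows, Fintype.sum_sum_type, Finset.sum_add_distrib]
  congr 1
  · apply Finset.sum_congr rfl
    intro i _
    rw [Fintype.sum_sum_type]
    simp [Jn, Matrix.one_apply]
  · apply Finset.sum_congr rfl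
    intro i _
    rw [Fintype.sum_sum_type]
    simp [Jn, Matrix.one_apply]

theorem Lag_nst {σ : δ → δ} (hσ : ∀ d, σ (σ d) = d) (A : Fin n → δ → Prop) :
    Lag (pf (Jn n K) (Bs K σ)) (nst K σ A) := by
  apply le_antisymm
  · intro F' hF' i
    constructor
    · intro d hd
      have h := hF' (Matrix.of (fun r e => if r = Sum.inr i ∧ e = σ d then 1 else 0)) (by
        rw [mem_nst]
        intro j e
        refine ⟨fun _ => by simp, fun h => ?_⟩
        by_cases h' : j = i ∧ e = σ d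
        · obtain ⟨rfl, rfl⟩ := h'
          rw [hσ] at h
          exact absurd h hd
        · simp only [Matrix.of_apply]
          rw [if_neg]
          rintro ⟨h1, h2⟩
          exact h' ⟨Sum.inr.inj h1, h2⟩)
      change pf (Jn n K) (Bs K σ) _ F' = 0 at h
      rw [pf_Jn, Finset.sum_eq_single i] at h
      · have e1 : (Matrix.of (fun r e => if r = Sum.inr i ∧ e = σ d then (1 : K) else 0) :
            Matrix (Fin n ⊕ Fin n) δ K) (Sum.inl i) = 0 := by
          funext e; simp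
        have e2 : (Matrix.of (fun r e => if r = Sum.inr i ∧ e = σ d then (1 : K) else 0) :
            Matrix (Fin n ⊕ Fin n) δ K) (Sum.inr i) = Pi.single (σ d) 1 := by
          funext e
          simp [Pi.single_apply]
        rw [e1, e2, Matrix.mulVec_zero, dotProduct_zero, zero_add] at h
        rw [Matrix.dotProduct_mulVec, ← Matrix.mulVec_transpose,
          Bs_transpose hσ, dotProduct_single_one, Bs_mulVec, hσ] at h
        exact h
      · intro j _ hj
        have e1 : (Matrix.of (fun r e => if r = Sum.inr i ∧ e = σ d then (1 : K) else 0) :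
            Matrix (Fin n ⊕ Fin n) δ K) (Sum.inl j) = 0 := by
          funext e; simp
        have e2 : (Matrix.of (fun r e => if r = Sum.inr i ∧ e = σ d then (1 : K) else 0) :
            Matrix (Fin n ⊕ Fin n) δ K) (Sum.inr j) = 0 := by
          funext e
          simp [hj]
        rw [e1, e2]
        simp
      · intro h'; exact absurd (Finset.mem_univ _) h'
    · intro d hd
      rw [not_not] at hd
      have h := hF' (Matrix.of (fun r e => if r = Sum.inl i ∧ e = σ d then 1 else 0)) (by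
        rw [mem_nst]
        intro j e
        refine ⟨fun h => ?_, fun _ => by simp⟩
        by_cases h' : j = i ∧ e = σ d
        · obtain ⟨rfl, rfl⟩ := h'
          exact absurd hd h
        · simp only [Matrix.of_apply]
          rw [if_neg]
          rintro ⟨h1, h2⟩
          exact h' ⟨Sum.inl.inj h1, h2⟩)
      change pf (Jn n K) (Bs K σ) _ F' = 0 at h
      rw [pf_Jn, Finset.sum_eq_single i] at h
      · have e1 : (Matrix.of (fun r e => if r = Sum.inl i ∧ e = σ d then (1 : K) else 0) :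
            Matrix (Fin n ⊕ Fin n) δ K) (Sum.inr i) = 0 := by
          funext e; simp
        have e2 : (Matrix.of (fun r e => if r = Sum.inl i ∧ e = σ d then (1 : K) else 0) :
            Matrix (Fin n ⊕ Fin n) δ K) (Sum.inl i) = Pi.single (σ d) 1 := by
          funext e
          simp [Pi.single_apply]
        rw [e1, e2, Matrix.mulVec_zero, dotProduct_zero, add_zero] at h
        rw [Matrix.dotProduct_mulVec, ← Matrix.mulVec_transpose,
          Bs_transpose hσ, dotProduct_single_one, Bs_mulVec, hσ] at h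
        exact h
      · intro j _ hj
        have e1 : (Matrix.of (fun r e => if r = Sum.inl i ∧ e = σ d then (1 : K) else 0) :
            Matrix (Fin n ⊕ Fin n) δ K) (Sum.inr j) = 0 := by
          funext e; simp
        have e2 : (Matrix.of (fun r e => if r = Sum.inl i ∧ e = σ d then (1 : K) else 0) :
            Matrix (Fin n ⊕ Fin n) δ K) (Sum.inl j) = 0 := by
          funext e
          simp [hj]
        rw [e1, e2]
        simp
      · intro h'; exact absurd (Finset.mem_univ _) h'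
  · intro F' hF' F hF
    change pf (Jn n K) (Bs K σ) F F' = 0
    rw [pf_Jn]
    apply Finset.sum_eq_zero
    intro i _
    have h1 : F' (Sum.inr i) ∈ (Matrix.toBilin' (Bs K σ)).orthogonal (cs K (A i)) := by
      rw [orth_cs hσ]; exact (hF' i).2
    have h2 : F (Sum.inr i) ∈ (Matrix.toBilin' (Bs K σ)).orthogonal (cs K (A i)) := by
      rw [orth_cs hσ]; exact (hF i).2
    have e1 : Matrix.toBilin' (Bs K σ) (F (Sum.inl i)) (F' (Sum.inr i)) = 0 := h1 _ (hF i).1
    have e2 : Matrix.toBilin' (Bs K σ) (F' (Sum.inl i)) (F (Sum.inr i)) = 0 := h2 _ (hF' i).1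
    rw [(NS_Bs hσ).symm, Matrix.toBilin'_apply'] at e1
    rw [Matrix.toBilin'_apply'] at e2
    rw [e1, e2, add_zero]

/-- parity for one row pair -/
theorem row_parity {σ : δ → δ} (hσ : ∀ d, σ (σ d) = d) {L : Submodule K (δ → K)}
    (hL : Lag (Matrix.toBilin' (Bs K σ)) L) (A : δ → Prop) [DecidablePred A] :
    ∃ z : ℕ, (finrank K (cs K A ⊓ L : Submodule K (δ → K)) +
      finrank K (cs K (fun d => ¬ A (σ d)) ⊓ L : Submodule K (δ → K)) : ℤ) =
      2 * z + (finrank K L : ℤ) - (Finset.univ.filter A).card := by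
  have hN := NS_Bs (K := K) hσ
  have h1 : cs K (fun d => ¬ A (σ d)) ⊓ L =
      (Matrix.toBilin' (Bs K σ)).orthogonal (cs K A ⊔ L) := by
    have hL' : (Matrix.toBilin' (Bs K σ)).orthogonal L = L := hL
    rw [orth_sup, orth_cs hσ, hL']
  have h2 := LinearMap.BilinForm.finrank_orthogonal hN.nondeg (cs K A ⊔ L)
  rw [← h1] at h2
  have h3 := Submodule.finrank_sup_add_finrank_inf_eq (cs K A) L
  have h4 := hL.finrank hN
  have h5 := finrank_cs (K := K) A
  have h6 := Submodule.finrank_le (cs K A ⊔ L)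
  refine ⟨finrank K (cs K A ⊓ L : Submodule K (δ → K)), ?_⟩
  rw [← h5]
  omega

/-- submodule of row-constrained matrices -/
theorem finrank_rows {ρ : Type*} [Fintype ρ] (S : ρ → Submodule K (δ → K))
    (P : Submodule K (Matrix ρ δ K)) (hP : ∀ F, F ∈ P ↔ ∀ r, F r ∈ S r) :
    finrank K P = ∑ r, finrank K (S r) := by
  let e : P ≃ₗ[K] (∀ r, S r) :=
    { toFun := fun F r => ⟨(F : Matrix ρ δ K) r, (hP _).1 F.2 r⟩
      map_add' := fun x y => rfl
      map_smul' := fun c x => rfl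
      invFun := fun y => ⟨fun r => (y r : δ → K), (hP _).2 (fun r => (y r).2)⟩
      left_inv := fun x => rfl
      right_inv := fun y => rfl }
  rw [LinearEquiv.finrank_eq e, Module.finrank_pi_fintype]

theorem special_finrank {σ : δ → δ} (A : Fin n → δ → Prop) (L : Submodule K (δ → K)) :
    finrank K (nst K σ A ⊓ VLs (Fin n ⊕ Fin n) L :
      Submodule K (Matrix (Fin n ⊕ Fin n) δ K)) =
    ∑ i, (finrank K (cs K (A i) ⊓ L : Submodule K (δ → K)) +
      finrank K (cs K (fun d => ¬ A i (σ d)) ⊓ L : Submodule K (δ → K))) := by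
  rw [finrank_rows (fun r => Sum.elim (fun i => cs K (A i) ⊓ L)
    (fun i => cs K (fun d => ¬ A i (σ d)) ⊓ L) r)]
  · rw [Fintype.sum_sum_type, Finset.sum_add_distrib]
    rfl
  · intro F
    constructor
    · rintro ⟨h1, h2⟩ (i | i)
      · exact ⟨(h1 i).1, h2 _⟩
      · exact ⟨(h1 i).2, h2 _⟩
    · intro h
      refine ⟨fun i => ⟨(h (Sum.inl i)).1, (h (Sum.inr i)).1⟩, ?_⟩
      rintro (i | i)
      · exact (h (Sum.inl i)).2
      · exact (h (Sum.inr i)).2

/-- **P4**: parity at the special point. -/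
theorem special_parity {σ : δ → δ} (hσ : ∀ d, σ (σ d) = d) (A : Fin n → δ → Prop)
    [∀ i, DecidablePred (A i)] {L : Submodule K (δ → K)}
    (hL : Lag (Matrix.toBilin' (Bs K σ)) L)
    (hroot : (4 : ℤ) ∣ ∑ i : Fin n, (2 * ((Finset.univ.filter (A i)).card : ℤ) -
      Fintype.card δ)) :
    Even (finrank K (nst K σ A ⊓ VLs (Fin n ⊕ Fin n) L :
      Submodule K (Matrix (Fin n ⊕ Fin n) δ K))) := by
  rw [special_finrank]
  have hN := NS_Bs (K := K) hσ
  have h4 := hL.finrank hN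
  rw [Module.finrank_fintype_fun_eq_card] at h4
  choose z hz using fun i => row_parity (K := K) hσ hL (A i)
  have h5 : ((∑ i, (finrank K (cs K (A i) ⊓ L : Submodule K (δ → K)) +
      finrank K (cs K (fun d => ¬ A i (σ d)) ⊓ L : Submodule K (δ → K))) : ℕ) : ℤ) =
      2 * ∑ i, (z i : ℤ) - ∑ i, (((Finset.univ.filter (A i)).card : ℤ) - finrank K L) := by
    push_cast
    rw [Finset.mul_sum, ← Finset.sum_sub_distrib]
    apply Finset.sum_congr rfl
    intro i _
    rw [hz i]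
    ring
  have h6 : ∑ i : Fin n, (2 * ((Finset.univ.filter (A i)).card : ℤ) - Fintype.card δ) =
      2 * ∑ i : Fin n, (((Finset.univ.filter (A i)).card : ℤ) - finrank K L) := by
    rw [Finset.mul_sum]
    apply Finset.sum_congr rfl
    intro i _
    rw [← h4]
    push_cast
    ring
  rw [h6] at hroot
  obtain ⟨q, hq⟩ := hroot
  rw [← Int.even_coe_nat, h5]
  refine ⟨(∑ i, (z i : ℤ)) - q, ?_⟩
  linarith

/-- **P5** (final): `dim ((⊕ g_s n_s) ∩ (V ⊗ L))` is even. -/
theorem even_finrank (h2 : (2 : K) ≠ 0) {arm : δ → Fin 3} {σ : δ → δ} (hσ : ∀ d, σ (σ d) = d)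
    (ha : ∀ d, arm (σ d) = arm d) (A : Fin n → δ → Prop)
    [∀ i, DecidablePred (A i)] {L : Submodule K (δ → K)}
    (hL : Lag (Matrix.toBilin' (Bs K σ)) L)
    {g : Fin 3 → Matrix (Fin n ⊕ Fin n) (Fin n ⊕ Fin n) K}
    (hg : ∀ s, (g s)ᵀ * Jn n K * g s = Jn n K) (hd : ∀ s, (g s).det = 1)
    (hroot : (4 : ℤ) ∣ ∑ i : Fin n, (2 * ((Finset.univ.filter (A i)).card : ℤ) -
      Fintype.card δ)) :
    Even (finrank K ((nst K σ A).map (actL arm g) ⊓ VLs (Fin n ⊕ Fin n) L :
      Submodule K (Matrix (Fin n ⊕ Fin n) δ K))) := by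
  have hN : NS (pf (Jn n K) (Bs K σ)) := NS_pf Jn_transpose (Bs_transpose hσ) Jn_mul_self
    (Bs_mul_self hσ)
  have hdet : LinearMap.det (actL arm g) = 1 := by
    rw [det_actL]
    exact Finset.prod_eq_one (fun d _ => hd _)
  have h := inter_parity h2 hN (actL_isometry (Bs_comm ha) hg) hdet (Lag_nst hσ A)
    (Lag_VLs (ι := Fin n ⊕ Fin n) (Bs_transpose hσ) Jn_mul_self hL)
  have h' := special_parity (n := n) hσ A hL hroot
  rw [Nat.even_iff] at *
  omega

/-- the root lattice hypothesis from the weights. -/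
theorem root_of_count {arm : δ → Fin 3} (A : Fin n → δ → Prop) [∀ i, DecidablePred (A i)]
    (a : Fin 3 → Fin n → ℤ)
    (hc : ∀ s i, a s i = 2 * ((Finset.univ.filter (fun d => arm d = s ∧ A i d)).card : ℤ) -
      ((Finset.univ.filter (fun d => arm d = s)).card : ℤ))
    (h4 : (4 : ℤ) ∣ ∑ i, ∑ s, a s i) :
    (4 : ℤ) ∣ ∑ i : Fin n, (2 * ((Finset.univ.filter (A i)).card : ℤ) - Fintype.card δ) := by
  have : ∑ i, ∑ s, a s i = ∑ i : Fin n, (2 * ((Finset.univ.filter (A i)).card : ℤ) -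
      Fintype.card δ) := by
    apply Finset.sum_congr rfl
    intro i _
    have e1 : ((Finset.univ.filter (A i)).card : ℤ) =
        ∑ s : Fin 3, ((Finset.univ.filter (fun d => arm d = s ∧ A i d)).card : ℤ) := by
      rw [← Nat.cast_sum]
      congr 1
      rw [Finset.card_eq_sum_card_fiberwise (f := arm) (t := Finset.univ)
        (fun _ _ => Finset.mem_coe.2 (Finset.mem_univ _))]
      apply Finset.sum_congr rfl
      intro s _
      congr 1
      ext d
      simp [and_comm]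
    have e2 : (Fintype.card δ : ℤ) =
        ∑ s : Fin 3, ((Finset.univ.filter (fun d => arm d = s)).card : ℤ) := by
      rw [← Nat.cast_sum]
      congr 1
      rw [← Finset.card_univ, Finset.card_eq_sum_card_fiberwise (f := arm) (t := Finset.univ)
        (fun _ _ => Finset.mem_coe.2 (Finset.mem_univ _))]
    rw [e1, e2, Finset.mul_sum, ← Finset.sum_sub_distrib]
    exact Finset.sum_congr rfl (fun s _ => hc s i)
  rw [← this]
  exact h4

end Special

end Crest.Agent.R172.Par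
end

-- ▼ part R172/Par5
section

/-!
Row 172 (S0260), node PAR, file 5: the parity statement in the notation of `Cfg`.
-/

set_option autoImplicit false
set_option linter.unusedSectionVars false

namespace Crest.Agent.R172.Par

open Module Matrix Crest.Agent.R172.Core Crest.Agent.R172 Crest.AlgebraR.SpinSaturation
open Crest.Agent.R172.Gen (Jm Ix)
open Crest.Agent.R172.CF

variable {n : ℕ} {a : Fin 3 → Fin n → ℤ} (c : Cfg n a) {K : Type*} [Field K]

theorem ub_eq (u v : c.δ → K) : c.ub u v = Matrix.toBilin' (Bs K c.σ) u v := by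
  rw [Matrix.toBilin'_apply', dotProduct]
  unfold Cfg.ub
  apply Finset.sum_congr rfl
  intro d _
  rw [Bs_mulVec]

/-- a totally isotropic subspace of half dimension is Lagrangian -/
theorem Lag_of_isotropic {W : Type*} [AddCommGroup W] [Module K W] [FiniteDimensional K W]
    {B : LinearMap.BilinForm K W} (hB : NS B) {L : Submodule K W}
    (h1 : ∀ u ∈ L, ∀ v ∈ L, B u v = 0) (h2 : 2 * finrank K L = finrank K W) : Lag B L := by
  have h3 : L ≤ B.orthogonal L := fun v hv u hu => h1 u hu v hv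
  have h4 := LinearMap.BilinForm.finrank_orthogonal hB.nondeg L
  exact (Submodule.eq_of_le_of_finrank_eq h3 (by omega)).symm

theorem nstd_eq : c.nstd K = nst K c.σ c.A := by
  ext F
  rw [mem_nst]
  rfl

theorem N_eq (g : Fin 3 → Matrix (Ix n) (Ix n) K) :
    c.N g = (nst K c.σ c.A).map (Par.actL c.arm g) := by
  unfold Cfg.N
  rw [nstd_eq]
  rfl

/-- **PAR.** The dimension of `(V ⊗ L) ∩ (⊕ g_s n_s)` is even. -/
theorem even_inf (h2 : (2 : K) ≠ 0) {L : Submodule K (c.δ → K)}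
    (hL : ∀ u ∈ L, ∀ v ∈ L, c.ub u v = 0) (hL2 : 2 * finrank K L = Fintype.card c.δ)
    {g : Fin 3 → Matrix (Ix n) (Ix n) K}
    (hg : ∀ s, (g s)ᵀ * Jm n K * g s = Jm n K) (hd : ∀ s, (g s).det = 1)
    (hroot : InRootLattice n (a 0 + a 1 + a 2)) :
    Even (finrank K (VL L ⊓ c.N g : Submodule K (Matrix (Ix n) c.δ K))) := by
  have hLag : Lag (Matrix.toBilin' (Bs K c.σ)) L := by
    apply Lag_of_isotropic (NS_Bs c.inv)
    · intro u hu v hv
      rw [← ub_eq]
      exact hL u hu v hv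
    · rw [hL2, Module.finrank_fintype_fun_eq_card]
  have h4 : (4 : ℤ) ∣ ∑ i, ∑ s, a s i := by
    have : ∑ i, ∑ s, a s i = ∑ i, (a 0 + a 1 + a 2) i := by
      apply Finset.sum_congr rfl
      intro i _
      rw [Fin.sum_univ_three]
      rfl
    rw [this]
    exact hroot.2
  have h := even_finrank (n := n) (K := K) h2 c.inv c.arm_σ c.A hLag (g := g) hg hd
    (root_of_count c.A a c.count h4)
  rw [N_eq, inf_comm]
  exact h

/-- Hence a space `(V ⊗ L) ∩ N g` of dimension at most one is zero. -/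
theorem eq_zero_of_finrank_le_one (h2 : (2 : K) ≠ 0) {L : Submodule K (c.δ → K)}
    (hL : ∀ u ∈ L, ∀ v ∈ L, c.ub u v = 0) (hL2 : 2 * finrank K L = Fintype.card c.δ)
    {g : Fin 3 → Matrix (Ix n) (Ix n) K}
    (hg : ∀ s, (g s)ᵀ * Jm n K * g s = Jm n K) (hd : ∀ s, (g s).det = 1)
    (hroot : InRootLattice n (a 0 + a 1 + a 2))
    (hk : finrank K (VL L ⊓ c.N g : Submodule K (Matrix (Ix n) c.δ K)) ≤ 1) :
    ∀ F ∈ VL L, F ∈ c.N g → F = 0 := by
  have h := even_inf c h2 hL hL2 hg hd hroot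
  have h0 : finrank K (VL L ⊓ c.N g : Submodule K (Matrix (Ix n) c.δ K)) = 0 := by
    rw [Nat.even_iff] at h
    omega
  have h1 : (VL L ⊓ c.N g : Submodule K (Matrix (Ix n) c.δ K)) = ⊥ :=
    Submodule.finrank_eq_zero.1 h0
  intro F hF1 hF2
  have : F ∈ (VL L ⊓ c.N g : Submodule K (Matrix (Ix n) c.δ K)) := ⟨hF1, hF2⟩
  rw [h1] at this
  exact (Submodule.mem_bot K).1 this

end Crest.Agent.R172.Par
end

-- ▼ part R172/Top2

/-!
R172: the outer assembly, final form: `CoreK n` = "at the generic point, semistability (all fields above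
`K`) implies `dim (V ⊗ L_H) ∩ N(g) ≤ 1`" implies the statement of S0260.
-/

set_option autoImplicit false
set_option linter.unusedSectionVars false

namespace Crest.Agent.R172.Top

open Matrix Crest.AlgebraR.SpinSaturation Crest.Agent.R172.Fwd Crest.Agent.R172.CF
open Crest.Agent.R172.Gen (Jm Ix emb Ent ent IsSo)

variable {n : ℕ}

/-- semistability at `g`, over all extensions of `K` -/
def SemiAll {a : Fin 3 → Fin n → ℤ} (c : Cfg n a) (K : Type) [Field K]
    (g : Fin 3 → Matrix (Ix n) (Ix n) K) : Prop :=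
  ∀ (L : Type) [Field L] [Algebra K L], HM10.Semi c (fun s => emb K L (g s))


theorem emb_orth {K L : Type} [Field K] [Field L] [Algebra K L] {g : Matrix (Ix n) (Ix n) K}
    (hg : gᵀ * Jm n K * g = Jm n K) : (emb K L g)ᵀ * Jm n L * emb K L g = Jm n L := by
  have h := congrArg (fun A : Matrix (Ix n) (Ix n) K => A.map (algebraMap K L)) hg
  simp only [Matrix.map_mul, Pol.Jm_map] at h
  exact h



end Crest.Agent.R172.Top
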