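import Mathlib
import Crest.Agent.R172.HM9
import Crest.Agent.R172.NilPat3
import Crest.Agent.R172.Rk1
import Crest.Agent.R172.Top2

-- ▼ part R172/Adapt
section

/-!
# Adapted hyperbolic bases ("Bruhat decomposition" for an orthogonal space)

A weighted hyperbolic basis and an isotropic flag have a common adapted hyperbolic basis.
-/

namespace Crest.Agent.R172.Adapt

open Module

variable {K : Type*} [Field K] {V : Type*} [AddCommGroup V] [Module K V]
variable {ι : Type*} [Fintype ι] [DecidableEq ι]

/-- The Gram matrix of the family `b` for `B` is the permutation matrix of `inv`. -/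
def Hyp (B : LinearMap.BilinForm K V) (inv : ι → ι) (b : ι → V) : Prop :=
  ∀ i j, B (b i) (b j) = if j = inv i then 1 else 0

/-- `V_{≥ u}`. -/
def Vge (K : Type*) [Field K] {V : Type*} [AddCommGroup V] [Module K V] {ι : Type*}
    (b : ι → V) (lam : ι → ℝ) (u : ℝ) : Submodule K V :=
  Submodule.span K (b '' {i | u ≤ lam i})

theorem Hyp.linearIndependent {B : LinearMap.BilinForm K V} {inv : ι → ι} {b : ι → V}
    (hb : Hyp B inv b) (hinv : Function.Involutive inv) : LinearIndependent K b := by
  rw [Fintype.linearIndependent_iff]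
  intro g hg i
  have h := congrArg (fun x => B x (b (inv i))) hg
  simp only [map_sum, map_smul, LinearMap.sum_apply, LinearMap.smul_apply, map_zero,
    LinearMap.zero_apply, hb _ _, smul_eq_mul] at h
  rw [Finset.sum_eq_single i] at h
  · simpa using h
  · intro j _ hj
    rw [if_neg, mul_zero]
    intro h'
    exact hj (hinv.injective h').symm
  · intro h'
    exact absurd (Finset.mem_univ i) h'

/-- coefficient of a vector in a hyperbolic basis. -/
theorem Hyp.repr_eq {B : LinearMap.BilinForm K V} {inv : ι → ι} {b : Basis ι K V}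
    (hb : Hyp B inv b) (hinv : Function.Involutive inv) (v : V) (i : ι) :
    b.repr v i = B v (b (inv i)) := by
  conv_rhs => rw [← b.sum_repr v]
  simp only [map_sum, map_smul, LinearMap.sum_apply, LinearMap.smul_apply, hb _ _, smul_eq_mul]
  rw [Finset.sum_eq_single i]
  · simp
  · intro j _ hj
    rw [if_neg, mul_zero]
    intro h'
    exact hj (hinv.injective h').symm
  · intro h'
    exact absurd (Finset.mem_univ i) h'

/-- A hyperbolic family of the right size is a basis. -/
noncomputable def Hyp.toBasis {B : LinearMap.BilinForm K V} {inv : ι → ι} (b₀ : Basis ι K V)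
    {b : ι → V} (hb : Hyp B inv b) (hinv : Function.Involutive inv) : Basis ι K V :=
  haveI : FiniteDimensional K V := Module.Finite.of_basis b₀
  have hc : Fintype.card ι = finrank K V := (Module.finrank_eq_card_basis b₀).symm
  basisOfLinearIndependentOfCardEqFinrank' b (hb.linearIndependent hinv) hc

theorem Hyp.coe_toBasis {B : LinearMap.BilinForm K V} {inv : ι → ι} (b₀ : Basis ι K V)
    {b : ι → V} (hb : Hyp B inv b) (hinv : Function.Involutive inv) :
    ⇑(hb.toBasis b₀ hinv) = b := by
  simp [Hyp.toBasis]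

theorem Hyp.repr_eq' {B : LinearMap.BilinForm K V} (hB : B.IsSymm) {inv : ι → ι} {b : Basis ι K V}
    (hb : Hyp B inv b) (hinv : Function.Involutive inv) (v : V) (i : ι) :
    B (b i) v = b.repr v (inv i) := by
  rw [hb.repr_eq hinv, hinv i]
  exact (hB.eq _ _).symm ▸ rfl

theorem Hyp.norm_eq {B : LinearMap.BilinForm K V} (hB : B.IsSymm) {inv : ι → ι} {b : Basis ι K V}
    (hb : Hyp B inv b) (hinv : Function.Involutive inv) (v : V) :
    B v v = ∑ i, b.repr v i * b.repr v (inv i) := by
  conv_lhs => rw [← b.sum_repr v]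
  simp only [map_sum, map_smul, LinearMap.sum_apply, LinearMap.smul_apply, smul_eq_mul]
  have h : ∀ i, B (b i) v = b.repr v (inv i) := fun i => hb.repr_eq' hB hinv v i
  have h2 : ∀ i, B (b i) (∑ j, b.repr v j • b j) = b.repr v (inv i) := by
    intro i
    rw [b.sum_repr]; exact h i
  simp only [map_sum, map_smul, smul_eq_mul] at h2
  simp only [← h2, Finset.mul_sum]
  rw [Finset.sum_comm]
  refine Finset.sum_congr rfl fun i _ => Finset.sum_congr rfl fun j _ => ?_
  ring

/-- The lowest-weight coefficient of an isotropic vector can be taken at a non-fixed index. -/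
theorem exists_low {B : LinearMap.BilinForm K V} (hB : B.IsSymm) {inv : ι → ι}
    (hinv : Function.Involutive inv) (b : Basis ι K V) (hb : Hyp B inv b) (lam : ι → ℝ)
    (hlam : ∀ i, lam (inv i) = - lam i) (hfix : ∀ i j, inv i = i → inv j = j → i = j)
    (v : V) (hv : v ≠ 0) (hvv : B v v = 0) :
    ∃ i₀, b.repr v i₀ ≠ 0 ∧ inv i₀ ≠ i₀ ∧ ∀ i, b.repr v i ≠ 0 → lam i₀ ≤ lam i := by
  classical
  have hne : (Finset.univ.filter fun i => b.repr v i ≠ 0).Nonempty := by
    by_contra h
    rw [Finset.not_nonempty_iff_eq_empty] at h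
    apply hv
    rw [← b.sum_repr v]
    refine Finset.sum_eq_zero fun i _ => ?_
    by_cases hi : b.repr v i = 0
    · rw [hi, zero_smul]
    · have : i ∈ (Finset.univ.filter fun i => b.repr v i ≠ 0) := by simp [hi]
      rw [h] at this; simp at this
  obtain ⟨i₁, hi₁, hmin⟩ := Finset.exists_min_image _ lam hne
  simp only [Finset.mem_filter, Finset.mem_univ, true_and] at hi₁ hmin
  by_contra hcon
  push Not at hcon
  have hall : ∀ i, b.repr v i ≠ 0 → lam i = lam i₁ → inv i = i := by
    intro i hi hl
    by_contra hne'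
    obtain ⟨k, hk, hk'⟩ := hcon i hi hne'
    have := hmin k hk
    linarith
  have hfi₁ : inv i₁ = i₁ := hall i₁ hi₁ rfl
  have hl0 : lam i₁ = 0 := by
    have := hlam i₁
    rw [hfi₁] at this; linarith
  rw [hb.norm_eq hB hinv, Finset.sum_eq_single i₁] at hvv
  · rw [hfi₁] at hvv
    exact hi₁ (mul_self_eq_zero.mp hvv)
  · intro i _ hi
    by_contra hprod
    have h1 : b.repr v i ≠ 0 := left_ne_zero_of_mul hprod
    have h2 : b.repr v (inv i) ≠ 0 := right_ne_zero_of_mul hprod
    have h3 := hmin _ h1
    have h4 := hmin _ h2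
    rw [hlam, hl0] at h4
    rw [hl0] at h3
    have h5 : lam i = lam i₁ := by rw [hl0]; linarith
    exact hi (hfix i i₁ (hall i h1 h5) hfi₁)
  · intro h; exact absurd (Finset.mem_univ _) h

omit [DecidableEq ι] in
theorem mem_Vge_of_repr (b : Basis ι K V) (lam : ι → ℝ) (u : ℝ) {v : V}
    (h : ∀ i, b.repr v i ≠ 0 → u ≤ lam i) : v ∈ Vge K b lam u := by
  rw [← b.sum_repr v]
  refine Submodule.sum_mem _ fun i _ => ?_
  by_cases hi : b.repr v i = 0
  · rw [hi, zero_smul]; exact Submodule.zero_mem _
  · exact Submodule.smul_mem _ _ (Submodule.subset_span ⟨i, h i hi, rfl⟩)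


/-- One step of the construction: an isotropic vector becomes a basis vector. -/
theorem step {B : LinearMap.BilinForm K V} (hB : B.IsSymm) {inv : ι → ι}
    (hinv : Function.Involutive inv) (b : Basis ι K V) (hb : Hyp B inv b) (lam : ι → ℝ)
    (hlam : ∀ i, lam (inv i) = - lam i) (hfix : ∀ i j, inv i = i → inv j = j → i = j)
    (S : Set ι) (hS : ∀ i ∈ S, inv i ∈ S) (v : V) (hv : v ≠ 0) (hvv : B v v = 0)
    (hsupp : ∀ i, i ∉ S → b.repr v i = 0) :
    ∃ b' : Basis ι K V, Hyp B inv b' ∧ (∀ i, i ∉ S → b' i = b i) ∧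
      (∀ i, b' i ∈ Vge K b lam (lam i)) ∧ ∃ i₀ ∈ S, inv i₀ ≠ i₀ ∧ b' i₀ = v := by
  classical
  obtain ⟨i₀, hc, hne, hmin⟩ := exists_low hB hinv b hb lam hlam hfix v hv hvv
  have hi₀S : i₀ ∈ S := by
    by_contra h; exact hc (hsupp i₀ h)
  set c := b.repr v with hcdef
  let f : ι → V := fun i => if i = i₀ then v else if i = inv i₀ then (c i₀)⁻¹ • b (inv i₀)
    else b i - (c (inv i) * (c i₀)⁻¹) • b (inv i₀)
  have hf0 : f i₀ = v := by simp [f]
  have hf1 : f (inv i₀) = (c i₀)⁻¹ • b (inv i₀) := by simp [f, hne]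
  have hf2 : ∀ i, i ≠ i₀ → i ≠ inv i₀ → f i = b i - (c (inv i) * (c i₀)⁻¹) • b (inv i₀) := by
    intro i h1 h2; simp [f, h1, h2]
  have hbv : ∀ i, B (b i) v = c (inv i) := fun i => hb.repr_eq' hB hinv v i
  have hvb : ∀ i, B v (b i) = c (inv i) := fun i => by rw [← hbv]; exact hB.eq _ _ |>.symm ▸ rfl
  have hbb0 : ∀ i, B (b i) (b (inv i₀)) = if i = i₀ then 1 else 0 := by
    intro i
    rw [hb i]
    by_cases h : i = i₀
    · simp [h]
    · rw [if_neg h, if_neg]
      intro h'; exact h (hinv.injective h').symm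
  have hb0b : ∀ i, B (b (inv i₀)) (b i) = if i = i₀ then 1 else 0 := by
    intro i
    rw [hb]
    simp [hinv i₀]
  have hHyp : Hyp B inv f := by
    intro i j
    by_cases hi : i = i₀
    · subst hi
      by_cases hj : j = i
      · subst hj
        rw [hf0, hvv, if_neg]
        exact fun h => hne h.symm
      · by_cases hj2 : j = inv i
        · subst hj2
          rw [hf0, hf1, map_smul, hvb, hinv i, smul_eq_mul, inv_mul_cancel₀ hc]; simp
        · rw [hf0, hf2 j hj hj2, map_sub, map_smul, hvb, hvb, hinv i, if_neg hj2, smul_eq_mul,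
            mul_assoc, inv_mul_cancel₀ hc]; ring
    · by_cases hi2 : i = inv i₀
      · subst hi2
        rw [hinv i₀]
        by_cases hj : j = i₀
        · subst hj
          rw [hf0, hf1, map_smul, LinearMap.smul_apply, hbv, hinv, smul_eq_mul,
            inv_mul_cancel₀ hc]; simp
        · by_cases hj2 : j = inv i₀
          · subst hj2
            rw [hf1, map_smul, map_smul, LinearMap.smul_apply, hb0b, if_neg hne]; simp
          · rw [hf1, hf2 j hj hj2, map_smul, LinearMap.smul_apply, map_sub, map_smul, hb0b, hb0b,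
              if_neg hj, if_neg hne]; simp
      · have hinvi : inv i ≠ i₀ := fun h => hi2 (by rw [← h, hinv i])
        have hinvi2 : inv i ≠ inv i₀ := fun h => hi (hinv.injective h)
        by_cases hj : j = i₀
        · subst hj
          rw [hf0, hf2 i hi hi2, map_sub, map_smul, LinearMap.sub_apply, LinearMap.smul_apply,
            hbv, hbv, hinv, if_neg (fun h => hinvi h.symm), smul_eq_mul, mul_assoc,
            inv_mul_cancel₀ hc]; ring
        · by_cases hj2 : j = inv i₀
          · subst hj2
            rw [hf1, hf2 i hi hi2, map_smul, map_sub, map_smul, LinearMap.sub_apply,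
              LinearMap.smul_apply, hbb0, hbb0, if_neg hi, if_neg hne,
              if_neg (fun h => hinvi2 h.symm)]; simp
          · rw [hf2 i hi hi2, hf2 j hj hj2]
            simp only [map_sub, map_smul, LinearMap.sub_apply, LinearMap.smul_apply, hbb0, hb0b,
              if_neg hi, if_neg hj, if_neg hne, smul_eq_mul, mul_zero, sub_zero]
            exact hb i j
  refine ⟨hHyp.toBasis b hinv, ?_, ?_, ?_, i₀, hi₀S, hne, ?_⟩
  · rw [Hyp.coe_toBasis]; exact hHyp
  · intro i hi
    rw [Hyp.coe_toBasis]
    have h1 : i ≠ i₀ := fun h => hi (h ▸ hi₀S)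
    have h2 : i ≠ inv i₀ := fun h => hi (h ▸ hS _ hi₀S)
    rw [hf2 i h1 h2, hsupp (inv i), zero_mul, zero_smul, sub_zero]
    intro h; exact hi (by simpa [hinv i] using hS _ h)
  · intro i
    rw [Hyp.coe_toBasis]
    have hself : ∀ i, b i ∈ Vge K b lam (lam i) := fun i =>
      Submodule.subset_span ⟨i, le_refl (lam i), rfl⟩
    by_cases h1 : i = i₀
    · subst h1
      rw [hf0]
      exact mem_Vge_of_repr b lam _ hmin
    · by_cases h2 : i = inv i₀
      · subst h2
        rw [hf1]
        exact Submodule.smul_mem _ _ (hself _)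
      · rw [hf2 i h1 h2]
        refine Submodule.sub_mem _ (hself i) ?_
        by_cases h3 : c (inv i) = 0
        · rw [h3, zero_mul, zero_smul]; exact Submodule.zero_mem _
        · refine Submodule.smul_mem _ _ (Submodule.subset_span ⟨inv i₀, ?_, rfl⟩)
          have := hmin _ h3
          rw [hlam] at this
          show lam i ≤ lam (inv i₀)
          rw [hlam]; linarith
  · rw [Hyp.coe_toBasis, hf0]

omit [Fintype ι] [DecidableEq ι] in
theorem Vge_anti (b : ι → V) (lam : ι → ℝ) {u u' : ℝ} (h : u ≤ u') :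
    Vge K b lam u' ≤ Vge K b lam u :=
  Submodule.span_mono (Set.image_mono fun _ hi => le_trans h hi)

omit [Fintype ι] [DecidableEq ι] in
theorem Vge_le_of_mem {b e : ι → V} (lam : ι → ℝ) (h : ∀ i, b i ∈ Vge K e lam (lam i)) (u : ℝ) :
    Vge K b lam u ≤ Vge K e lam u := by
  refine Submodule.span_le.mpr ?_
  rintro _ ⟨i, hi, rfl⟩
  exact Vge_anti e lam hi (h i)

/-- **Adapted basis** ("Bruhat decomposition"): an isotropic flag `span (v 0 .. v (a-1))`, `a ≤ r`,
and the filtration of a weighted hyperbolic basis `e` have a common adapted hyperbolic basis. -/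
theorem exists_adapted [Nonempty ι] {B : LinearMap.BilinForm K V} (hB : B.IsSymm) {inv : ι → ι}
    (hinv : Function.Involutive inv) (e : Basis ι K V) (he : Hyp B inv e) (lam : ι → ℝ)
    (hlam : ∀ i, lam (inv i) = - lam i) (hfix : ∀ i j, inv i = i → inv j = j → i = j)
    (v : ℕ → V) (r : ℕ) (hli : ∀ a < r, v a ∉ Submodule.span K (v '' Set.Iio a))
    (hiso : ∀ a < r, ∀ c < r, B (v a) (v c) = 0) :
    ∃ b : Basis ι K V, Hyp B inv b ∧ (∀ i, b i ∈ Vge K e lam (lam i)) ∧
      ∃ j : ℕ → ι, (∀ a < r, ∀ c < r, j a ≠ inv (j c)) ∧ (∀ a < r, ∀ c < r, j a = j c → a = c) ∧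
        ∀ a ≤ r, Submodule.span K (v '' Set.Iio a)
          = Submodule.span K ((fun x => b (j x)) '' Set.Iio a) := by
  classical
  induction r with
  | zero =>
    have hne : (∀ i, e i ∈ Vge K e lam (lam i)) := fun i =>
      Submodule.subset_span ⟨i, le_refl (lam i), rfl⟩
    refine ⟨e, he, hne, fun _ => Classical.arbitrary ι, fun a ha => absurd ha (by omega),
        fun a ha => absurd ha (by omega), ?_⟩
    intro a ha
    have : a = 0 := by omega
    subst this
    simp
  | succ r ih =>
    obtain ⟨b, hb, hbe, j, hj1, hj2, hspan⟩ := ih (fun a ha => hli a (by omega))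
      (fun a ha c hc => hiso a (by omega) c (by omega))
    set S : Set ι := {i | ∀ a < r, i ≠ j a ∧ i ≠ inv (j a)} with hS
    set c := b.repr (v r) with hcdef
    set s : V := ∑ a ∈ Finset.range r, c (j a) • b (j a) with hs
    have hsmem : s ∈ Submodule.span K ((fun x => b (j x)) '' Set.Iio r) :=
      Submodule.sum_mem _ fun a ha => Submodule.smul_mem _ _
        (Submodule.subset_span ⟨a, by simpa using ha, rfl⟩)
    have hperp : ∀ x ∈ Submodule.span K (v '' Set.Iio r), B x (v r) = 0 := by
      intro x hx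
      refine Submodule.span_induction (p := fun x _ => B x (v r) = 0) ?_ ?_ ?_ ?_ hx
      · rintro _ ⟨a, ha, rfl⟩
        exact hiso a (by have : a < r := ha; omega) r (by omega)
      · simp
      · intro x y _ _ hx hy; rw [map_add, LinearMap.add_apply, hx, hy, add_zero]
      · intro t x _ hx; rw [map_smul, LinearMap.smul_apply, hx, smul_zero]
    have hss : B s (v r) = 0 := hperp s (by rw [hspan r le_rfl]; exact hsmem)
    have hbj : ∀ a < r, b (j a) ∈ Submodule.span K (v '' Set.Iio r) := by
      intro a ha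
      rw [hspan r le_rfl]
      exact Submodule.subset_span ⟨a, ha, rfl⟩
    have hbjs : ∀ x ∈ Submodule.span K (v '' Set.Iio r), ∀ y ∈ Submodule.span K (v '' Set.Iio r),
        B x y = 0 := by
      intro x hx y hy
      refine Submodule.span_induction (p := fun x _ => B x y = 0) ?_ ?_ ?_ ?_ hx
      · rintro _ ⟨a, ha, rfl⟩
        refine Submodule.span_induction (p := fun y _ => B (v a) y = 0) ?_ ?_ ?_ ?_ hy
        · rintro _ ⟨a', ha', rfl⟩
          exact hiso a (by have : a < r := ha; omega) a' (by have : a' < r := ha'; omega)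
        · simp
        · intro x y _ _ hx hy; rw [map_add, hx, hy, add_zero]
        · intro t x _ hx; rw [map_smul, hx, smul_zero]
      · simp
      · intro x y _ _ hx hy; rw [map_add, LinearMap.add_apply, hx, hy, add_zero]
      · intro t x _ hx; rw [map_smul, LinearMap.smul_apply, hx, smul_zero]
    set v' : V := v r - s with hv'
    have hv'0 : v' ≠ 0 := by
      intro h
      apply hli r (by omega)
      rw [sub_eq_zero] at h
      rw [h, hspan r le_rfl]; exact hsmem
    have hv'v' : B v' v' = 0 := by
      have h1 : B (v r) (v r) = 0 := hiso r (by omega) r (by omega)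
      have h2 : B (v r) s = 0 := by rw [← hss]; exact hB.eq _ _
      have h3 : B s s = 0 := hbjs s (by rw [hspan r le_rfl]; exact hsmem) s
        (by rw [hspan r le_rfl]; exact hsmem)
      rw [hv']
      simp only [map_sub, LinearMap.sub_apply, h1, h2, h3, hss]; ring
    have hrs : ∀ i, b.repr s i = ∑ a ∈ Finset.range r, c (j a) * (if j a = i then 1 else 0) := by
      intro i
      simp only [hs, map_sum, map_smul, Basis.repr_self, Finsupp.coe_finsetSum, Finset.sum_apply,
        Finsupp.smul_apply, smul_eq_mul, Finsupp.single_apply]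
    have hsupp : ∀ i, i ∉ S → b.repr v' i = 0 := by
      intro i hi
      have : ∃ a < r, i = j a ∨ i = inv (j a) := by
        by_contra hcon
        push Not at hcon
        exact hi fun a ha => hcon a ha
      obtain ⟨a, ha, h | h⟩ := this
      · subst h
        rw [hv', map_sub, Finsupp.sub_apply, hrs, Finset.sum_eq_single a]
        · simp [c]
        · intro a' ha' hne
          rw [if_neg, mul_zero]
          intro h; exact hne (hj2 a' (by simpa using ha') a ha h)
        · intro h; exact absurd (Finset.mem_range.mpr ha) h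
      · subst h
        rw [hv', map_sub, Finsupp.sub_apply, hrs, Finset.sum_eq_zero, sub_zero]
        · rw [← hb.repr_eq' hB hinv]
          exact hperp _ (hbj a ha)
        · intro a' ha'
          rw [if_neg, mul_zero]
          exact hj1 a' (by simpa using ha') a ha
    obtain ⟨b', hb', hbS, hb'ge, i₀, hi₀S, hi₀ne, hb'i₀⟩ := step hB hinv b hb lam hlam hfix S
      (by
        intro i hi a ha
        refine ⟨fun h => (hi a ha).2 ?_, fun h => (hi a ha).1 (hinv.injective h)⟩
        rw [← h, hinv i]) v' hv'0 hv'v' hsupp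
    have hjS : ∀ a < r, j a ∉ S := fun a ha h => (h a ha).1 rfl
    have hb'j : ∀ a < r, b' (j a) = b (j a) := fun a ha => hbS _ (hjS a ha)
    refine ⟨b', hb', fun i => Vge_le_of_mem lam hbe _ (hb'ge i), fun a => if a = r then i₀ else j a,
      ?_, ?_, ?_⟩
    · intro a ha a' ha'
      by_cases h : a = r <;> by_cases h' : a' = r
      · simp only [h, h', if_true]; exact fun h => hi₀ne h.symm
      · simp only [h, if_true, if_neg h']
        exact (hi₀S a' (by omega)).2
      · simp only [h', if_true, if_neg h]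
        intro h2
        apply (hi₀S a (by omega)).2
        rw [h2, hinv]
      · simp only [if_neg h, if_neg h']
        exact hj1 a (by omega) a' (by omega)
    · intro a ha a' ha'
      by_cases h : a = r <;> by_cases h' : a' = r
      · intro _; rw [h, h']
      · simp only [h, if_true, if_neg h']
        intro h2; exact absurd h2 (hi₀S a' (by omega)).1
      · simp only [h', if_true, if_neg h]
        intro h2; exact absurd h2.symm (hi₀S a (by omega)).1
      · simp only [if_neg h, if_neg h']
        exact hj2 a (by omega) a' (by omega)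
    · have hcase : ∀ a ≤ r, Submodule.span K (v '' Set.Iio a)
          = Submodule.span K ((fun x => b' (if x = r then i₀ else j x)) '' Set.Iio a) := by
        intro a ha
        rw [hspan a ha]
        congr 1
        refine Set.image_congr fun x hx => ?_
        have hx' : x < r := lt_of_lt_of_le hx ha
        show b (j x) = b' (if x = r then i₀ else j x)
        rw [if_neg (by omega), hb'j x hx']
      intro a ha
      rcases Nat.lt_or_ge r a with h | h
      · have : a = r + 1 := by omega
        subst this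
        have hIio : Set.Iio (r + 1) = insert r (Set.Iio r) := by
          ext x; simp only [Set.mem_Iio, Set.mem_insert_iff]; omega
        rw [hIio, Set.image_insert_eq, Set.image_insert_eq, Submodule.span_insert,
          Submodule.span_insert, hcase r le_rfl]
        simp only [if_true, hb'i₀]
        have hsm : s ∈ Submodule.span K ((fun x => b' (if x = r then i₀ else j x)) '' Set.Iio r) := by
          rw [← hcase r le_rfl, hspan r le_rfl]; exact hsmem
        apply le_antisymm
        · refine sup_le ?_ le_sup_right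
          rw [Submodule.span_singleton_le_iff_mem]
          have : v r = v' + s := by rw [hv']; abel
          rw [this]
          exact Submodule.add_mem _ (Submodule.mem_sup_left (Submodule.mem_span_singleton_self _))
            (Submodule.mem_sup_right hsm)
        · refine sup_le ?_ le_sup_right
          rw [Submodule.span_singleton_le_iff_mem]
          rw [hv']
          exact Submodule.sub_mem _ (Submodule.mem_sup_left (Submodule.mem_span_singleton_self _))
            (Submodule.mem_sup_right hsm)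
      · exact hcase a h

end Crest.Agent.R172.Adapt
end

-- ▼ part R172/Ind1
section

/-!
Row 172, node IND, part 1: a chain of isotropic subspaces is standard in a suitable orthogonal frame.
-/

set_option autoImplicit false
set_option maxHeartbeats 400000
set_option linter.unusedSectionVars false

namespace Crest.Agent.R172.Ind

open Module Matrix Crest.Agent.R172.HM2 Crest.Agent.R172.HM8
open Crest.Agent.R172.Gen (Jm Ix)

variable {n : ℕ} {K : Type*} [Field K]

/-- isotropic subspace -/
def Iso (S : Submodule K (Ix n → K)) : Prop := ∀ x ∈ S, ∀ y ∈ S, form n K x y = 0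

theorem form_isSymm : (form n K).IsSymm := ⟨fun x y => form_symm x y⟩

/-- a matrix whose columns form a hyperbolic family is orthogonal -/
theorem orth_of_cols {g : Matrix (Ix n) (Ix n) K}
    (h : ∀ p q, form n K (fun x => g x p) (fun x => g x q) = if q = sw p then 1 else 0) :
    Orth g := by
  unfold Orth
  ext p q
  have h1 := h p q
  rw [form_eq] at h1
  have h2 : (gᵀ * Jm n K * g) p q = (fun x => g x p) ⬝ᵥ (Jm n K *ᵥ fun x => g x q) := by
    rw [Matrix.mul_assoc, Matrix.mul_apply]
    rfl
  have h3 : Jm n K p q = if q = sw p then 1 else 0 := by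
    rcases p with i | i <;> rcases q with j | j
    · simp [LieAlgebra.Orthogonal.JD, sw_inl]
    · simp [LieAlgebra.Orthogonal.JD, sw_inl, Matrix.one_apply, eq_comm]
    · simp [LieAlgebra.Orthogonal.JD, sw_inr, Matrix.one_apply, eq_comm]
    · simp [LieAlgebra.Orthogonal.JD, sw_inr]
  rw [h2, h1, h3]

theorem orth_one : Orth (1 : Matrix (Ix n) (Ix n) K) := by
  unfold Orth
  rw [transpose_one, Matrix.one_mul, Matrix.mul_one]

/-- coordinate subspace as a span of columns -/
theorem Co_eq_span (g : Matrix (Ix n) (Ix n) K) (X : Ix n → Prop) :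
    Co g X = Submodule.span K ((fun p => fun q => g q p) '' {p | X p}) := by
  classical
  apply le_antisymm
  · rintro _ ⟨x, hx, rfl⟩
    rw [mulVecLin_apply]
    have h1 : g *ᵥ x = ∑ p, x p • (fun q => g q p) := by
      funext q
      rw [mulVec, dotProduct, Finset.sum_apply]
      exact Finset.sum_congr rfl fun p _ => mul_comm _ _
    rw [h1]
    refine Submodule.sum_mem _ fun p _ => ?_
    by_cases hp : X p
    · exact Submodule.smul_mem _ _ (Submodule.subset_span ⟨p, hp, rfl⟩)
    · rw [hx p hp, zero_smul]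
      exact Submodule.zero_mem _
  · rw [Submodule.span_le]
    rintro _ ⟨p, hp, rfl⟩
    refine ⟨Pi.single p 1, ?_, ?_⟩
    · intro q hq
      rw [Pi.single_eq_of_ne]
      rintro rfl
      exact hq hp
    · rw [mulVecLin_apply, mulVec_single_one]
      rfl

/-- extend a partial injection to an enumeration of a transversal of the pairs `{p, sw p}` -/
theorem exists_perm (r : ℕ) (j : ℕ → Ix n) (h1 : ∀ a < r, ∀ c < r, j a ≠ sw (j c))
    (h2 : ∀ a < r, ∀ c < r, j a = j c → a = c) :
    r ≤ n ∧ ∃ π : Ix n → Ix n, Function.Injective π ∧ (∀ p, π (sw p) = sw (π p)) ∧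
      ∀ i : Fin n, (i : ℕ) < r → π (Sum.inl i) = j i := by
  classical
  let A : Finset (Ix n) := (Finset.range r).image j
  have hA : ∀ p, p ∈ A ↔ ∃ a < r, j a = p := by
    intro p; simp [A]
  have hAs : ∀ p ∈ A, sw p ∉ A := by
    intro p hp hq
    obtain ⟨a, ha, rfl⟩ := (hA p).1 hp
    obtain ⟨b, hb, hb'⟩ := (hA _).1 hq
    exact h1 b hb a ha hb'
  let T : Finset (Ix n) := Finset.univ.filter fun p => p ∈ A ∨ (sw p ∉ A ∧ ∃ i, p = Sum.inl i)
  have hT : ∀ p, p ∈ T ↔ (p ∈ A ∨ (sw p ∉ A ∧ ∃ i, p = Sum.inl i)) := by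
    intro p; simp [T]
  have hT1 : ∀ p, p ∈ T → sw p ∉ T := by
    intro p hp hq
    rw [hT] at hp hq
    rw [sw_sw] at hq
    rcases hp with hp | ⟨hp, i, rfl⟩
    · rcases hq with hq | ⟨hq, _⟩
      · exact hAs p hp hq
      · exact hq hp
    · rcases hq with hq | ⟨_, i', hi'⟩
      · exact hp hq
      · rw [sw_inl] at hi'
        exact absurd hi' (by simp)
  have hT2 : ∀ p, p ∉ T → sw p ∈ T := by
    intro p hp
    rw [hT] at hp ⊢
    rw [sw_sw]
    push Not at hp
    obtain ⟨hp1, hp2⟩ := hp
    by_cases h : sw p ∈ A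
    · exact Or.inl h
    · right
      refine ⟨hp1, ?_⟩
      rcases p with i | i
      · exact absurd rfl (hp2 h i)
      · exact ⟨i, rfl⟩
  have hcard : T.card = n := by
    have h3 : Finset.univ = T ∪ T.image sw := by
      ext p
      simp only [Finset.mem_univ, true_iff, Finset.mem_union, Finset.mem_image]
      by_cases h : p ∈ T
      · exact Or.inl h
      · exact Or.inr ⟨sw p, hT2 p h, sw_sw p⟩
    have h4 : Disjoint T (T.image sw) := by
      rw [Finset.disjoint_left]
      intro p hp hq
      obtain ⟨q, hq1, rfl⟩ := Finset.mem_image.1 hq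
      exact hT1 q hq1 hp
    have h5 : (T.image sw).card = T.card :=
      Finset.card_image_of_injective _ (fun x y h => sw_inj h)
    have h6 : (Finset.univ : Finset (Ix n)).card = T.card + T.card := by
      conv_lhs => rw [h3]
      rw [Finset.card_union_of_disjoint h4, h5]
    rw [Finset.card_univ, Fintype.card_sum, Fintype.card_fin] at h6
    omega
  have hcardA : A.card = r := by
    rw [Finset.card_image_of_injOn, Finset.card_range]
    intro a ha c hc h
    exact h2 a (by simpa using ha) c (by simpa using hc) h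
  have hAT : A ⊆ T := fun p hp => (hT p).2 (Or.inl hp)
  have hr : r ≤ n := by
    have := Finset.card_le_card hAT
    omega
  refine ⟨hr, ?_⟩
  obtain ⟨g, hg⟩ := Finset.exists_equiv_extend_of_card_eq (α := Fin n) (t := T)
    (by rw [Fintype.card_fin, hcard]) (s := Finset.univ.filter fun i : Fin n => (i : ℕ) < r)
    (f := fun i => j i) (by
      intro p hp
      obtain ⟨i, hi, rfl⟩ := Finset.mem_image.1 hp
      exact hAT ((hA _).2 ⟨i, (Finset.mem_filter.1 hi).2, rfl⟩)) (by
      intro a ha c hc h
      have ha' : a ∈ Finset.univ.filter fun i : Fin n => (i : ℕ) < r := ha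
      have hc' : c ∈ Finset.univ.filter fun i : Fin n => (i : ℕ) < r := hc
      exact Fin.ext (h2 a (Finset.mem_filter.1 ha').2 c (Finset.mem_filter.1 hc').2 h))
  refine ⟨fun p => match p with
    | Sum.inl i => (g i : Ix n)
    | Sum.inr i => sw (g i : Ix n), ?_, ?_, ?_⟩
  · intro p q hpq
    rcases p with i | i <;> rcases q with i' | i'
    · have : g i = g i' := Subtype.ext hpq
      rw [g.injective this]
    · exact absurd (g i).2 (by
        have h : ((g i : T) : Ix n) = sw (g i' : Ix n) := hpq
        rw [h]; exact hT1 _ (g i').2)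
    · exact absurd (g i').2 (by
        have h : sw ((g i : T) : Ix n) = (g i' : Ix n) := hpq
        rw [← h]; exact hT1 _ (g i).2)
    · have h : sw ((g i : T) : Ix n) = sw (g i' : Ix n) := hpq
      have : g i = g i' := Subtype.ext (sw_inj h)
      rw [g.injective this]
  · intro p
    rcases p with i | i
    · rfl
    · change (g i : Ix n) = sw (sw (g i : Ix n))
      rw [sw_sw]
  · intro i hi
    exact hg i (Finset.mem_filter.2 ⟨Finset.mem_univ _, hi⟩)

/-- a frame adapted to an isotropic flag given by vectors -/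
theorem frame_of_vectors (v : ℕ → Ix n → K) (r : ℕ)
    (hli : ∀ a < r, v a ∉ Submodule.span K (v '' Set.Iio a))
    (hiso : ∀ a < r, ∀ c < r, form n K (v a) (v c) = 0) :
    r ≤ n ∧ ∃ g : Matrix (Ix n) (Ix n) K, Orth g ∧
      ∀ a ≤ r, Submodule.span K (v '' Set.Iio a) = Co g (Xh a) := by
  classical
  rcases Nat.eq_zero_or_pos n with hn | hn
  · subst hn
    have hr : r = 0 := by
      by_contra h
      have h1 := hli 0 (Nat.pos_of_ne_zero h)
      apply h1
      have h2 : v 0 = 0 := Subsingleton.elim _ _
      rw [h2]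
      exact Submodule.zero_mem _
    subst hr
    refine ⟨le_rfl, 1, orth_one, ?_⟩
    intro a ha
    exact Subsingleton.elim _ _
  have : Nonempty (Ix n) := ⟨Sum.inl ⟨0, hn⟩⟩
  have he : Adapt.Hyp (form n K) sw (Pi.basisFun K (Ix n)) := by
    intro i j
    rw [Pi.basisFun_apply, Pi.basisFun_apply, form_single, Pi.single_apply]
    by_cases h : j = sw i
    · rw [if_pos h, h, sw_sw, if_pos rfl]
    · rw [if_neg h, if_neg]
      intro h'
      exact h (by rw [← h', sw_sw])
  obtain ⟨b, hb, -, j, hj1, hj2, hspan⟩ := Adapt.exists_adapted (form_isSymm (n := n) (K := K))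
    (inv := sw) (fun p => sw_sw p) (Pi.basisFun K (Ix n)) he (fun _ => 0) (by simp) (by
      intro i j hi _
      exfalso
      rcases i with i | i
      · rw [sw_inl] at hi; exact absurd hi (by simp)
      · rw [sw_inr] at hi; exact absurd hi (by simp)) v r hli hiso
  obtain ⟨hr, π, hπ1, hπ2, hπ3⟩ := exists_perm r j hj1 hj2
  refine ⟨hr, Matrix.of fun q p => b (π p) q, ?_, ?_⟩
  · apply orth_of_cols
    intro p q
    have h := hb (π p) (π q)
    refine Eq.trans h ?_
    by_cases hq : q = sw p
    · rw [if_pos hq, if_pos (by rw [hq, hπ2])]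
    · rw [if_neg hq, if_neg]
      intro h'
      rw [← hπ2] at h'
      exact hq (hπ1 h')
  · intro a ha
    rw [hspan a ha, Co_eq_span]
    congr 1
    ext x
    constructor
    · rintro ⟨i, hi, rfl⟩
      have hi' : i < a := hi
      refine ⟨Sum.inl ⟨i, by omega⟩, hi', ?_⟩
      change (fun q => b (π (Sum.inl ⟨i, _⟩)) q) = b (j i)
      rw [hπ3 ⟨i, by omega⟩ (by simp; omega)]
    · rintro ⟨p, hp, rfl⟩
      rcases p with i | i
      · have hi : (i : ℕ) < a := hp
        refine ⟨i, hi, ?_⟩
        change b (j i) = (fun q => b (π (Sum.inl i)) q)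
        rw [hπ3 i (by omega)]
      · exact absurd hp id

/-- a frame adapted to a finite chain of isotropic subspaces -/
theorem frame_of_chain {δ : Type*} [Fintype δ] (C : δ → Submodule K (Ix n → K))
    (hc : ∀ d e, C d ≤ C e ∨ C e ≤ C d) (hiso : ∀ d, Iso (C d)) :
    ∃ g : Matrix (Ix n) (Ix n) K, Orth g ∧ ∀ d, finrank K (C d) ≤ n ∧
      C d = Co g (Xh (finrank K (C d))) := by
  classical
  -- `R k` = the largest member of dimension at most `k`
  let R : ℕ → Submodule K (Ix n → K) := fun k => ⨆ d, ⨆ (_ : finrank K (C d) ≤ k), C d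
  have hRmem : ∀ k, R k = ⊥ ∨ ∃ d, finrank K (C d) ≤ k ∧ R k = C d := by
    intro k
    by_cases hex : ∃ d, finrank K (C d) ≤ k
    · right
      obtain ⟨d, hd, hmax⟩ := Finset.exists_max_image
        (Finset.univ.filter fun d => finrank K (C d) ≤ k) (fun d => finrank K (C d)) (by
          obtain ⟨d, hd⟩ := hex
          exact ⟨d, Finset.mem_filter.2 ⟨Finset.mem_univ _, hd⟩⟩)
      have hd' := (Finset.mem_filter.1 hd).2
      refine ⟨d, hd', le_antisymm ?_ ?_⟩
      · refine iSup_le fun e => iSup_le fun he => ?_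
        rcases hc e d with h | h
        · exact h
        · have h1 := hmax e (Finset.mem_filter.2 ⟨Finset.mem_univ _, he⟩)
          exact le_of_eq (Submodule.eq_of_le_of_finrank_le h h1).symm
      · exact le_iSup_of_le d (le_iSup_of_le hd' le_rfl)
    · left
      push Not at hex
      refine le_antisymm (iSup_le fun e => iSup_le fun he => ?_) bot_le
      exact absurd he (not_le.mpr (hex e))
  have hRmono : Monotone R := fun a b hab => iSup_le fun d => iSup_le fun hd =>
    le_iSup_of_le d (le_iSup_of_le (hd.trans hab) le_rfl)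
  have hRC : ∀ d, R (finrank K (C d)) = C d := by
    intro d
    apply le_antisymm
    · refine iSup_le fun e => iSup_le fun he => ?_
      rcases hc e d with h | h
      · exact h
      · exact le_of_eq (Submodule.eq_of_le_of_finrank_le h he).symm
    · exact le_iSup_of_le d (le_iSup_of_le le_rfl le_rfl)
  have hR0 : R 0 = ⊥ := by
    rcases hRmem 0 with h | ⟨d, hd, h⟩
    · exact h
    · rw [h]
      exact Submodule.finrank_eq_zero.1 (Nat.le_zero.1 hd)
  have hRiso : ∀ k, Iso (R k) := by
    intro k
    rcases hRmem k with h | ⟨d, _, h⟩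
    · rw [h]
      intro x hx y _
      rw [Submodule.mem_bot] at hx
      rw [hx, map_zero, LinearMap.zero_apply]
    · rw [h]; exact hiso d
  -- dimension bound through the whole chain
  set p : ℕ := ∑ d, finrank K (C d) with hp
  have hdp : ∀ d, finrank K (C d) ≤ p := fun d =>
    Finset.single_le_sum (f := fun d => finrank K (C d)) (fun _ _ => Nat.zero_le _)
      (Finset.mem_univ d)
  obtain ⟨g0, lev, hlev1, hlev2, hspan⟩ := NilPat.exists_adapted_chain (Pi.basisFun K (Ix n))
    (fun j => if j ≤ p then R j else ⊤) (by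
      intro a b hab
      simp only
      by_cases hb : b ≤ p
      · rw [if_pos hb, if_pos (hab.trans hb)]; exact hRmono hab
      · rw [if_neg hb]; exact le_top) (by simp [hR0]) (p + 1) (by simp)
  have hspan' : ∀ j ≤ p, R j = Submodule.span K (g0 '' {i | lev i ≤ j}) := by
    intro j hj
    have := hspan j
    rwa [if_pos hj] at this
  -- sorted enumeration of the indices of level `≤ p`
  let I : Finset (Ix n) := Finset.univ.filter fun i => lev i ≤ p
  let r := I.card
  let e : Fin r ≃ I := I.equivFin.symm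
  let τ := Tuple.sort (fun k => lev (e k))
  have hmono : Monotone ((fun k => lev (e k)) ∘ τ) := Tuple.monotone_sort _
  have hlevI : ∀ k : Fin r, lev (e (τ k)) ≤ p := fun k => (Finset.mem_filter.1 (e (τ k)).2).2
  let v : ℕ → Ix n → K := fun a => if h : a < r then g0 (e (τ ⟨a, h⟩) : Ix n) else 0
  have hv : ∀ k : Fin r, v k = g0 (e (τ k) : Ix n) := fun k => dif_pos k.2
  have hinj : ∀ k l : Fin r, ((e (τ k) : I) : Ix n) = e (τ l) → k = l := by
    intro k l h
    exact τ.injective (e.injective (Subtype.ext h))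
  have himg : ∀ a ≤ r, v '' Set.Iio a =
      g0 '' ((fun k : Fin r => ((e (τ k) : I) : Ix n)) '' {k | (k : ℕ) < a}) := by
    intro a ha
    ext x
    constructor
    · rintro ⟨b, hb, rfl⟩
      have hb' : b < a := hb
      exact ⟨_, ⟨⟨b, by omega⟩, hb', rfl⟩, (hv ⟨b, by omega⟩).symm⟩
    · rintro ⟨_, ⟨k, hk, rfl⟩, rfl⟩
      exact ⟨k, hk, hv k⟩
  have hli : ∀ a < r, v a ∉ Submodule.span K (v '' Set.Iio a) := by
    intro a ha
    rw [himg a ha.le, hv ⟨a, ha⟩]
    apply g0.linearIndependent.notMem_span_image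
    rintro ⟨k, hk, h⟩
    have h1 := hinj _ _ h
    rw [h1] at hk
    exact lt_irrefl a hk
  have hviso : ∀ a < r, ∀ c < r, form n K (v a) (v c) = 0 := by
    have hmem : ∀ a < r, v a ∈ R p := by
      intro a ha
      rw [hspan' p le_rfl, hv ⟨a, ha⟩]
      exact Submodule.subset_span ⟨_, hlevI _, rfl⟩
    intro a ha c hc
    exact hRiso p _ (hmem a ha) _ (hmem c hc)
  obtain ⟨hrn, g, hg, hspan2⟩ := frame_of_vectors v r hli hviso
  refine ⟨g, hg, fun d => ?_⟩
  set h := finrank K (C d) with hh
  have hS : Submodule.span K (g0 '' {i | lev i ≤ h}) = C d := by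
    rw [← hspan' h (hdp d)]; exact hRC d
  have hcardS : (Finset.univ.filter fun i => lev i ≤ h).card = h := by
    have h1 : finrank K (Submodule.span K (g0 '' {i | lev i ≤ h})) =
        (Finset.univ.filter fun i => lev i ≤ h).card := by
      have h2 : g0 '' {i | lev i ≤ h} =
          Set.range (fun i : {i // i ∈ Finset.univ.filter fun i => lev i ≤ h} => g0 i) := by
        ext x
        constructor
        · rintro ⟨i, hi, rfl⟩
          exact ⟨⟨i, Finset.mem_filter.2 ⟨Finset.mem_univ _, hi⟩⟩, rfl⟩
        · rintro ⟨i, rfl⟩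
          exact ⟨i, (Finset.mem_filter.1 i.2).2, rfl⟩
      have h3 := finrank_span_eq_card (g0.linearIndependent.comp (Subtype.val :
        {i // i ∈ Finset.univ.filter fun i => lev i ≤ h} → Ix n) Subtype.val_injective)
      rw [Fintype.card_coe] at h3
      rw [h2]
      exact h3
    rw [← h1, hS]
  have hcount : (Finset.univ.filter fun k : Fin r => lev (e (τ k)) ≤ h).card = h := by
    refine Eq.trans ?_ hcardS
    refine Finset.card_bij (fun k _ => ((e (τ k) : I) : Ix n)) ?_ ?_ ?_
    · intro k hk
      exact Finset.mem_filter.2 ⟨Finset.mem_univ _, (Finset.mem_filter.1 hk).2⟩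
    · intro k _ l _ hkl
      exact hinj k l hkl
    · intro i hi
      have hi' := (Finset.mem_filter.1 hi).2
      have hiI : i ∈ I := Finset.mem_filter.2 ⟨Finset.mem_univ _, hi'.trans (hdp d)⟩
      refine ⟨τ.symm (e.symm ⟨i, hiI⟩), ?_, ?_⟩
      · refine Finset.mem_filter.2 ⟨Finset.mem_univ _, ?_⟩
        rw [Equiv.apply_symm_apply, Equiv.apply_symm_apply]
        exact hi'
      · rw [Equiv.apply_symm_apply, Equiv.apply_symm_apply]
  have key : ∀ k : Fin r, lev (e (τ k)) ≤ h ↔ (k : ℕ) < h := by
    intro k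
    constructor
    · intro hk
      have h1 : Finset.Iic k ⊆ Finset.univ.filter fun k : Fin r => lev (e (τ k)) ≤ h := by
        intro l hl
        exact Finset.mem_filter.2 ⟨Finset.mem_univ _,
          (hmono (Finset.mem_Iic.1 hl)).trans hk⟩
      have h2 := Finset.card_le_card h1
      rw [hcount, Fin.card_Iic] at h2
      omega
    · intro hk
      by_contra hc'
      have h1 : (Finset.univ.filter fun k : Fin r => lev (e (τ k)) ≤ h) ⊆ Finset.Iio k := by
        intro l hl
        rw [Finset.mem_Iio]
        by_contra hl'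
        exact hc' ((hmono (not_lt.1 hl')).trans (Finset.mem_filter.1 hl).2)
      have h2 := Finset.card_le_card h1
      rw [hcount, Fin.card_Iio] at h2
      omega
  have hhr : h ≤ r := by
    have h1 := Finset.card_le_univ (Finset.univ.filter fun k : Fin r => lev (e (τ k)) ≤ h)
    rwa [hcount, Fintype.card_fin] at h1
  refine ⟨hhr.trans hrn, ?_⟩
  rw [← hspan2 h hhr, himg h hhr, ← hS]
  congr 2
  ext i
  constructor
  · intro hi
    have hiI : i ∈ I := Finset.mem_filter.2 ⟨Finset.mem_univ _, (show lev i ≤ h from hi).trans (hdp d)⟩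
    refine ⟨τ.symm (e.symm ⟨i, hiI⟩), ?_, ?_⟩
    · rw [Set.mem_ofPred_eq, ← key, Equiv.apply_symm_apply, Equiv.apply_symm_apply]
      exact hi
    · simp only [Equiv.apply_symm_apply]
  · rintro ⟨k, hk, rfl⟩
    exact (key k).2 hk

end Crest.Agent.R172.Ind
end

-- ▼ part R172/Ind2
section

/-!
Row 172, node IND, part 2: reduction `V_S = S^⊥ / S` of a configuration along an isotropic subspace.
-/

set_option autoImplicit false
set_option maxHeartbeats 400000
set_option linter.unusedSectionVars false

namespace Crest.Agent.R172.Ind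

open Module Matrix Crest.Agent.R172.HM2 Crest.Agent.R172.HM8 Crest.Agent.R172.HM9
open Crest.Agent.R172.Gen (Jm Ix)
open Crest.Agent.R172.CF

variable {n : ℕ} {K : Type*} [Field K]

/-! ### orthogonal complements -/

/-- `S^⊥` -/
def perp (S : Submodule K (Ix n → K)) : Submodule K (Ix n → K) where
  carrier := {v | ∀ s ∈ S, form n K v s = 0}
  add_mem' := by
    intro v w hv hw s hs
    rw [map_add, LinearMap.add_apply, hv s hs, hw s hs, add_zero]
  zero_mem' := by
    intro s _
    rw [map_zero, LinearMap.zero_apply]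
  smul_mem' := by
    intro t v hv s hs
    rw [map_smul, LinearMap.smul_apply, hv s hs, smul_zero]

theorem mem_perp {S : Submodule K (Ix n → K)} {v : Ix n → K} :
    v ∈ perp S ↔ ∀ s ∈ S, form n K v s = 0 := Iff.rfl

theorem perp_eq (S : Submodule K (Ix n → K)) : perp S = (form n K).orthogonal S := by
  ext v
  rw [mem_perp, LinearMap.BilinForm.mem_orthogonal_iff]
  constructor
  · intro h s hs
    change form n K s v = 0
    rw [form_symm]; exact h s hs
  · intro h s hs
    rw [form_symm]; exact h s hs

theorem perp_perp (S : Submodule K (Ix n → K)) : perp (perp S) = S := by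
  have hr : (form n K).IsRefl := fun x y h => by rw [form_symm]; exact h
  have hnd : (form n K).Nondegenerate := form_nondeg
  rw [perp_eq, perp_eq]
  exact LinearMap.BilinForm.orthogonal_orthogonal hnd hr S

theorem finrank_Ix : finrank K (Ix n → K) = 2 * n := by
  rw [finrank_fintype_fun_eq_card, Fintype.card_sum, Fintype.card_fin]
  ring

theorem finrank_perp (S : Submodule K (Ix n → K)) :
    finrank K (perp S) + finrank K S = 2 * n := by
  have hnd : (form n K).Nondegenerate := form_nondeg
  have h1 : finrank K (perp S) = finrank K (Ix n → K) - finrank K S := by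
    rw [perp_eq]; exact LinearMap.BilinForm.finrank_orthogonal hnd S
  have h2 : finrank K S ≤ finrank K (Ix n → K) := Submodule.finrank_le S
  rw [finrank_Ix] at h1 h2
  omega

theorem perp_sup (A B : Submodule K (Ix n → K)) : perp (A ⊔ B) = perp A ⊓ perp B := by
  ext v
  rw [Submodule.mem_inf, mem_perp, mem_perp, mem_perp]
  constructor
  · intro h
    exact ⟨fun s hs => h s (Submodule.mem_sup_left hs), fun s hs => h s (Submodule.mem_sup_right hs)⟩
  · rintro ⟨ha, hb⟩ s hs
    obtain ⟨s1, h1, s2, h2, rfl⟩ := Submodule.mem_sup.1 hs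
    rw [map_add, ha s1 h1, hb s2 h2, add_zero]

theorem perp_inf (A B : Submodule K (Ix n → K)) : perp (A ⊓ B) = perp A ⊔ perp B := by
  have h : A ⊓ B = perp (perp A ⊔ perp B) := by rw [perp_sup, perp_perp, perp_perp]
  rw [h, perp_perp]


theorem Iso.le_perp {S : Submodule K (Ix n → K)} (h : Iso S) : S ≤ perp S :=
  fun x hx y hy => h x hx y hy

theorem Iso.of_le_perp {S : Submodule K (Ix n → K)} (h : S ≤ perp S) : Iso S :=
  fun _ hx y hy => h hx y hy

theorem Co_perp {g : Matrix (Ix n) (Ix n) K} (hg : Orth g) (X : Ix n → Prop) :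
    Co g (fun p => ¬ X (sw p)) = perp (Co g X) := by
  ext v
  rw [Co_orth hg, mem_perp]

/-! ### frames adapted to a self-dual chain -/

/-- standard index set -/
def Xd (k l : ℕ) : Ix n → Prop
  | Sum.inl i => (i : ℕ) < k
  | Sum.inr i => ¬ (i : ℕ) < l

theorem frame_of_dual_chain {δ : Type*} [Fintype δ] (σ : δ → δ) (hσ : ∀ d, σ (σ d) = d)
    (C : δ → Submodule K (Ix n → K)) (hc : ∀ d e, C d ≤ C e ∨ C e ≤ C d)
    (hd : ∀ d, C (σ d) = perp (C d)) :
    ∃ g : Matrix (Ix n) (Ix n) K, Orth g ∧
      ∀ d, C d = Co g (Xd (finrank K (C d)) (finrank K (C (σ d)))) := by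
  classical
  obtain ⟨g, hg, h⟩ := frame_of_chain (δ := {d : δ // Iso (C d)}) (fun d => C d)
    (fun d e => hc d e) (fun d => d.2)
  have hsum : ∀ d, finrank K (C (σ d)) + finrank K (C d) = 2 * n := by
    intro d; rw [hd d]; exact finrank_perp _
  have hiso : ∀ d, Iso (C d) → finrank K (C d) ≤ n ∧
      C d = Co g (Xd (finrank K (C d)) (finrank K (C (σ d)))) := by
    intro d hdi
    obtain ⟨h1, h2⟩ := h ⟨d, hdi⟩
    refine ⟨h1, ?_⟩
    have h1' : finrank K (C d) ≤ n := h1
    have hs := hsum d
    have e : (Xd (finrank K (C d)) (finrank K (C (σ d))) : Ix n → Prop) =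
        Xh (finrank K (C d)) := by
      funext p
      apply propext
      rcases p with i | i
      · exact Iff.rfl
      · change ¬ (i : ℕ) < finrank K (C (σ d)) ↔ False
        have := i.2
        rw [not_lt, iff_false, not_le]
        omega
    rw [e]
    exact h2
  refine ⟨g, hg, fun d => ?_⟩
  by_cases hdi : Iso (C d)
  · exact (hiso d hdi).2
  · have hdi' : Iso (C (σ d)) := by
      rcases hc d (σ d) with h1 | h1
      · exact absurd (Iso.of_le_perp (by rw [← hd]; exact h1)) hdi
      · apply Iso.of_le_perp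
        rw [← hd, hσ]
        exact h1
    obtain ⟨h3, h4⟩ := hiso _ hdi'
    have e : C d = perp (C (σ d)) := by rw [← hd, hσ]
    have hs := hsum d
    rw [hσ] at h4
    conv_lhs => rw [e, h4]
    rw [← Co_perp hg]
    congr 1
    funext p
    apply propext
    rcases p with i | i
    · change ¬ ¬ (i : ℕ) < finrank K (C d) ↔ (i : ℕ) < finrank K (C d)
      exact not_not
    · exact Iff.rfl

/-! ### sections -/

/-- `β : V_S → V`, `τ : V → V_S`. -/
structure Sec (S : Submodule K (Ix n → K)) (n' : ℕ) (β : Matrix (Ix n) (Ix n') K)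
    (τ : Matrix (Ix n') (Ix n) K) : Prop where
  iso : Iso S
  dim : n' + finrank K S = n
  adj : ∀ (x : Ix n' → K) (v : Ix n → K), form n K (β *ᵥ x) v = form n' K x (τ *ᵥ v)
  tb : τ * β = 1
  kill : ∀ s ∈ S, τ *ᵥ s = 0
  dec : ∀ v ∈ perp S, v - β *ᵥ (τ *ᵥ v) ∈ S

theorem exists_sec {S : Submodule K (Ix n → K)} (hS : Iso S) :
    ∃ (n' : ℕ) (β : Matrix (Ix n) (Ix n') K) (τ : Matrix (Ix n') (Ix n) K), Sec S n' β τ := by
  classical
  obtain ⟨g, hg, h⟩ := frame_of_chain (δ := Unit) (fun _ => S) (fun _ _ => Or.inl le_rfl)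
    (fun _ => hS)
  obtain ⟨hs, hSg⟩ := h ()
  set s := finrank K S with hsd
  have hn : n - s + s = n := by omega
  let ι : Ix (n - s) → Ix n := fun p => match p with
    | Sum.inl i => Sum.inl ⟨s + i, by omega⟩
    | Sum.inr i => Sum.inr ⟨s + i, by omega⟩
  have hι : ∀ p, ι (sw p) = sw (ι p) := by
    intro p; rcases p with i | i <;> rfl
  have hιinj : Function.Injective ι := by
    intro p q h
    rcases p with i | i <;> rcases q with j | j
    · have h1 : (⟨s + i, by omega⟩ : Fin n) = ⟨s + j, by omega⟩ := Sum.inl_injective h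
      rw [Fin.mk.injEq] at h1
      rw [Fin.ext (show (i : ℕ) = j by omega)]
    · exact absurd h (by simp [ι])
    · exact absurd h (by simp [ι])
    · have h1 : (⟨s + i, by omega⟩ : Fin n) = ⟨s + j, by omega⟩ := Sum.inr_injective h
      rw [Fin.mk.injEq] at h1
      rw [Fin.ext (show (i : ℕ) = j by omega)]
  -- extension by zero
  let ex : (Ix (n - s) → K) → Ix n → K := fun x q => ∑ p, if ι p = q then x p else 0
  have hexι : ∀ x p, ex x (ι p) = x p := by
    intro x p
    change (∑ p', if ι p' = ι p then x p' else 0) = x p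
    rw [Finset.sum_eq_single p]
    · rw [if_pos rfl]
    · intro p' _ hp
      rw [if_neg fun h => hp (hιinj h)]
    · simp
  have hex0 : ∀ x q, (∀ p, ι p ≠ q) → ex x q = 0 := by
    intro x q hq
    exact Finset.sum_eq_zero fun p _ => if_neg (hq p)
  let β : Matrix (Ix n) (Ix (n - s)) K := g.submatrix id ι
  let gi : Matrix (Ix n) (Ix n) K := Jm n K * gᵀ * Jm n K
  have hgi1 : gi * g = 1 := Gen.orth_left_inv hg
  let τ : Matrix (Ix (n - s)) (Ix n) K := gi.submatrix ι id
  have hβ : ∀ x, β *ᵥ x = g *ᵥ ex x := by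
    intro x
    funext q
    change ∑ p, g q (ι p) * x p = ∑ r, g q r * ex x r
    have h1 : ∀ r, g q r * ex x r = ∑ p, if ι p = r then g q r * x p else 0 := by
      intro r
      change g q r * (∑ p, if ι p = r then x p else 0) = _
      rw [Finset.mul_sum]
      refine Finset.sum_congr rfl fun p _ => ?_
      split_ifs <;> simp
    rw [Finset.sum_congr rfl fun r _ => h1 r, Finset.sum_comm]
    refine Finset.sum_congr rfl fun p _ => ?_
    rw [Finset.sum_eq_single (ι p)]
    · rw [if_pos rfl]
    · intro r _ hr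
      rw [if_neg (Ne.symm hr)]
    · simp
  have hτ : ∀ y, τ *ᵥ (g *ᵥ y) = fun p => y (ι p) := by
    intro y
    funext p
    have h1 : (gi *ᵥ (g *ᵥ y)) (ι p) = y (ι p) := by
      rw [mulVec_mulVec, hgi1, one_mulVec]
    rw [← h1]
    rfl
  refine ⟨n - s, β, τ, hS, hn, ?_, ?_, ?_, ?_⟩
  · intro x v
    obtain ⟨y, rfl⟩ := hg.surj v
    rw [hβ, form_mulVec hg, hτ, form_apply, form_apply]
    have h1 : ∀ q, ex x q * y (sw q) = ∑ p, if ι p = q then x p * y (sw q) else 0 := by
      intro q
      change (∑ p, if ι p = q then x p else 0) * y (sw q) = _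
      rw [Finset.sum_mul]
      refine Finset.sum_congr rfl fun p _ => ?_
      split_ifs <;> simp
    rw [Finset.sum_congr rfl fun q _ => h1 q, Finset.sum_comm]
    refine Finset.sum_congr rfl fun p _ => ?_
    rw [Finset.sum_eq_single (ι p)]
    · rw [if_pos rfl, hι]
    · intro q _ hq
      rw [if_neg (Ne.symm hq)]
    · simp
  · ext p q
    have h1 := congrFun (hτ (Pi.single (ι q) 1)) p
    have h2 : g *ᵥ Pi.single (ι q) 1 = fun r => g r (ι q) := by
      rw [mulVec_single_one]; rfl
    rw [h2] at h1
    have h3 : (τ * β) p q = (τ *ᵥ fun r => g r (ι q)) p := rfl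
    rw [h3, h1, Matrix.one_apply, Pi.single_apply]
    by_cases hpq : p = q
    · rw [if_pos (by rw [hpq]), if_pos hpq]
    · rw [if_neg (fun h => hpq (hιinj h)), if_neg hpq]
  · intro v hv
    rw [hSg] at hv
    obtain ⟨x, hx, rfl⟩ := hv
    rw [mulVecLin_apply, hτ]
    funext p
    apply hx
    rcases p with i | i
    · change ¬ s + (i : ℕ) < s
      omega
    · exact id
  · intro v hv
    have hv' : v ∈ Co g (fun p => ¬ Xh s (sw p)) := by
      rw [Co_perp hg, ← hSg]; exact hv
    obtain ⟨y, rfl⟩ := hg.surj v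
    rw [mem_Co' hg] at hv'
    rw [hτ, hβ, ← mulVec_sub]
    have hS2 : S = Co g (Xh s) := hSg
    rw [hS2, mem_Co' hg]
    intro p hp
    rw [Pi.sub_apply]
    rcases p with i | i
    · have hi : ¬ (i : ℕ) < s := hp
      have h1 : ι (Sum.inl ⟨(i : ℕ) - s, by have := i.2; omega⟩) = Sum.inl i := by
        change (Sum.inl ⟨s + ((i : ℕ) - s), _⟩ : Ix n) = Sum.inl i
        congr 1
        exact Fin.ext (by simp only; omega)
      have h3 := hexι (fun p => y (ι p)) (Sum.inl ⟨(i : ℕ) - s, by have := i.2; omega⟩)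
      simp only [h1] at h3
      rw [h3, sub_self]
    · by_cases hi : (i : ℕ) < s
      · have h2 : y (Sum.inr i) = 0 := by
          apply hv'
          rw [not_not]
          exact hi
        rw [h2, hex0, sub_zero]
        intro p h
        rcases p with j | j
        · exact absurd h (by simp [ι])
        · have h1 : (⟨s + j, by omega⟩ : Fin n) = i := Sum.inr_injective h
          rw [← h1] at hi
          simp only at hi
          omega
      · have h1 : ι (Sum.inr ⟨(i : ℕ) - s, by have := i.2; omega⟩) = Sum.inr i := by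
          change (Sum.inr ⟨s + ((i : ℕ) - s), _⟩ : Ix n) = Sum.inr i
          congr 1
          exact Fin.ext (by simp only; omega)
        have h3 := hexι (fun p => y (ι p)) (Sum.inr ⟨(i : ℕ) - s, by have := i.2; omega⟩)
        simp only [h1] at h3
        rw [h3, sub_self]

end Crest.Agent.R172.Ind
end

-- ▼ part R172/Ind3

/-!
Row 172 (S0260), node IND: the induction class `GI` ("generic instance") and the numbers.
-/

set_option autoImplicit false
set_option linter.unusedSectionVars false
set_option maxHeartbeats 400000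

namespace Crest.Agent.R172.Ind

open Matrix Crest.AlgebraR.SpinSaturation Crest.Agent.R172.SoGrade Crest.Agent.R172.Sp
open Crest.Agent.R172.Gen (Jm Ix emb IsSo)
open Crest.Agent.R172.CF Crest.Agent.R172.HM8 Crest.Agent.R172.HM9 Module

variable {n : ℕ} {a : Fin 3 → Fin n → ℤ}

/-- **Generic instance**: `g_s ∈ O(V)`, `H` skew, and every direction of `so(V)³ × Λ²` is realised on
`N(g)` by a derivation of `K`. -/
structure GI (c : Cfg n a) (p : Pol c) (K : Type) [Field K] [Algebra ℂ K]
    (g : Fin 3 → Matrix (Ix n) (Ix n) K) (H : Matrix (Fin p.m) (Fin p.m) K) : Prop where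
  orth : ∀ s, (g s)ᵀ * Jm n K * g s = Jm n K
  skew : Hᵀ = -H
  dir : ∀ X : Fin 3 → Matrix (Ix n) (Ix n) K, (∀ s, IsSo (X s)) →
    ∀ G : Matrix (Fin p.m) (Fin p.m) K, Gᵀ = -G →
      ∃ D : Derivation ℂ K K, (∀ F ∈ c.N g, F.map D - FO.act c.arm X F ∈ c.N g) ∧ H.map D = G

/-- `k(V) = dim K(V)` -/
noncomputable def kk (c : Cfg n a) (p : Pol c) {K : Type} [Field K] [Algebra ℂ K]
    (g : Fin 3 → Matrix (Ix n) (Ix n) K) (H : Matrix (Fin p.m) (Fin p.m) K) : ℕ :=
  finrank K ↥(VL (p.LH H) ⊓ c.N g : Submodule K (Matrix (Ix n) c.δ K))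

/-- `μ(S)` -/
noncomputable def mu (c : Cfg n a) (p : Pol c) {K : Type} [Field K]
    (g : Fin 3 → Matrix (Ix n) (Ix n) K) (S : Submodule K (Ix n → K)) : ℤ :=
  (finrank K ↥(c.N g ⊓ SU S : Submodule K (Matrix (Ix n) c.δ K)) : ℤ) - p.m * finrank K S

/-- all isotropic subspaces over all extensions have `μ ≤ b` -/
def Bd (c : Cfg n a) (p : Pol c) (K : Type) [Field K] (g : Fin 3 → Matrix (Ix n) (Ix n) K)
    (b : ℤ) : Prop :=
  ∀ (L : Type) [Field L] [Algebra K L] (S : Submodule L (Ix n → L)), Iso S →
    mu c p (fun s => emb K L (g s)) S ≤ b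

/-- **Good subspace at an instance**: over an algebraically closed extension `L` a non-zero
isotropic `S` with
(b) `N ∩ (W + S ⊗ U) ⊂ S^⊥ ⊗ U` (this contains (a) `K ⊂ S^⊥ ⊗ U`), and
(c) every direction `(X, 0)` with `X S = 0` is realised by a derivation which preserves `S`. -/
def GoodSub (c : Cfg n a) (p : Pol c) (L : Type) [Field L] [Algebra ℂ L]
    (g : Fin 3 → Matrix (Ix n) (Ix n) L) (H : Matrix (Fin p.m) (Fin p.m) L)
    (S : Submodule L (Ix n → L)) : Prop :=
  Iso S ∧ S ≠ ⊥ ∧ c.N g ⊓ (VL (p.LH H) ⊔ SU S) ≤ SU (perp S) ∧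
  ∀ X : Fin 3 → Matrix (Ix n) (Ix n) L, (∀ s, IsSo (X s)) → (∀ s, ∀ v ∈ S, X s *ᵥ v = 0) →
    ∃ D : Derivation ℂ L L, (∀ F ∈ c.N g, F.map D - FO.act c.arm X F ∈ c.N g) ∧
      H.map D = 0 ∧ ∀ v ∈ S, (fun i => D (v i)) ∈ S

/-- **STEP** (to be supplied by G1 + tame exclusion): an instance which violates `k ≤ 1 + b` has a
good subspace over some extension. -/
def Step : Prop :=
  ∀ (n : ℕ) (a : Fin 3 → Fin n → ℤ) (c : Cfg n a) (q : SPol c) (R : Ranked c),
    (∀ i, q.z ≠ some i → 0 < R.rk (q.dd (Sum.inr i))) →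
    ∀ (K : Type) [Field K] [Algebra ℂ K] [IsAlgClosed K] (g : Fin 3 → Matrix (Ix n) (Ix n) K)
      (H : Matrix (Fin q.toPol.m) (Fin q.toPol.m) K), GI c q.toPol K g H →
      ∀ b : ℤ, 0 ≤ b → Bd c q.toPol K g b → b + 2 ≤ kk c q.toPol g H →
      ∃ (L : Type) (_ : Field L) (_ : Algebra K L) (_ : Algebra ℂ L) (_ : IsScalarTower ℂ K L)
        (_ : IsAlgClosed L) (S : Submodule L (Ix n → L)),
        GoodSub c q.toPol L (fun s => emb K L (g s)) (emb K L H) S

end Crest.Agent.R172.Ind
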