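import Crest.Agent.R172.Ind6
import Crest.Agent.R172.Ind3
import Crest.Agent.R172.NilBr4

-- ▼ part R172/CtxFr
section

/-!
Row 172, node CtxFr: common frames of `(E_s, S)` in `V` and their logarithmic derivatives.
-/

set_option autoImplicit false
set_option maxHeartbeats 400000
set_option linter.unusedSectionVars false

namespace Crest.Agent.R172.CtxFr

open Module Matrix Crest.Agent.R172.HM2 Crest.Agent.R172.HM8 Crest.Agent.R172.HM9
open Crest.Agent.R172.Gen (Jm Ix emb IsSo)
open Crest.Agent.R172.CF Crest.Agent.R172.Ind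

variable {n : ℕ} {a : Fin 3 → Fin n → ℤ}

section frames

variable {K : Type*} [Field K]

/-- a basis of a subspace as a sequence -/
theorem exists_seq (S : Submodule K (Ix n → K)) :
    ∃ (v : ℕ → Ix n → K) (r : ℕ), (∀ b < r, v b ∉ Submodule.span K (v '' Set.Iio b)) ∧
      (∀ b < r, v b ∈ S) ∧ Submodule.span K (v '' Set.Iio r) = S := by
  classical
  let bS := Module.finBasis K S
  let r := finrank K S
  let u : Fin r → Ix n → K := fun i => ((bS i : S) : Ix n → K)
  have hu : LinearIndependent K u := by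
    have h := bS.linearIndependent.map' S.subtype (Submodule.ker_subtype S)
    exact h
  let v : ℕ → Ix n → K := fun b => if h : b < r then u ⟨b, h⟩ else 0
  have hv : ∀ i : Fin r, v i = u i := fun i => dif_pos i.2
  have himg : ∀ b ≤ r, v '' Set.Iio b = u '' {i | (i : ℕ) < b} := by
    intro b hb
    ext x
    constructor
    · rintro ⟨k, hk, rfl⟩
      have hk' : k < b := hk
      exact ⟨⟨k, by omega⟩, hk', (hv ⟨k, by omega⟩).symm⟩
    · rintro ⟨i, hi, rfl⟩
      exact ⟨i, hi, hv i⟩
  refine ⟨v, r, ?_, ?_, ?_⟩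
  · intro b hb
    rw [himg b hb.le, hv ⟨b, hb⟩]
    apply hu.notMem_span_image
    exact fun h => lt_irrefl b h
  · intro b hb
    rw [hv ⟨b, hb⟩]
    exact (bS ⟨b, hb⟩).2
  · rw [himg r le_rfl]
    have h1 : {i : Fin r | (i : ℕ) < r} = Set.univ := by
      ext i; simp
    rw [h1, Set.image_univ]
    have h2 : Set.range u = S.subtype '' Set.range bS := by
      rw [← Set.range_comp]; rfl
    rw [h2, ← Submodule.map_span, bS.span_eq, Submodule.map_top, Submodule.range_subtype]

/-- the matrix of a basis family -/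
def mat (b : Ix n → Ix n → K) : Matrix (Ix n) (Ix n) K := Matrix.of fun q p => b p q

theorem Co_mat (b : Ix n → Ix n → K) (X : Ix n → Prop) :
    Co (mat b) X = Submodule.span K (b '' {p | X p}) := by
  rw [Co_eq_span]; rfl

/-- the weights of the arm `s` -/
noncomputable def wt (c : Cfg n a) (s : Fin 3) (p : Ix n) : ℝ := by
  classical
  exact 2 * ((Finset.univ.filter (fun d => c.arm d = s ∧ Gd c d p)).card : ℝ) -
    ((Finset.univ.filter (fun d => c.arm d = s)).card : ℝ)

theorem Gd_sw (c : Cfg n a) (d : c.δ) (p : Ix n) : ¬ Gd c d (sw p) ↔ Gd c (c.σ d) p := by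
  have h := congrFun (Gd_hat c d) p
  exact iff_of_eq h

theorem wt_sw (c : Cfg n a) (s : Fin 3) (p : Ix n) : wt c s (sw p) = - wt c s p := by
  classical
  unfold wt
  have h1 : (Finset.univ.filter (fun d => c.arm d = s ∧ Gd c d (sw p))).card +
      (Finset.univ.filter (fun d => c.arm d = s ∧ ¬ Gd c d (sw p))).card =
      (Finset.univ.filter (fun d => c.arm d = s)).card := by
    rw [← Finset.filter_filter, ← Finset.filter_filter]
    exact Finset.card_filter_add_card_filter_not _
  have h2 : (Finset.univ.filter (fun d => c.arm d = s ∧ ¬ Gd c d (sw p))).card =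
      (Finset.univ.filter (fun d => c.arm d = s ∧ Gd c d p)).card := by
    refine Finset.card_bij' (fun d _ => c.σ d) (fun d _ => c.σ d) ?_ ?_ ?_ ?_
    · intro d hd
      rw [Finset.mem_filter] at hd ⊢
      refine ⟨Finset.mem_univ _, by rw [c.arm_σ]; exact hd.2.1, ?_⟩
      exact (Gd_sw c d p).1 hd.2.2
    · intro d hd
      rw [Finset.mem_filter] at hd ⊢
      refine ⟨Finset.mem_univ _, by rw [c.arm_σ]; exact hd.2.1, ?_⟩
      rw [Gd_sw, c.inv]
      exact hd.2.2
    · intro d _; exact c.inv d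
    · intro d _; exact c.inv d
  have h3 : ((Finset.univ.filter (fun d => c.arm d = s ∧ Gd c d (sw p))).card : ℝ) +
      ((Finset.univ.filter (fun d => c.arm d = s ∧ Gd c d p)).card : ℝ) =
      ((Finset.univ.filter (fun d => c.arm d = s)).card : ℝ) := by
    rw [← h1, ← h2]
    push_cast
    ring
  linarith

theorem Gd_anti {c : Cfg n a} (R : Ranked c) {d e : c.δ} (h1 : c.arm d = c.arm e)
    (h2 : R.rk e ≤ R.rk d) (p : Ix n) (h : Gd c d p) : Gd c e p := by
  rcases p with i | i
  · exact R.anti d e h1 h2 i h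
  · intro h'
    refine h (R.anti (c.σ e) (c.σ d) (by rw [c.arm_σ, c.arm_σ, h1]) ?_ i h')
    rw [R.rk_σ, R.rk_σ]
    omega

/-- the columns are up-sets for the weights -/
theorem wt_lt {c : Cfg n a} (R : Ranked c) {s : Fin 3} {d : c.δ} (hd : c.arm d = s)
    {p q : Ix n} (hp : Gd c d p) (hq : ¬ Gd c d q) : wt c s q < wt c s p := by
  classical
  unfold wt
  have h1 : (Finset.univ.filter (fun e => c.arm e = s ∧ Gd c e q)).card <
      (Finset.univ.filter (fun e => c.arm e = s ∧ Gd c e p)).card := by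
    apply Finset.card_lt_card
    refine ⟨?_, ?_⟩
    · intro e he
      have he' := (Finset.mem_filter.1 he).2
      refine Finset.mem_filter.2 ⟨Finset.mem_univ _, he'.1, ?_⟩
      rcases le_total (R.rk e) (R.rk d) with h | h
      · exact Gd_anti R (by rw [hd, he'.1]) h p hp
      · exact absurd (Gd_anti R (by rw [hd, he'.1]) h q he'.2) hq
    · intro h
      have h2 := h (Finset.mem_filter.2 ⟨Finset.mem_univ d, hd, hp⟩)
      exact hq (Finset.mem_filter.1 h2).2.2
  have h2 : ((Finset.univ.filter (fun e => c.arm e = s ∧ Gd c e q)).card : ℝ) <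
      ((Finset.univ.filter (fun e => c.arm e = s ∧ Gd c e p)).card : ℝ) := by exact_mod_cast h1
  linarith

/-- the columns are sup-level sets of the weights -/
theorem exists_level {c : Cfg n a} (R : Ranked c) {s : Fin 3} {d : c.δ} (hd : c.arm d = s) :
    ∃ u : ℝ, ∀ p, Gd c d p ↔ u ≤ wt c s p := by
  classical
  by_cases hne : (Finset.univ.filter fun p => Gd c d p).Nonempty
  · obtain ⟨p0, hp0, hmin⟩ := Finset.exists_min_image _ (wt c s) hne
    refine ⟨wt c s p0, fun p => ⟨fun hp => hmin p (Finset.mem_filter.2 ⟨Finset.mem_univ _, hp⟩), ?_⟩⟩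
    intro h
    by_contra hc
    exact absurd h (not_le.mpr (wt_lt R hd (Finset.mem_filter.1 hp0).2 hc))
  · rw [Finset.not_nonempty_iff_eq_empty] at hne
    obtain ⟨u, hu⟩ : ∃ u : ℝ, ∀ p, wt c s p < u := by
      refine ⟨∑ p, |wt c s p| + 1, fun p => ?_⟩
      have h1 := Finset.single_le_sum (f := fun p => |wt c s p|) (fun _ _ => abs_nonneg _)
        (Finset.mem_univ p)
      have h2 := le_abs_self (wt c s p)
      linarith
    refine ⟨u, fun p => ⟨fun hp => ?_, fun h => absurd h (not_le.mpr (hu p))⟩⟩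
    have : p ∈ (Finset.univ.filter fun p => Gd c d p) :=
      Finset.mem_filter.2 ⟨Finset.mem_univ _, hp⟩
    rw [hne] at this
    simp at this

theorem finrank_Vge (b : Basis (Ix n) K (Ix n → K)) (lam : Ix n → ℝ) (u : ℝ) :
    finrank K (Adapt.Vge K b lam u) = Nat.card {i | u ≤ lam i} := by
  classical
  have h2 : b '' {i | u ≤ lam i} = Set.range (fun i : {i | u ≤ lam i} => b i) := by
    rw [Set.image_eq_range]
  rw [Adapt.Vge, h2]
  have h3 := finrank_span_eq_card (b.linearIndependent.comp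
    (Subtype.val : {i | u ≤ lam i} → Ix n) Subtype.val_injective)
  rw [← Nat.card_eq_fintype_card] at h3
  exact h3

/-- **a common frame of one arm and an isotropic subspace** -/
theorem exists_frame1 {c : Cfg n a} (R : Ranked c) {s : Fin 3} {g : Matrix (Ix n) (Ix n) K}
    (hg : Orth g) {S : Submodule K (Ix n → K)} (hS : Ind.Iso S) :
    ∃ h : Matrix (Ix n) (Ix n) K, Orth h ∧ (∃ X : Ix n → Prop, S = Co h X) ∧
      ∀ d, c.arm d = s → Co g (Gd c d) = Co h (Gd c d) := by
  classical
  rcases Nat.eq_zero_or_pos n with hn | hn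
  · subst hn
    refine ⟨1, orth_one, ⟨fun _ => True, Subsingleton.elim _ _⟩, fun d _ => Subsingleton.elim _ _⟩
  have : Nonempty (Ix n) := ⟨Sum.inl ⟨0, hn⟩⟩
  -- the columns of `g`
  have hcol : ∀ p q, form n K (fun x => g x p) (fun x => g x q) = if q = sw p then 1 else 0 := by
    intro p q
    have h1 : (fun x => g x p) = g *ᵥ Pi.single p 1 := by
      funext x; rw [mulVec_single_one]; rfl
    have h2 : (fun x => g x q) = g *ᵥ Pi.single q 1 := by
      funext x; rw [mulVec_single_one]; rfl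
    rw [h1, h2, form_mulVec hg, form_single, Pi.single_apply]
    by_cases h : q = sw p
    · rw [if_pos h, h, sw_sw, if_pos rfl]
    · rw [if_neg h, if_neg]
      intro h'
      exact h (by rw [← h', sw_sw])
  have hyp0 : Adapt.Hyp (form n K) sw (fun p => fun x => g x p) := hcol
  let e : Basis (Ix n) K (Ix n → K) := hyp0.toBasis (Pi.basisFun K (Ix n)) (fun p => sw_sw p)
  have he0 : ⇑e = fun p => fun x => g x p := Adapt.Hyp.coe_toBasis _ _ _
  have he : Adapt.Hyp (form n K) sw e := by rw [he0]; exact hyp0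
  obtain ⟨v, r, hli, hvS, hspan⟩ := exists_seq S
  obtain ⟨b, hb, hbe, j, -, -, hj⟩ := Adapt.exists_adapted (form_isSymm (n := n) (K := K))
    (inv := sw) (fun p => sw_sw p) e he (wt c s) (wt_sw c s) (by
      intro i j hi _
      exfalso
      rcases i with i | i
      · rw [sw_inl] at hi; exact absurd hi (by simp)
      · rw [sw_inr] at hi; exact absurd hi (by simp)) v r hli
    (fun x hx y hy => hS _ (hvS x hx) _ (hvS y hy))
  refine ⟨mat b, ?_, ⟨fun p => ∃ k < r, j k = p, ?_⟩, ?_⟩
  · apply orth_of_cols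
    intro p q
    exact hb p q
  · rw [Co_mat, ← hspan, hj r le_rfl]
    congr 1
    ext x
    constructor
    · rintro ⟨k, hk, rfl⟩
      exact ⟨j k, ⟨k, hk, rfl⟩, rfl⟩
    · rintro ⟨p, ⟨k, hk, rfl⟩, rfl⟩
      exact ⟨k, hk, rfl⟩
  · intro d hd
    obtain ⟨u, hu⟩ := exists_level R hd
    have h1 : Co g (Gd c d) = Adapt.Vge K e (wt c s) u := by
      rw [Co_eq_span, Adapt.Vge, he0]
      congr 2
      ext p
      exact hu p
    have h2 : Co (mat b) (Gd c d) = Adapt.Vge K b (wt c s) u := by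
      rw [Co_mat, Adapt.Vge]
      congr 2
      ext p
      exact hu p
    rw [h1, h2]
    symm
    apply Submodule.eq_of_le_of_finrank_eq (Adapt.Vge_le_of_mem _ hbe u)
    rw [finrank_Vge, finrank_Vge]

/-- **common frames** -/
theorem exists_frame {c : Cfg n a} (R : Ranked c) {g : Fin 3 → Matrix (Ix n) (Ix n) K}
    (hg : ∀ s, Orth (g s)) {S : Submodule K (Ix n → K)} (hS : Ind.Iso S) :
    ∃ h : Fin 3 → Matrix (Ix n) (Ix n) K, (∀ s, Orth (h s)) ∧
      (∀ s, ∃ X : Ix n → Prop, S = Co (h s) X) ∧ ∀ d, CC c g d = CC c h d := by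
  choose h h1 h2 h3 using fun s => exists_frame1 R (s := s) (hg s) hS
  exact ⟨h, h1, h2, fun d => h3 (c.arm d) d rfl⟩

theorem N_eq {c : Cfg n a} {g h : Fin 3 → Matrix (Ix n) (Ix n) K}
    (H : ∀ d, CC c g d = CC c h d) : c.N g = c.N h := by
  ext F
  rw [mem_N'', mem_N'']
  simp only [H]

end frames

section der

variable {K : Type} [Field K] [Algebra ℂ K]

theorem act_mul_D {δ : Type*} [Fintype δ] [DecidableEq δ] (arm : δ → Fin 3)
    (h : Fin 3 → Matrix (Ix n) (Ix n) K) (D : Derivation ℂ K K) (F : Matrix (Ix n) δ K) :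
    (FO.act arm h F).map D = FO.act arm (fun s => (h s).map D) F + FO.act arm h (F.map D) := by
  ext p d
  rw [Matrix.map_apply, Matrix.add_apply, act_apply, act_apply, act_apply]
  have h1 := congrFun (congrFun (map_mul_D D (h (arm d)) F) p) d
  rw [Matrix.map_apply, Matrix.add_apply] at h1
  exact h1

theorem nstd_D (c : Cfg n a) (D : Derivation ℂ K K) {F : Matrix (Ix n) c.δ K}
    (hF : F ∈ c.nstd K) : F.map D ∈ c.nstd K := by
  intro i d
  refine ⟨fun h => ?_, fun h => ?_⟩
  · rw [Matrix.map_apply, (hF i d).1 h, map_zero]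
  · rw [Matrix.map_apply, (hF i d).2 h, map_zero]

/-- **logarithmic derivatives of common frames** -/
theorem exists_log {c : Cfg n a} (R : Ranked c) {g : Fin 3 → Matrix (Ix n) (Ix n) K}
    (hg : ∀ s, Orth (g s)) {S : Submodule K (Ix n → K)} (hS : Ind.Iso S)
    (D : Derivation ℂ K K) :
    ∃ Y : Fin 3 → Matrix (Ix n) (Ix n) K, (∀ s, IsSo (Y s)) ∧
      (∀ F ∈ c.N g, F.map D - FO.act c.arm Y F ∈ c.N g) ∧
      ∀ s, ∀ v ∈ S, (fun i => D (v i)) - Y s *ᵥ v ∈ S := by
  obtain ⟨h, h1, h2, h3⟩ := exists_frame R hg hS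
  choose Y hY1 hY2 using fun s => exists_logD (h1 s) D
  refine ⟨Y, hY1, ?_, ?_⟩
  · intro F hF
    rw [N_eq h3] at hF ⊢
    obtain ⟨G, hG, rfl⟩ := c.mem_N.1 hF
    have e : (FO.act c.arm h G).map D - FO.act c.arm Y (FO.act c.arm h G) =
        FO.act c.arm h (G.map D) := by
      rw [act_mul_D, act_act]
      simp only [hY2]
      abel
    rw [e]
    exact c.mem_N.2 ⟨_, nstd_D c D hG, rfl⟩
  · intro s v hv
    obtain ⟨X, hX⟩ := h2 s
    rw [hX] at hv ⊢
    obtain ⟨x, hx, rfl⟩ := mem_Co.1 hv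
    have e : (fun i => D ((h s *ᵥ x) i)) - Y s *ᵥ (h s *ᵥ x) = h s *ᵥ (fun i => D (x i)) := by
      rw [mulVec_D, mulVec_mulVec, hY2]
      abel
    rw [e]
    refine mem_Co.2 ⟨_, fun p hp => ?_, rfl⟩
    rw [hx p hp, map_zero]

/-- the column space of a matrix -/
def colS {δ : Type*} [Fintype δ] (F : Matrix (Ix n) δ K) : Submodule K (Ix n → K) :=
  LinearMap.range (mulVecLin F)

theorem iso_colS {δ : Type*} [Fintype δ] {F : Matrix (Ix n) δ K} (hF : Fᵀ * Jm n K * F = 0) :
    Ind.Iso (colS F) := by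
  rintro _ ⟨x, rfl⟩ _ ⟨y, rfl⟩
  rw [mulVecLin_apply, mulVecLin_apply, form_eq, mulVec_mulVec, dotProduct_mulVec,
    vecMul_mulVec, ← dotProduct_mulVec, ← Matrix.mul_assoc, hF, zero_mulVec, dotProduct_zero]

/-- **the field `frame` of `Qt.Ctx`** -/
theorem ctx_frame {c : Cfg n a} (R : Ranked c) {g : Fin 3 → Matrix (Ix n) (Ix n) K}
    (hg : ∀ s, Orth (g s)) {F : Matrix (Ix n) c.δ K} (hF : Fᵀ * Jm n K * F = 0)
    (D : Derivation ℂ K K) :
    ∃ Y : Fin 3 → Matrix (Ix n) (Ix n) K, (∀ s, (Y s)ᵀ * Jm n K + Jm n K * Y s = 0) ∧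
      (∀ G ∈ c.N g, G.map D - FO.act c.arm Y G ∈ c.N g) ∧
      ∀ s, ∃ C : Matrix c.δ c.δ K, F.map D - Y s * F = F * C := by
  obtain ⟨Y, h1, h2, h3⟩ := exists_log R hg (iso_colS hF) D
  refine ⟨Y, h1, h2, fun s => ?_⟩
  have h4 : ∀ d, ∃ x : c.δ → K, F *ᵥ x = fun i => D (F i d) - (Y s * F) i d := by
    intro d
    have h5 : (fun i => F i d) ∈ colS F := by
      refine ⟨Pi.single d 1, ?_⟩
      rw [mulVecLin_apply, mulVec_single_one]
      rfl
    obtain ⟨x, hx⟩ := h3 s _ h5
    refine ⟨x, ?_⟩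
    rw [mulVecLin_apply] at hx
    rw [hx]
    funext i
    rfl
  choose x hx using h4
  refine ⟨Matrix.of fun e d => x d e, ?_⟩
  ext i d
  have h5 := congrFun (hx d) i
  rw [Matrix.sub_apply, Matrix.map_apply, ← h5]
  rfl

end der

end Crest.Agent.R172.CtxFr
end

-- ▼ part R172/LemN

/-!
Row 172: NIL for symmetric matrices `β` with values in `Λ ⊗ Λ`, triangular on every arm; LEMMA N.
-/

set_option autoImplicit false
set_option linter.unusedSectionVars false

namespace Crest.Agent.R172.CSys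

open Module Matrix Crest.AlgebraR.SpinSaturation Crest.Agent.R172.SoGrade Crest.Agent.R172.CF
open Crest.Agent.R172.Gen (Jm Ix emb Ent ent)
open Crest.Agent.R172.NilLower Crest.Agent.R172.NilCount Crest.Agent.R172.NilFin
open Crest.Agent.R172.NilBr Crest.Agent.R172.ThX
open Crest.Agent.R172.NilConn (ten ten_apply)
open Crest.Agent.R172.Core (NS)

variable {n : ℕ} {a : Fin 3 → Fin n → ℤ} {c : Cfg n a} {K : Type} [Field K] [Algebra ℂ K]
variable {q : SPol c}

/-- the form of `β` -/
noncomputable def bB (β : Matrix c.δ c.δ K) : LinearMap.BilinForm K (c.δ → K) :=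
  Matrix.toLinearMap₂' K β

theorem bB_dot (β : Matrix c.δ c.δ K) (u u' : c.δ → K) : bB β u u' = u ⬝ᵥ (β *ᵥ u') := by
  rw [bB, Matrix.toLinearMap₂'_apply']

theorem bB_sg (β : Matrix c.δ c.δ K) (d : c.δ) (u' : c.δ → K) :
    bB β (sg K d) u' = (β *ᵥ u') d := by
  rw [bB_dot, sg_dot]

theorem bB_sg_sg (β : Matrix c.δ c.δ K) (d e : c.δ) : bB β (sg K d) (sg K e) = β d e := by
  rw [bB_sg, sg, mulVec_single_one, Matrix.col_apply]

/-- the operator `E_s B β` -/
noncomputable def TB (β : Matrix c.δ c.δ K) (s : Fin 3) : Module.End K (c.δ → K) :=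
  Matrix.toLin' (FO.E K c.arm s * c.B K * β)

theorem TB_apply (β : Matrix c.δ c.δ K) (s : Fin 3) (u : c.δ → K) (d : c.δ) :
    TB β s u d = if c.arm d = s then (β *ᵥ u) (c.σ d) else 0 := by
  have h1 : TB β s u = FO.E K c.arm s *ᵥ (c.B K *ᵥ (β *ᵥ u)) := by
    rw [TB, Matrix.toLin'_apply, mulVec_mulVec, mulVec_mulVec]
  rw [h1, FO.E, mulVec_diagonal, c.mulVec_B]
  split_ifs <;> simp

theorem sten_sgB (β : Matrix c.δ c.δ K) (d e : c.δ) (u : c.δ → K) :
    sten (bB β) (sg K d) (sg K e) u = (β *ᵥ u) e • sg K d + (β *ᵥ u) d • sg K e := by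
  rw [sten, LinearMap.add_apply, ten_apply, ten_apply, bB_sg, bB_sg]

theorem bB_inl {H : Matrix (Fin q.m) (Fin q.m) K} {β : Matrix c.δ c.δ K}
    {Y : Matrix (Fin q.m) c.δ K} (hβ : β = q.toPol.P H * Y) (i : Fin q.m) (u : c.δ → K) :
    bB β (sg K (q.dd (Sum.inl i))) u =
      ∑ j, H i j * (Y *ᵥ u) j + if q.z = some i then 2⁻¹ * (Y *ᵥ u) i else 0 := by
  have h1 : bB β (sg K (q.dd (Sum.inl i))) u =
      ∑ j, q.toPol.P H (q.dd (Sum.inl i)) j * (Y *ᵥ u) j := by
    rw [bB_sg, hβ, ← mulVec_mulVec]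
    rfl
  rw [h1]
  simp only [SPol.P_inl, add_mul, Finset.sum_add_distrib]
  congr 1
  split_ifs
  · simp only [ite_mul, zero_mul, Finset.sum_ite_eq, Finset.mem_univ, if_true]
    ring
  · simp

theorem bB_inr {H : Matrix (Fin q.m) (Fin q.m) K} {β : Matrix c.δ c.δ K}
    {Y : Matrix (Fin q.m) c.δ K} (hβ : β = q.toPol.P H * Y) (i : Fin q.m) (u : c.δ → K) :
    bB β (sg K (q.dd (Sum.inr i))) u =
      if q.z = some i then algebraMap ℂ K Complex.I *
        (∑ j, H i j * (Y *ᵥ u) j - 2⁻¹ * (Y *ᵥ u) i) else (Y *ᵥ u) i := by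
  have h1 : bB β (sg K (q.dd (Sum.inr i))) u =
      ∑ j, q.toPol.P H (q.dd (Sum.inr i)) j * (Y *ᵥ u) j := by
    rw [bB_sg, hβ, ← mulVec_mulVec]
    rfl
  rw [h1]
  simp only [SPol.P_inr]
  split_ifs
  · rw [mul_sub, Finset.mul_sum]
    simp only [mul_sub, sub_mul, mul_ite, mul_zero, ite_mul, zero_mul, Finset.sum_sub_distrib,
      Finset.sum_ite_eq, Finset.mem_univ, if_true]
    congr 1
    · exact Finset.sum_congr rfl fun j _ => by ring
    · ring
  · simp

theorem bB_eV {H : Matrix (Fin q.m) (Fin q.m) K} {β : Matrix c.δ c.δ K}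
    {Y : Matrix (Fin q.m) c.δ K} (hβ : β = q.toPol.P H * Y) (i : Fin q.m) (u : c.δ → K) :
    bB β (eV q K i) u = (Y *ᵥ u) i := by
  have h2 : (2 : K) ≠ 0 := two_ne
  unfold eV
  by_cases hz : q.z = some i
  · rw [if_pos hz, map_add, map_smul, LinearMap.add_apply, LinearMap.smul_apply, bB_inl hβ,
      bB_inr hβ, if_pos hz, if_pos hz, smul_eq_mul, ← mul_assoc, II]
    field_simp
    ring
  · rw [if_neg hz, bB_inr hβ, if_neg hz]

/-- the relation `b(h_i, u) = ∑ H_ij b(e_j, u)` -/
theorem bB_rel {H : Matrix (Fin q.m) (Fin q.m) K} {β : Matrix c.δ c.δ K}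
    {Y : Matrix (Fin q.m) c.δ K} (hβ : β = q.toPol.P H * Y) (i : Fin q.m) (u : c.δ → K) :
    bB β (hV q K i) u = ∑ j, H i j * bB β (eV q K j) u := by
  have h2 : (2 : K) ≠ 0 := two_ne
  simp only [bB_eV hβ]
  unfold hV
  by_cases hz : q.z = some i
  · rw [if_pos hz, map_smul, map_sub, map_smul, LinearMap.smul_apply, LinearMap.sub_apply,
      LinearMap.smul_apply, bB_inl hβ, bB_inr hβ, if_pos hz, if_pos hz, smul_eq_mul, smul_eq_mul,
      ← mul_assoc (algebraMap ℂ K Complex.I), II]
    field_simp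
    ring
  · rw [if_neg hz, bB_inl hβ, if_neg hz, add_zero]

/-- **NIL bridge, no odd arm** -/
theorem nil_beta_even (R : Ranked c) (hR : PosR R q) (hz : q.z = none)
    {H : Matrix (Fin q.m) (Fin q.m) K} (hH : Hᵀ = -H)
    (hgen : ∀ G : Matrix (Fin q.m) (Fin q.m) K, Gᵀ = -G →
      ∃ D : Derivation ℂ K K, H.map D = G)
    {β : Matrix c.δ c.δ K} (hs : βᵀ = β) {Y : Matrix (Fin q.m) c.δ K}
    (hβ : β = q.toPol.P H * Y)
    (htri : ∀ d e, c.arm d = c.arm e → 0 ≤ R.rk d + R.rk e → β d e = 0)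
    (m : ℕ) (hnil : ∀ l : List (Fin 3), l.length = m → ∀ u : c.δ → K,
      β *ᵥ ((l.map (TB β)).prod u) = 0)
    (u u' : c.δ → K) : bB β u u' = 0 := by
  have hne : ∀ i, q.z ≠ some i := fun i => by rw [hz]; simp
  have he : ∀ i, eV q K i = sg K (q.dd (Sum.inr i)) := fun i => by rw [eV, if_neg (hne i)]
  have hh : ∀ i, hV q K i = sg K (q.dd (Sum.inl i)) := fun i => by rw [hV, if_neg (hne i)]
  have hσ : ∀ i, c.σ (q.dd (Sum.inl i)) = q.dd (Sum.inr i) := fun i => q.reg i (hne i)
  have hσ' : ∀ i, c.σ (q.dd (Sum.inr i)) = q.dd (Sum.inl i) := fun i => by rw [← hσ, c.inv]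
  have harm : ∀ i, c.arm (q.dd (Sum.inl i)) = c.arm (q.dd (Sum.inr i)) := fun i => by
    rw [← hσ, c.arm_σ]
  have hsymb : ∀ u u', bB β u u' = bB β u' u := by
    intro u u'
    rw [bB_dot, bB_dot]
    exact dot_symm hs u u'
  refine bridge_even (bB β) ⟨fun x y => hsymb x y⟩ two_ne
    (fun i : Fin q.m => c.arm (q.dd (Sum.inr i))) (fun i => hgt R (q.dd (Sum.inr i)))
    (eV q K) (hV q K) (fun i j => H i j) ?_ ?_ eh_span ?_ ?_ ?_ m ?_ u u'
  · intro x y
    have := congrFun (congrFun hH y) x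
    exact this
  · intro x u
    exact bB_rel hβ x u
  · intro G hG
    obtain ⟨D, hD⟩ := hgen (Matrix.of G) (by ext x y; exact hG y x)
    exact ⟨D.restrictScalars ℤ, fun x y => congrFun (congrFun hD x) y⟩
  · intro x y hxy
    rw [he, he, bB_sg_sg]
    refine htri _ _ hxy ?_
    have := hR x (hne x)
    have := hR y (hne y)
    omega
  · intro x y hxy hle
    rw [he, hh, bB_sg_sg]
    refine htri _ _ (by rw [harm]; exact hxy) ?_
    have h1 := hgt_le R hle
    rw [← hσ' y, R.rk_σ]
    omega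
  · intro l hl u u'
    have h1 : psiE (bB β) (fun i : Fin q.m => c.arm (q.dd (Sum.inr i))) (eV q K) (hV q K)
        = TB β := by
      funext s
      refine LinearMap.ext fun u => ?_
      funext d
      rw [TB_apply, psiE, LinearMap.sum_apply, Finset.sum_apply]
      have h2 : ∀ x : Fin q.m, (if c.arm (q.dd (Sum.inr x)) = s then
          sten (bB β) (eV q K x) (hV q K x) else 0 : Module.End K (c.δ → K)) u d =
          if c.arm (q.dd (Sum.inr x)) = s then
            (β *ᵥ u) (q.dd (Sum.inl x)) * sg K (q.dd (Sum.inr x)) d +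
            (β *ᵥ u) (q.dd (Sum.inr x)) * sg K (q.dd (Sum.inl x)) d else 0 := by
        intro x
        split_ifs
        · rw [he, hh, sten_sgB, Pi.add_apply, Pi.smul_apply, Pi.smul_apply, smul_eq_mul,
            smul_eq_mul]
        · rfl
      simp only [h2]
      obtain ⟨y, rfl⟩ := q.dd.surjective d
      rcases y with i | i
      · rw [Finset.sum_eq_single i]
        · rw [harm, hσ]
          have h3 : sg K (q.dd (Sum.inr i)) (q.dd (Sum.inl i)) = 0 :=
            sg_ne (fun h => by simpa using q.dd.injective h)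
          rw [sg_self, h3, mul_zero, zero_add, mul_one]
        · intro j _ hj
          have h3 : sg K (q.dd (Sum.inr j)) (q.dd (Sum.inl i)) = 0 :=
            sg_ne (fun h => by simpa using q.dd.injective h)
          have h4 : sg K (q.dd (Sum.inl j)) (q.dd (Sum.inl i)) = 0 :=
            sg_ne (fun h => hj (by simpa using (q.dd.injective h).symm))
          rw [h3, h4, mul_zero, mul_zero, add_zero, ite_self]
        · intro h; exact absurd (Finset.mem_univ _) h
      · rw [Finset.sum_eq_single i]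
        · rw [hσ']
          have h3 : sg K (q.dd (Sum.inl i)) (q.dd (Sum.inr i)) = 0 :=
            sg_ne (fun h => by simpa using q.dd.injective h)
          rw [sg_self, h3, mul_zero, add_zero, mul_one]
        · intro j _ hj
          have h3 : sg K (q.dd (Sum.inl j)) (q.dd (Sum.inr i)) = 0 :=
            sg_ne (fun h => by simpa using q.dd.injective h)
          have h4 : sg K (q.dd (Sum.inr j)) (q.dd (Sum.inr i)) = 0 :=
            sg_ne (fun h => hj (by simpa using (q.dd.injective h).symm))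
          rw [h3, h4, mul_zero, mul_zero, add_zero, ite_self]
        · intro h; exact absurd (Finset.mem_univ _) h
    rw [h1, hsymb, bB_dot, hnil l hl, dotProduct_zero]

/-- **NIL bridge, two odd arms** -/
theorem nil_beta_odd (R : Ranked c) (hR : PosR R q) {i0 : Fin q.m} (hz : q.z = some i0)
    {H : Matrix (Fin q.m) (Fin q.m) K} (hH : Hᵀ = -H)
    (hgen : ∀ G : Matrix (Fin q.m) (Fin q.m) K, Gᵀ = -G →
      ∃ D : Derivation ℂ K K, H.map D = G)
    {β : Matrix c.δ c.δ K} (hs : βᵀ = β) {Y : Matrix (Fin q.m) c.δ K}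
    (hβ : β = q.toPol.P H * Y)
    (htri : ∀ d e, c.arm d = c.arm e → 0 ≤ R.rk d + R.rk e → β d e = 0)
    (m : ℕ) (hnil : ∀ l : List (Fin 3), l.length = m → ∀ u : c.δ → K,
      β *ᵥ ((l.map (TB β)).prod u) = 0)
    (u u' : c.δ → K) : bB β u u' = 0 := by
  have h2 : (2 : K) ≠ 0 := two_ne
  obtain ⟨hf1, hf2, hf3⟩ := q.fix i0 hz
  set z1 := q.dd (Sum.inl i0) with hz1
  set z2 := q.dd (Sum.inr i0) with hz2
  have rz1 : R.rk z1 = 0 := by have := R.rk_σ z1; rw [hf1] at this; omega
  have rz2 : R.rk z2 = 0 := by have := R.rk_σ z2; rw [hf2] at this; omega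
  set Im : K := algebraMap ℂ K Complex.I with hIm
  have hI : Im * Im = -1 := II
  let ψ : Option {i : Fin q.m // i ≠ i0} ≃ Fin q.m := Equiv.optionSubtypeNe i0
  have ψn : ψ none = i0 := rfl
  have ψs : ∀ x : {i : Fin q.m // i ≠ i0}, ψ (some x) = x.1 := fun x => rfl
  have hne : ∀ x : {i : Fin q.m // i ≠ i0}, q.z ≠ some x.1 := fun x h => by
    rw [hz] at h
    exact x.2 (Option.some.inj h).symm
  let e : Option {i : Fin q.m // i ≠ i0} → (c.δ → K) := fun x => eV q K (ψ x)
  let h : Option {i : Fin q.m // i ≠ i0} → (c.δ → K) := fun x => hV q K (ψ x)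
  have he : ∀ x, e (some x) = sg K (q.dd (Sum.inr x.1)) := fun x => by
    change eV q K x.1 = _
    rw [eV, if_neg (hne x)]
  have hh : ∀ x, h (some x) = sg K (q.dd (Sum.inl x.1)) := fun x => by
    change hV q K x.1 = _
    rw [hV, if_neg (hne x)]
  have hen : e none = sg K z1 + Im • sg K z2 := by
    change eV q K i0 = _
    rw [eV, if_pos hz]
  have hhn : h none = (2 : K)⁻¹ • (sg K z1 - Im • sg K z2) := by
    change hV q K i0 = _
    rw [hV, if_pos hz]
  have hσ : ∀ x : {i : Fin q.m // i ≠ i0}, c.σ (q.dd (Sum.inl x.1)) = q.dd (Sum.inr x.1) :=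
    fun x => q.reg x.1 (hne x)
  have hσ' : ∀ x : {i : Fin q.m // i ≠ i0}, c.σ (q.dd (Sum.inr x.1)) = q.dd (Sum.inl x.1) :=
    fun x => by rw [← hσ, c.inv]
  have harm : ∀ x : {i : Fin q.m // i ≠ i0},
      c.arm (q.dd (Sum.inl x.1)) = c.arm (q.dd (Sum.inr x.1)) := fun x => by rw [← hσ, c.arm_σ]
  have hv1 : vodd (c.arm z1) (c.arm z2) (2 : K) e h (c.arm z1) = (2 : K) • sg K z1 := by
    rw [vodd, if_pos rfl, hen, hhn, smul_smul, mul_inv_cancel₀ h2, one_smul, two_smul]
    abel
  have hv2 : vodd (c.arm z1) (c.arm z2) (2 : K) e h (c.arm z2) = (2 * Im) • sg K z2 := by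
    rw [vodd, if_neg (Ne.symm hf3), if_pos rfl, hen, hhn, smul_smul, mul_inv_cancel₀ h2,
      one_smul, mul_smul, two_smul]
    abel
  have hv0 : ∀ s, s ≠ c.arm z1 → s ≠ c.arm z2 →
      vodd (c.arm z1) (c.arm z2) (2 : K) e h s = 0 := by
    intro s h1 h3
    rw [vodd, if_neg h1, if_neg h3]
  have hsymb : ∀ u u', bB β u u' = bB β u' u := by
    intro u u'
    rw [bB_dot, bB_dot]
    exact dot_symm hs u u'
  refine bridge_odd (bB β) ⟨fun x y => hsymb x y⟩ two_ne (c.arm z1) (c.arm z2) hf3 2 h2 ?_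
    (fun x : {i : Fin q.m // i ≠ i0} => c.arm (q.dd (Sum.inr x.1)))
    (fun x => hgt R (q.dd (Sum.inr x.1))) e h (fun x y => H (ψ x) (ψ y)) ?_ ?_ ?_ ?_ ?_ ?_ ?_ ?_
    m ?_ u u'
  · intro d
    have := d.map_natCast 2
    simpa using this
  · intro x y
    have := congrFun (congrFun hH (ψ y)) (ψ x)
    exact this
  · intro x u
    change bB β (hV q K (ψ x)) u = ∑ y, H (ψ x) (ψ y) * bB β (eV q K (ψ y)) u
    rw [bB_rel hβ, ← ψ.sum_comp]
  · have h3 : Set.range e = Set.range (eV q K) := ψ.surjective.range_comp (eV q K)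
    have h4 : Set.range h = Set.range (hV q K) := ψ.surjective.range_comp (hV q K)
    rw [h3, h4]
    exact eh_span
  · intro G hG
    obtain ⟨D, hD⟩ := hgen (Matrix.of fun i j => G (ψ.symm i) (ψ.symm j)) (by
      ext x y; exact hG (ψ.symm y) (ψ.symm x))
    refine ⟨D.restrictScalars ℤ, fun x y => ?_⟩
    have h5 := congrFun (congrFun hD (ψ x)) (ψ y)
    rw [Matrix.of_apply, ψ.symm_apply_apply, ψ.symm_apply_apply] at h5
    exact h5
  · intro x y hxy
    rw [he, he, bB_sg_sg]
    refine htri _ _ hxy ?_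
    have := hR x.1 (hne x)
    have := hR y.1 (hne y)
    omega
  · intro x y hxy hle
    rw [he, hh, bB_sg_sg]
    refine htri _ _ (by rw [harm]; exact hxy) ?_
    have h1 := hgt_le R hle
    rw [← hσ' y, R.rk_σ]
    omega
  · intro s
    by_cases h3 : s = c.arm z1
    · rw [h3, hv1, map_smul, map_smul, LinearMap.smul_apply, bB_sg_sg,
        htri _ _ rfl (by omega), smul_zero, smul_zero]
    · by_cases h4 : s = c.arm z2
      · rw [h4, hv2, map_smul, map_smul, LinearMap.smul_apply, bB_sg_sg,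
          htri _ _ rfl (by omega), smul_zero, smul_zero]
      · rw [hv0 s h3 h4, map_zero]
  · intro x
    rw [he]
    have hx := hR x.1 (hne x)
    by_cases h3 : c.arm (q.dd (Sum.inr x.1)) = c.arm z1
    · rw [h3, hv1, map_smul, bB_sg_sg, htri _ _ h3 (by omega), smul_zero]
    · by_cases h4 : c.arm (q.dd (Sum.inr x.1)) = c.arm z2
      · rw [h4, hv2, map_smul, bB_sg_sg, htri _ _ h4 (by omega), smul_zero]
      · rw [hv0 _ h3 h4, map_zero]
  · intro l hl u u'
    have h1 : psiO (c.arm z1) (c.arm z2) (2 : K) (bB β)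
        (fun x : {i : Fin q.m // i ≠ i0} => c.arm (q.dd (Sum.inr x.1))) e h = TB β := by
      funext s
      refine LinearMap.ext fun u => ?_
      funext d
      rw [TB_apply, psiO, LinearMap.add_apply, Pi.add_apply, LinearMap.sum_apply,
        Finset.sum_apply]
      have h3 : ∀ x : {i : Fin q.m // i ≠ i0}, (if c.arm (q.dd (Sum.inr x.1)) = s then
          sten (bB β) (e (some x)) (h (some x)) else 0 : Module.End K (c.δ → K)) u d =
          if c.arm (q.dd (Sum.inr x.1)) = s then
            (β *ᵥ u) (q.dd (Sum.inl x.1)) * sg K (q.dd (Sum.inr x.1)) d +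
            (β *ᵥ u) (q.dd (Sum.inr x.1)) * sg K (q.dd (Sum.inl x.1)) d
          else 0 := by
        intro x
        split_ifs
        · rw [he, hh, sten_sgB, Pi.add_apply, Pi.smul_apply, Pi.smul_apply, smul_eq_mul,
            smul_eq_mul]
        · rfl
      simp only [h3]
      -- the odd part
      have h4 : (codd (c.arm z1) (c.arm z2) (2 : K) s • ten (bB β)
          (vodd (c.arm z1) (c.arm z2) (2 : K) e h s)
          (vodd (c.arm z1) (c.arm z2) (2 : K) e h s)) u d =
          (if s = c.arm z1 then (β *ᵥ u) z1 * sg K z1 d else 0) +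
          (if s = c.arm z2 then (β *ᵥ u) z2 * sg K z2 d else 0) := by
        by_cases h5 : s = c.arm z1
        · rw [h5, hv1, if_pos rfl, if_neg hf3, codd, if_pos rfl, add_zero,
            LinearMap.smul_apply, ten_apply, Pi.smul_apply, Pi.smul_apply, Pi.smul_apply,
            map_smul, LinearMap.smul_apply, bB_sg]
          simp only [smul_eq_mul]
          field_simp
        · by_cases h6 : s = c.arm z2
          · rw [h6, hv2, if_neg (Ne.symm hf3), if_pos rfl, codd, if_neg (Ne.symm hf3),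
              if_pos rfl, zero_add, LinearMap.smul_apply, ten_apply, Pi.smul_apply,
              Pi.smul_apply, Pi.smul_apply, map_smul, LinearMap.smul_apply, bB_sg]
            simp only [smul_eq_mul]
            field_simp
            linear_combination (-((β *ᵥ u) z2 * sg K z2 d)) * hI
          · rw [if_neg h5, if_neg h6, codd, if_neg h5, if_neg h6, zero_smul, add_zero]
            rfl
      rw [h4]
      obtain ⟨y, rfl⟩ := q.dd.surjective d
      rcases y with i | i
      · by_cases hi : i = i0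
        · -- d = z1
          subst hi
          have hz1' : q.dd (Sum.inl i) = z1 := rfl
          rw [Finset.sum_eq_zero]
          · rw [hz1', hf1, sg_self, mul_one, zero_add]
            have h7 : sg K z2 z1 = 0 := sg_ne (fun h => hf3 (by rw [h]))
            rw [h7, mul_zero, ite_self, add_zero]
            by_cases h8 : c.arm z1 = s
            · rw [if_pos h8.symm, if_pos h8]
            · rw [if_neg (Ne.symm h8), if_neg h8]
          · intro x _
            have h5 : sg K (q.dd (Sum.inr x.1)) (q.dd (Sum.inl i)) = 0 :=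
              sg_ne (fun h => by simpa using q.dd.injective h)
            have h6 : sg K (q.dd (Sum.inl x.1)) (q.dd (Sum.inl i)) = 0 :=
              sg_ne (fun h => x.2 (by simpa using (q.dd.injective h).symm))
            rw [h5, h6, mul_zero, mul_zero, add_zero, ite_self]
        · -- regular
          have e1 : sg K z1 (q.dd (Sum.inl i)) = 0 :=
            sg_ne (fun h => hi (by simpa using (q.dd.injective h)))
          have e2 : sg K z2 (q.dd (Sum.inl i)) = 0 :=
            sg_ne (fun h => by simpa using q.dd.injective h)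
          rw [e1, e2, mul_zero, mul_zero, ite_self, ite_self, add_zero, add_zero,
            Finset.sum_eq_single (⟨i, hi⟩ : {i : Fin q.m // i ≠ i0})]
          · change (if c.arm (q.dd (Sum.inr i)) = s then
                (β *ᵥ u) (q.dd (Sum.inl i)) * sg K (q.dd (Sum.inr i))
                  (q.dd (Sum.inl i)) +
                (β *ᵥ u) (q.dd (Sum.inr i)) * sg K (q.dd (Sum.inl i))
                  (q.dd (Sum.inl i)) else 0) = _
            have h3 : sg K (q.dd (Sum.inr i)) (q.dd (Sum.inl i)) = 0 :=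
              sg_ne (fun h => by simpa using q.dd.injective h)
            have e3 := hσ ⟨i, hi⟩
            have e4 := harm ⟨i, hi⟩
            simp only at e3 e4
            rw [sg_self, h3, mul_zero, zero_add, mul_one, e3, e4]
          · intro x _ hx
            have hx' : x.1 ≠ i := fun h => hx (Subtype.ext h)
            have h5 : sg K (q.dd (Sum.inr x.1)) (q.dd (Sum.inl i)) = 0 :=
              sg_ne (fun h => by simpa using q.dd.injective h)
            have h6 : sg K (q.dd (Sum.inl x.1)) (q.dd (Sum.inl i)) = 0 :=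
              sg_ne (fun h => hx' (by simpa using (q.dd.injective h).symm))
            rw [h5, h6, mul_zero, mul_zero, add_zero, ite_self]
          · intro h; exact absurd (Finset.mem_univ _) h
      · by_cases hi : i = i0
        · -- d = z2
          subst hi
          have hz2' : q.dd (Sum.inr i) = z2 := rfl
          rw [Finset.sum_eq_zero]
          · rw [hz2', hf2, sg_self, mul_one, zero_add]
            have h7 : sg K z1 z2 = 0 := sg_ne (fun h => hf3 (by rw [← h]))
            rw [h7, mul_zero, ite_self, zero_add]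
            by_cases h8 : c.arm z2 = s
            · rw [if_pos h8.symm, if_pos h8]
            · rw [if_neg (Ne.symm h8), if_neg h8]
          · intro x _
            have h5 : sg K (q.dd (Sum.inl x.1)) (q.dd (Sum.inr i)) = 0 :=
              sg_ne (fun h => by simpa using q.dd.injective h)
            have h6 : sg K (q.dd (Sum.inr x.1)) (q.dd (Sum.inr i)) = 0 :=
              sg_ne (fun h => x.2 (by simpa using (q.dd.injective h).symm))
            rw [h5, h6, mul_zero, mul_zero, add_zero, ite_self]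
        · -- regular
          have e1 : sg K z2 (q.dd (Sum.inr i)) = 0 :=
            sg_ne (fun h => hi (by simpa using (q.dd.injective h)))
          have e2 : sg K z1 (q.dd (Sum.inr i)) = 0 :=
            sg_ne (fun h => by simpa using q.dd.injective h)
          rw [e1, e2, mul_zero, mul_zero, ite_self, ite_self, add_zero, add_zero,
            Finset.sum_eq_single (⟨i, hi⟩ : {i : Fin q.m // i ≠ i0})]
          · change (if c.arm (q.dd (Sum.inr i)) = s then
                (β *ᵥ u) (q.dd (Sum.inl i)) * sg K (q.dd (Sum.inr i))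
                  (q.dd (Sum.inr i)) +
                (β *ᵥ u) (q.dd (Sum.inr i)) * sg K (q.dd (Sum.inl i))
                  (q.dd (Sum.inr i)) else 0) = _
            have h3 : sg K (q.dd (Sum.inl i)) (q.dd (Sum.inr i)) = 0 :=
              sg_ne (fun h => by simpa using q.dd.injective h)
            have e3 := hσ' ⟨i, hi⟩
            simp only at e3
            rw [sg_self, h3, mul_zero, add_zero, mul_one, e3]
          · intro x _ hx
            have hx' : x.1 ≠ i := fun h => hx (Subtype.ext h)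
            have h5 : sg K (q.dd (Sum.inl x.1)) (q.dd (Sum.inr i)) = 0 :=
              sg_ne (fun h => by simpa using q.dd.injective h)
            have h6 : sg K (q.dd (Sum.inr x.1)) (q.dd (Sum.inr i)) = 0 :=
              sg_ne (fun h => hx' (by simpa using (q.dd.injective h).symm))
            rw [h5, h6, mul_zero, mul_zero, add_zero, ite_self]
          · intro h; exact absurd (Finset.mem_univ _) h
    rw [h1, hsymb, bB_dot, hnil l hl, dotProduct_zero]

/-- **NIL for `β`** -/
theorem nil_beta (R : Ranked c) (hR : PosR R q)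
    {H : Matrix (Fin q.m) (Fin q.m) K} (hH : Hᵀ = -H)
    (hgen : ∀ G : Matrix (Fin q.m) (Fin q.m) K, Gᵀ = -G →
      ∃ D : Derivation ℂ K K, H.map D = G)
    {β : Matrix c.δ c.δ K} (hs : βᵀ = β) {Y : Matrix (Fin q.m) c.δ K}
    (hβ : β = q.toPol.P H * Y)
    (htri : ∀ d e, c.arm d = c.arm e → 0 ≤ R.rk d + R.rk e → β d e = 0)
    (m : ℕ) (hnil : ∀ l : List (Fin 3), l.length = m → ∀ u : c.δ → K,
      β *ᵥ ((l.map (TB β)).prod u) = 0) : β = 0 := by
  have key : ∀ u u', bB β u u' = 0 := by
    intro u u'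
    rcases hz : q.z with _ | i0
    · exact nil_beta_even R hR hz hH hgen hs hβ htri m hnil u u'
    · exact nil_beta_odd R hR hz hH hgen hs hβ htri m hnil u u'
  ext d e
  rw [← bB_sg_sg β d e, key]
  rfl

/-- **LEMMA N** -/
theorem lemN (R : Ranked c) (hR : PosR R q)
    {g : Fin 3 → Matrix (Ix n) (Ix n) K} (hg : ∀ s, (g s)ᵀ * Jm n K * g s = Jm n K)
    {H : Matrix (Fin q.m) (Fin q.m) K} (hH : Hᵀ = -H)
    (hgen : ∀ G : Matrix (Fin q.m) (Fin q.m) K, Gᵀ = -G →
      ∃ D : Derivation ℂ K K, H.map D = G)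
    {F A ν : Matrix (Ix n) c.δ K} (hF : F ∈ c.N g) (hFW : F ∈ VL (q.toPol.LH H))
    (hν : ν ∈ c.N g) (hβ : Fᵀ * Jm n K * A = Fᵀ * Jm n K * ν)
    (hs : (Fᵀ * Jm n K * A)ᵀ = Fᵀ * Jm n K * A)
    (h0 : ∀ s, (Fᵀ * Jm n K * A) * (FO.E K c.arm s * c.B K) * (Fᵀ * Jm n K * A) = 0) :
    Fᵀ * Jm n K * A = 0 := by
  obtain ⟨R', rfl⟩ := q.toPol.mem_VL_iff.1 hFW
  refine nil_beta R hR hH hgen hs (Y := R'ᵀ * Jm n K * A) ?_ ?_ 1 ?_
  · rw [transpose_mul, transpose_transpose]
    simp only [Matrix.mul_assoc]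
  · intro d e h1 h2
    rw [hβ]
    exact R.col_perp hg hF hν h1 h2
  · intro l hl u
    obtain ⟨s, rfl⟩ := List.length_eq_one_iff.1 hl
    rw [List.map_singleton, List.prod_singleton, TB, Matrix.toLin'_apply, mulVec_mulVec,
      ← Matrix.mul_assoc, h0 s, zero_mulVec]

end Crest.Agent.R172.CSys
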