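import Crest.Agent.R172.NilBr4
import Crest.Agent.R172.DerG

/-!
Row 172: Theorem X at the generic element and its descent: outside tame `𝒦iso` has codimension at
most one in `𝒦`.
-/

set_option autoImplicit false
set_option linter.unusedSectionVars false

namespace Crest.Agent.R172.CSys

open Module Matrix Crest.AlgebraR.SpinSaturation Crest.Agent.R172.SoGrade Crest.Agent.R172.CF
open Crest.Agent.R172.Gen (Jm Ix emb Ent ent)
open Crest.Agent.R172.ThX
open Crest.Agent.R172.Core (NS)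

variable {n : ℕ} {a : Fin 3 → Fin n → ℤ} {c : Cfg n a} {K : Type} [Field K] [Algebra ℂ K]
variable {q : SPol c}

theorem TT_pow_supp (R : Ranked c) {g : Fin 3 → Matrix (Ix n) (Ix n) K}
    (hg : ∀ s, (g s)ᵀ * Jm n K * g s = Jm n K) {F G : Matrix (Ix n) c.δ K} (hF : F ∈ c.N g)
    (hG : G ∈ c.N g) (s : Fin 3) (S : ℤ) (hS : ∀ d, -S ≤ R.rk d) (k : ℕ) (u : c.δ → K)
    (d : c.δ) (hd : ((TT F G s) ^ (k + 1)) u d ≠ 0) : c.arm d = s ∧ (k : ℤ) - S ≤ R.rk d := by
  induction k generalizing d with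
  | zero =>
    rw [zero_add, pow_one, TT_apply] at hd
    have h1 : c.arm d = s := by by_contra h; rw [if_neg h] at hd; exact hd rfl
    refine ⟨h1, ?_⟩
    have := hS d
    push_cast
    omega
  | succ k ih =>
    rw [pow_succ', Module.End.mul_apply, TT_apply] at hd
    have h1 : c.arm d = s := by by_contra h; rw [if_neg h] at hd; exact hd rfl
    rw [if_pos h1, mulVec, dotProduct] at hd
    obtain ⟨e, -, he⟩ := Finset.exists_ne_zero_of_sum_ne_zero hd
    have he1 : (Fᵀ * Jm n K * G) (c.σ d) e ≠ 0 := left_ne_zero_of_mul he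
    have he2 := ih e (right_ne_zero_of_mul he)
    have h3 : ¬ (0 ≤ R.rk (c.σ d) + R.rk e) := by
      intro h
      exact he1 (R.col_perp hg hF hG (by rw [c.arm_σ, h1, he2.1]) h)
    rw [R.rk_σ] at h3
    refine ⟨h1, ?_⟩
    push_cast
    have := he2.2
    omega

/-- the operators `E_s ∘ adj F ∘ G` are nilpotent -/
theorem TT_nil (R : Ranked c) {g : Fin 3 → Matrix (Ix n) (Ix n) K}
    (hg : ∀ s, (g s)ᵀ * Jm n K * g s = Jm n K) {F G : Matrix (Ix n) c.δ K} (hF : F ∈ c.N g)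
    (hG : G ∈ c.N g) : ∃ k, ∀ s, (TT F G s) ^ k = 0 := by
  have h1 : ∀ d, |R.rk d| ≤ ∑ e, |R.rk e| := fun d =>
    Finset.single_le_sum (f := fun e => |R.rk e|) (fun e _ => abs_nonneg _) (Finset.mem_univ d)
  refine ⟨(2 * ∑ e, |R.rk e| + 1).toNat + 1, fun s => ?_⟩
  refine LinearMap.ext fun u => ?_
  funext d
  by_contra hne
  have h2 := TT_pow_supp R hg hF hG s (∑ e, |R.rk e|) (fun d => by
    have := h1 d
    have := neg_abs_le (R.rk d)
    omega) _ u d hne
  have h3 := h1 d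
  have h4 := le_abs_self (R.rk d)
  have h5 : 0 ≤ ∑ e, |R.rk e| := Finset.sum_nonneg fun e _ => abs_nonneg _
  omega

/-- **the `Φ_s` are nilpotent** -/
theorem MM_nil (R : Ranked c) {g : Fin 3 → Matrix (Ix n) (Ix n) K}
    (hg : ∀ s, (g s)ᵀ * Jm n K * g s = Jm n K) {F : Matrix (Ix n) c.δ K} (hF : F ∈ c.N g) :
    ∃ k, ∀ s, MM (pU c K) (adjU c K) (Matrix.toLin' F) (Matrix.toLin' F) s ^ k = 0 := by
  obtain ⟨k, hk⟩ := TT_nil R hg hF hF
  have key : ∀ (s : Fin 3) (j : ℕ) (v : Ix n → K),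
      (MM (pU c K) (adjU c K) (Matrix.toLin' F) (Matrix.toLin' F) s ^ (j + 1)) v =
        F *ᵥ ((TT F F s ^ j) ((FO.E K c.arm s * c.B K * Fᵀ * Jm n K) *ᵥ v)) := by
    intro s j
    induction j with
    | zero =>
      intro v
      rw [zero_add, pow_one, pow_zero, Module.End.one_apply, MM_toLin, mulVec_mulVec, FO.M]
      congr 1
      simp only [Matrix.mul_assoc]
    | succ j ih =>
      intro v
      rw [pow_succ', Module.End.mul_apply, ih, MM_toLin, pow_succ' (TT F F s),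
        Module.End.mul_apply]
      rw [TT, Matrix.toLin'_apply, mulVec_mulVec, mulVec_mulVec, FO.M]
      congr 1
      simp only [Matrix.mul_assoc]
  refine ⟨k + 1, fun s => ?_⟩
  refine LinearMap.ext fun v => ?_
  rw [key, hk, LinearMap.zero_apply, mulVec_zero, LinearMap.zero_apply]

/-- `∑_s Φ_s = 0` -/
theorem MM_sum {N W : Submodule K (Matrix (Ix n) c.δ K)}
    (hD : FO.Data ℂ c.arm (Jm n K) (c.B K) N W) {F : Matrix (Ix n) c.δ K} (hF : F ∈ W)
    (v : Ix n → K) :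
    ∑ s, MM (pU c K) (adjU c K) (Matrix.toLin' F) (Matrix.toLin' F) s v = 0 := by
  simp only [MM_toLin]
  rw [← Matrix.sum_mulVec, ← Finset.sum_mul, FO.sum_M, hD.W_iso F hF F hF, Matrix.zero_mul,
    zero_mulVec]

theorem BV_eq : BV n K = DerG.BJ (Jm n K) := by
  refine LinearMap.ext fun v => LinearMap.ext fun w => ?_
  rw [BV_apply, DerG.BJ_apply]

theorem MM_eq (F : Matrix (Ix n) c.δ K) :
    MM (pU c K) (adjU c K) (Matrix.toLin' F) (Matrix.toLin' F)
      = DerG.Ph c.arm (Jm n K) (c.B K) F := by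
  funext s
  refine LinearMap.ext fun v => ?_
  rw [MM_toLin, DerG.Ph_apply, FO.Phi]

/-- the generic element `F` is tame (on some core, for some `D`) -/
def NotTame (F : Matrix (Ix n) c.δ K) : Prop :=
  ∀ (C : St.Core (BV n K) (MM (pU c K) (adjU c K) (Matrix.toLin' F) (Matrix.toLin' F)))
    (D : Module.End K C.M), ¬ Core.Tame
      (fun s => Core.cp C (MM (pU c K) (adjU c K) (Matrix.toLin' F) (Matrix.toLin' F) s)) D


section descent

/-- polynomial matrix of unknowns -/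
noncomputable def XM (c : Cfg n a) (K : Type) [Field K] :
    Matrix (Ix n) c.δ (MvPolynomial (Ix n × c.δ) K) :=
  Matrix.of fun x d => MvPolynomial.X (x, d)

theorem XM_map {L : Type} [Field L] [Algebra K L] (F : Matrix (Ix n) c.δ L) :
    (XM c K).map (MvPolynomial.aeval (fun y : Ix n × c.δ => F y.1 y.2)) = F := by
  ext x d
  rw [map_apply, XM, of_apply, MvPolynomial.aeval_X]

/-- constant matrices -/
noncomputable def CM (c : Cfg n a) {K : Type} [Field K] {α β : Type} (A : Matrix α β K) :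
    Matrix α β (MvPolynomial (Ix n × c.δ) K) := A.map MvPolynomial.C

theorem CM_map {L : Type} [Field L] [Algebra K L] {α β : Type} (A : Matrix α β K)
    (f : Ix n × c.δ → L) : (CM c A).map (MvPolynomial.aeval f) = emb K L A := by
  ext x d
  rw [CM, map_apply, map_apply, MvPolynomial.aeval_C]
  rfl

/-- the polynomial of the identity (*) -/
noncomputable def starP (G : Matrix (Ix n) c.δ K) (d e d' e' : c.δ) :
    MvPolynomial (Ix n × c.δ) K :=
  ((XM c K)ᵀ * CM c (Jm n K * G)) d e * ((XM c K)ᵀ * CM c (Jm n K) * XM c K) d' e' -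
  ((XM c K)ᵀ * CM c (Jm n K * G)) d' e' * ((XM c K)ᵀ * CM c (Jm n K) * XM c K) d e

theorem emb_Jm {L : Type} [Field L] [Algebra K L] : emb K L (Jm n K) = Jm n L :=
  Pol.Jm_map (algebraMap K L)

theorem star_eval {L : Type} [Field L] [Algebra K L] (G : Matrix (Ix n) c.δ K)
    (F : Matrix (Ix n) c.δ L) (d e d' e' : c.δ) :
    MvPolynomial.aeval (fun y : Ix n × c.δ => F y.1 y.2) (starP G d e d' e') =
      (Fᵀ * Jm n L * emb K L G) d e * (Fᵀ * Jm n L * F) d' e' -
      (Fᵀ * Jm n L * emb K L G) d' e' * (Fᵀ * Jm n L * F) d e := by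
  let φ : MvPolynomial (Ix n × c.δ) K →+* L :=
    (MvPolynomial.aeval (fun y : Ix n × c.δ => F y.1 y.2)).toRingHom
  have e1 : (XM c K)ᵀ.map φ = Fᵀ := by
    have := XM_map (K := K) F
    calc (XM c K)ᵀ.map φ = ((XM c K).map φ)ᵀ := rfl
      _ = Fᵀ := congrArg Matrix.transpose this
  have e3 : (XM c K).map φ = F := XM_map F
  have h1 : ((XM c K)ᵀ * CM c (Jm n K * G)).map φ = Fᵀ * Jm n L * emb K L G := by
    have e2 : (CM c (Jm n K * G)).map φ = emb K L (Jm n K * G) := CM_map _ _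
    rw [Matrix.map_mul, e1, e2, FO3.emb_mul', emb_Jm, Matrix.mul_assoc]
  have h2 : ((XM c K)ᵀ * CM c (Jm n K) * XM c K).map φ = Fᵀ * Jm n L * F := by
    have e2 : (CM c (Jm n K)).map φ = emb K L (Jm n K) := CM_map _ _
    rw [Matrix.map_mul, Matrix.map_mul, e1, e2, e3, emb_Jm]
  have h3 : φ (starP G d e d' e') =
      φ (((XM c K)ᵀ * CM c (Jm n K * G)) d e) *
        φ (((XM c K)ᵀ * CM c (Jm n K) * XM c K) d' e') -
      φ (((XM c K)ᵀ * CM c (Jm n K * G)) d' e') *
        φ (((XM c K)ᵀ * CM c (Jm n K) * XM c K) d e) := by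
    rw [starP, map_sub, map_mul, map_mul]
  change φ (starP G d e d' e') = _
  rw [h3, ← h1, ← h2]
  rfl

/-- base change of elements of `N` -/
theorem emb_mem_N {L : Type} [Field L] [Algebra K L] {g : Fin 3 → Matrix (Ix n) (Ix n) K}
    {F : Matrix (Ix n) c.δ K} (hF : F ∈ c.N g) : emb K L F ∈ c.N (fun s => emb K L (g s)) := by
  obtain ⟨G, hG, rfl⟩ := c.mem_N.1 hF
  refine c.mem_N.2 ⟨emb K L G, ?_, ?_⟩
  · intro i d
    refine ⟨fun h => ?_, fun h => ?_⟩
    · rw [FO3.emb_apply', (hG i d).1 h, map_zero]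
    · rw [FO3.emb_apply', (hG i d).2 h, map_zero]
  · ext p d
    rw [act_apply, FO3.emb_apply', act_apply, ← FO3.emb_apply', FO3.emb_mul']

theorem emb_mem_VL {L : Type} [Field L] [Algebra K L] [Algebra ℂ L] [IsScalarTower ℂ K L]
    (p : Pol c) {H : Matrix (Fin p.m) (Fin p.m) K}
    {F : Matrix (Ix n) c.δ K} (hF : F ∈ VL (p.LH H)) : emb K L F ∈ VL (p.LH (emb K L H)) := by
  obtain ⟨R, rfl⟩ := p.mem_VL_iff.1 hF
  refine p.mem_VL_iff.2 ⟨emb K L R, ?_⟩
  rw [FO3.emb_mul']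
  congr 1
  rw [← FO3.emb_P]
  rfl

/-- **The generic package** over an extension `L` of `K`: everything which is used about a generic
element `F` of `𝒦`. -/
def GenPkg (q : SPol c) (K : Type) [Field K] [Algebra ℂ K]
    (g : Fin 3 → Matrix (Ix n) (Ix n) K) (H : Matrix (Fin q.m) (Fin q.m) K)
    (P : ∀ (L : Type) [Field L] [Algebra K L] [Algebra ℂ L], Matrix (Ix n) c.δ L → Prop) :
    Prop :=
  ∃ (L : Type) (_ : Field L) (_ : Algebra K L) (_ : Algebra ℂ L) (_ : IsScalarTower ℂ K L)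
    (_ : IsAlgClosed L) (_ : CharZero L) (F : Matrix (Ix n) c.δ L),
    FO.Data ℂ c.arm (Jm n L) (c.B L) (c.N (fun s => emb K L (g s)))
      (VL (q.toPol.LH (emb K L H))) ∧
    FO.Generic ℂ c.arm (c.N (fun s => emb K L (g s))) (VL (q.toPol.LH (emb K L H))) F ∧
    (∀ G : Matrix (Fin q.m) (Fin q.m) L, Gᵀ = -G →
      ∃ D : Derivation ℂ L L, (emb K L H).map D = G) ∧
    (∀ p : MvPolynomial (Ix n × c.δ) K, MvPolynomial.aeval (fun y => F y.1 y.2) p = 0 →
      ∀ F0 ∈ VL (q.toPol.LH H), F0 ∈ c.N g → MvPolynomial.aeval (fun y => F0 y.1 y.2) p = 0) ∧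
    P L F










end descent

end Crest.Agent.R172.CSys
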