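import Crest.Agent.R172.IndCnt
import Crest.Agent.R172.NilBr5
import Crest.Agent.R172.IndExt
import Crest.Agent.R172.Om5
import Crest.Agent.R172.LemN_Mg

-- ▼ part R172/IndGen
section

/-!
Row 172 (S0260), node IND: generic elements of subspaces of matrices, over the class `GI`.
-/

set_option autoImplicit false
set_option linter.unusedSectionVars false
set_option maxHeartbeats 400000

namespace Crest.Agent.R172.Ext

open Matrix Crest.AlgebraR.SpinSaturation Crest.Agent.R172.SoGrade Crest.Agent.R172.Sp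
open Crest.Agent.R172.Gen (Jm Ix emb IsSo Ent ent)
open Crest.Agent.R172.CF Crest.Agent.R172.HM8 Crest.Agent.R172.HM9 Module
open Crest.Agent.R172.Ind (GI kk mu perp Bd)

section lin

variable {K L : Type} [Field K] [Field L] [Algebra K L]

/-- solutions over `L` are combinations of solutions over `K` -/
theorem ker_emb {α β : Type} [Fintype α] [Fintype β] [DecidableEq α] [DecidableEq β]
    (A : Matrix α β K) {x : β → L} (hx : emb K L A *ᵥ x = 0) :
    x ∈ Submodule.span L ((fun v : β → K => fun i => algebraMap K L (v i)) '' {v | A *ᵥ v = 0}) := by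
  obtain ⟨P, G, hAP, hG⟩ := Gen.exists_kernel_projector A
  have hGL : 1 - emb K L P = emb K L G * emb K L A := by
    rw [← Matrix.map_mul, ← hG]
    ext i j
    simp [Matrix.one_apply, apply_ite (algebraMap K L)]
  have h1 : emb K L P *ᵥ x = x := by
    have : (1 - emb K L P) *ᵥ x = 0 := by
      rw [hGL, ← Matrix.mulVec_mulVec, hx, Matrix.mulVec_zero]
    rw [Matrix.sub_mulVec, Matrix.one_mulVec, sub_eq_zero] at this
    exact this.symm
  have h2 : x = ∑ j, x j • (fun i => algebraMap K L (P i j)) := by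
    conv_lhs => rw [← h1]
    funext i
    rw [mulVec, dotProduct, Finset.sum_apply]
    exact Finset.sum_congr rfl fun j _ => mul_comm _ _
  rw [h2]
  refine Submodule.sum_mem _ fun j _ => Submodule.smul_mem _ _ (Submodule.subset_span ?_)
  refine ⟨fun i => P i j, ?_, rfl⟩
  funext i
  have h4 := congrFun (congrFun hAP i) j
  rw [Matrix.mul_apply] at h4
  exact h4

/-- a matrix whose kernel is a given subspace -/
theorem exists_ker {β : Type} [Fintype β] [DecidableEq β] (Z : Submodule K (β → K)) :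
    ∃ A : Matrix β β K, ∀ v, A *ᵥ v = 0 ↔ v ∈ Z := by
  obtain ⟨Z', hZ⟩ := Submodule.exists_isCompl Z
  let π : (β → K) →ₗ[K] (β → K) := Z'.subtype ∘ₗ Z'.projectionOnto Z hZ.symm
  refine ⟨LinearMap.toMatrix' π, fun v => ?_⟩
  rw [LinearMap.toMatrix'_mulVec]
  simp [π]

/-- the `L`-span of a `K`-subspace of matrices -/
def spL (L : Type) [Field L] [Algebra K L] {α β : Type} (Z : Submodule K (Matrix α β K)) :
    Submodule L (Matrix α β L) :=
  Submodule.span L ((fun F => emb K L F) '' (Z : Set (Matrix α β K)))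

theorem emb_mem_spL {α β : Type} {Z : Submodule K (Matrix α β K)} {F : Matrix α β K}
    (hF : F ∈ Z) : emb K L F ∈ spL L Z := Submodule.subset_span ⟨F, hF, rfl⟩

theorem spL_le {α β : Type} {Z : Submodule K (Matrix α β K)} {Y : Submodule L (Matrix α β L)}
    (h : ∀ F ∈ Z, emb K L F ∈ Y) : spL L Z ≤ Y := by
  rw [spL, Submodule.span_le]
  rintro _ ⟨F, hF, rfl⟩
  exact h F hF

/-- **Generic elements of a subspace of matrices.** -/
theorem exists_genZ (K : Type) [Field K] [CharZero K] [Algebra ℂ K] {α β : Type} [Fintype α]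
    [Fintype β] [DecidableEq α] [DecidableEq β] (Z : Submodule K (Matrix α β K)) :
    ∃ (L : Type) (_ : Field L) (_ : Algebra K L) (_ : Algebra ℂ L) (_ : IsScalarTower ℂ K L)
      (_ : IsAlgClosed L) (_ : CharZero L) (F : Matrix α β L),
      F ∈ spL L Z ∧
      (∀ q : MvPolynomial (α × β) K, MvPolynomial.aeval (fun y => F y.1 y.2) q = 0 →
        ∀ F0 ∈ Z, MvPolynomial.aeval (fun y => F0 y.1 y.2) q = 0) ∧
      ∀ w ∈ spL L Z, ∃ D : Derivation ℂ L L, (∀ x, D (algebraMap K L x) = 0) ∧ F.map D = w := by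
  classical
  let e : (α × β → K) →ₗ[K] Matrix α β K :=
    { toFun := fun v => Matrix.of fun i j => v (i, j)
      map_add' := fun _ _ => rfl
      map_smul' := fun _ _ => rfl }
  obtain ⟨A, hA⟩ := exists_ker (Z.comap e)
  obtain ⟨L, iL, iKL, iCL, ist, icl, icz, f, hf, hspec, hder⟩ := Gen.exists_generic_kernel ℂ K A
  have hker : ∀ v : α × β → K, A *ᵥ v = 0 ↔ (Matrix.of fun i j => v (i, j)) ∈ Z := fun v => hA v
  refine ⟨L, iL, iKL, iCL, ist, icl, icz, Matrix.of fun i j => f (i, j), ?_, ?_, ?_⟩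
  · have h1 := ker_emb A hf
    let e' : (α × β → L) →ₗ[L] Matrix α β L :=
      { toFun := fun v => Matrix.of fun i j => v (i, j)
        map_add' := fun _ _ => rfl
        map_smul' := fun _ _ => rfl }
    have h2 : Submodule.span L ((fun v : α × β → K => fun i => algebraMap K L (v i)) ''
        {v | A *ᵥ v = 0}) ≤ (spL L Z).comap e' := by
      rw [Submodule.span_le]
      rintro _ ⟨v, hv, rfl⟩
      exact emb_mem_spL ((hker v).1 hv)
    exact h2 h1
  · intro q hq F0 hF0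
    exact hspec q hq (fun y => F0 y.1 y.2) ((hker _).2 hF0)
  · intro w hw
    have h3 : emb K L A *ᵥ (fun y => w y.1 y.2) = 0 := by
      let T : Matrix α β L →ₗ[L] (α × β → L) :=
        { toFun := fun F => emb K L A *ᵥ (fun y => F y.1 y.2)
          map_add' := fun F F' => Matrix.mulVec_add _ _ _
          map_smul' := fun t F =>
            Matrix.mulVec_smul (emb K L A) t (fun y : α × β => F y.1 y.2) }
      have h4 : spL L Z ≤ LinearMap.ker T := by
        apply spL_le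
        intro F hF
        rw [LinearMap.mem_ker]
        have h5 := (hker (fun y => F y.1 y.2)).2 hF
        funext i
        have h6 := congrArg (algebraMap K L) (congrFun h5 i)
        rw [mulVec, dotProduct, map_sum, Pi.zero_apply, map_zero] at h6
        change ∑ j, _ = _
        rw [Pi.zero_apply, ← h6]
        refine Finset.sum_congr rfl fun j _ => ?_
        rw [map_mul]
        rfl
      exact h4 hw
    obtain ⟨D, hD1, hD2⟩ := hder 0 (fun y => w y.1 y.2) (by
      have h5 : Gen.dmat (0 : Derivation ℂ K L) A = 0 := by ext i j; rfl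
      rw [h3, h5, zero_mulVec, add_zero])
    refine ⟨D, fun x => hD1 x, ?_⟩
    ext i j
    exact hD2 (i, j)

end lin

section gi

variable {n : ℕ} {a : Fin 3 → Fin n → ℤ} {c : Cfg n a} (p : Pol c)
variable {K L : Type} [Field K] [Field L] [Algebra K L] [Algebra ℂ K] [Algebra ℂ L]
  [IsScalarTower ℂ K L]

/-- `𝒦` over `L` is spanned by `𝒦` over `K` -/
theorem KL_le {g : Fin 3 → Matrix (Ix n) (Ix n) K} (hg : ∀ s, (g s)ᵀ * Jm n K * g s = Jm n K)
    (H : Matrix (Fin p.m) (Fin p.m) K) :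
    c.N (fun s => emb K L (g s)) ⊓ VL (p.LH (emb K L H)) ≤ spL L (c.N g ⊓ VL (p.LH H)) := by
  classical
  rintro F ⟨hN, hW⟩
  obtain ⟨R, rfl⟩ := p.mem_VL_iff.1 hW
  have hgL : ∀ s, (emb K L (g s))ᵀ * Jm n L * emb K L (g s) = Jm n L :=
    fun s => Top.emb_orth (hg s)
  have h1 := (p.Lam_ker hgL (emb K L H) R).2 hN
  rw [← FO3.emb_Lam p g H] at h1
  have h2 := ker_emb _ h1
  let T : (Ix n × Fin p.m → L) →ₗ[L] Matrix (Ix n) c.δ L :=
    { toFun := fun v => Matrix.of (fun i j => v (i, j)) * (p.P (emb K L H))ᵀ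
      map_add' := fun v v' => by
        rw [← Matrix.add_mul]
        rfl
      map_smul' := fun t v => by
        rw [RingHom.id_apply, ← Matrix.smul_mul]
        rfl }
  have h3 : Submodule.span L ((fun v : Ix n × Fin p.m → K => fun i => algebraMap K L (v i)) ''
      {v | (p.Lam.map (MvPolynomial.aeval (ent g H))) *ᵥ v = 0}) ≤
      (spL L (c.N g ⊓ VL (p.LH H))).comap T := by
    rw [Submodule.span_le]
    rintro _ ⟨v, hv, rfl⟩
    have h4 : (p.Lam.map (MvPolynomial.aeval (ent g H))) *ᵥ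
        (fun y : Ix n × Fin p.m => (Matrix.of fun i j => v (i, j)) y.1 y.2) = 0 := hv
    have h5 := (p.Lam_ker hg H (Matrix.of fun i j => v (i, j))).1 h4
    have h6 : emb K L ((Matrix.of fun i j => v (i, j)) * (p.P H)ᵀ) =
        Matrix.of (fun i j => algebraMap K L (v (i, j))) * (p.P (emb K L H))ᵀ := by
      rw [FO3.emb_mul', ← FO3.emb_P]
      rfl
    have h7 : emb K L ((Matrix.of fun i j => v (i, j)) * (p.P H)ᵀ) ∈
        spL L (c.N g ⊓ VL (p.LH H)) := emb_mem_spL ⟨h5, p.mem_VL_iff.2 ⟨_, rfl⟩⟩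
    rw [h6] at h7
    exact h7
  exact h3 h2

theorem spL_le_KL (g : Fin 3 → Matrix (Ix n) (Ix n) K)
    (H : Matrix (Fin p.m) (Fin p.m) K) :
    spL L (c.N g ⊓ VL (p.LH H)) ≤ c.N (fun s => emb K L (g s)) ⊓ VL (p.LH (emb K L H)) :=
  spL_le fun _ hF => ⟨CSys.emb_mem_N hF.1, CSys.emb_mem_VL p hF.2⟩


/-- `N` over `L` is spanned by `N` over `K` -/
theorem NL_le (g : Fin 3 → Matrix (Ix n) (Ix n) K) :
    c.N (fun s => emb K L (g s)) ≤ spL L (c.N g) := by
  classical
  intro F hF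
  obtain ⟨G, hG, rfl⟩ := c.mem_N.1 hF
  have h1 : G = ∑ q, ∑ d, G q d • emb K L (Matrix.single q d (1 : K)) := by
    conv_lhs => rw [matrix_eq_sum_single G]
    refine Finset.sum_congr rfl fun q _ => Finset.sum_congr rfl fun d _ => ?_
    ext i j
    rw [Matrix.smul_apply, FO3.emb_apply', Matrix.single_apply, Matrix.single_apply]
    split_ifs <;> simp
  have h2 : FO.act c.arm (fun s => emb K L (g s)) G =
      ∑ q, ∑ d, G q d • FO.act c.arm (fun s => emb K L (g s)) (emb K L (Matrix.single q d (1 : K))) := by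
    conv_lhs => rw [h1]
    change actL c.arm (fun s => emb K L (g s)) _ = _
    rw [map_sum]
    refine Finset.sum_congr rfl fun q _ => ?_
    rw [map_sum]
    refine Finset.sum_congr rfl fun d _ => ?_
    rw [map_smul]
    rfl
  rw [h2]
  refine Submodule.sum_mem _ fun q _ => Submodule.sum_mem _ fun d _ => ?_
  by_cases h0 : G q d = 0
  · rw [h0, zero_smul]; exact Submodule.zero_mem _
  refine Submodule.smul_mem _ _ ?_
  have h3 : FO.act c.arm (fun s => emb K L (g s)) (emb K L (Matrix.single q d (1 : K))) =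
      emb K L (FO.act c.arm g (Matrix.single q d 1)) := by
    ext i j
    rw [act_apply, FO3.emb_apply', act_apply, ← FO3.emb_apply', FO3.emb_mul']
  rw [h3]
  apply emb_mem_spL
  refine c.mem_N.2 ⟨_, ?_, rfl⟩
  rw [Pol.mem_nstd_iff] at hG ⊢
  intro q' d' hz
  rw [Matrix.single_apply, if_neg]
  rintro ⟨rfl, rfl⟩
  exact h0 (hG _ _ hz)

/-- derivations over `K` preserve `N` -/
theorem vert_N {g : Fin 3 → Matrix (Ix n) (Ix n) K} (D : Derivation ℂ L L)
    (hD : ∀ x, D (algebraMap K L x) = 0) :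
    ∀ F ∈ c.N (fun s => emb K L (g s)), F.map D ∈ c.N (fun s => emb K L (g s)) := by
  intro F hF
  have h1 := FO3.onN c D (g := fun s => emb K L (g s)) (X := fun _ => 0) (fun s => by
    ext i j
    rw [map_apply, FO3.emb_apply', hD, Matrix.zero_mul, Matrix.zero_apply]) hF
  rwa [show FO.act c.arm (fun _ => (0 : Matrix (Ix n) (Ix n) L)) F = 0 from by
    ext i j; rw [act_apply, Matrix.zero_mul], sub_zero] at h1

end gi

end Crest.Agent.R172.Ext
end

-- ▼ part R172/IndGen2
section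

/-!
Row 172 (S0260), node IND: the generic package over the class `GI`, the context of the Q-theory,
condition (c) and good subspaces `S = im F`.
-/

set_option autoImplicit false
set_option linter.unusedSectionVars false
set_option maxHeartbeats 400000

namespace Crest.Agent.R172.Ext

open Matrix Crest.AlgebraR.SpinSaturation Crest.Agent.R172.SoGrade Crest.Agent.R172.Sp
open Crest.Agent.R172.Gen (Jm Ix emb IsSo Ent ent)
open Crest.Agent.R172.CF Crest.Agent.R172.HM8 Crest.Agent.R172.HM9 Module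
open Crest.Agent.R172.Ind (GI kk mu perp Bd)

section pkg

variable {n : ℕ} {a : Fin 3 → Fin n → ℤ} {c : Cfg n a}
variable {K L : Type} [Field K] [Field L] [Algebra K L] [Algebra ℂ K] [Algebra ℂ L]
  [IsScalarTower ℂ K L]

/-- derivations with `D H = 0` preserve `W` -/
theorem vert_W (p : Pol c) {H : Matrix (Fin p.m) (Fin p.m) L} (hH : Hᵀ = -H)
    (D : Derivation ℂ L L) (hD : H.map D = 0) :
    ∀ F ∈ (VL (p.LH H) : Submodule L (Matrix (Ix n) c.δ L)),
      F.map D ∈ (VL (p.LH H) : Submodule L (Matrix (Ix n) c.δ L)) := by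
  intro F hF
  have h1 := FO3.onW p hH (ξ := 0) D (by
    rw [hD, FO3.dirH, Matrix.mul_zero, Matrix.zero_mul]) hF
  rwa [transpose_zero, Matrix.mul_zero, sub_zero] at h1

theorem emb_der_zero {α β : Type} (A : Matrix α β K) (D : Derivation ℂ L L)
    (hD : ∀ x, D (algebraMap K L x) = 0) : (emb K L A).map D = 0 := by
  ext i j
  exact hD _

/-- vertical derivations realise `(0,0)` -/
theorem vert_real (p : Pol c) {g : Fin 3 → Matrix (Ix n) (Ix n) K}
    {H : Matrix (Fin p.m) (Fin p.m) K} (hH : Hᵀ = -H) (D : Derivation ℂ L L)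
    (hD : ∀ x, D (algebraMap K L x) = 0) :
    FO.Realises c.arm (c.N (fun s => emb K L (g s))) (VL (p.LH (emb K L H)))
      (0 : Fin 3 → Matrix (Ix n) (Ix n) L) (0 : Matrix c.δ c.δ L) D where
  onN := by
    intro F hF
    rw [FO.act_zero, sub_zero]
    exact vert_N D hD F hF
  onW := by
    intro F hF
    rw [transpose_zero, Matrix.mul_zero, sub_zero]
    exact vert_W p (FO3.emb_skew hH) D (emb_der_zero H D hD) F hF


end pkg

section main

variable {n : ℕ} {a : Fin 3 → Fin n → ℤ} {c : Cfg n a} {q : SPol c}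

theorem charZero_of (K : Type) [Field K] [Algebra ℂ K] : CharZero K :=
  charZero_of_injective_algebraMap (algebraMap ℂ K).injective

theorem hgen_of_GI {K : Type} [Field K] [Algebra ℂ K] {g : Fin 3 → Matrix (Ix n) (Ix n) K}
    {H : Matrix (Fin q.m) (Fin q.m) K} (hG : GI c q.toPol K g H)
    (G : Matrix (Fin q.m) (Fin q.m) K) (hGs : Gᵀ = -G) :
    ∃ D : Derivation ℂ K K, H.map D = G := by
  obtain ⟨D, -, hD⟩ := hG.dir (fun _ => 0) (fun s => by simp [IsSo]) G hGs
  exact ⟨D, hD⟩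


variable {K : Type} [Field K] [Algebra ℂ K] {g : Fin 3 → Matrix (Ix n) (Ix n) K}
  {H : Matrix (Fin q.m) (Fin q.m) K}

/-- isotropic elements of `𝒦` are perpendicular to `𝒦` -/
theorem iso_mem (R : Ranked c) (hR : CSys.PosR R q) (hG : GI c q.toPol K g H)
    {w : Matrix (Ix n) c.δ K} (hw : w ∈ c.N g ⊓ VL (q.toPol.LH H))
    (h0 : wᵀ * Jm n K * w = 0) : w ∈ Om.Kiso (Jm n K) (c.N g) (VL (q.toPol.LH H)) := by
  have hD := data_of_GI q.toPol hG
  refine ⟨hw, fun G hG' => ?_⟩
  refine CSys.lemN R hR hG.orth hG.skew (hgen_of_GI hG) hw.1 hw.2 hG'.1 rfl ?_ ?_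
  · rw [transpose_mul, transpose_mul, transpose_transpose, Jm_transpose, ← Matrix.mul_assoc]
    exact hD.symm_U hw hG'
  · intro s
    have h1 := hD.symm_arm hw hG' s
    unfold FO.M at h1
    calc wᵀ * Jm n K * G * (FO.E K c.arm s * c.B K) * (wᵀ * Jm n K * G)
        = wᵀ * Jm n K * (G * FO.E K c.arm s * c.B K * wᵀ) * Jm n K * G := by
          simp only [Matrix.mul_assoc]
      _ = (wᵀ * Jm n K * w) * (FO.E K c.arm s * c.B K * Gᵀ * Jm n K * G) := by
          rw [← h1]
          simp only [Matrix.mul_assoc]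
      _ = 0 := by rw [h0, Matrix.zero_mul]

/-- **the context of the Q-theory at every element of `Kiso`** -/
theorem ctx_of_GI (R : Ranked c) (hR : CSys.PosR R q) (hG : GI c q.toPol K g H)
    {F : Matrix (Ix n) c.δ K} (hF : F ∈ Om.Kiso (Jm n K) (c.N g) (VL (q.toPol.LH H))) :
    Qt.Ctx ℂ c.arm (Jm n K) (c.B K) (c.N g) (VL (q.toPol.LH H)) F where
  data := data_of_GI q.toPol hG
  memN := hF.1.1
  memW := hF.1.2
  perp := hF.2
  frame := fun d => CtxFr.ctx_frame R hG.orth (hF.2 F hF.1) d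
  lemN := fun _ hν _ _ h1 h2 h3 =>
    CSys.lemN R hR hG.orth hG.skew (hgen_of_GI hG) hF.1.1 hF.1.2 hν h1 h2 h3

/-- `w := D F` is isotropic -/
theorem der_iso (R : Ranked c) (hR : CSys.PosR R q) (hG : GI c q.toPol K g H)
    {F w : Matrix (Ix n) c.δ K} (hF : F ∈ Om.Kiso (Jm n K) (c.N g) (VL (q.toPol.LH H)))
    (hw : w ∈ c.N g ⊓ VL (q.toPol.LH H))
    (hker : ∀ u : c.δ → K, F *ᵥ u = 0 → ∃ v : c.δ → K, w *ᵥ u = F *ᵥ v) :
    w ∈ Om.Kiso (Jm n K) (c.N g) (VL (q.toPol.LH H)) := by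
  have hD := data_of_GI q.toPol hG
  refine iso_mem R hR hG hw ?_
  set β := wᵀ * Jm n K * w with hβ
  have hβs : βᵀ = β := by
    rw [hβ, transpose_mul, transpose_mul, transpose_transpose, Jm_transpose, ← Matrix.mul_assoc]
  have hwF : wᵀ * Jm n K * F = 0 := by
    rw [hD.symm_U hF.1 hw]
    exact hF.2 w hw
  obtain ⟨Q, hQ⟩ := FO.exists_gen_inv F
  have hβF : ∀ u : c.δ → K, F *ᵥ u = 0 → β *ᵥ u = 0 := by
    intro u hu
    obtain ⟨v, hv⟩ := hker u hu
    rw [hβ, ← mulVec_mulVec, hv, mulVec_mulVec, hwF, zero_mulVec]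
  have hβR : β = β * (Q * F) := by
    have h1 : β * (1 - Q * F) = 0 := by
      have h6 : F * (1 - Q * F) = 0 := by
        rw [Matrix.mul_sub, Matrix.mul_one, ← Matrix.mul_assoc, hQ, sub_self]
      ext i j
      have h7 := hβF ((1 - Q * F).col j) (by
        ext i'
        have := congrFun (congrFun h6 i') j
        simpa [Matrix.mul_apply, Matrix.mulVec, dotProduct] using this)
      have h8 := congrFun h7 i
      simpa [Matrix.mul_apply, Matrix.mulVec, dotProduct] using h8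
    rw [Matrix.mul_sub, Matrix.mul_one, sub_eq_zero] at h1
    exact h1
  have hβR' : β = Fᵀ * (Qᵀ * β) := by
    have h9 := congrArg transpose hβR
    rw [hβs, transpose_mul, transpose_mul, hβs] at h9
    rw [← Matrix.mul_assoc]
    exact h9
  refine CSys.lemN R hR hG.orth hG.skew (hgen_of_GI hG) hw.1 hw.2 hw.1 rfl hβs ?_
  intro s
  have h10 := hD.symm_arm hF.1 hw s
  unfold FO.M at h10
  rw [← hβ]
  calc β * (FO.E K c.arm s * c.B K) * β
      = (wᵀ * Jm n K * w) * (FO.E K c.arm s * c.B K) * (Fᵀ * (Qᵀ * β)) := by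
        rw [← hβR', ← hβ]
    _ = wᵀ * Jm n K * (w * FO.E K c.arm s * c.B K * Fᵀ) * (Qᵀ * β) := by
        simp only [Matrix.mul_assoc]
    _ = (wᵀ * Jm n K * F) * (FO.E K c.arm s * c.B K * wᵀ * (Qᵀ * β)) := by
        rw [← h10]
        simp only [Matrix.mul_assoc]
    _ = 0 := by rw [hwF, Matrix.zero_mul]

theorem mulVec_der {α β : Type} [Fintype β] (D : Derivation ℂ K K) (F : Matrix α β K)
    (u : β → K) : (fun i => D ((F *ᵥ u) i)) = F.map D *ᵥ u + F *ᵥ (fun j => D (u j)) := by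
  funext i
  rw [Pi.add_apply, mulVec, mulVec, mulVec, dotProduct, dotProduct, dotProduct, map_sum,
    ← Finset.sum_add_distrib]
  refine Finset.sum_congr rfl fun j _ => ?_
  rw [Derivation.leibniz, smul_eq_mul, smul_eq_mul, map_apply]
  ring

/-- **Condition (c)** -/
theorem cond_c (R : Ranked c) (hR : CSys.PosR R q) (hG : GI c q.toPol K g H)
    {Z : Submodule K (Matrix (Ix n) c.δ K)}
    (hZ : Z ≤ Om.Kiso (Jm n K) (c.N g) (VL (q.toPol.LH H)))
    (hcl : ∀ F ∈ Z, ∀ w ∈ Om.Kiso (Jm n K) (c.N g) (VL (q.toPol.LH H)),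
      (∀ u : c.δ → K, F *ᵥ u = 0 → ∃ v : c.δ → K, w *ᵥ u = F *ᵥ v) → w ∈ Z)
    {F : Matrix (Ix n) c.δ K} (hF : F ∈ Z)
    (hvert : ∀ w ∈ Z, ∃ D : Derivation ℂ K K, (∀ G ∈ c.N g, G.map D ∈ c.N g) ∧
      H.map D = 0 ∧ F.map D = w)
    (X : Fin 3 → Matrix (Ix n) (Ix n) K) (hX : ∀ s, IsSo (X s)) (hXF : ∀ s, X s * F = 0) :
    ∃ D : Derivation ℂ K K, (∀ G ∈ c.N g, G.map D - FO.act c.arm X G ∈ c.N g) ∧
      H.map D = 0 ∧ F.map D = 0 := by
  obtain ⟨D0, hD1, hD2⟩ := hG.dir X hX 0 (by simp)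
  have hFK := hZ hF
  have hact : FO.act c.arm X F = 0 := by
    ext i d
    rw [act_apply, hXF]
  have hwN : F.map D0 ∈ c.N g := by
    have h1 := hD1 F hFK.1.1
    rwa [hact, sub_zero] at h1
  have hwW : F.map D0 ∈ VL (q.toPol.LH H) := vert_W q.toPol hG.skew D0 hD2 F hFK.1.2
  have hker : ∀ u : c.δ → K, F *ᵥ u = 0 → ∃ v : c.δ → K, F.map D0 *ᵥ u = F *ᵥ v := by
    intro u hu
    have h1 := mulVec_der D0 F u
    rw [hu] at h1
    refine ⟨-(fun j => D0 (u j)), ?_⟩
    rw [mulVec_neg, eq_neg_iff_add_eq_zero, ← h1]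
    funext i
    simp
  have hwi := der_iso R hR hG hFK ⟨hwN, hwW⟩ hker
  obtain ⟨D1, hE1, hE2, hE3⟩ := hvert _ (hcl F hF _ hwi hker)
  refine ⟨D0 - D1, ?_, ?_, ?_⟩
  · intro G hG'
    have e : G.map (D0 - D1 : Derivation ℂ K K) - FO.act c.arm X G =
        (G.map D0 - FO.act c.arm X G) - G.map D1 := by
      ext i j
      simp only [Matrix.sub_apply, map_apply, Derivation.sub_apply]
      ring
    rw [e]
    exact (c.N g).sub_mem (hD1 G hG') (hE1 G hG')
  · ext i j
    have h1 := congrFun (congrFun hD2 i) j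
    have h2 := congrFun (congrFun hE2 i) j
    rw [map_apply, Matrix.zero_apply] at h1 h2
    rw [map_apply, Derivation.sub_apply, h1, h2, sub_zero, Matrix.zero_apply]
  · ext i j
    have h2 := congrFun (congrFun hE3 i) j
    rw [map_apply, map_apply] at h2
    rw [map_apply, Derivation.sub_apply, h2, sub_self, Matrix.zero_apply]

/-- **Good subspaces.** -/
theorem goodSub (R : Ranked c) (hR : CSys.PosR R q) (hG : GI c q.toPol K g H)
    {Z : Submodule K (Matrix (Ix n) c.δ K)}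
    (hZ : Z ≤ Om.Kiso (Jm n K) (c.N g) (VL (q.toPol.LH H)))
    (hcl : ∀ F ∈ Z, ∀ w ∈ Om.Kiso (Jm n K) (c.N g) (VL (q.toPol.LH H)),
      (∀ u : c.δ → K, F *ᵥ u = 0 → ∃ v : c.δ → K, w *ᵥ u = F *ᵥ v) → w ∈ Z)
    {F : Matrix (Ix n) c.δ K} (hF : F ∈ Z) (h0 : F ≠ 0)
    (hvert : ∀ w ∈ Z, ∃ D : Derivation ℂ K K, (∀ G ∈ c.N g, G.map D ∈ c.N g) ∧
      H.map D = 0 ∧ F.map D = w)
    (hb : ∀ a ∈ VL (q.toPol.LH H), ∀ ν ∈ c.N g, ∀ C : Matrix c.δ c.δ K, a - ν = F * C →
      Fᵀ * Jm n K * a = 0) :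
    Ind.GoodSub c q.toPol K g H (CtxFr.colS F) := by
  have hFF : Fᵀ * Jm n K * F = 0 := (hZ hF).2 F (hZ hF).1
  have hcol : ∀ d, (fun i => F i d) ∈ CtxFr.colS F := by
    intro d
    refine ⟨Pi.single d 1, ?_⟩
    rw [mulVecLin_apply, mulVec_single_one]
    rfl
  have hperp : ∀ G : Matrix (Ix n) c.δ K, Fᵀ * Jm n K * G = 0 → G ∈ SU (perp (CtxFr.colS F)) := by
    intro G hG' d
    rw [Ind.mem_perp]
    rintro _ ⟨u, rfl⟩
    rw [mulVecLin_apply, HM2.form_symm, form_eq]
    have h1 : (F *ᵥ u) ⬝ᵥ (Jm n K *ᵥ fun p => G p d) = u ⬝ᵥ ((Fᵀ * Jm n K * G) *ᵥ Pi.single d 1) := by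
      rw [mulVec_single_one, ← vecMul_transpose, ← dotProduct_mulVec, Matrix.mul_assoc]
      congr 1
    rw [h1, hG', zero_mulVec, dotProduct_zero]
  refine ⟨CtxFr.iso_colS hFF, ?_, ?_, ?_⟩
  · intro h
    apply h0
    ext i d
    have h1 := hcol d
    rw [h, Submodule.mem_bot] at h1
    exact congrFun h1 i
  · rintro ν ⟨hν, hν2⟩
    obtain ⟨A, hA, z, hz, rfl⟩ := Submodule.mem_sup.1 hν2
    have h1 : ∀ d, ∃ x : c.δ → K, F *ᵥ x = fun i => z i d := by
      intro d
      obtain ⟨x, hx⟩ := hz d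
      exact ⟨x, hx⟩
    choose x hx using h1
    have hzC : z = F * Matrix.of fun e d => x d e := by
      ext i d
      rw [Matrix.mul_apply]
      exact (congrFun (hx d) i).symm
    have h2 := hb A hA (A + z) hν (-(Matrix.of fun e d => x d e)) (by
      rw [Matrix.mul_neg, ← hzC]; abel)
    apply hperp
    rw [Matrix.mul_add, h2, hzC, ← Matrix.mul_assoc, hFF, Matrix.zero_mul, add_zero]
  · intro X hX hXS
    obtain ⟨D, hD1, hD2, hD3⟩ := cond_c R hR hG hZ hcl hF hvert X hX (by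
      intro s
      ext i d
      have h1 := congrFun (hXS s _ (hcol d)) i
      rw [Matrix.mul_apply]
      exact h1)
    refine ⟨D, hD1, hD2, ?_⟩
    rintro _ ⟨u, rfl⟩
    rw [mulVecLin_apply, mulVec_der, hD3, zero_mulVec, zero_add]
    exact ⟨_, rfl⟩

end main

end Crest.Agent.R172.Ext
end

-- ▼ part R172/IndGen3
section

/-!
Row 172 (S0260), node IND: base change of `ZZ` and existence of good subspaces.
-/

set_option autoImplicit false
set_option linter.unusedSectionVars false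
set_option maxHeartbeats 400000

namespace Crest.Agent.R172.Ext

open Matrix Crest.AlgebraR.SpinSaturation Crest.Agent.R172.SoGrade Crest.Agent.R172.Sp
open Crest.Agent.R172.Gen (Jm Ix emb IsSo Ent ent)
open Crest.Agent.R172.CF Crest.Agent.R172.HM8 Crest.Agent.R172.HM9 Module
open Crest.Agent.R172.Ind (GI kk mu perp Bd)

section bc

variable {K L : Type} [Field K] [Field L] [Algebra K L]

theorem BC_spL {α β : Type} [Fintype α] [DecidableEq α] [Fintype β] [DecidableEq β]
    (Z : Submodule K (Matrix α β K)) : Om.BC Z (spL L Z) where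
  up := fun F hF => emb_mem_spL hF
  down := by
    intro F hF
    have hF' : F ∈ Submodule.span L ((fun F => emb K L F) '' (Z : Set (Matrix α β K))) := hF
    induction hF' using Submodule.span_induction with
    | mem x hx =>
      obtain ⟨F0, hF0, rfl⟩ := hx
      intro φ
      have h1 := Om.map_smul_emb (K := K) (L := L) φ 1 F0
      rw [one_smul] at h1
      change (F0.map (algebraMap K L)).map φ ∈ Z
      rw [h1]
      exact Z.smul_mem _ hF0
    | zero => intro φ; rw [Om.map_zero_lin]; exact Z.zero_mem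
    | add x y hx' hy' hx hy =>
      intro φ
      rw [Om.map_add_lin]
      exact Z.add_mem (hx hx' φ) (hy hy' φ)
    | smul t x hx ih =>
      intro φ
      exact ih hx (φ ∘ₗ LinearMap.mulLeft K t)

theorem spL_bot {α β : Type} : spL L (⊥ : Submodule K (Matrix α β K)) = ⊥ := by
  rw [eq_bot_iff]
  apply spL_le
  intro F hF
  rw [Submodule.mem_bot] at hF ⊢
  rw [hF]
  ext i j
  rw [FO3.emb_apply', Matrix.zero_apply, map_zero, Matrix.zero_apply]

end bc

section gi

variable {n : ℕ} {a : Fin 3 → Fin n → ℤ} {c : Cfg n a}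
variable {K L : Type} [Field K] [Field L] [Algebra K L]

theorem spL_N [Algebra ℂ K] [Algebra ℂ L] [IsScalarTower ℂ K L] (g : Fin 3 → Matrix (Ix n) (Ix n) K) :
    spL L (c.N g) = c.N (fun s => emb K L (g s)) :=
  le_antisymm (spL_le fun _ hF => CSys.emb_mem_N hF) (NL_le g)

theorem spL_W (p : Pol c) [Algebra ℂ K] [Algebra ℂ L] [IsScalarTower ℂ K L]
    (H : Matrix (Fin p.m) (Fin p.m) K) :
    spL L (VL (p.LH H) : Submodule K (Matrix (Ix n) c.δ K)) =
      (VL (p.LH (emb K L H)) : Submodule L (Matrix (Ix n) c.δ L)) := by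
  classical
  refine le_antisymm (spL_le fun _ hF => CSys.emb_mem_VL p hF) ?_
  intro F hF
  obtain ⟨R, rfl⟩ := p.mem_VL_iff.1 hF
  have h1 : R = ∑ i, ∑ j, R i j • emb K L (Matrix.single i j (1 : K)) := by
    conv_lhs => rw [matrix_eq_sum_single R]
    refine Finset.sum_congr rfl fun i _ => Finset.sum_congr rfl fun j _ => ?_
    ext x y
    rw [Matrix.smul_apply, FO3.emb_apply', Matrix.single_apply, Matrix.single_apply]
    split_ifs <;> simp
  rw [h1, Matrix.sum_mul]
  refine Submodule.sum_mem _ fun i _ => ?_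
  rw [Matrix.sum_mul]
  refine Submodule.sum_mem _ fun j _ => ?_
  rw [Matrix.smul_mul]
  refine Submodule.smul_mem _ _ ?_
  have h2 : emb K L (Matrix.single i j (1 : K)) * (p.P (emb K L H))ᵀ =
      emb K L (Matrix.single i j (1 : K) * (p.P H)ᵀ) := by
    rw [FO3.emb_mul', ← FO3.emb_P]
    rfl
  rw [h2]
  exact emb_mem_spL (p.mem_VL_iff.2 ⟨_, rfl⟩)

theorem bcN [Algebra ℂ K] [Algebra ℂ L] [IsScalarTower ℂ K L] (g : Fin 3 → Matrix (Ix n) (Ix n) K) :
    Om.BC (c.N g) (c.N (fun s => emb K L (g s))) := by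
  rw [← spL_N]
  exact BC_spL _

theorem bcW (p : Pol c) [Algebra ℂ K] [Algebra ℂ L] [IsScalarTower ℂ K L]
    (H : Matrix (Fin p.m) (Fin p.m) K) :
    Om.BC (VL (p.LH H) : Submodule K (Matrix (Ix n) c.δ K)) (VL (p.LH (emb K L H))) := by
  rw [← spL_W]
  exact BC_spL _

/-- the space `ZZ` at an instance -/
noncomputable def ZI (c : Cfg n a) (p : Pol c) {K : Type} [Field K] [Algebra ℂ K]
    (g : Fin 3 → Matrix (Ix n) (Ix n) K) (H : Matrix (Fin p.m) (Fin p.m) K) :
    Submodule K (Matrix (Ix n) c.δ K) :=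
  Om.ZZ ℂ c.arm (Jm n K) (c.B K) (c.N g) (VL (p.LH H))

/-- the space `Kiso` at an instance -/
noncomputable def KI (c : Cfg n a) (p : Pol c) {K : Type} [Field K] [Algebra ℂ K]
    (g : Fin 3 → Matrix (Ix n) (Ix n) K) (H : Matrix (Fin p.m) (Fin p.m) K) :
    Submodule K (Matrix (Ix n) c.δ K) :=
  Om.Kiso (Jm n K) (c.N g) (VL (p.LH H))

/-- **base change of `ZZ`** -/
theorem spL_ZI (p : Pol c) [Algebra ℂ K] [Algebra ℂ L] [IsScalarTower ℂ K L]
    {g : Fin 3 → Matrix (Ix n) (Ix n) K} {H : Matrix (Fin p.m) (Fin p.m) K}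
    (hG : GI c p K g H) :
    spL L (ZI c p g H) = ZI c p (fun s => emb K L (g s)) (emb K L H) := by
  have hGL : GI c p L (fun s => emb K L (g s)) (emb K L H) := gi_bc p hG
  have e1 : (Jm n K).map (algebraMap K L) = Jm n L := CSys.emb_Jm
  have e2 : (c.B K).map (algebraMap K L) = c.B L := c.B_map K L (algebraMap K L)
  have h1 := Om.bc_ZZ (k := ℂ) (arm := c.arm) (J := Jm n K) (B := c.B K) (bcN (L := L) g)
    (bcW (L := L) p H) (data_of_GI p hG) (by
      rw [e1, e2]
      exact data_of_GI p hGL)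
  rw [e1, e2] at h1
  exact h1.eq_span.symm

theorem spL_KI (p : Pol c) [Algebra ℂ K] [Algebra ℂ L] [IsScalarTower ℂ K L]
    (g : Fin 3 → Matrix (Ix n) (Ix n) K) (H : Matrix (Fin p.m) (Fin p.m) K) :
    spL L (KI c p g H) = KI c p (fun s => emb K L (g s)) (emb K L H) := by
  have e1 : (Jm n K).map (algebraMap K L) = Jm n L := CSys.emb_Jm
  have h1 := Om.bc_Kiso (J := Jm n K) (bcN (L := L) g) (bcW (L := L) p H)
  rw [e1] at h1
  exact h1.eq_span.symm

end gi

section good

variable {n : ℕ} {a : Fin 3 → Fin n → ℤ} {c : Cfg n a} {q : SPol c}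

/-- the closedness of `ZZ` -/
theorem ZI_closed {K : Type} [Field K] [Algebra ℂ K] {g : Fin 3 → Matrix (Ix n) (Ix n) K}
    {H : Matrix (Fin q.m) (Fin q.m) K} (R : Ranked c) (hG : GI c q.toPol K g H)
    (hS : Om.Scal ℂ c.arm (Jm n K) (c.B K) (c.N g) (VL (q.toPol.LH H))) :
    ∀ F ∈ ZI c q.toPol g H, ∀ w ∈ Om.Kiso (Jm n K) (c.N g) (VL (q.toPol.LH H)),
      (∀ u : c.δ → K, F *ᵥ u = 0 → ∃ v : c.δ → K, w *ᵥ u = F *ᵥ v) → w ∈ ZI c q.toPol g H := by
  intro F hF w hw hker
  have hcz : CharZero K := charZero_of K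
  have hD := data_of_GI q.toPol hG
  exact Om.mem_ZZ_of_ker hD hS (Om.nilSp_cfg R q.toPol hG.orth hG.skew (hgen_of_GI hG) hD)
    two_ne_zero hF hw hker

/-- **Good subspaces exist over some extension** if `ZZ ≠ 0` and `T_f` is scalar over all
extensions. -/
theorem exists_good {K : Type} [Field K] [Algebra ℂ K] {g : Fin 3 → Matrix (Ix n) (Ix n) K}
    {H : Matrix (Fin q.m) (Fin q.m) K} (R : Ranked c) (hR : CSys.PosR R q)
    (hG : GI c q.toPol K g H)
    (hS : ∀ (L : Type) [Field L] [Algebra K L] [Algebra ℂ L] [IsScalarTower ℂ K L]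
      [IsAlgClosed L], Om.Scal ℂ c.arm (Jm n L) (c.B L) (c.N (fun s => emb K L (g s)))
        (VL (q.toPol.LH (emb K L H))))
    (hZ : ZI c q.toPol g H ≠ ⊥) :
    ∃ (L : Type) (_ : Field L) (_ : Algebra K L) (_ : Algebra ℂ L) (_ : IsScalarTower ℂ K L)
      (_ : IsAlgClosed L) (S : Submodule L (Ix n → L)),
      Ind.GoodSub c q.toPol L (fun s => emb K L (g s)) (emb K L H) S := by
  have hcz : CharZero K := charZero_of K
  obtain ⟨L, iL, iKL, iCL, ist, icl, icz, F, hF, hspec, hv⟩ := exists_genZ K (ZI c q.toPol g H)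
  have hGL : GI c q.toPol L (fun s => emb K L (g s)) (emb K L H) := gi_bc q.toPol hG
  have hZL : spL L (ZI c q.toPol g H) = ZI c q.toPol (fun s => emb K L (g s)) (emb K L H) :=
    spL_ZI q.toPol hG
  rw [hZL] at hF hv
  have hle : ZI c q.toPol (fun s => emb K L (g s)) (emb K L H) ≤
      Om.Kiso (Jm n L) (c.N (fun s => emb K L (g s))) (VL (q.toPol.LH (emb K L H))) :=
    Om.ZZ_le_Kiso
  refine ⟨L, iL, iKL, iCL, ist, icl, CtxFr.colS F,
    goodSub R hR hGL hle (ZI_closed R hGL (hS L)) hF ?_ ?_ ?_⟩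
  · intro h0
    apply hZ
    rw [eq_bot_iff]
    intro F0 hF0
    rw [Submodule.mem_bot]
    ext i d
    have h1 := hspec (MvPolynomial.X (i, d)) (by
      rw [MvPolynomial.aeval_X, h0, Matrix.zero_apply]) F0 hF0
    rw [MvPolynomial.aeval_X] at h1
    exact h1
  · intro w hw
    obtain ⟨D, hD1, hD2⟩ := hv w hw
    exact ⟨D, vert_N D hD1, emb_der_zero H D hD1, hD2⟩
  · intro A hA ν hν C hC
    exact Om.ZZ_q_zero two_ne_zero (ctx_of_GI R hR hGL (hle hF)) hF hA hν hC

end good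

end Crest.Agent.R172.Ext
end

-- ▼ part R172/IndGen4

/-!
Row 172 (S0260), node IND: STEP outside tame, from the inputs G1.2, G1.3 and `NotTame`.
-/

set_option autoImplicit false
set_option linter.unusedSectionVars false
set_option maxHeartbeats 400000

namespace Crest.Agent.R172.Ext

open Matrix Crest.AlgebraR.SpinSaturation Crest.Agent.R172.SoGrade Crest.Agent.R172.Sp
open Crest.Agent.R172.Gen (Jm Ix emb IsSo Ent ent)
open Crest.Agent.R172.CF Crest.Agent.R172.HM8 Crest.Agent.R172.HM9 Module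
open Crest.Agent.R172.Ind (GI kk mu perp Bd)

variable {n : ℕ} {a : Fin 3 → Fin n → ℤ} {c : Cfg n a} {q : SPol c}

theorem form_zero_iff {K : Type} [Field K] (F G : Matrix (Ix n) c.δ K) :
    (∀ u u', CSys.BV n K (F *ᵥ u) (G *ᵥ u') = 0) ↔ Gᵀ * Jm n K * F = 0 := by
  have e : (Gᵀ * Jm n K * F)ᵀ = Fᵀ * Jm n K * G := by
    rw [transpose_mul, transpose_mul, transpose_transpose, Jm_transpose, ← Matrix.mul_assoc]
  constructor
  · intro h
    have h1 : Fᵀ * Jm n K * G = 0 := by
      ext d d'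
      have h2 := h (Pi.single d 1) (Pi.single d' 1)
      rw [CSys.BV_mulVec, mulVec_single_one, single_one_dotProduct] at h2
      exact h2
    rw [← transpose_transpose (Gᵀ * Jm n K * F), e, h1, transpose_zero]
  · intro h u u'
    rw [CSys.BV_mulVec, ← e, h, transpose_zero, zero_mulVec, dotProduct_zero]

/-- the two versions of `Kiso` -/
theorem Kiso_eq {K : Type} [Field K] (N W : Submodule K (Matrix (Ix n) c.δ K)) :
    ThX.Kiso (CSys.BV n K) (CSys.KK (N ⊓ W)) = CSys.KK (Om.Kiso (Jm n K) N W) := by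
  ext G
  rw [ThX.mem_Kiso, CSys.mem_KK, CSys.mem_KK]
  constructor
  · rintro ⟨⟨G', hG', rfl⟩, h⟩
    refine ⟨G', ⟨hG', fun F hF => ?_⟩, rfl⟩
    exact (form_zero_iff F G').1 fun u u' => h _ ⟨F, hF, rfl⟩ u u'
  · rintro ⟨G', hG', rfl⟩
    refine ⟨⟨G', hG'.1, rfl⟩, ?_⟩
    rintro _ ⟨F, hF, rfl⟩ u u'
    exact (form_zero_iff F G').2 (hG'.2 F hF) u u'


/-- `dim 𝒦iso ≤ dim ZZ + 1` if `T_f` is scalar -/
theorem finrank_ZI {K : Type} [Field K] [Algebra ℂ K]
    {g : Fin 3 → Matrix (Ix n) (Ix n) K} {H : Matrix (Fin q.m) (Fin q.m) K}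
    (R : Ranked c) (hG : GI c q.toPol K g H)
    (hS : Om.Scal ℂ c.arm (Jm n K) (c.B K) (c.N g) (VL (q.toPol.LH H))) :
    finrank K ↥(Om.Kiso (Jm n K) (c.N g) (VL (q.toPol.LH H))) ≤
      finrank K ↥(ZI c q.toPol g H) + 1 := by
  have hcz : CharZero K := charZero_of K
  have hD := data_of_GI q.toPol hG
  exact Om.finrank_le hD hS (Om.nilSp_cfg R q.toPol hG.orth hG.skew (hgen_of_GI hG) hD)
    two_ne_zero


end Crest.Agent.R172.Ext
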