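import Crest.Agent.R172.Qt3

/-!
Row 172 (S0260), node G1.1 (Q-theory), part 4: `Q_S = {φ g}` and skewness.
-/

set_option autoImplicit false
set_option linter.unusedSectionVars false
set_option linter.unusedFintypeInType false
set_option linter.unusedDecidableInType false

namespace Crest.Agent.R172.Qt

open Matrix Module Crest.Agent.R172.FO

variable {ι : Type*} [Fintype ι] [DecidableEq ι] {δ : Type*} [Fintype δ] [DecidableEq δ]
variable {k K : Type*} [Field k] [Field K] [Algebra k K]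
variable {arm : δ → Fin 3} {J : Matrix ι ι K} {B : Matrix δ δ K}
  {N W : Submodule K (Matrix ι δ K)} {g : Matrix ι δ K}

/-- `Q_S = {X₀ g}` -/
theorem Ctx.AS (h : Ctx k arm J B N W g) {a ν : Matrix ι δ K} (ha : a ∈ W) (hν : ν ∈ N)
    {C : Matrix δ δ K} (hC : a = ν + g * C) :
    ∃ p ∈ NN arm J N g, gᵀ * J * a = gᵀ * J * (p.1 * g) := by
  have hg0 : gᵀ * J * (g * C) = 0 := by rw [← Matrix.mul_assoc, h.iso, Matrix.zero_mul]
  refine h.lift ha hν (by rw [hC, Matrix.mul_add, hg0, add_zero]) ?_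
  intro q hq hq0
  -- ⟨Qg, ν⟩ = ⟨Y₀ g, ν⟩ = - ⟨Y₀ g, g C⟩ = 0
  have : Pg arm g q = q.1 * g - act arm q.2 g := rfl
  rw [this, pair_sub_left, h.pair_N (hq.2.1.pres g h.memN) hν, sub_zero]
  have hν' : ν = a - g * C := by rw [hC]; abel
  rw [hν', pair_sub_right, pair_W h.data (h.W_mul _ h.memW) ha, zero_sub,
    pair_comm h.data.J_symm h.data.B_symm, pair_S hq0, neg_zero]

/-- `gᵀ J X₀ g` is skew -/
theorem skew_gXg (hJ : Jᵀ = J) {X : Matrix ι ι K} (hX : Skw J X) (F : Matrix ι δ K) :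
    (Fᵀ * J * (X * F))ᵀ = - (Fᵀ * J * (X * F)) := by
  have e : (Fᵀ * J)ᵀ = J * F := by rw [transpose_mul, transpose_transpose, hJ]
  rw [transpose_mul, e, transpose_mul]
  calc Fᵀ * Xᵀ * (J * F) = Fᵀ * (Xᵀ * J) * F := by simp only [Matrix.mul_assoc]
    _ = _ := by rw [hX.eq]; simp only [Matrix.mul_neg, Matrix.neg_mul, Matrix.mul_assoc]

/-- (Qskew) -/
theorem Ctx.Qskew (h : Ctx k arm J B N W g) {a ν : Matrix ι δ K} (ha : a ∈ W) (hν : ν ∈ N)
    {C : Matrix δ δ K} (hC : a = ν + g * C) : (gᵀ * J * a)ᵀ = - (gᵀ * J * a) := by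
  obtain ⟨p, hp, hpe⟩ := h.AS ha hν hC
  rw [hpe]
  exact skew_gXg h.data.J_symm hp.1 g



/-- `f'_s g_sᵀ = 0` : on `v ∈ S^⊥`, `g_s B f_sᵀ J v = 0`. -/
theorem Ctx.gf_zero (h : Ctx k arm J B N W g) {f : Matrix ι δ K} (hf : f ∈ N ⊓ W) (s : Fin 3)
    {α : Type*} {v : Matrix ι α K} (hv : gᵀ * J * v = 0) : M arm B s g f * J * v = 0 := by
  have h1 : M arm B s g f = M arm B s f g := h.data.symm_arm h.mem hf s
  rw [h1]
  unfold M
  calc f * E K arm s * B * gᵀ * J * v = f * E K arm s * B * (gᵀ * J * v) := by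
        simp only [Matrix.mul_assoc]
    _ = 0 := by rw [hv, Matrix.mul_zero]

end Crest.Agent.R172.Qt
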