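import Crest.Agent.R172.Om1
import Crest.Agent.R172.SN2
import Crest.Agent.R172.Qt4

-- ▼ part R172/Om2
section

/-!
Row 172 (S0260), node G1.5, second part: the subspace `ZZ` of `Kiso`.
-/

set_option autoImplicit false
set_option linter.unusedSectionVars false

namespace Crest.Agent.R172.Om

open Matrix Module Crest.Agent.R172.FO

variable {ι : Type*} [Fintype ι] [DecidableEq ι] {δ : Type*} [Fintype δ] [DecidableEq δ]
variable {k K : Type*} [Field k] [Field K] [Algebra k K]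
variable {arm : δ → Fin 3} {J : Matrix ι ι K} {B : Matrix δ δ K} {N W : Submodule K (Matrix ι δ K)}

variable (k) in
/-- `ZZ = {F ∈ Kiso : gᵀ J d(F) = 0 for all g ∈ Kiso and all d realising some (0,Y)}` -/
def ZZ (arm : δ → Fin 3) (J : Matrix ι ι K) (B : Matrix δ δ K)
    (N W : Submodule K (Matrix ι δ K)) : Submodule K (Matrix ι δ K) where
  carrier := {F | F ∈ Kiso J N W ∧ ∀ g ∈ Kiso J N W, ∀ d : Derivation k K K,
    IsY k arm B N W d → Om J d g F = 0}
  zero_mem' := ⟨(Kiso J N W).zero_mem, by intro g _ d _; exact Om_zero_right d g⟩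
  add_mem' := by
    rintro F F' ⟨h1, h2⟩ ⟨h1', h2'⟩
    refine ⟨(Kiso J N W).add_mem h1 h1', fun g hg d hd => ?_⟩
    rw [Om_add_right, h2 g hg d hd, h2' g hg d hd, add_zero]
  smul_mem' := by
    rintro a F ⟨h1, h2⟩
    refine ⟨(Kiso J N W).smul_mem a h1, fun g hg d hd => ?_⟩
    rw [Om_smul_right' d a hg h1, h2 g hg d hd, smul_zero]


theorem ZZ_le_Kiso : ZZ k arm J B N W ≤ Kiso J N W := fun _ h => h.1



/-- **`ZZ` has codimension at most one in `Kiso`.** -/
theorem finrank_le (hD : Data k arm J B N W) (hS : Scal k arm J B N W)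
    (hN : NilSp k arm J B N W) (h2 : (2 : K) ≠ 0) :
    finrank K ↥(Kiso J N W) ≤ finrank K ↥(ZZ k arm J B N W) + 1 := by
  rcases Om_rank_one hD hS hN h2 with h | ⟨g0, d0, c, hg0, hd0, h0, hcg, h⟩
  · have : Kiso J N W = ZZ k arm J B N W :=
      le_antisymm (fun F hF => ⟨hF, fun g hg d hd => h g hg F hF d hd⟩) ZZ_le_Kiso
    rw [← this]
    omega
  · have hker : finrank K ↥(LinearMap.ker c) ≤ finrank K ↥(ZZ k arm J B N W) := by
      have hmap : (LinearMap.ker c).map (Kiso J N W).subtype ≤ ZZ k arm J B N W := by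
        rintro _ ⟨F, hF, rfl⟩
        refine ⟨F.2, fun g hg d hd => ?_⟩
        have := h ⟨g, hg⟩ F d hd
        rw [show c F = 0 from hF, mul_zero, zero_smul] at this
        exact this
      have h3 := Submodule.finrank_mono hmap
      rwa [Submodule.finrank_map_subtype_eq] at h3
    have h4 := LinearMap.finrank_range_add_finrank_ker c
    have h5 : finrank K ↥(LinearMap.range c) ≤ 1 :=
      (Submodule.finrank_le _).trans (by rw [Module.finrank_self])
    omega

/-- `(Lemma)` if `F ∈ ZZ`, `w ∈ Kiso` and `w (ker F) ⊆ im F` then `w ∈ ZZ`. -/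
theorem mem_ZZ_of_ker (hD : Data k arm J B N W) (hS : Scal k arm J B N W)
    (hN : NilSp k arm J B N W) (h2 : (2 : K) ≠ 0) {F w : Matrix ι δ K}
    (hF : F ∈ ZZ k arm J B N W) (hw : w ∈ Kiso J N W)
    (hker : ∀ u : δ → K, F *ᵥ u = 0 → ∃ v : δ → K, w *ᵥ u = F *ᵥ v) :
    w ∈ ZZ k arm J B N W := by
  rcases Om_rank_one hD hS hN h2 with h | ⟨g0, d0, c, hg0, hd0, h0, hcg, h⟩
  · exact ⟨hw, fun g hg d hd => h g hg w hw d hd⟩
  -- `c w = 0`
  suffices hcw : c ⟨w, hw⟩ = 0 by
    refine ⟨hw, fun g hg d hd => ?_⟩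
    have := h ⟨g, hg⟩ ⟨w, hw⟩ d hd
    rw [hcw, mul_zero, zero_smul] at this
    exact this
  by_contra hcw
  set β := Om J d0 g0 g0 with hβ
  have hFF : ∀ f ∈ Kiso J N W, Om J d0 F f = 0 := by
    intro f hf
    rw [← Om_comm hD hS hd0 hF.1 hf]
    exact hF.2 f hf d0 hd0
  have hww : Om J d0 w w = (c ⟨w, hw⟩ * c ⟨w, hw⟩) • β := h ⟨w, hw⟩ ⟨w, hw⟩ d0 hd0
  have hcw2 : c ⟨w, hw⟩ * c ⟨w, hw⟩ ≠ 0 := mul_ne_zero hcw hcw
  have hβskew : βᵀ = -β := Om_self_skew hD d0 hg0
  -- `β` kills `ker F`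
  have hβF : ∀ u : δ → K, F *ᵥ u = 0 → β *ᵥ u = 0 := by
    intro u hu
    obtain ⟨v, hv⟩ := hker u hu
    have h3 : u ᵥ* Om J d0 w w = 0 := by
      have e : u ᵥ* Om J d0 w w = v ᵥ* Om J d0 F w := by
        unfold Om
        rw [← vecMul_vecMul, ← vecMul_vecMul, vecMul_transpose, hv, ← vecMul_transpose,
          vecMul_vecMul, vecMul_vecMul]
        rw [Matrix.mul_assoc]
      rw [e, hFF w hw, vecMul_zero]
    rw [hww, vecMul_smul, smul_eq_zero] at h3
    have h4 := h3.resolve_left hcw2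
    have h5 : β *ᵥ u = -(u ᵥ* β) := by
      rw [← mulVec_transpose, hβskew, neg_mulVec, neg_neg]
    rw [h5, h4, neg_zero]
  -- so `β = β R F`
  obtain ⟨R, hR⟩ := exists_gen_inv F
  have hβR : β = β * (R * F) := by
    have : β * (1 - R * F) = 0 := by
      have h6 : F * (1 - R * F) = 0 := by
        rw [Matrix.mul_sub, Matrix.mul_one, ← Matrix.mul_assoc, hR, sub_self]
      ext i j
      have h7 := hβF ((1 - R * F).col j) (by
        ext i'
        have := congrFun (congrFun h6 i') j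
        simpa [Matrix.mul_apply, Matrix.mulVec, dotProduct] using this)
      have h8 := congrFun h7 i
      simpa [Matrix.mul_apply, Matrix.mulVec, dotProduct] using h8
    rw [Matrix.mul_sub, Matrix.mul_one, sub_eq_zero] at this
    exact this
  have hβR' : β = Fᵀ * (Rᵀ * β) := by
    have h9 := congrArg transpose hβR
    rw [hβskew, transpose_mul, transpose_mul, hβskew, Matrix.mul_neg, neg_inj] at h9
    rw [← Matrix.mul_assoc]
    exact h9
  apply h0
  apply hN g0 hg0 d0 hd0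
  intro s
  have h10 := Om_symm hD d0 hg0 hg0.1 hF.1.1 s
  rw [hF.2 g0 hg0 d0 hd0, Matrix.zero_mul, Matrix.zero_mul] at h10
  have h11 : β * (E K arm s * B) * β = β * (E K arm s * B) * (Fᵀ * (Rᵀ * β)) := by
    conv_lhs => rw [Matrix.mul_assoc]; arg 2; arg 2; rw [hβR']
    rw [← Matrix.mul_assoc]
  rw [h11, ← Matrix.mul_assoc, h10, Matrix.zero_mul]

end Crest.Agent.R172.Om
end

-- ▼ part R172/Om3
section

/-!
Row 172 (S0260), node G1.5, third part: `Q_S = 0` for `S = im F`, `F ∈ ZZ`, and the hypothesis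
`NilSp` for the concrete configurations.
-/

set_option autoImplicit false
set_option linter.unusedSectionVars false

namespace Crest.Agent.R172.Om

open Matrix Module Crest.Agent.R172.FO

section abstract

variable {ι : Type*} [Fintype ι] [DecidableEq ι] {δ : Type*} [Fintype δ] [DecidableEq δ]
variable {k K : Type*} [Field k] [Field K] [Algebra k K]
variable {arm : δ → Fin 3} {J : Matrix ι ι K} {B : Matrix δ δ K} {N W : Submodule K (Matrix ι δ K)}

/-- `ω(F,F) = 0` for all `d` implies that `Fᵀ J a` is symmetric for `a ∈ W`, `a ∈ N + F * Mat`. -/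
theorem symm_of_self (hD : Data k arm J B N W) {F : Matrix ι δ K} (hF : F ∈ Kiso J N W)
    (h : ∀ d : Derivation k K K, IsY k arm B N W d → Om J d F F = 0)
    {a ν : Matrix ι δ K} {C : Matrix δ δ K} (ha : a ∈ W) (hν : ν ∈ N) (hC : a - ν = F * C) :
    (Fᵀ * J * a)ᵀ = Fᵀ * J * a := by
  obtain ⟨Bi, hBi, hBi', hBit⟩ := symm_inv hD.B_symm hD.B_unit
  apply symm_of_trace_skew
  intro G hG
  -- `Y = Bi * G`
  obtain ⟨d, hd⟩ := hD.dir 0 (Bi * G) (by intro s; simp) (by
    rw [transpose_mul, hG, hBit, Matrix.neg_mul, Matrix.neg_mul, Matrix.mul_assoc, hBi',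
      Matrix.mul_one, ← Matrix.mul_assoc, hBi, Matrix.one_mul, neg_add_cancel])
  have hdY : IsY k arm B N W d := ⟨Bi * G, by
    rw [transpose_mul, hG, hBit, Matrix.neg_mul, Matrix.neg_mul, Matrix.mul_assoc, hBi',
      Matrix.mul_one, ← Matrix.mul_assoc, hBi, Matrix.one_mul, neg_add_cancel], hd⟩
  have hself := h d hdY
  have hself' : (F.map d)ᵀ * J * F = 0 := by
    have h1 : (F.map d)ᵀ * J * F = (Om J d F F)ᵀ := by
      unfold Om
      rw [transpose_mul, transpose_mul, transpose_transpose, hD.J_symm, Matrix.mul_assoc]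
    rw [h1, hself, transpose_zero]
  -- pairing with `a = ν + F C`
  have h1 : pair J B (F.map d) a = 0 := by
    have e : a = ν + F * C := by rw [← hC]; abel
    have h2 := hD.N_iso _ (hdY.map_mem hF.1.1) ν hν
    unfold pair at h2 ⊢
    rw [e, Matrix.mul_add, Matrix.add_mul, trace_add, h2, zero_add, ← Matrix.mul_assoc _ F C,
      hself', Matrix.zero_mul, Matrix.zero_mul, trace_zero]
  have h2 : pair J B (F.map d - F * (Bi * G)ᵀ) a = 0 := by
    have h4 : a * B * (F.map d - F * (Bi * G)ᵀ)ᵀ = 0 :=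
      hD.W_iso _ ha _ (hd.onW F hF.1.2)
    unfold pair
    rw [Matrix.mul_assoc, Matrix.mul_assoc, trace_mul_comm, Matrix.mul_assoc, h4,
      Matrix.mul_zero, trace_zero]
  unfold pair at h1 h2
  rw [transpose_sub, Matrix.sub_mul, Matrix.sub_mul, Matrix.sub_mul, trace_sub, h1, zero_sub,
    neg_eq_zero, transpose_mul, transpose_transpose] at h2
  -- `trace (Bi * G * Fᵀ * J * a * B) = 0`
  have h3 : Bi * G * Fᵀ * J * a * B = Bi * (G * (Fᵀ * J * a)) * B := by
    simp only [Matrix.mul_assoc]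
  rw [h3, trace_mul_comm, ← Matrix.mul_assoc, hBi, Matrix.one_mul] at h2
  exact h2





end abstract

section concrete

open Crest.AlgebraR.SpinSaturation Crest.Agent.R172.SoGrade Crest.Agent.R172.CF
open Crest.Agent.R172.Gen (Jm Ix emb Ent ent)

variable {n : ℕ} {a : Fin 3 → Fin n → ℤ} {c : Cfg n a} {K : Type} [Field K] [Algebra ℂ K]

theorem vecMul_mem_L {L : Submodule K (c.δ → K)} {F : Matrix (Ix n) c.δ K} (hF : F ∈ VL L)
    (x : Ix n → K) : x ᵥ* F ∈ L := by
  have : x ᵥ* F = ∑ q, x q • (fun d => F q d) := by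
    funext d
    rw [Finset.sum_apply, vecMul, dotProduct]
    rfl
  rw [this]
  exact L.sum_mem fun q _ => L.smul_mem _ (hF q)

/-- **`NilSp` for the concrete configurations.** -/
theorem nilSp_cfg (R : Ranked c) (p : Pol c) {g : Fin 3 → Matrix (Ix n) (Ix n) K}
    {H : Matrix (Fin p.m) (Fin p.m) K}
    (hg : ∀ s, (g s)ᵀ * Jm n K * g s = Jm n K) (hH : Hᵀ = -H)
    (hgen : ∀ G : Matrix (Fin p.m) (Fin p.m) K, Gᵀ = -G → ∃ D : Derivation ℂ K K, H.map D = G)
    (hD : FO.Data ℂ c.arm (Jm n K) (c.B K) (c.N g) (VL (p.LH H))) :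
    NilSp ℂ c.arm (Jm n K) (c.B K) (c.N g) (VL (p.LH H)) := by
  intro G hG d hd hz
  have hskew := Om_self_skew hD d hG
  refine SN.nil_sp_X R p hH hgen _ hskew ?_ ?_ 2 ?_
  · intro e
    have h1 : Om (Jm n K) d G G e = -((G.map d)ᵀ * (Jm n K) * G) e := by
      have h2 : (G.map d)ᵀ * (Jm n K) * G = (Om (Jm n K) d G G)ᵀ := by
        unfold Om
        rw [transpose_mul, transpose_mul, transpose_transpose, hD.J_symm, Matrix.mul_assoc]
      rw [h2, hskew]
      funext j
      exact (neg_neg _).symm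
    rw [h1]
    refine (p.LH H).neg_mem ?_
    have h3 : ((G.map d)ᵀ * (Jm n K) * G) e = (((G.map d)ᵀ * (Jm n K)) e) ᵥ* G := by
      funext j
      rw [Matrix.mul_apply, vecMul, dotProduct]
    rw [h3]
    exact vecMul_mem_L hG.1.2 _
  · intro x y hxy hrk
    exact R.col_perp hg hG.1.1 (hd.map_mem hG.1.1) hxy hrk
  · intro l hl
    match l, hl with
    | [s, t], _ =>
      rw [List.map_cons, List.map_cons, List.map_nil, List.prod_cons, List.prod_cons,
        List.prod_nil, mul_one]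
      change Om (Jm n K) d G G * (FO.E K c.arm s * c.B K) *
        (Om (Jm n K) d G G * (FO.E K c.arm t * c.B K)) = 0
      rw [← Matrix.mul_assoc, hz s, Matrix.zero_mul]

end concrete

end Crest.Agent.R172.Om
end

-- ▼ part R172/Om4

/-!
Row 172 (S0260), node G1.5, fourth part: the fields `ω_d(g,f)` in terms of the Q-theory
(`Qt`, node G1.1): `ω_d(g,f) = gᵀ J X₀ f` for an element `(X₀, X) ∈ NN`.
-/

set_option autoImplicit false
set_option linter.unusedSectionVars false

namespace Crest.Agent.R172.Om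

open Matrix Module Crest.Agent.R172.FO Crest.Agent.R172.Qt

variable {ι : Type*} [Fintype ι] [DecidableEq ι] {δ : Type*} [Fintype δ] [DecidableEq δ]
variable {k K : Type*} [Field k] [Field K] [Algebra k K]
variable {arm : δ → Fin 3} {J : Matrix ι ι K} {B : Matrix δ δ K} {N W : Submodule K (Matrix ι δ K)}
variable {g : Matrix ι δ K}

theorem exists_NN (h : Ctx k arm J B N W g) {d : Derivation k K K} (hd : IsY k arm B N W d) :
    ∃ p ∈ NN arm J N g, ∀ f ∈ N ⊓ W, Om J d g f = gᵀ * J * (p.1 * f) := by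
  obtain ⟨Y, _, hr⟩ := hd
  obtain ⟨Z, hZ1, hZ2, hZ3⟩ := h.frame d
  have hp := mem_NN_of_frame (X := 0) (g := g) (J := J) (fun s => by simp [Skw])
    (fun s => ⟨0, by simp⟩) hr hZ1 hZ2 hZ3
  refine ⟨_, hp, fun f hf => ?_⟩
  obtain ⟨C, hC⟩ := hZ3 0
  have hgf := h.perp f hf
  have hfg : fᵀ * J * g = 0 := by
    have := congrArg transpose hgf
    rw [transpose_mul, transpose_mul, transpose_transpose, h.data.J_symm, transpose_zero,
      ← Matrix.mul_assoc] at this
    exact this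
  have h1 : Om J d f g = fᵀ * J * (Z 0 * g) := by
    unfold Om
    have e : g.map d = Z 0 * g + g * C := by rw [← hC]; abel
    rw [e, Matrix.mul_add, ← Matrix.mul_assoc _ g C, hfg, Matrix.zero_mul, add_zero]
  rw [Om_transpose h.data d hgf, h1]
  change -(fᵀ * J * (Z 0 * g))ᵀ = gᵀ * J * (Z 0 * f)
  have hz := (hZ1 0).eq
  rw [transpose_mul, transpose_mul, transpose_mul, transpose_transpose, h.data.J_symm]
  calc -(gᵀ * (Z 0)ᵀ * (J * f)) = -(gᵀ * ((Z 0)ᵀ * J) * f) := by simp only [Matrix.mul_assoc]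
    _ = gᵀ * J * (Z 0 * f) := by
      rw [hz, Matrix.mul_neg, Matrix.neg_mul, neg_neg]
      simp only [Matrix.mul_assoc]



/-- `Q_F = 0` for `F ∈ ZZ`, final form: for `a ∈ W`, `ν ∈ N` with `a - ν ∈ S ⊗ U`. -/
theorem ZZ_q_zero (h2 : (2 : K) ≠ 0) {F : Matrix ι δ K} (h : Ctx k arm J B N W F)
    (hF : F ∈ ZZ k arm J B N W)
    {a ν : Matrix ι δ K} {C : Matrix δ δ K} (ha : a ∈ W) (hν : ν ∈ N) (hC : a - ν = F * C) :
    Fᵀ * J * a = 0 := by
  have h3 := symm_of_self h.data hF.1 (fun d hd => hF.2 F hF.1 d hd) ha hν hC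
  rw [h.Qskew ha hν (by rw [← hC]; abel), neg_eq_iff_add_eq_zero, ← two_smul K,
    smul_eq_zero] at h3
  exact h3.resolve_left h2


end Crest.Agent.R172.Om
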