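import Crest.Agent.R172.Ind3
import Crest.Agent.R172.Om4
import Crest.Agent.R172.IndBC
import Crest.Agent.R172.IndExt
import Crest.Agent.R172.LemN_Mg
import Crest.Agent.R172.NilBr5

-- ▼ part R172/IndSt1
section

/-!
Row 172, node IND: the good subspace `S = im F` for a generic `F ∈ ZZ`.
-/

set_option autoImplicit false
set_option maxHeartbeats 400000
set_option linter.unusedSectionVars false

namespace Crest.Agent.R172.Ind

open Matrix Module

section abstract

open Crest.Agent.R172.FO Crest.Agent.R172.Qt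

variable {ι : Type*} [Fintype ι] [DecidableEq ι] {δ : Type*} [Fintype δ] [DecidableEq δ]
variable {k K : Type*} [Field k] [Field K] [Algebra k K]
variable {arm : δ → Fin 3} {J : Matrix ι ι K} {B : Matrix δ δ K} {N W : Submodule K (Matrix ι δ K)}

/-- **`w = DF` is isotropic** when `F ∈ Kiso` and `D` realises `(X,0)` with `X F = 0`. -/
theorem w_iso {F : Matrix ι δ K} (h : Ctx k arm J B N W F) {D : Derivation k K K}
    {X : Fin 3 → Matrix ι ι K} (hX : ∀ s, Skw J (X s)) (hXF : ∀ s, X s * F = 0)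
    (hN : ∀ G ∈ N, G.map D - act arm X G ∈ N) (hW : ∀ G ∈ W, G.map D ∈ W) :
    F.map D ∈ N ⊓ W ∧ (F.map D)ᵀ * J * F.map D = 0 := by
  have hact : act arm X F = 0 := by
    unfold act
    exact Finset.sum_eq_zero fun s _ => by rw [hXF, Matrix.zero_mul]
  have hwN : F.map D ∈ N := by
    have := hN F h.memN
    rwa [hact, sub_zero] at this
  have hwW : F.map D ∈ W := hW F h.memW
  set w := F.map D with hw
  have hperp := h.perp w ⟨hwN, hwW⟩
  have hperp' : wᵀ * J * F = 0 := by
    have := congrArg transpose hperp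
    rw [transpose_mul, transpose_mul, transpose_transpose, h.data.J_symm, transpose_zero,
      ← Matrix.mul_assoc] at this
    exact this
  refine ⟨⟨hwN, hwW⟩, ?_⟩
  -- derivative of `Fᵀ J w = 0`
  have h1 : wᵀ * J * w + Fᵀ * J * w.map D = 0 := by
    have h2 : (Fᵀ * J * w).map D = 0 := by rw [hperp]; ext i j; simp
    rw [map_mul_der, map_mul_der, h.data.J_const, Matrix.mul_zero, add_zero,
      map_transpose_der] at h2
    exact h2
  have hβ : Fᵀ * J * w.map D = -(wᵀ * J * w) := by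
    rw [eq_neg_iff_add_eq_zero, add_comm]; exact h1
  have hsymm : (wᵀ * J * w)ᵀ = wᵀ * J * w := by
    rw [transpose_mul, transpose_mul, transpose_transpose, h.data.J_symm, Matrix.mul_assoc]
  have hFX : Fᵀ * J * act arm X w = 0 := by
    unfold act
    rw [Matrix.mul_sum]
    refine Finset.sum_eq_zero fun s _ => ?_
    have h3 : Fᵀ * J * X s = 0 := by
      have h4 := congrArg transpose (hXF s)
      rw [transpose_mul, transpose_zero] at h4
      have h5 := (hX s).eq
      calc Fᵀ * J * X s = -(Fᵀ * ((X s)ᵀ * J)) := by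
            rw [h5, Matrix.mul_neg, neg_neg, Matrix.mul_assoc]
        _ = 0 := by rw [← Matrix.mul_assoc, h4, Matrix.zero_mul, neg_zero]
    rw [← Matrix.mul_assoc, ← Matrix.mul_assoc, h3, Matrix.zero_mul, Matrix.zero_mul]
  have hlem := h.lemN (w.map D - act arm X w) (hN w hwN) (w.map D) (hW w hwW)
    (by rw [Matrix.mul_sub, hFX, sub_zero])
    (by rw [hβ, transpose_neg, hsymm]) (by
      intro s
      -- `w E_s B Fᵀ` has columns in `im F`
      have h3 : wᵀ * J * w * (E K arm s * B) * Fᵀ = 0 := by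
        have h4 := h.data.symm_arm ⟨hwN, hwW⟩ h.mem s
        have h5 : wᵀ * J * (M arm B s w F) = wᵀ * J * (M arm B s F w) := by rw [h4]
        unfold M at h5
        calc wᵀ * J * w * (E K arm s * B) * Fᵀ = wᵀ * J * (w * E K arm s * B * Fᵀ) := by
              simp only [Matrix.mul_assoc]
          _ = wᵀ * J * (F * E K arm s * B * wᵀ) := h5
          _ = (wᵀ * J * F) * (E K arm s * B * wᵀ) := by simp only [Matrix.mul_assoc]
          _ = 0 := by rw [hperp', Matrix.zero_mul]
      calc Fᵀ * J * w.map D * (E K arm s * B) * (Fᵀ * J * w.map D)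
          = (Fᵀ * J * w.map D) * (E K arm s * B) * Fᵀ * (J * w.map D) := by
            simp only [Matrix.mul_assoc]
        _ = 0 := by
            rw [hβ, Matrix.neg_mul, Matrix.neg_mul, h3, neg_zero, Matrix.zero_mul])
  rw [hβ, neg_eq_zero] at hlem
  exact hlem

end abstract

open Crest.AlgebraR.SpinSaturation Crest.Agent.R172.SoGrade Crest.Agent.R172.Sp
open Crest.Agent.R172.Gen (Jm Ix emb IsSo)
open Crest.Agent.R172.CF Crest.Agent.R172.HM2 Crest.Agent.R172.HM8 Crest.Agent.R172.HM9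

variable {n : ℕ} {a : Fin 3 → Fin n → ℤ} {c : Cfg n a} {K : Type} [Field K] [Algebra ℂ K]


end Crest.Agent.R172.Ind
end

-- ▼ part R172/IndSt2

/-!
Row 172, node IND: violating instances `Inst` and their first properties.
-/

set_option autoImplicit false
set_option maxHeartbeats 400000
set_option linter.unusedSectionVars false

namespace Crest.Agent.R172.Ind

open Matrix Module
open Crest.AlgebraR.SpinSaturation Crest.Agent.R172.SoGrade Crest.Agent.R172.Sp
open Crest.Agent.R172.Gen (Jm Ix emb IsSo)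
open Crest.Agent.R172.CF Crest.Agent.R172.HM2 Crest.Agent.R172.HM8 Crest.Agent.R172.HM9

variable {n : ℕ} {a : Fin 3 → Fin n → ℤ} {c : Cfg n a}

/-- **A violating instance** `k(V) ≥ b + 2`, all `μ ≤ b`. -/
structure Inst (c : Cfg n a) (q : SPol c) (R : Ranked c) (K : Type) [Field K] [Algebra ℂ K]
    (g : Fin 3 → Matrix (Ix n) (Ix n) K) (H : Matrix (Fin q.toPol.m) (Fin q.toPol.m) K) : Prop where
  posR : CSys.PosR R q
  gi : GI c q.toPol K g H
  bad : ∃ b : ℤ, 0 ≤ b ∧ Bd c q.toPol K g b ∧ b + 2 ≤ kk c q.toPol g H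

variable {q : SPol c} {R : Ranked c} {K : Type} [Field K] [Algebra ℂ K]
  {g : Fin 3 → Matrix (Ix n) (Ix n) K} {H : Matrix (Fin q.toPol.m) (Fin q.toPol.m) K}

theorem Inst.two_ne (_h : Inst c q R K g H) : (2 : K) ≠ 0 := by
  have : CharZero K := charZero_of_injective_algebraMap (algebraMap ℂ K).injective
  exact two_ne_zero

theorem GI.data {p : Pol c} {H : Matrix (Fin p.m) (Fin p.m) K} (h : GI c p K g H) :
    FO.Data ℂ c.arm (Jm n K) (c.B K) (c.N g) (VL (p.LH H)) := Ext.data_of_GI p h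

theorem GI.hgen {p : Pol c} {H : Matrix (Fin p.m) (Fin p.m) K} (h : GI c p K g H)
    (G : Matrix (Fin p.m) (Fin p.m) K) (hG : Gᵀ = -G) : ∃ D : Derivation ℂ K K, H.map D = G := by
  obtain ⟨D, -, hD⟩ := h.dir 0 (fun s => by simp [IsSo]) G hG
  exact ⟨D, hD⟩

theorem Inst.data (h : Inst c q R K g H) :
    FO.Data ℂ c.arm (Jm n K) (c.B K) (c.N g) (VL (q.toPol.LH H)) := h.gi.data

theorem Inst.hgen (h : Inst c q R K g H) (G : Matrix (Fin q.toPol.m) (Fin q.toPol.m) K)
    (hG : Gᵀ = -G) : ∃ D : Derivation ℂ K K, H.map D = G := h.gi.hgen G hG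

/-- **isotropic elements are perpendicular to everything** -/
theorem Inst.isoK (h : Inst c q R K g H) {w : Matrix (Ix n) c.δ K}
    (hw : w ∈ c.N g ⊓ VL (q.toPol.LH H)) (hw0 : wᵀ * Jm n K * w = 0) :
    w ∈ Om.Kiso (Jm n K) (c.N g) (VL (q.toPol.LH H)) := by
  have h1 := (CSys.sys h.data).iso_mem CSys.BV_ns CSys.BU_ns
    (CSys.nil_pair R h.posR h.gi.orth h.gi.skew h.hgen h.data)
    (G := Matrix.toLin' w) ⟨w, hw, rfl⟩ (by
      intro u u'
      rw [Matrix.toLin'_apply, Matrix.toLin'_apply, CSys.BV_mulVec, hw0, zero_mulVec,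
        dotProduct_zero])
  refine ⟨hw, fun F hF => ?_⟩
  have h2 := h1.2 (Matrix.toLin' F) ⟨F, hF, rfl⟩
  have h3 : Fᵀ * Jm n K * w = 0 := by
    ext d e
    have h4 := h2 (Pi.single d 1) (Pi.single e 1)
    rw [Matrix.toLin'_apply, Matrix.toLin'_apply, CSys.BV_mulVec, mulVec_single_one,
      single_one_dotProduct] at h4
    exact h4
  have h4 := congrArg transpose h3
  rw [transpose_mul, transpose_mul, transpose_transpose, Jm_transpose, transpose_zero,
    ← Matrix.mul_assoc] at h4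
  exact h4


/-- **the context of the Q-theory at every element of `Kiso`** -/
theorem Inst.ctx (h : Inst c q R K g H) {F : Matrix (Ix n) c.δ K}
    (hF : F ∈ Om.Kiso (Jm n K) (c.N g) (VL (q.toPol.LH H))) :
    Qt.Ctx ℂ c.arm (Jm n K) (c.B K) (c.N g) (VL (q.toPol.LH H)) F where
  data := h.data
  memN := hF.1.1
  memW := hF.1.2
  perp := hF.2
  frame := CtxFr.ctx_frame R h.gi.orth (hF.2 F hF.1)
  lemN := fun _ hν _ _ h1 h2 h3 =>
    CSys.lemN R h.posR h.gi.orth h.gi.skew h.hgen hF.1.1 hF.1.2 hν h1 h2 h3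


theorem Bd.bc {p : Pol c} {b : ℤ} (h : Bd c p K g b) (L : Type) [Field L] [Algebra K L] :
    Bd c p L (fun s => emb K L (g s)) b := by
  intro P _ _ S hS
  let _ : Algebra K P := ((algebraMap L P).comp (algebraMap K L)).toAlgebra
  exact h P S hS

/-- **base change** -/
theorem Inst.bc (h : Inst c q R K g H) (L : Type) [Field L] [Algebra K L] [Algebra ℂ L]
    [IsScalarTower ℂ K L] : Inst c q R L (fun s => emb K L (g s)) (emb K L H) where
  posR := h.posR
  gi := Ext.gi_bc q.toPol h.gi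
  bad := by
    obtain ⟨b, h1, h2, h3⟩ := h.bad
    refine ⟨b, h1, h2.bc L, ?_⟩
    rw [BC.kk_bc q.toPol h.gi.orth h.gi.skew]
    exact h3

theorem Inst.two_le (h : Inst c q R K g H) :
    2 ≤ finrank K ↥(c.N g ⊓ VL (q.toPol.LH H) : Submodule K (Matrix (Ix n) c.δ K)) := by
  obtain ⟨b, h1, -, h3⟩ := h.bad
  have e : kk c q.toPol g H =
      finrank K ↥(c.N g ⊓ VL (q.toPol.LH H) : Submodule K (Matrix (Ix n) c.δ K)) := by
    rw [kk, inf_comm]
  rw [e] at h3
  omega

end Crest.Agent.R172.Ind
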