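import Crest.Agent.R172.SPol2
import Crest.Agent.R172.FO3
import Crest.Agent.R172.Ind6
import Crest.Agent.R172.IndBC
import Crest.Agent.R172.IndExt
import Crest.Agent.R172.IndCnt
import Crest.Agent.R172.IndGen4
import Crest.Agent.R172.IndSt2

-- ▼ part R172/Top3
section

/-!
R172: the outer assembly for the standard data: `CoreS n` implies the statement of S0260.
-/

set_option autoImplicit false
set_option linter.unusedSectionVars false

namespace Crest.Agent.R172.Top

open Matrix Crest.AlgebraR.SpinSaturation Crest.Agent.R172.Fwd Crest.Agent.R172.CF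
open Crest.Agent.R172.Gen (Jm Ix emb Ent ent IsSo)

variable {n : ℕ}

/-- **The core, weakest form**: `k ≤ 1` at the generic point, for the standard configuration and a
standard polarisation. (`Std.good : Good c`; `FO3.data`, `FO3.exists_generic` give the first order
data.) -/
def CoreS (n : ℕ) : Prop :=
  ∀ (a : Fin 3 → Fin n → ℤ), (∀ s, IsDominantIntegral n (a s)) →
    InRootLattice n (a 0 + a 1 + a 2) →
    ∀ (m : Fin 3 → ℕ) (c : Cfg n a) (h : Std c m) (q : SPol c), q.Neg h →
      ∀ (K : Type) [Field K] [Algebra ℂ K]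
      (g : Fin 3 → Matrix (Ix n) (Ix n) K) (H : Matrix (Fin q.m) (Fin q.m) K),
      GPt n q.m K g H → SemiAll c K g →
      Module.finrank K ↥(VL (q.toPol.LH H) ⊓ c.N g) ≤ 1

/-- **S0260 from the core.** -/
theorem result_of_coreS (hn : 2 ≤ n) (hcore : CoreS n) (a b c : Fin n → ℤ)
    (ha : IsDominantIntegral n a) (hb : IsDominantIntegral n b) (hc : IsDominantIntegral n c)
    (habc : InRootLattice n (a + b + c)) (N : ℕ) (hN : 1 ≤ N)
    (U : Irrep n a) (V : Irrep n b) (W : Irrep n c)
    (U' : Irrep n (N • a)) (V' : Irrep n (N • b)) (W' : Irrep n (N • c)) :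
    HasInvariant U V W ↔ HasInvariant U' V' W' := by
  constructor
  · exact SpHW2.forward hn ha hb hc N hN U V W U' V' W'
  intro h
  let A : Fin 3 → Fin n → ℤ := ![a, b, c]
  have hA : ∀ s, IsDominantIntegral n (A s) := by
    intro s
    fin_cases s
    · exact ha
    · exact hb
    · exact hc
  have hr : InRootLattice n (A 0 + A 1 + A 2) := habc
  obtain ⟨m, cfg, hstd, q, hneg⟩ := exists_std hn A hA hr
  refine invariant_of_at hn A hA cfg q.toPol (fun K _ _ g H hG hI => ?_) N hN U V W U' V' W' h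
  have hcz : CharZero K := charZero_of_injective_algebraMap (algebraMap ℂ K).injective
  have hS : SemiAll cfg K g := by
    intro L _ _
    have hczL : CharZero L := charZero_of_injective_algebraMap (algebraMap K L).injective
    exact HM10.semi_of cfg (fun s => emb_orth (hG.orth s)) (hI L)
  exact Par.eq_zero_of_finrank_le_one cfg two_ne_zero (q.toPol.LH_iso hG.skew)
    (q.toPol.finrank_LH H) hG.orth hG.det hr (hcore A hA hr m cfg hstd q hneg K g H hG hS)

end Crest.Agent.R172.Top
end

-- ▼ part R172/Ind7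
section

/-!
Row 172, node IND, part 7: base change of reductions, rotation, induction.
-/

set_option autoImplicit false
set_option maxHeartbeats 400000
set_option linter.unusedSectionVars false

namespace Crest.Agent.R172.Ind

open Module Matrix Crest.Agent.R172.HM2 Crest.Agent.R172.HM8 Crest.Agent.R172.HM9
open Crest.Agent.R172.Gen (Jm Ix emb IsSo)
open Crest.Agent.R172.CF Crest.Agent.R172.BC

variable {n n' : ℕ} {a : Fin 3 → Fin n → ℤ}

section bc

variable {K : Type} [Field K] (L : Type) [Field L] [Algebra K L]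

theorem emb_Jm (m : ℕ) : emb K L (Jm m K) = Jm m L := Pol.Jm_map (algebraMap K L)

theorem orth_emb {g : Matrix (Ix n) (Ix n) K} (hg : Orth g) : Orth (emb K L g) :=
  Top.emb_orth hg

theorem Sec.bc {S : Submodule K (Ix n → K)} {β : Matrix (Ix n) (Ix n') K}
    {τ : Matrix (Ix n') (Ix n) K} (h : Sec S n' β τ) :
    Sec (bcV L S) n' (emb K L β) (emb K L τ) where
  iso := bcV_iso h.iso
  dim := by rw [finrank_bcV]; exact h.dim
  adj := by
    intro x v
    have h1 : (emb K L β)ᵀ * Jm n L = Jm n' L * emb K L τ := by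
      have h2 : emb K L (βᵀ * Jm n K) = emb K L (Jm n' K * τ) := by rw [h.adj_mat]
      rw [FO3.emb_mul', FO3.emb_mul', emb_Jm, emb_Jm] at h2
      exact h2
    rw [form_eq, form_eq, mulVec_mulVec, ← h1, ← mulVec_mulVec, dotProduct_mulVec x,
      vecMul_transpose]
  tb := by
    rw [← FO3.emb_mul', h.tb]
    ext i j
    rw [FO3.emb_apply', Matrix.one_apply, Matrix.one_apply]
    split_ifs <;> simp
  kill := by
    intro v hv
    rw [bcV_eq_span] at hv
    induction hv using Submodule.span_induction with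
    | mem x hx =>
      obtain ⟨y, hy, rfl⟩ := hx
      have h1 := h.kill y hy
      funext i
      have h2 := congrFun h1 i
      have h3 : (emb K L τ *ᵥ fun i => algebraMap K L (y i)) i = algebraMap K L ((τ *ᵥ y) i) := by
        rw [mulVec, mulVec, dotProduct, dotProduct, map_sum]
        exact Finset.sum_congr rfl fun j _ => by rw [FO3.emb_apply', map_mul]
      rw [h3, h2]
      simp
    | zero => rw [mulVec_zero]
    | add x y _ _ hx hy => rw [mulVec_add, hx, hy, add_zero]
    | smul t x _ hx => rw [mulVec_smul, hx, smul_zero]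
  dec := by
    intro v hv
    rw [← bcV_perp] at hv
    intro φ
    have h1 := h.dec _ (hv φ)
    have h2 : (fun i => φ ((v - emb K L β *ᵥ (emb K L τ *ᵥ v)) i)) =
        (fun i => φ (v i)) - β *ᵥ (τ *ᵥ fun i => φ (v i)) := by
      rw [← app_mulVec τ v φ, ← app_mulVec β _ φ]
      funext i
      rw [Pi.sub_apply, Pi.sub_apply, map_sub]
    rw [h2]
    exact h1

theorem CC_bc (c : Cfg n a) {g : Fin 3 → Matrix (Ix n) (Ix n) K} (hg : ∀ s, Orth (g s)) (d : c.δ) :
    bcV L (CC c g d) = CC c (fun s => emb K L (g s)) d := bcV_Co (hg _) _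

theorem RedAt.bc {c : Cfg n a} {f : c.δ → ℕ} {hf : ∀ d, f (c.σ d) + f d = 2 * n'}
    {g : Fin 3 → Matrix (Ix n) (Ix n) K} {S : Submodule K (Ix n → K)}
    {β : Matrix (Ix n) (Ix n') K} {τ : Matrix (Ix n') (Ix n) K}
    {g' : Fin 3 → Matrix (Ix n') (Ix n') K} (h : RedAt c f hf g S β τ g') :
    RedAt c f hf (fun s => emb K L (g s)) (bcV L S) (emb K L β) (emb K L τ)
      (fun s => emb K L (g' s)) where
  orth s := orth_emb L (h.orth s)
  sec := h.sec.bc L
  orth' s := orth_emb L (h.orth' s)
  cols d := by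
    have h1 := congrArg (bcV L) (h.cols d)
    rw [CC_bc L (redCfg c f hf) h.orth' d, CR, bcV_map, bcV_inf, bcV_perp, CC_bc L c h.orth d]
      at h1
    exact h1

end bc

section rot

variable {K : Type} [Field K] {c : Cfg n a}

/-- the inverse rotation -/
theorem orth_inv {h : Matrix (Ix n) (Ix n) K} (hh : Orth h) : Orth (Jm n K * hᵀ * Jm n K) := by
  have h1 : h * (Jm n K * hᵀ * Jm n K) = 1 := Gen.orth_right_inv hh
  have hJ := Jm_sq n K
  change (Jm n K * hᵀ * Jm n K)ᵀ * Jm n K * (Jm n K * hᵀ * Jm n K) = Jm n K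
  rw [transpose_mul, transpose_mul, transpose_transpose, Jm_transpose]
  calc Jm n K * (h * Jm n K) * Jm n K * (Jm n K * hᵀ * Jm n K)
      = Jm n K * (h * (Jm n K * Jm n K) * (Jm n K * hᵀ * Jm n K)) := by
        simp only [Matrix.mul_assoc]
    _ = Jm n K := by rw [hJ, Matrix.mul_one, h1, Matrix.mul_one]

theorem act_rot (c : Cfg n a) (u : Matrix (Ix n) (Ix n) K) (g : Fin 3 → Matrix (Ix n) (Ix n) K)
    (F : Matrix (Ix n) c.δ K) : FO.act c.arm (fun s => u * g s) F = u * FO.act c.arm g F := by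
  rw [← act_act, act_diag]

theorem N_rot (c : Cfg n a) (u : Matrix (Ix n) (Ix n) K) (g : Fin 3 → Matrix (Ix n) (Ix n) K) :
    c.N (fun s => u * g s) = (c.N g).map (tauL u) := by
  ext F
  constructor
  · intro hF
    obtain ⟨G, hG, rfl⟩ := c.mem_N.1 hF
    exact ⟨FO.act c.arm g G, c.mem_N.2 ⟨G, hG, rfl⟩, (act_rot c u g G).symm⟩
  · rintro ⟨F, hF, rfl⟩
    obtain ⟨G, hG, rfl⟩ := c.mem_N.1 hF
    exact c.mem_N.2 ⟨G, hG, act_rot c u g G⟩

theorem tauL_inj {δ : Type*} {u : Matrix (Ix n) (Ix n) K} (hu : Orth u) :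
    Function.Injective (tauL (δ := δ) u) := by
  intro F G h
  have h1 : (Jm n K * uᵀ * Jm n K) * (u * F) = (Jm n K * uᵀ * Jm n K) * (u * G) :=
    congrArg _ h
  rwa [← Matrix.mul_assoc, ← Matrix.mul_assoc, Gen.orth_left_inv hu, Matrix.one_mul,
    Matrix.one_mul] at h1

theorem VL_rot {δ : Type*} (Λ : Submodule K (δ → K)) {u : Matrix (Ix n) (Ix n) K} (hu : Orth u) :
    (VL Λ : Submodule K (Matrix (Ix n) δ K)).map (tauL u) = VL Λ := by
  have key : ∀ (A : Matrix (Ix n) (Ix n) K) (F : Matrix (Ix n) δ K), F ∈ VL Λ → A * F ∈ VL Λ := by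
    intro A F hF q
    have h1 : (fun d => (A * F) q d) = ∑ r, A q r • (fun d => F r d) := by
      funext d
      rw [Matrix.mul_apply, Finset.sum_apply]
      rfl
    rw [h1]
    exact Submodule.sum_mem _ fun r _ => Submodule.smul_mem _ _ (hF r)
  apply le_antisymm
  · rintro _ ⟨F, hF, rfl⟩
    exact key u F hF
  · intro F hF
    refine ⟨(Jm n K * uᵀ * Jm n K) * F, key _ F hF, ?_⟩
    rw [tauL_apply, ← Matrix.mul_assoc, Gen.orth_right_inv hu, Matrix.one_mul]

theorem SU_rot {δ : Type*} (T : Submodule K (Ix n → K)) {u : Matrix (Ix n) (Ix n) K}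
    (hu : Orth u) : (SU T : Submodule K (Matrix (Ix n) δ K)).map (tauL u) =
      SU (T.map (mulVecLin u)) := by
  apply le_antisymm
  · rintro _ ⟨F, hF, rfl⟩ d
    exact ⟨_, hF d, rfl⟩
  · intro F hF
    refine ⟨(Jm n K * uᵀ * Jm n K) * F, ?_, ?_⟩
    · intro d
      obtain ⟨v, hv, h1⟩ := hF d
      have h2 : (fun q => ((Jm n K * uᵀ * Jm n K) * F) q d) = v := by
        rw [mul_col, ← h1, mulVecLin_apply, mulVec_mulVec, Gen.orth_left_inv hu, one_mulVec]
      rw [h2]
      exact hv
    · rw [tauL_apply, ← Matrix.mul_assoc, Gen.orth_right_inv hu, Matrix.one_mul]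

theorem kk_rot [Algebra ℂ K] (p : Pol c) {u : Matrix (Ix n) (Ix n) K} (hu : Orth u)
    (g : Fin 3 → Matrix (Ix n) (Ix n) K) (H : Matrix (Fin p.m) (Fin p.m) K) :
    kk c p (fun s => u * g s) H = kk c p g H := by
  rw [kk, kk, N_rot]
  conv_lhs => rw [← VL_rot (p.LH H) hu]
  rw [← Submodule.map_inf _ (tauL_inj hu)]
  exact (Submodule.equivMapOfInjective (tauL u) (tauL_inj hu) _).symm.finrank_eq

theorem mulVecLin_inj {u : Matrix (Ix n) (Ix n) K} (hu : Orth u) :
    Function.Injective (mulVecLin u) := fun _ _ h => hu.inj h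

theorem mu_rot (p : Pol c) {u : Matrix (Ix n) (Ix n) K} (hu : Orth u)
    (g : Fin 3 → Matrix (Ix n) (Ix n) K) (T : Submodule K (Ix n → K)) :
    mu c p (fun s => u * g s) (T.map (mulVecLin u)) = mu c p g T := by
  rw [mu, mu, N_rot, ← SU_rot T hu, ← Submodule.map_inf _ (tauL_inj hu)]
  congr 1
  · congr 1
    exact (Submodule.equivMapOfInjective (tauL u) (tauL_inj hu) _).symm.finrank_eq
  · congr 2
    exact (Submodule.equivMapOfInjective (mulVecLin u) (mulVecLin_inj hu) _).symm.finrank_eq

theorem iso_rot {u : Matrix (Ix n) (Ix n) K} (hu : Orth u) {T : Submodule K (Ix n → K)}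
    (hT : Iso T) : Iso (T.map (mulVecLin u)) := by
  rintro _ ⟨v, hv, rfl⟩ _ ⟨w, hw, rfl⟩
  rw [mulVecLin_apply, mulVecLin_apply, form_mulVec hu]
  exact hT v hv w hw

end rot

/-- **the induction** -/
theorem kk_le (hstep : Step) : ∀ (n : ℕ) (a : Fin 3 → Fin n → ℤ) (c : Cfg n a) (q : SPol c)
    (R : Ranked c), (∀ i, q.z ≠ some i → 0 < R.rk (q.dd (Sum.inr i))) →
    ∀ (K : Type) [Field K] [Algebra ℂ K] [IsAlgClosed K] (g : Fin 3 → Matrix (Ix n) (Ix n) K)
      (H : Matrix (Fin q.toPol.m) (Fin q.toPol.m) K), GI c q.toPol K g H →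
      ∀ b : ℤ, Bd c q.toPol K g b → (kk c q.toPol g H : ℤ) ≤ 1 + b := by
  intro n
  induction n using Nat.strong_induction_on with
  | _ n ih =>
    intro a c q R hR K _ _ _ g H hG b hB
    have hcz : CharZero K := charZero_of_injective_algebraMap (algebraMap ℂ K).injective
    have hb0 : 0 ≤ b := by
      have h1 := hB K ⊥ (fun x hx y _ => by
        rw [(Submodule.mem_bot K).1 hx, map_zero, LinearMap.zero_apply])
      rw [mu_bot] at h1
      exact h1
    by_contra hlt
    push Not at hlt
    obtain ⟨L, iL, iKL, iCL, ist, icl, S, hS, hS0, hSb, hSc⟩ :=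
      hstep n a c q R hR K g H hG b hb0 hB (by omega)
    have hczL : CharZero L := charZero_of_injective_algebraMap (algebraMap ℂ L).injective
    have horth : ∀ s, Orth (emb K L (g s)) := fun s => Top.emb_orth (hG.orth s)
    obtain ⟨n', β, τ, hsec⟩ := exists_sec hS
    obtain ⟨f, hf, hm, g', hg', hcols⟩ := exists_red R horth hsec
    have hred : RedAt c f hf (fun s => emb K L (g s)) S β τ g' := ⟨horth, hsec, hg', hcols⟩
    have hn' : n' < n := by
      have h1 := hsec.dim
      have h2 : 0 < finrank L S := by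
        rw [Nat.pos_iff_ne_zero]
        intro h0
        exact hS0 (Submodule.finrank_eq_zero.1 h0)
      omega
    have hGL : GI c q.toPol L (fun s => emb K L (g s)) (emb K L H) := Ext.gi_bc q.toPol hG
    have hdir' := hred.dir q.toPol (fun G hG' => by
      obtain ⟨D, -, hD⟩ := hGL.dir 0 (fun s => by simp [IsSo]) G hG'
      exact ⟨D, hD⟩) hSc
    obtain ⟨M, iM, iLM, iCM, istM, iclM, h, hh, hext⟩ := Ext.exists_rot L n'
    have hG' : GI (redCfg c f hf) (redSPol q f hf).toPol M
        (fun s => Jm n' M * hᵀ * Jm n' M * emb L M (g' s)) (emb L M (emb K L H)) :=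
      Ext.ext (c := redCfg c f hf) (redPol q.toPol f hf) IsSo (fun _ h => h) hg' hGL.skew hdir' hh
        (fun D0 Y hY => hext D0 (emb L M Y) (by
          have h1 : Yᵀ * Jm n' L + Jm n' L * Y = 0 := hY
          change (emb L M Y)ᵀ * Jm n' M + Jm n' M * emb L M Y = 0
          have h3 : emb L M (Yᵀ * Jm n' L + Jm n' L * Y) =
              (emb L M Y)ᵀ * Jm n' M + Jm n' M * emb L M Y := by
            have h4 : emb L M (Yᵀ * Jm n' L + Jm n' L * Y) =
              emb L M (Yᵀ * Jm n' L) + emb L M (Jm n' L * Y) := by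
              ext i j
              rw [Matrix.add_apply, FO3.emb_apply', FO3.emb_apply', FO3.emb_apply',
                Matrix.add_apply, map_add]
            rw [h4, FO3.emb_mul', FO3.emb_mul', emb_Jm]
            rfl
          rw [← h3, h1]
          ext i j
          rw [FO3.emb_apply', Matrix.zero_apply, Matrix.zero_apply, map_zero]))
    have hu : Orth (Jm n' M * hᵀ * Jm n' M) := orth_inv hh
    -- the numbers
    have hk1 := Ext.count q.toPol horth hGL.skew hSb
    have hk2 := hred.count q.toPol (emb K L H) hSb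
    have hk3 : kk c q.toPol (fun s => emb K L (g s)) (emb K L H) = kk c q.toPol g H :=
      BC.kk_bc q.toPol hG.orth hG.skew
    have hk4 : kk (redCfg c f hf) (redPol q.toPol f hf)
        (fun s => Jm n' M * hᵀ * Jm n' M * emb L M (g' s)) (emb L M (emb K L H)) =
        kk (redCfg c f hf) (redPol q.toPol f hf) g' (emb K L H) := by
      have h1 := kk_rot (c := redCfg c f hf) (redPol q.toPol f hf) hu (fun s => emb L M (g' s))
        (emb L M (emb K L H))
      have h2 := BC.kk_bc (L := M) (c := redCfg c f hf) (redPol q.toPol f hf) hg' hGL.skew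
      exact h1.trans h2
    -- the bound
    have hB' : Bd (redCfg c f hf) (redSPol q f hf).toPol M
        (fun s => Jm n' M * hᵀ * Jm n' M * emb L M (g' s))
        (b - mu c q.toPol (fun s => emb K L (g s)) S) := by
      intro P _ _ T hT
      let _ : Algebra L P := ((algebraMap M P).comp (algebraMap L M)).toAlgebra
      let _ : Algebra K P := ((algebraMap L P).comp (algebraMap K L)).toAlgebra
      have huP : Orth (emb M P (Jm n' M * hᵀ * Jm n' M)) := Top.emb_orth hu
      have e1 : (fun s => emb M P (Jm n' M * hᵀ * Jm n' M * emb L M (g' s))) =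
          (fun s => emb M P (Jm n' M * hᵀ * Jm n' M) * emb L P (g' s)) := by
        funext s
        rw [FO3.emb_mul']
        rfl
      have hvP := orth_inv huP
      set u := emb M P (Jm n' M * hᵀ * Jm n' M) with hudef
      set v := Jm n' P * uᵀ * Jm n' P with hvdef
      have e2 : T = (T.map (mulVecLin v)).map (mulVecLin u) := by
        rw [← Submodule.map_comp, ← mulVecLin_mul, Gen.orth_right_inv huP, mulVecLin_one,
          Submodule.map_id]
      have e3 := hred.bc P
      change mu (redCfg c f hf) (redPol q.toPol f hf)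
        (fun s => emb M P (Jm n' M * hᵀ * Jm n' M * emb L M (g' s))) T ≤ _
      rw [e1, e2, mu_rot (c := redCfg c f hf) (redPol q.toPol f hf) huP, e3.mu_add]
      have hTv : Iso (T.map (mulVecLin v)) := iso_rot hvP hT
      have h5 := hB P (pull (bcV P S) (emb L P τ) (T.map (mulVecLin v)))
        (pull_iso e3.sec hTv)
      have h6 : mu c q.toPol (fun s => emb L P (emb K L (g s))) (bcV P S) =
          mu c q.toPol (fun s => emb K L (g s)) S := BC.mu_bc q.toPol horth S
      rw [h6]
      have h7 : mu c q.toPol (fun s => emb L P (emb K L (g s)))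
          (pull (bcV P S) (emb L P τ) (T.map (mulVecLin v))) ≤ b := h5
      linarith
    have hfin := ih n' hn' _ (redCfg c f hf) (redSPol q f hf) (redRk R f hf hm) hR M _ _ hG' _ hB'
    have hfin' : (kk (redCfg c f hf) (redPol q.toPol f hf)
        (fun s => Jm n' M * hᵀ * Jm n' M * emb L M (g' s)) (emb L M (emb K L H)) : ℤ) ≤
        1 + (b - mu c q.toPol (fun s => emb K L (g s)) S) := hfin
    rw [hk4] at hfin'
    rw [hk3] at hk1
    rw [mu] at hfin'
    rw [hk2] at hk1
    have hk1' : ((kk (redCfg c f hf) (redPol q.toPol f hf) g' (emb K L H) : ℕ) : ℤ) +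
      (finrank L ↥(c.N (fun s => emb K L (g s)) ⊓ SU S : Submodule L (Matrix (Ix n) c.δ L)) : ℤ) =
        q.toPol.m * finrank L S + (kk c q.toPol g H : ℤ) := by
      exact_mod_cast hk1
    linarith

/-- **the core from STEP** -/
theorem coreS_of_step (hstep : Step) (n : ℕ) : Top.CoreS n := by
  intro a _ _ m c h q hneg K _ _ g H hG hS
  have hcl : IsAlgClosed K := hG.closed
  have hB : Bd c q.toPol K g 0 := by
    intro L _ _ S hS'
    have h1 := hS L S hS'
    have h2 : Fintype.card c.δ = 2 * q.toPol.m := q.toPol.card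
    rw [h2] at h1
    rw [mu]
    have h3 : finrank L ↥(c.N (fun s => emb K L (g s)) ⊓ SU S) ≤ q.toPol.m * finrank L S := by
      have h4 : 2 * finrank L ↥(c.N (fun s => emb K L (g s)) ⊓ SU S) ≤
          2 * (q.toPol.m * finrank L S) := by
        rw [← mul_assoc]; exact h1
      omega
    have h4 : ((finrank L ↥(c.N (fun s => emb K L (g s)) ⊓ SU S) : ℕ) : ℤ) ≤
        q.toPol.m * finrank L S := by exact_mod_cast h3
    linarith
  have hR : ∀ i, q.z ≠ some i → 0 < h.ranked.rk (q.dd (Sum.inr i)) := by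
    intro i hi
    rw [← q.reg i hi, h.ranked.rk_σ]
    have h1 := hneg i hi
    have h2 : h.ranked.rk (q.dd (Sum.inl i)) =
      2 * (((h.e (q.dd (Sum.inl i))).2 : ℕ) : ℤ) + 1 - m (h.e (q.dd (Sum.inl i))).1 := rfl
    rw [h2]
    omega
  have h1 := kk_le hstep n a c q h.ranked hR K g H (Ext.gi_of_GPt q.toPol hG) 0 hB
  have h2 : (kk c q.toPol g H : ℤ) ≤ 1 := by simpa using h1
  exact_mod_cast h2

end Crest.Agent.R172.Ind
end

-- ▼ part R172/Fin1

/-!
Row 172 (S0260): the final assembly from the three inputs `InT` (no tame core), `InS` (`T_g` is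
scalar), `InQ` (G1.2).
-/

set_option autoImplicit false
set_option linter.unusedSectionVars false
set_option maxHeartbeats 400000

namespace Crest.Agent.R172.Ind

open Matrix Module
open Crest.AlgebraR.SpinSaturation Crest.Agent.R172.SoGrade Crest.Agent.R172.Sp
open Crest.Agent.R172.Gen (Jm Ix emb IsSo)
open Crest.Agent.R172.CF Crest.Agent.R172.HM2 Crest.Agent.R172.HM8 Crest.Agent.R172.HM9

/-- (T) no tame core at a generic element of a violating instance -/
def InT : Prop :=
  ∀ (n : ℕ) (a : Fin 3 → Fin n → ℤ) (c : Cfg n a) (q : SPol c) (R : Ranked c)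
    (K : Type) [Field K] [Algebra ℂ K] [IsAlgClosed K] (g : Fin 3 → Matrix (Ix n) (Ix n) K)
    (H : Matrix (Fin q.toPol.m) (Fin q.toPol.m) K), Inst c q R K g H →
    ∀ F : Matrix (Ix n) c.δ K, FO.Generic ℂ c.arm (c.N g) (VL (q.toPol.LH H)) F →
      CSys.NotTame F

/-- (S) `T_g` is scalar for a violating instance -/
def InS : Prop :=
  ∀ (n : ℕ) (a : Fin 3 → Fin n → ℤ) (c : Cfg n a) (q : SPol c) (R : Ranked c)
    (K : Type) [Field K] [Algebra ℂ K] [IsAlgClosed K] (g : Fin 3 → Matrix (Ix n) (Ix n) K)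
    (H : Matrix (Fin q.toPol.m) (Fin q.toPol.m) K), Inst c q R K g H →
    Om.Scal ℂ c.arm (Jm n K) (c.B K) (c.N g) (VL (q.toPol.LH H))

/-- (Q) G1.2 for a violating instance -/
def InQ : Prop :=
  ∀ (n : ℕ) (a : Fin 3 → Fin n → ℤ) (c : Cfg n a) (q : SPol c) (R : Ranked c)
    (K : Type) [Field K] [Algebra ℂ K] [IsAlgClosed K] (g : Fin 3 → Matrix (Ix n) (Ix n) K)
    (H : Matrix (Fin q.toPol.m) (Fin q.toPol.m) K), Inst c q R K g H →
    Om.Kiso (Jm n K) (c.N g) (VL (q.toPol.LH H)) ≠ c.N g ⊓ VL (q.toPol.LH H) →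
    Ext.ZI c q.toPol g H = Om.Kiso (Jm n K) (c.N g) (VL (q.toPol.LH H))




end Crest.Agent.R172.Ind
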