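import Crest.Agent.R172.Fin1

/-!
Row 172 (S0260): the final assembly with the tame input restricted to the operators `τ_G`, `G ∈ 𝒦`.

`CSys.TameAt F G C τ`: `C` is a core of `Φ = M(F,F)`, `τ = τ_G` (self-adjoint, commutes with the
core operators, `cp C (M_s(F,G)) = cp C (M_s(F,F)) ∘ τ`) and `(C.M, Φ, τ)` is tame.
`Ind.InT'`: for a generic `F` of a violating instance there is a core `C` such that `TameAt F G C τ`
is false for all `G ∈ 𝒦`, `τ`.
-/

set_option autoImplicit false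
set_option linter.unusedSectionVars false
set_option maxHeartbeats 400000

namespace Crest.Agent.R172.ThX

open Module LinearMap St _root_.Crest.Agent.R172.Core

variable {K : Type*} [Field K] {V : Type*} [AddCommGroup V] [Module K V]
variable {U : Type*} [AddCommGroup U] [Module K U] {ι : Type*}
variable {B : LinearMap.BilinForm K V} {q : LinearMap.BilinForm K U} {p : ι → End K U}
variable {adj : (U →ₗ[K] V) →ₗ[K] (V →ₗ[K] U)} {𝒦 : Submodule K (U →ₗ[K] V)}
variable [FiniteDimensional K V] [Fintype ι]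


end Crest.Agent.R172.ThX

namespace Crest.Agent.R172.CSys

open Module Matrix Crest.AlgebraR.SpinSaturation Crest.Agent.R172.SoGrade Crest.Agent.R172.CF
open Crest.Agent.R172.Gen (Jm Ix emb Ent ent)
open Crest.Agent.R172.ThX
open Crest.Agent.R172.Core (NS)

variable {n : ℕ} {a : Fin 3 → Fin n → ℤ} {c : Cfg n a} {K : Type} [Field K] [Algebra ℂ K]
variable {q : SPol c}

/-- `τ = τ_G` on the core `C` of `M(F,F)` and `(C.M, Φ, τ)` is tame -/
structure TameAt (F G : Matrix (Ix n) c.δ K)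
    (C : St.Core (BV n K) (MM (pU c K) (adjU c K) (Matrix.toLin' F) (Matrix.toLin' F)))
    (τ : Module.End K C.M) : Prop where
  sa : ∀ v w, Core.BM C (τ v) w = Core.BM C v (τ w)
  comm : ∀ s v, τ (Core.cp C (MM (pU c K) (adjU c K) (Matrix.toLin' F) (Matrix.toLin' F) s) v) =
    Core.cp C (MM (pU c K) (adjU c K) (Matrix.toLin' F) (Matrix.toLin' F) s) (τ v)
  rel : ∀ s v, Core.cp C (MM (pU c K) (adjU c K) (Matrix.toLin' F) (Matrix.toLin' G) s) v =
    Core.cp C (MM (pU c K) (adjU c K) (Matrix.toLin' F) (Matrix.toLin' F) s) (τ v)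
  tame : Core.Tame
    (fun s => Core.cp C (MM (pU c K) (adjU c K) (Matrix.toLin' F) (Matrix.toLin' F) s)) τ

/-- the generic element `F` is not tame for any `τ_G`, `G ∈ 𝒦` -/
def NotTameK (q : SPol c) (g : Fin 3 → Matrix (Ix n) (Ix n) K)
    (H : Matrix (Fin q.m) (Fin q.m) K) (F : Matrix (Ix n) c.δ K) : Prop :=
  ∃ C : St.Core (BV n K) (MM (pU c K) (adjU c K) (Matrix.toLin' F) (Matrix.toLin' F)),
    ∀ G ∈ c.N g ⊓ VL (q.toPol.LH H), ∀ τ : Module.End K C.M, ¬ TameAt F G C τ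





end Crest.Agent.R172.CSys

namespace Crest.Agent.R172.Ext

open Matrix Crest.AlgebraR.SpinSaturation Crest.Agent.R172.SoGrade Crest.Agent.R172.Sp
open Crest.Agent.R172.Gen (Jm Ix emb IsSo Ent ent)
open Crest.Agent.R172.CF Crest.Agent.R172.HM8 Crest.Agent.R172.HM9 Module
open Crest.Agent.R172.Ind (GI kk mu perp Bd)

variable {n : ℕ} {a : Fin 3 → Fin n → ℤ} {c : Cfg n a} {q : SPol c}


end Crest.Agent.R172.Ext

namespace Crest.Agent.R172.Ind

open Matrix Module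
open Crest.AlgebraR.SpinSaturation Crest.Agent.R172.SoGrade Crest.Agent.R172.Sp
open Crest.Agent.R172.Gen (Jm Ix emb IsSo)
open Crest.Agent.R172.CF Crest.Agent.R172.HM2 Crest.Agent.R172.HM8 Crest.Agent.R172.HM9

/-- (T') no tame `τ_G`, `G ∈ 𝒦`, at a generic element of a violating instance -/
def InT' : Prop :=
  ∀ (n : ℕ) (a : Fin 3 → Fin n → ℤ) (c : Cfg n a) (q : SPol c) (R : Ranked c)
    (K : Type) [Field K] [Algebra ℂ K] [IsAlgClosed K] (g : Fin 3 → Matrix (Ix n) (Ix n) K)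
    (H : Matrix (Fin q.toPol.m) (Fin q.toPol.m) K), Inst c q R K g H →
    ∀ F : Matrix (Ix n) c.δ K, FO.Generic ℂ c.arm (c.N g) (VL (q.toPol.LH H)) F →
      CSys.NotTameK q g H F

/-- (T) implies (T') -/
theorem InT.weak (h : InT) : InT' := by
  intro n a c q R K _ _ _ g H hI F hF
  obtain ⟨C⟩ := St.exists_core (CSys.BV n K) (fun u v => CSys.BV_ns.symm u v) CSys.BV_ns.nondeg
    (ThX.MM (CSys.pU c K) (CSys.adjU c K) (Matrix.toLin' F) (Matrix.toLin' F))
  exact ⟨C, fun G _ τ hτ => h n a c q R K g H hI F hF C τ hτ.tame⟩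



/-! ### The weakest inputs (MASTER v3, 15216) -/

/-- (T0) no tame `τ_G`, `G ∈ 𝒦`, at a generic element of a violating instance with `𝒦iso = 0` -/
def InT0 : Prop :=
  ∀ (n : ℕ) (a : Fin 3 → Fin n → ℤ) (c : Cfg n a) (q : SPol c) (R : Ranked c)
    (K : Type) [Field K] [Algebra ℂ K] [IsAlgClosed K] (g : Fin 3 → Matrix (Ix n) (Ix n) K)
    (H : Matrix (Fin q.toPol.m) (Fin q.toPol.m) K), Inst c q R K g H →
    Om.Kiso (Jm n K) (c.N g) (VL (q.toPol.LH H)) = ⊥ →
    ∀ F : Matrix (Ix n) c.δ K, FO.Generic ℂ c.arm (c.N g) (VL (q.toPol.LH H)) F →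
      CSys.NotTameK q g H F

/-- (S2) `T_g` is scalar for a violating instance with `dim 𝒦iso ≥ 2` -/
def InS2 : Prop :=
  ∀ (n : ℕ) (a : Fin 3 → Fin n → ℤ) (c : Cfg n a) (q : SPol c) (R : Ranked c)
    (K : Type) [Field K] [Algebra ℂ K] [IsAlgClosed K] (g : Fin 3 → Matrix (Ix n) (Ix n) K)
    (H : Matrix (Fin q.toPol.m) (Fin q.toPol.m) K), Inst c q R K g H →
    2 ≤ finrank K ↥(Om.Kiso (Jm n K) (c.N g) (VL (q.toPol.LH H))) →
    Om.Scal ℂ c.arm (Jm n K) (c.B K) (c.N g) (VL (q.toPol.LH H))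

/-- (Q1) a violating instance with `dim 𝒦iso = 1`, `𝒦iso ≠ 𝒦` has `ZZ ≠ 0` -/
def InQ1 : Prop :=
  ∀ (n : ℕ) (a : Fin 3 → Fin n → ℤ) (c : Cfg n a) (q : SPol c) (R : Ranked c)
    (K : Type) [Field K] [Algebra ℂ K] [IsAlgClosed K] (g : Fin 3 → Matrix (Ix n) (Ix n) K)
    (H : Matrix (Fin q.toPol.m) (Fin q.toPol.m) K), Inst c q R K g H →
    finrank K ↥(Om.Kiso (Jm n K) (c.N g) (VL (q.toPol.LH H))) = 1 →
    Om.Kiso (Jm n K) (c.N g) (VL (q.toPol.LH H)) ≠ c.N g ⊓ VL (q.toPol.LH H) →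
    Ext.ZI c q.toPol g H ≠ ⊥

theorem InT'.zero (h : InT') : InT0 := fun n a c q R K _ _ _ g H hI _ F hF =>
  h n a c q R K g H hI F hF

theorem InS.two (h : InS) : InS2 := fun n a c q R K _ _ _ g H hI _ => h n a c q R K g H hI

theorem InQ.one (h : InQ) : InQ1 := by
  intro n a c q R K _ _ _ g H hI h1 h2 h3
  rw [← h n a c q R K g H hI h2, h3, finrank_bot] at h1
  omega

/-- `Scal` is trivial if `dim 𝒦iso ≤ 1` -/
theorem scal_of_le_one {ι : Type*} [Fintype ι] [DecidableEq ι] {δ : Type*} [Fintype δ]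
    [DecidableEq δ] {k K : Type*} [Field k] [Field K] [Algebra k K] {arm : δ → Fin 3}
    {J : Matrix ι ι K} {B : Matrix δ δ K} {N W : Submodule K (Matrix ι δ K)}
    (h : finrank K ↥(Om.Kiso J N W) ≤ 1) : Om.Scal k arm J B N W := by
  intro g hg
  by_cases hg0 : g = 0
  · subst hg0
    refine ⟨fun _ => 0, fun f _ d _ => ?_⟩
    have h1 : ∀ f : Matrix ι δ K, Om.Om J d 0 f = 0 := fun f => by
      simp [Om.Om]
    rw [h1, h1, smul_zero]
  · have h1 : finrank K ↥(Om.Kiso J N W) = 1 := by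
      have h2 : 0 < finrank K ↥(Om.Kiso J N W) := by
        rw [Module.finrank_pos_iff]
        exact ⟨⟨⟨g, hg⟩, 0, fun h => hg0 (congrArg Subtype.val h)⟩⟩
      omega
    have h2 : ∀ f ∈ Om.Kiso J N W, ∃ c : K, c • g = f := by
      intro f hf
      obtain ⟨c, hc⟩ := (finrank_eq_one_iff_of_nonzero' (⟨g, hg⟩ : ↥(Om.Kiso J N W))
        (fun h => hg0 (congrArg Subtype.val h))).1 h1 ⟨f, hf⟩
      exact ⟨c, congrArg Subtype.val hc⟩
    classical
    refine ⟨fun f => if hf : f ∈ Om.Kiso J N W then (h2 f hf).choose else 0, fun f hf d _ => ?_⟩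
    have h3 := (h2 f hf).choose_spec
    have h4 : (fun f => if hf : f ∈ Om.Kiso J N W then (h2 f hf).choose else 0) f
        = (h2 f hf).choose := dif_pos hf
    rw [h4]
    conv_lhs => rw [← h3]
    rw [Om.Om_smul_right' d _ hg hg]



end Crest.Agent.R172.Ind
namespace Crest.Agent.R172.ThX.Sys
end Crest.Agent.R172.ThX.Sys
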