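import Crest.Agent.R172.Qt9
import Crest.Agent.R172.Fin1
import Crest.Agent.R172.Fin2
import Crest.Agent.R172.SpS10

-- ▼ part R172/Qt10
section

/-!
Row 172 (S0260), node G1.2, part 6: `InQ` from the mixed tame exclusion.
-/

set_option autoImplicit false
set_option linter.unusedSectionVars false
set_option linter.unusedFintypeInType false
set_option linter.unusedDecidableInType false
set_option maxHeartbeats 400000

namespace Crest.Agent.R172.Qt

open Matrix Module Crest.Agent.R172.FO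
open Crest.Agent.R172.CF Crest.Agent.R172.CSys
open Crest.Agent.R172.Gen (Jm Ix emb IsSo)
open Crest.Agent.R172.Ind (GI Inst)

variable {n : ℕ} {a : Fin 3 → Fin n → ℤ} {c : Cfg n a} {q : SPol c}

/-- **No mixed tame pair** in a violating instance: `G` generic in `𝒦iso`, `f ∈ 𝒦`, `p ∈ NN G`. -/
def NoTameQ (c : Cfg n a) (q : SPol c) (R : Ranked c) : Prop :=
  ∀ (L : Type) [Field L] [Algebra ℂ L] [IsAlgClosed L]
    (g : Fin 3 → Matrix (Ix n) (Ix n) L) (H : Matrix (Fin q.toPol.m) (Fin q.toPol.m) L),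
    Inst c q R L g H →
    ∀ G ∈ Om.Kiso (Jm n L) (c.N g) (VL (q.toPol.LH H)),
    (∀ w ∈ Om.Kiso (Jm n L) (c.N g) (VL (q.toPol.LH H)), GenQ.VertH c g H G w) →
    ∀ f ∈ c.N g ⊓ VL (q.toPol.LH H), ∀ p ∈ NN c.arm (Jm n L) (c.N g) G,
      ¬ TameMix c G f p.1

/-- descent: `ω_d(F,F) = 0` for the generic `F` implies `ω_d(g,g) = 0` for all `g ∈ 𝒦iso`. -/
theorem om_zero_descent {K : Type} [Field K] [Algebra ℂ K]
    {g : Fin 3 → Matrix (Ix n) (Ix n) K} {H : Matrix (Fin q.toPol.m) (Fin q.toPol.m) K}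
    (hG : GI c q.toPol K g H) {r : ℕ} {κ : Fin r → Matrix (Ix n) c.δ K}
    (hκ : Submodule.span K (Set.range κ) = Om.Kiso (Jm n K) (c.N g) (VL (q.toPol.LH H)))
    {L : Type} [Field L] [Algebra K L] [Algebra ℂ L] [IsScalarTower ℂ K L]
    {t : Fin r → L} (ht : AlgebraicIndependent K t)
    (h0 : ∀ d : Derivation ℂ L L,
      Om.IsY ℂ c.arm (c.B L) (c.N (fun s => emb K L (g s))) (VL (q.toPol.LH (emb K L H))) d →
      Om.Om (Jm n L) d (∑ j, t j • emb K L (κ j)) (∑ j, t j • emb K L (κ j)) = 0)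
    {d : Derivation ℂ K K} (hd : Om.IsY ℂ c.arm (c.B K) (c.N g) (VL (q.toPol.LH H)) d)
    {F : Matrix (Ix n) c.δ K} (hF : F ∈ Om.Kiso (Jm n K) (c.N g) (VL (q.toPol.LH H))) :
    Om.Om (Jm n K) d F F = 0 := by
  classical
  have hbc := GenQ.bcNW (L := L) q.toPol hG
  have hbK := GenQ.bcKiso (L := L) q.toPol hG
  have hDL : FO.Data ℂ c.arm (Jm n L) (c.B L) (c.N (fun s => emb K L (g s)))
      (VL (q.toPol.LH (emb K L H))) := Ext.data_of_GI q.toPol (Ext.gi_bc q.toPol hG)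
  have hJ : (Jm n K).map (algebraMap K L) = Jm n L := Pol.Jm_map (algebraMap K L)
  have hB : (c.B K).map (algebraMap K L) = c.B L := c.B_map K L (algebraMap K L)
  have hκm : ∀ j, κ j ∈ Om.Kiso (Jm n K) (c.N g) (VL (q.toPol.LH H)) := fun j => by
    rw [← hκ]; exact Submodule.subset_span ⟨j, rfl⟩
  obtain ⟨Y, hY, hr⟩ := hd
  have hYL : (Y.map (algebraMap K L))ᵀ * c.B L + c.B L * Y.map (algebraMap K L) = 0 := by
    rw [← hB]; exact Om.skew_map_emb hY
  obtain ⟨d', hr'⟩ := hDL.dir 0 (Y.map (algebraMap K L)) (by intro s; simp) hYL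
  have h1 := h0 d' ⟨_, hYL, hr'⟩
  have hdir : ∀ i j, Om.Om (Jm n L) d' (emb K L (κ i)) (emb K L (κ j)) =
      (Om.Om (Jm n K) d (κ i) (κ j)).map (algebraMap K L) := by
    intro i j
    have := Om.Om_dir (J := Jm n K) hbc.1 hbc.2 hr hr' (hκm j).1 (hκm i)
    rw [hJ] at this
    exact this
  have hκL : ∀ j, emb K L (κ j) ∈ Om.Kiso (Jm n L) (c.N (fun s => emb K L (g s)))
      (VL (q.toPol.LH (emb K L H))) := fun j => hbK.up _ (hκm j)
  have hFL : (∑ j, t j • emb K L (κ j)) ∈ Om.Kiso (Jm n L) (c.N (fun s => emb K L (g s)))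
      (VL (q.toPol.LH (emb K L H))) :=
    Submodule.sum_mem _ fun j _ => Submodule.smul_mem _ _ (hκL j)
  rw [SpS.Om_sum_left] at h1
  simp only [SpS.Om_sum_right d' Finset.univ t (fun j => emb K L (κ j)) hκL (hκL _), hdir] at h1
  -- the polynomial
  have hpoly : ∀ x y, (∑ i, ∑ j, MvPolynomial.C (Om.Om (Jm n K) d (κ i) (κ j) x y) *
      MvPolynomial.X i * MvPolynomial.X j : MvPolynomial (Fin r) K) = 0 := by
    intro x y
    apply ht.eq_zero_of_aeval_eq_zero
    have h2 := congrFun (congrFun h1 x) y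
    rw [Matrix.sum_apply, Matrix.zero_apply] at h2
    rw [map_sum, ← h2]
    refine Finset.sum_congr rfl fun i _ => ?_
    rw [map_sum, Matrix.smul_apply, Matrix.sum_apply, Finset.smul_sum]
    refine Finset.sum_congr rfl fun j _ => ?_
    rw [map_mul, map_mul, MvPolynomial.aeval_C, MvPolynomial.aeval_X, MvPolynomial.aeval_X,
      Matrix.smul_apply, map_apply, smul_eq_mul, smul_eq_mul]
    ring
  -- coordinates of `F`
  have hF' := hF
  rw [← hκ] at hF'
  obtain ⟨b, hb⟩ := (Submodule.mem_span_range_iff_exists_fun K).1 hF'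
  ext x y
  have h3 := congrArg (MvPolynomial.aeval b) (hpoly x y)
  rw [map_zero, map_sum] at h3
  rw [Matrix.zero_apply, ← h3, ← hb]
  have e1 : Om.Om (Jm n K) d (∑ i, b i • κ i) (∑ i, b i • κ i)
      = ∑ i, b i • ∑ j, b j • Om.Om (Jm n K) d (κ i) (κ j) := by
    rw [SpS.Om_sum_left]
    exact Finset.sum_congr rfl fun i _ => by
      rw [SpS.Om_sum_right d Finset.univ b κ hκm (hκm i)]
  rw [e1, Matrix.sum_apply]
  refine Finset.sum_congr rfl fun i _ => ?_
  rw [map_sum, Matrix.smul_apply, Matrix.sum_apply, Finset.smul_sum]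
  refine Finset.sum_congr rfl fun j _ => ?_
  rw [map_mul, map_mul, MvPolynomial.aeval_C, MvPolynomial.aeval_X, MvPolynomial.aeval_X,
    Matrix.smul_apply, smul_eq_mul, smul_eq_mul]
  change _ = Om.Om (Jm n K) d (κ i) (κ j) x y * b i * b j
  ring

/-- **(P3)** for one instance. -/
theorem P3 {R : Ranked c} (hNT : NoTameQ c q R) {K : Type} [Field K] [Algebra ℂ K]
    {g : Fin 3 → Matrix (Ix n) (Ix n) K} {H : Matrix (Fin q.toPol.m) (Fin q.toPol.m) K}
    (hI : Inst c q R K g H)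
    (hne : Om.Kiso (Jm n K) (c.N g) (VL (q.toPol.LH H)) ≠ c.N g ⊓ VL (q.toPol.LH H)) :
    Ext.ZI c q.toPol g H = Om.Kiso (Jm n K) (c.N g) (VL (q.toPol.LH H)) := by
  classical
  have hG := hI.gi
  -- a non-isotropic element
  obtain ⟨f, hf, hfn⟩ : ∃ f ∈ c.N g ⊓ VL (q.toPol.LH H),
      f ∉ Om.Kiso (Jm n K) (c.N g) (VL (q.toPol.LH H)) := by
    by_contra hcon
    push Not at hcon
    exact hne (le_antisymm (fun F hF => hF.1) hcon)
  obtain ⟨r, κ, -, hκ⟩ := GenQ.exists_family (Om.Kiso (Jm n K) (c.N g) (VL (q.toPol.LH H)))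
  obtain ⟨L, iL, iKL, iCL, ist, icl, icz, t, ht, hFL, hV⟩ := GenQ.step1 q.toPol hG hκ
  have hIL := hI.bc L
  have hCL := hIL.ctx hFL
  have hglue := glue_of hIL.gi hCL (fun w hw hw0 => hIL.isoK hw hw0) hV
  have hbc := GenQ.bcNW (L := L) q.toPol hG
  have hbK := GenQ.bcKiso (L := L) q.toPol hG
  have hfL : emb K L f ∈ c.N (fun s => emb K L (g s)) ⊓ VL (q.toPol.LH (emb K L H)) :=
    ⟨hbc.1.up f hf.1, hbc.2.up f hf.2⟩
  -- `emb f` is not isotropic
  have hfniso : (emb K L f)ᵀ * Jm n L * emb K L f ≠ 0 := by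
    intro h0
    apply hfn
    refine hI.isoK hf ?_
    have hJ : (Jm n K).map (algebraMap K L) = Jm n L := Pol.Jm_map (algebraMap K L)
    have h1 : (fᵀ * Jm n K * f).map (algebraMap K L) = 0 := by
      rw [Matrix.map_mul, Matrix.map_mul, Matrix.transpose_map, hJ]
      exact h0
    ext i j
    have h2 := congrFun (congrFun h1 i) j
    rw [map_apply, Matrix.zero_apply] at h2
    exact (FaithfulSMul.algebraMap_injective K L) (by rw [h2, Matrix.zero_apply, map_zero])
  have hNN : ∀ p ∈ NN c.arm (Jm n L) (c.N (fun s => emb K L (g s)))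
      (∑ j, t j • emb K L (κ j)),
      (∑ j, t j • emb K L (κ j))ᵀ * Jm n L * (p.1 * (∑ j, t j • emb K L (κ j))) = 0 := by
    intro p hp
    rcases mix_final R hI.posR hIL.gi hCL hglue hfL hp with h | h | h
    · exact absurd h hfniso
    · exact h
    · exact absurd h (hNT L _ _ hIL _ hFL hV _ hfL p hp)
  have hOm0 : ∀ d : Derivation ℂ L L,
      Om.IsY ℂ c.arm (c.B L) (c.N (fun s => emb K L (g s))) (VL (q.toPol.LH (emb K L H))) d →
      Om.Om (Jm n L) d (∑ j, t j • emb K L (κ j)) (∑ j, t j • emb K L (κ j)) = 0 := by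
    intro d hd
    obtain ⟨p, hp, hpf⟩ := Om.exists_NN hCL hd
    rw [hpf _ hFL.1]
    exact hNN p hp
  -- descent
  refine le_antisymm Om.ZZ_le_Kiso fun F hF => ⟨hF, fun G' hG' d hd => ?_⟩
  obtain ⟨p, hp, hpf⟩ := Om.exists_NN (hI.ctx hG') hd
  have h1 : Om.Om (Jm n K) d G' G' = 0 := om_zero_descent hG hκ ht hOm0 hd hG'
  rw [hpf G' hG'.1] at h1
  rw [hpf F hF.1]
  exact (hI.ctx hG').tf_zero hF.1 hp h1


end Crest.Agent.R172.Qt
end

-- ▼ part R172/Fin4

/-!
Row 172 (S0260): the weak tame inputs `NoTameS2` (t2), `NoTameQ1` (t3), with all available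
genericity, and `InS2`, `InQ1` from them.
-/

set_option autoImplicit false
set_option linter.unusedSectionVars false
set_option linter.unusedFintypeInType false
set_option linter.unusedDecidableInType false
set_option maxHeartbeats 400000

namespace Crest.Agent.R172.Fin4

open Matrix Module Crest.Agent.R172.FO
open Crest.AlgebraR.SpinSaturation Crest.Agent.R172.SoGrade Crest.Agent.R172.Sp
open Crest.Agent.R172.CF Crest.Agent.R172.CSys
open Crest.Agent.R172.Gen (Jm Ix emb IsSo)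
open Crest.Agent.R172.GenP
open Crest.Agent.R172.GenQ
open Crest.Agent.R172.SpS
open Crest.Agent.R172.Qt (NN Ctx TameMix)
open Crest.Agent.R172.Om (Kiso Scal)
open Crest.Agent.R172.Ind (GI Inst)

variable {n : ℕ} {a : Fin 3 → Fin n → ℤ} {c : Cfg n a} {q : SPol c}

/-- (V1) vertical derivations of `F` in all directions `w ∈ 𝒦iso`, with `f` constant -/
def V1 (c : Cfg n a) (q : SPol c) {L : Type} [Field L] [Algebra ℂ L]
    (g : Fin 3 → Matrix (Ix n) (Ix n) L) (H : Matrix (Fin q.toPol.m) (Fin q.toPol.m) L)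
    (F f : Matrix (Ix n) c.δ L) : Prop :=
  ∀ w ∈ Kiso (Jm n L) (c.N g) (VL (q.toPol.LH H)), ∃ d : Derivation ℂ L L,
    F.map d = w ∧ f.map d = 0 ∧
      Realises c.arm (c.N g) (VL (q.toPol.LH H)) (0 : Fin 3 → Matrix (Ix n) (Ix n) L)
        (0 : Matrix c.δ c.δ L) d

/-- (V2) vertical derivations of `P ∈ NN F` in all directions, with `F`, `f` constant -/
def V2 (c : Cfg n a) (q : SPol c) {L : Type} [Field L] [Algebra ℂ L]
    (g : Fin 3 → Matrix (Ix n) (Ix n) L) (H : Matrix (Fin q.toPol.m) (Fin q.toPol.m) L)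
    (F f : Matrix (Ix n) c.δ L) (P : Matrix (Ix n) (Ix n) L × (Fin 3 → Matrix (Ix n) (Ix n) L)) :
    Prop :=
  ∀ p' ∈ NN c.arm (Jm n L) (c.N g) F, ∃ d : Derivation ℂ L L,
    F.map d = 0 ∧ f.map d = 0 ∧
      Realises c.arm (c.N g) (VL (q.toPol.LH H)) (0 : Fin 3 → Matrix (Ix n) (Ix n) L)
        (0 : Matrix c.δ c.δ L) d ∧ P.1.map d = p'.1 ∧ ∀ s, (P.2 s).map d = p'.2 s

/-- **(t2)** no tame symplectic core for a pair `F`, `f ∈ 𝒦iso` -/
def NoTameS2 (c : Cfg n a) (q : SPol c) (R : Ranked c) : Prop :=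
  ∀ (L : Type) [Field L] [Algebra ℂ L] [IsAlgClosed L] (g : Fin 3 → Matrix (Ix n) (Ix n) L)
    (H : Matrix (Fin q.toPol.m) (Fin q.toPol.m) L), Inst c q R L g H →
    2 ≤ finrank L ↥(Kiso (Jm n L) (c.N g) (VL (q.toPol.LH H))) →
    ∀ F ∈ Kiso (Jm n L) (c.N g) (VL (q.toPol.LH H)),
    ∀ f ∈ Kiso (Jm n L) (c.N g) (VL (q.toPol.LH H)), V1 c q g H F f →
    ∀ P ∈ NN c.arm (Jm n L) (c.N g) F, V2 c q g H F f P →
    ∀ G : Matrix c.δ (Ix n) L, F * G * F = F →
      ¬ TameD (Mg c.arm (c.B L) F) (Ng c.arm (c.B L) F G f)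
        (bil F G (Fᵀ * (Jm n L * P.1) * F))

/-- base change keeps the dimension -/
theorem finrank_bc {K L : Type} [Field K] [Field L] [Algebra K L] {α β : Type} [Fintype α]
    [DecidableEq α] [Fintype β] [DecidableEq β]
    {Z : Submodule K (Matrix α β K)} {Y : Submodule L (Matrix α β L)} (h : Om.BC Z Y) :
    finrank L Y = finrank K Z := by
  have h1 : Y = BC.bcM L Z := by
    rw [BC.bcM_eq_span, h.eq_span]
  rw [h1, BC.finrank_bcM]

/-- vertical derivations base change, with a second constant matrix -/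
theorem vert_bc_pair {K L : Type} [Field K] [Field L] [Algebra K L] [Algebra ℂ K] [Algebra ℂ L]
    [IsScalarTower ℂ K L] {g : Fin 3 → Matrix (Ix n) (Ix n) K} {m : ℕ}
    {H : Matrix (Fin m) (Fin m) K}
    {α β : Type} [Fintype α] [DecidableEq α] [Fintype β] [DecidableEq β]
    {F0 f0 : Matrix α β K} {Y : Submodule K (Matrix α β K)}
    (h : ∀ w ∈ Y, ∃ D : Derivation ℂ K K,
      (∀ F ∈ c.N g, F.map D - FO.act c.arm 0 F ∈ c.N g) ∧ H.map D = 0 ∧ F0.map D = w ∧
        f0.map D = 0)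
    {w : Matrix α β L} (hw : ∀ φ : L →ₗ[K] K, w.map φ ∈ Y) :
    ∃ D : Derivation ℂ L L, (∀ F ∈ c.N (fun s => emb K L (g s)),
      F.map D - FO.act c.arm 0 F ∈ c.N (fun s => emb K L (g s))) ∧ (emb K L H).map D = 0 ∧
        (emb K L F0).map D = w ∧ (emb K L f0).map D = 0 := by
  obtain ⟨D, hD1, hD2, hD3⟩ := vert_bc (c := c) (L := L) (g := g) (H := H)
    (v := fun y : (α × β) ⊕ (α × β) => Sum.elim (fun y => F0 y.1 y.2) (fun y => f0 y.1 y.2) y)
    (Y := (Y.comap (unc K α β).toLinearMap).comap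
        (LinearMap.funLeft K K (Sum.inl : α × β → (α × β) ⊕ (α × β))) ⊓
      LinearMap.ker (LinearMap.funLeft K K (Sum.inr : α × β → (α × β) ⊕ (α × β)))) (by
      rintro w ⟨hw1, hw2⟩
      obtain ⟨D, hD1, hD2, hD3, hD4⟩ := h _ hw1
      refine ⟨D, hD1, hD2, fun i => ?_⟩
      rcases i with i | i
      · exact congrFun (congrFun hD3 i.1) i.2
      · have h1 := congrFun (congrFun hD4 i.1) i.2
        have h2 := congrFun (LinearMap.mem_ker.1 hw2) i
        change D (f0 i.1 i.2) = w (Sum.inr i)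
        rw [show D (f0 i.1 i.2) = 0 from h1]
        exact h2.symm)
    (w := fun y => Sum.elim (fun y : α × β => w y.1 y.2) (fun _ => 0) y) (fun φ => by
      refine ⟨hw φ, LinearMap.mem_ker.2 ?_⟩
      funext i
      exact map_zero φ)
  refine ⟨D, hD1, hD2, ?_, ?_⟩
  · ext i j
    exact hD3 (Sum.inl (i, j))
  · ext i j
    exact hD3 (Sum.inr (i, j))

/-- **STEP 1 with constants**: the generic element of `𝒦_iso`; the vertical derivations kill the
small field -/
theorem step1c {K : Type} [Field K] [Algebra ℂ K] (p : Pol c)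
    {g : Fin 3 → Matrix (Ix n) (Ix n) K} {H : Matrix (Fin p.m) (Fin p.m) K}
    (hG : GI c p K g H) {r : ℕ} {κ : Fin r → Matrix (Ix n) c.δ K}
    (hκ : Submodule.span K (Set.range κ) = Kiso (Jm n K) (c.N g) (VL (p.LH H))) :
    ∃ (L : Type) (_ : Field L) (_ : Algebra K L) (_ : Algebra ℂ L) (_ : IsScalarTower ℂ K L)
      (_ : IsAlgClosed L) (_ : CharZero L) (t : Fin r → L), AlgebraicIndependent K t ∧
      (∑ j, t j • emb K L (κ j)) ∈
        Kiso (Jm n L) (c.N (fun s => emb K L (g s))) (VL (p.LH (emb K L H))) ∧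
      (∀ w ∈ Kiso (Jm n L) (c.N (fun s => emb K L (g s))) (VL (p.LH (emb K L H))),
        ∃ D : Derivation ℂ L L, (∀ G ∈ c.N (fun s => emb K L (g s)),
          G.map D - FO.act c.arm 0 G ∈ c.N (fun s => emb K L (g s))) ∧
          (emb K L H).map D = 0 ∧ (∑ j, t j • emb K L (κ j)).map D = w ∧
          ∀ x, D (algebraMap K L x) = 0) := by
  obtain ⟨L, iL, iKL, iCL, ist, icl, icz, t, ht, hder⟩ := gen_tuple K r
  have hbc := bcKiso (L := L) p hG
  refine ⟨L, iL, iKL, iCL, ist, icl, icz, t, ht, ?_, ?_⟩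
  · refine Submodule.sum_mem _ fun j _ => Submodule.smul_mem _ _ (hbc.up _ ?_)
    rw [← hκ]
    exact Submodule.subset_span ⟨j, rfl⟩
  · intro w hw
    obtain ⟨u, hu⟩ := exists_coord hκ (hbc.down w hw)
    obtain ⟨D, hD1, hD2⟩ := hder u
    obtain ⟨h1, h2⟩ := vert_zero (c := c) (g := g) (H := H) hD1
    refine ⟨D, h1, h2, ?_, hD1⟩
    rw [sum_der hD1, hu]
    exact Finset.sum_congr rfl fun j _ => by rw [hD2]

/-- the derivative of a matrix over the small field -/
theorem emb_map_zero {K L : Type} [Field K] [Field L] [Algebra K L] [Algebra ℂ L] {α β : Type}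
    {D : Derivation ℂ L L} (hD : ∀ x, D (algebraMap K L x) = 0) (A : Matrix α β K) :
    (emb K L A).map D = 0 := by
  ext i j
  exact hD (A i j)

/-- **`InS2`-input for one instance from (t2)** -/
theorem scal_inst2 {q : SPol c} {R : Ranked c} (hNT : NoTameS2 c q R) {K : Type} [Field K]
    [Algebra ℂ K] {g : Fin 3 → Matrix (Ix n) (Ix n) K}
    {H : Matrix (Fin q.toPol.m) (Fin q.toPol.m) K} (h : Inst c q R K g H)
    (h2 : 2 ≤ finrank K ↥(Kiso (Jm n K) (c.N g) (VL (q.toPol.LH H)))) :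
    Scal ℂ c.arm (Jm n K) (c.B K) (c.N g) (VL (q.toPol.LH H)) := by
  classical
  obtain ⟨r, κ, -, hκ⟩ := exists_family (Kiso (Jm n K) (c.N g) (VL (q.toPol.LH H)))
  obtain ⟨L, iL, iKL, iCL, ist, icl, icz, t, ht, hF1, hVc⟩ := step1c q.toPol h.gi hκ
  have hV1 : ∀ w ∈ Kiso (Jm n L) (c.N (fun s => emb K L (g s)))
      (VL (q.toPol.LH (emb K L H))), VertH c (fun s => emb K L (g s)) (emb K L H)
        (∑ j, t j • emb K L (κ j)) w := fun w hw => by
    obtain ⟨D, h1, h2, h3, -⟩ := hVc w hw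
    exact ⟨D, h1, h2, h3⟩
  have hL : Inst c q R L (fun s => emb K L (g s)) (emb K L H) := h.bc L
  have hJ : (Jm n K).map (algebraMap K L) = Jm n L := Pol.Jm_map (algebraMap K L)
  have hB : (c.B K).map (algebraMap K L) = c.B L := c.B_map K L (algebraMap K L)
  have hbc := bcNW (L := L) q.toPol h.gi
  have hKiL := bcKiso (L := L) q.toPol h.gi
  have h2L : 2 ≤ finrank L ↥(Kiso (Jm n L) (c.N (fun s => emb K L (g s)))
      (VL (q.toPol.LH (emb K L H)))) := by
    rw [finrank_bc hKiL]; exact h2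
  set F : Matrix (Ix n) c.δ L := ∑ j, t j • emb K L (κ j) with hF
  refine scal_of_generic (L := L) hbc.1 hbc.2 h.data ?_ (fun F hF => h.ctx hF) (g0 := F) ?_ ?_ ?_ ?_
  · rw [hJ, hB]; exact hL.data
  · rw [hJ]; exact hF1
  · rw [hJ, hB]; exact hL.ctx hF1
  · intro P hP F0 hF0
    rw [hF] at hP
    exact spec_of_coord ht P hP (by rw [hκ]; exact hF0)
  · rw [hJ]
    have hκm : ∀ j, κ j ∈ Kiso (Jm n K) (c.N g) (VL (q.toPol.LH H)) := fun j => by
      rw [← hκ]; exact Submodule.subset_span ⟨j, rfl⟩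
    -- the claim for the constant elements
    have key : ∀ j, ∃ e : L, ∀ p ∈ NN c.arm (Jm n L) (c.N fun s => emb K L (g s)) F,
        Fᵀ * Jm n L * (p.1 * emb K L (κ j)) = e • (Fᵀ * Jm n L * (p.1 * F)) := by
      intro j
      set f : Matrix (Ix n) c.δ L := emb K L (κ j) with hfdef
      have hf : f ∈ Kiso (Jm n L) (c.N fun s => emb K L (g s)) (VL (q.toPol.LH (emb K L H))) :=
        hKiL.up _ (hκm j)
      -- second extension
      obtain ⟨r', π, -, hπ⟩ := exists_family (NN c.arm (Jm n L) (c.N fun s => emb K L (g s)) F)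
      obtain ⟨L', iL', iLL', iCL', ist', icl', icz', u, hu, hP1, hW1, hW2⟩ :=
        step2 q.toPol hL.gi hV1 hπ
      have hL' := hL.bc L'
      have hJ' : (Jm n L).map (algebraMap L L') = Jm n L' := Pol.Jm_map (algebraMap L L')
      have hKi := bcKiso (L := L') q.toPol hL.gi
      have hFL' := hKi.up F hF1
      have hfL' := hKi.up f hf
      set P : Matrix (Ix n) (Ix n) L' × (Fin 3 → Matrix (Ix n) (Ix n) L') :=
        ∑ i, u i • embP L' (π i) with hP
      have hP1' : P.1 = ∑ i, u i • emb L L' (π i).1 := by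
        rw [hP, Prod.fst_sum]; rfl
      obtain ⟨G, hG⟩ := Qt.exists_pinv (F.map (algebraMap L L'))
      have hctx := hL'.ctx hFL'
      have hV : Vert ℂ c.arm (Jm n L') (c.N fun s => emb L L' (emb K L (g s)))
          (VL (q.toPol.LH (emb L L' (emb K L H)))) (F.map (algebraMap L L')) P := by
        refine ⟨fun w hw => hW1 w hw, fun p' hp' => ?_⟩
        obtain ⟨d, -, h1, h2, h3, -⟩ := hW2 p' hp'
        exact ⟨d, h1, h2, by rw [h3]⟩
      have hskL : (emb L L' (emb K L H))ᵀ = -(emb L L' (emb K L H)) :=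
        FO3.emb_skew hL.gi.skew
      have hVV1 : V1 c q (fun s => emb L L' (emb K L (g s))) (emb L L' (emb K L H))
          (F.map (algebraMap L L')) (f.map (algebraMap L L')) := by
        intro w hw
        obtain ⟨D, e1, e2, e3, e4⟩ := vert_bc_pair (c := c) (L := L')
          (g := fun s => emb K L (g s)) (H := emb K L H) (F0 := F) (f0 := f)
          (Y := Kiso (Jm n L) (c.N fun s => emb K L (g s)) (VL (q.toPol.LH (emb K L H))))
          (fun w hw => by
            obtain ⟨D, e1, e2, e3, e4⟩ := hVc w hw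
            exact ⟨D, e1, e2, e3, emb_map_zero e4 (κ j)⟩) (w := w) (hKi.down w hw)
        exact ⟨D, e3, e4, realises_of q.toPol hskL e1 e2⟩
      have hVV2 : V2 c q (fun s => emb L L' (emb K L (g s))) (emb L L' (emb K L H))
          (F.map (algebraMap L L')) (f.map (algebraMap L L')) P := by
        intro p' hp'
        obtain ⟨d, h0, h1, h2, h3, h4⟩ := hW2 p' hp'
        exact ⟨d, h1, emb_map_zero h0 f, h2, h3, h4⟩
      refine uniform_of_generic (L := L') (hL.ctx hF1) (f := f) hf.1 (p0 := P.1) ?_ ?_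
      · intro Q hQ p hp
        rw [hP1'] at hQ
        refine spec_of_coord hu Q hQ ?_
        rw [← hπ] at hp
        obtain ⟨b, hb⟩ := (Submodule.mem_span_range_iff_exists_fun L).1 hp
        rw [← hb, Prod.fst_sum]
        refine Submodule.sum_mem _ fun i _ => ?_
        exact Submodule.smul_mem _ _ (Submodule.subset_span ⟨i, rfl⟩)
      · rw [hJ']
        have hsc := scalar_at (k := ℂ) hctx hL'.two_ne hG
          (nilW_cfg R q.toPol hL'.gi.orth hL'.gi.skew hL'.hgen hL'.data.J_symm hFL'.1.1 hFL'.1.2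
            (hFL'.2 _ hFL'.1)) hP1
          (armNil_cfg R hL'.gi.orth hFL'.1.1 (hFL'.2 _ hFL'.1) hP1) hV
          (f := f.map (algebraMap L L')) hfL'.1
        rcases hsc with hc | hT
        · exact hc
        · exact absurd hT (hNT L' _ _ hL' (by rw [finrank_bc hKi]; exact h2L) _ hFL' _ hfL'
            hVV1 P hP1 hVV2 G hG)
    intro f hf
    choose e he using key
    obtain ⟨b, hb⟩ := exists_coord hκ (hKiL.down f hf)
    refine ⟨∑ j, b j * e j, fun p hp => ?_⟩
    rw [hb, Matrix.mul_sum, Matrix.mul_sum, Finset.sum_smul]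
    refine Finset.sum_congr rfl fun j _ => ?_
    rw [Matrix.mul_smul, Matrix.mul_smul, he j p hp, smul_smul]

/-- **(S2) from (t2)** -/
theorem inS2_of (hNT : ∀ (n : ℕ) (a : Fin 3 → Fin n → ℤ) (c : Cfg n a) (q : SPol c)
    (R : Ranked c), NoTameS2 c q R) : Ind.InS2 := by
  intro n a c q R K _ _ _ g H hI h2
  exact scal_inst2 (hNT n a c q R) hI h2

/-- **(t3)** no mixed tame pair, `dim 𝒦iso = 1`: `G` generic in `𝒦iso`, `f ∈ 𝒦` constant,
`p` generic in `NN G` -/
def NoTameQ1 (c : Cfg n a) (q : SPol c) (R : Ranked c) : Prop :=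
  ∀ (L : Type) [Field L] [Algebra ℂ L] [IsAlgClosed L]
    (g : Fin 3 → Matrix (Ix n) (Ix n) L) (H : Matrix (Fin q.toPol.m) (Fin q.toPol.m) L),
    Inst c q R L g H →
    finrank L ↥(Kiso (Jm n L) (c.N g) (VL (q.toPol.LH H))) = 1 →
    ∀ G ∈ Kiso (Jm n L) (c.N g) (VL (q.toPol.LH H)),
    ∀ f ∈ c.N g ⊓ VL (q.toPol.LH H), fᵀ * Jm n L * f ≠ 0 → V1 c q g H G f →
    ∀ p ∈ NN c.arm (Jm n L) (c.N g) G, V2 c q g H G f p →
      ¬ TameMix c G f p.1

/-- a linear condition on the generic `P ∈ NN F` holds on `NN F` -/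
theorem lin_descent {K L : Type} [Field K] [Field L] [Algebra K L] {α β γ ε : Type} [Fintype β]
    [Fintype γ] {r : ℕ} {π : Fin r → Matrix β γ K} {u : Fin r → L}
    (hu : AlgebraicIndependent K u) (A : Matrix α β K) (F : Matrix γ ε K)
    (h0 : (A.map (algebraMap K L)) * ((∑ i, u i • emb K L (π i)) * F.map (algebraMap K L)) = 0)
    {p : Matrix β γ K} (hp : p ∈ Submodule.span K (Set.range π)) : A * (p * F) = 0 := by
  ext x y
  let Q : MvPolynomial (β × γ) K :=
    ∑ i, ∑ j, MvPolynomial.C (A x i * F j y) * MvPolynomial.X (i, j)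
  have hQ : MvPolynomial.aeval (fun z : β × γ => (∑ i, u i • emb K L (π i)) z.1 z.2) Q = 0 := by
    have h1 := congrFun (congrFun h0 x) y
    rw [triple_apply, Matrix.zero_apply] at h1
    rw [← h1, map_sum]
    refine Finset.sum_congr rfl fun i _ => ?_
    rw [map_sum]
    refine Finset.sum_congr rfl fun j _ => ?_
    rw [map_mul, MvPolynomial.aeval_C, MvPolynomial.aeval_X, map_mul, map_apply, map_apply]
  have h2 := spec_of_coord hu Q hQ hp
  rw [Matrix.zero_apply, triple_apply, ← h2, map_sum]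
  refine Finset.sum_congr rfl fun i _ => ?_
  rw [map_sum]
  refine Finset.sum_congr rfl fun j _ => ?_
  rw [map_mul, MvPolynomial.aeval_C, MvPolynomial.aeval_X]
  rfl

/-- **(P3)** for one instance with `dim 𝒦iso = 1`. -/
theorem P3' {R : Ranked c} (hNT : NoTameQ1 c q R) {K : Type} [Field K] [Algebra ℂ K]
    {g : Fin 3 → Matrix (Ix n) (Ix n) K} {H : Matrix (Fin q.toPol.m) (Fin q.toPol.m) K}
    (hI : Inst c q R K g H)
    (h1K : finrank K ↥(Kiso (Jm n K) (c.N g) (VL (q.toPol.LH H))) = 1)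
    (hne : Kiso (Jm n K) (c.N g) (VL (q.toPol.LH H)) ≠ c.N g ⊓ VL (q.toPol.LH H)) :
    Ext.ZI c q.toPol g H = Kiso (Jm n K) (c.N g) (VL (q.toPol.LH H)) := by
  classical
  have hG := hI.gi
  -- a non-isotropic element
  obtain ⟨f, hf, hfn⟩ : ∃ f ∈ c.N g ⊓ VL (q.toPol.LH H),
      f ∉ Kiso (Jm n K) (c.N g) (VL (q.toPol.LH H)) := by
    by_contra hcon
    push Not at hcon
    exact hne (le_antisymm (fun F hF => hF.1) hcon)
  obtain ⟨r, κ, -, hκ⟩ := exists_family (Kiso (Jm n K) (c.N g) (VL (q.toPol.LH H)))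
  obtain ⟨L, iL, iKL, iCL, ist, icl, icz, t, ht, hFL, hVc⟩ := step1c q.toPol hG hκ
  have hV : ∀ w ∈ Kiso (Jm n L) (c.N (fun s => emb K L (g s)))
      (VL (q.toPol.LH (emb K L H))), VertH c (fun s => emb K L (g s)) (emb K L H)
        (∑ j, t j • emb K L (κ j)) w := fun w hw => by
    obtain ⟨D, h1, h2, h3, -⟩ := hVc w hw
    exact ⟨D, h1, h2, h3⟩
  have hIL := hI.bc L
  have hbc := bcNW (L := L) q.toPol hG
  have hbK := bcKiso (L := L) q.toPol hG
  have hfL : emb K L f ∈ c.N (fun s => emb K L (g s)) ⊓ VL (q.toPol.LH (emb K L H)) :=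
    ⟨hbc.1.up f hf.1, hbc.2.up f hf.2⟩
  have h1L : finrank L ↥(Kiso (Jm n L) (c.N (fun s => emb K L (g s)))
      (VL (q.toPol.LH (emb K L H)))) = 1 := by
    rw [finrank_bc hbK]; exact h1K
  have hfK : fᵀ * Jm n K * f ≠ 0 := fun h0 => hfn (hI.isoK hf h0)
  have hniso : ∀ {K' L' : Type} [Field K'] [Field L'] [Algebra K' L'] [Algebra ℂ K']
      [Algebra ℂ L'] [IsScalarTower ℂ K' L'] (f : Matrix (Ix n) c.δ K'),
      fᵀ * Jm n K' * f ≠ 0 → (emb K' L' f)ᵀ * Jm n L' * emb K' L' f ≠ 0 := by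
    intro K' L' _ _ _ _ _ _ f hfn h0
    apply hfn
    have hJ : (Jm n K').map (algebraMap K' L') = Jm n L' := Pol.Jm_map (algebraMap K' L')
    have h1 : (fᵀ * Jm n K' * f).map (algebraMap K' L') = 0 := by
      rw [Matrix.map_mul, Matrix.map_mul, Matrix.transpose_map, hJ]
      exact h0
    ext i j
    have h2 := congrFun (congrFun h1 i) j
    rw [map_apply, Matrix.zero_apply] at h2
    exact (FaithfulSMul.algebraMap_injective K' L') (by rw [h2, Matrix.zero_apply, map_zero])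
  set G : Matrix (Ix n) c.δ L := ∑ j, t j • emb K L (κ j) with hGdef
  have hCL := hIL.ctx hFL
  -- second extension
  obtain ⟨r', π, -, hπ⟩ := exists_family (NN c.arm (Jm n L) (c.N fun s => emb K L (g s)) G)
  obtain ⟨L', iL', iLL', iCL', ist', icl', icz', u, hu, hP1, hW1, hW2⟩ :=
    step2 q.toPol hIL.gi hV hπ
  have hL' := hIL.bc L'
  have hKi := bcKiso (L := L') q.toPol hIL.gi
  have hbc' := bcNW (L := L') q.toPol hIL.gi
  have hGL' : emb L L' G ∈ Kiso (Jm n L') (c.N fun s => emb L L' (emb K L (g s)))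
      (VL (q.toPol.LH (emb L L' (emb K L H)))) := hKi.up G hFL
  have hfL' : emb L L' (emb K L f) ∈ c.N (fun s => emb L L' (emb K L (g s))) ⊓
      VL (q.toPol.LH (emb L L' (emb K L H))) := ⟨hbc'.1.up _ hfL.1, hbc'.2.up _ hfL.2⟩
  have hskL : (emb L L' (emb K L H))ᵀ = -(emb L L' (emb K L H)) := FO3.emb_skew hIL.gi.skew
  have hV' : ∀ w ∈ Kiso (Jm n L') (c.N fun s => emb L L' (emb K L (g s)))
      (VL (q.toPol.LH (emb L L' (emb K L H)))),
      ∃ D : Derivation ℂ L' L', (∀ F ∈ c.N (fun s => emb L L' (emb K L (g s))),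
        F.map D - FO.act c.arm 0 F ∈ c.N (fun s => emb L L' (emb K L (g s)))) ∧
        (emb L L' (emb K L H)).map D = 0 ∧ (emb L L' G).map D = w ∧
          (emb L L' (emb K L f)).map D = 0 := by
    intro w hw
    exact vert_bc_pair (c := c) (L := L')
      (g := fun s => emb K L (g s)) (H := emb K L H) (F0 := G) (f0 := emb K L f)
      (Y := Kiso (Jm n L) (c.N fun s => emb K L (g s)) (VL (q.toPol.LH (emb K L H))))
      (fun w hw => by
        obtain ⟨D, e1, e2, e3, e4⟩ := hVc w hw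
        exact ⟨D, e1, e2, e3, emb_map_zero e4 f⟩) (w := w) (hKi.down w hw)
  have hC' := hL'.ctx hGL'
  have hglue' := Qt.glue_of hL'.gi hC' (fun w hw hw0 => hL'.isoK hw hw0) (fun w hw => by
    obtain ⟨D, e1, e2, e3, -⟩ := hV' w hw
    exact ⟨D, e1, e2, e3⟩)
  have hVV1 : V1 c q (fun s => emb L L' (emb K L (g s))) (emb L L' (emb K L H))
      (emb L L' G) (emb L L' (emb K L f)) := by
    intro w hw
    obtain ⟨D, e1, e2, e3, e4⟩ := hV' w hw
    exact ⟨D, e3, e4, realises_of q.toPol hskL e1 e2⟩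
  have hVV2 : V2 c q (fun s => emb L L' (emb K L (g s))) (emb L L' (emb K L H))
      (emb L L' G) (emb L L' (emb K L f)) (∑ i, u i • embP L' (π i)) := by
    intro p' hp'
    obtain ⟨d, h0, h1, h2, h3, h4⟩ := hW2 p' hp'
    exact ⟨d, h1, emb_map_zero h0 (emb K L f), h2, h3, h4⟩
  have hP0 : (emb L L' G)ᵀ * Jm n L' * ((∑ i, u i • embP L' (π i)).1 * emb L L' G) = 0 := by
    rcases Qt.mix_final R hI.posR hL'.gi hC' hglue' hfL' hP1 with h | h | h
    · exact absurd h (hniso _ (hniso _ hfK))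
    · exact h
    · exact absurd h (hNT L' _ _ hL' (by rw [finrank_bc hKi]; exact h1L) _ hGL' _ hfL'
        (hniso _ (hniso _ hfK)) hVV1 _ hP1 hVV2)
  have hNN : ∀ p ∈ NN c.arm (Jm n L) (c.N (fun s => emb K L (g s))) G,
      Gᵀ * Jm n L * (p.1 * G) = 0 := by
    intro p hp
    have hJ' : (Jm n L).map (algebraMap L L') = Jm n L' := Pol.Jm_map (algebraMap L L')
    refine lin_descent (L := L') (π := fun i => (π i).1) hu (Gᵀ * Jm n L) G ?_ ?_
    · have e1 : (∑ i, u i • embP L' (π i)).1 = ∑ i, u i • emb L L' (π i).1 := by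
        rw [Prod.fst_sum]; rfl
      rw [← e1, Matrix.map_mul, hJ', Matrix.transpose_map]
      exact hP0
    · rw [← hπ] at hp
      obtain ⟨b, hb⟩ := (Submodule.mem_span_range_iff_exists_fun L).1 hp
      rw [← hb, Prod.fst_sum]
      refine Submodule.sum_mem _ fun i _ => ?_
      exact Submodule.smul_mem _ _ (Submodule.subset_span ⟨i, rfl⟩)
  have hOm0 : ∀ d : Derivation ℂ L L,
      Om.IsY ℂ c.arm (c.B L) (c.N (fun s => emb K L (g s))) (VL (q.toPol.LH (emb K L H))) d →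
      Om.Om (Jm n L) d G G = 0 := by
    intro d hd
    obtain ⟨p, hp, hpf⟩ := Om.exists_NN hCL hd
    rw [hpf _ hFL.1]
    exact hNN p hp
  -- descent
  refine le_antisymm Om.ZZ_le_Kiso fun F hF => ⟨hF, fun G' hG' d hd => ?_⟩
  obtain ⟨p, hp, hpf⟩ := Om.exists_NN (hI.ctx hG') hd
  have h1 : Om.Om (Jm n K) d G' G' = 0 := Qt.om_zero_descent hG hκ ht hOm0 hd hG'
  rw [hpf G' hG'.1] at h1
  rw [hpf F hF.1]
  exact (hI.ctx hG').tf_zero hF.1 hp h1


end Crest.Agent.R172.Fin4
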