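import Crest.Agent.R172.FrmB
import Crest.Agent.R172.PairLift1

/-!
Row 172 (S0260): persistence of `im p` in the frame format of `FrmB` (note 16086 of helper455):
`p.map d = p * π` if the columns of `p` span `A^∞`.
-/

set_option autoImplicit false
set_option linter.unusedSectionVars false

namespace Crest.Agent.R172.FrmB

open Matrix Crest.Agent.R172.FO
open Crest.Agent.R172.PL (Wk Ainf)

variable {ι : Type*} [Fintype ι] [DecidableEq ι] {δ : Type*} [Fintype δ] [DecidableEq δ]
variable {n : Type*} [Fintype n] [DecidableEq n]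
variable {k K : Type*} [Field k] [Field K] [Algebra k K]
variable {arm : δ → Fin 3} {J : Matrix ι ι K} {B : Matrix δ δ K}
  {N W : Submodule K (Matrix ι δ K)} {F G : Matrix ι δ K} {p : Matrix ι n K}

theorem map_sum_der {α β : Type*} (d : Derivation k K K) (A : Fin 3 → Matrix α β K) :
    (∑ s, A s).map d = ∑ s, (A s).map d := by
  ext i j
  simp [Matrix.sum_apply, map_sum]

theorem exists_pi {q : Matrix ι n K}
    (h : ∀ v : n → K, q *ᵥ v ∈ LinearMap.range (Matrix.toLin' p)) :
    ∃ π : Matrix n n K, q = p * π := by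
  choose x hx using fun j : n => h (Pi.single j 1)
  refine ⟨Matrix.of fun i j => x j i, ?_⟩
  apply Matrix.ext_of_mulVec_single
  intro j
  rw [← hx j, Matrix.toLin'_apply, ← mulVec_mulVec]
  congr 1
  ext i
  simp [Matrix.mulVec_single_one, Matrix.col_apply]

/-- **persistence of `im p`** -/
theorem persist_gen {Φ : Fin 3 → Matrix ι ι K} {φ a : Fin 3 → Matrix n n K}
    (hφ : ∀ r, Φ r * p = p * φ r) (ha : ∑ r, φ r * a r = 1) {m : ℕ}
    (hm : Wk (fun r => Matrix.toLin' (Φ r)) m ≤ LinearMap.range (Matrix.toLin' p))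
    {d : Derivation k K K} (hd : ∀ r, ∃ ν : Matrix n n K, (Φ r).map d * p = p * ν) :
    ∃ π : Matrix n n K, p.map d = p * π := by
  choose ν hν using hd
  set R := LinearMap.range (Matrix.toLin' p) with hR
  have hpR : ∀ v : n → K, p *ᵥ v ∈ R := fun v => ⟨v, by rw [Matrix.toLin'_apply]⟩
  have e0 : p = ∑ r, Φ r * p * a r := by
    have : ∑ r, Φ r * p * a r = p * ∑ r, φ r * a r := by
      rw [Matrix.mul_sum]
      refine Finset.sum_congr rfl fun r _ => ?_
      rw [hφ, Matrix.mul_assoc]
    rw [this, ha, Matrix.mul_one]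
  have e1 : p.map d = ∑ r, (p * (ν r * a r) + Φ r * (p.map d * a r) + p * (φ r * (a r).map d)) := by
    conv_lhs => rw [e0]
    rw [map_sum_der]
    refine Finset.sum_congr rfl fun r _ => ?_
    rw [map_mul_der, map_mul_der, Matrix.add_mul, hν, hφ]
    simp only [Matrix.mul_assoc]
  have key : ∀ j : ℕ, ∀ v : n → K,
      p.map d *ᵥ v ∈ Wk (fun r => Matrix.toLin' (Φ r)) j ⊔ R := by
    intro j
    induction j with
    | zero =>
      intro v
      have h0 : Wk (fun r => Matrix.toLin' (Φ r)) 0 = ⊤ := rfl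
      rw [h0, top_sup_eq]
      exact Submodule.mem_top
    | succ j ih =>
      intro v
      rw [e1, Matrix.sum_mulVec]
      refine Submodule.sum_mem _ fun r _ => ?_
      rw [Matrix.add_mulVec, Matrix.add_mulVec]
      refine Submodule.add_mem _ (Submodule.add_mem _ ?_ ?_) ?_
      · rw [← mulVec_mulVec]
        exact Submodule.mem_sup_right (hpR _)
      · rw [← mulVec_mulVec, ← mulVec_mulVec]
        obtain ⟨x, hx, y, hy, hxy⟩ := Submodule.mem_sup.1 (ih (a r *ᵥ v))
        rw [← hxy, Matrix.mulVec_add]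
        refine Submodule.add_mem _ (Submodule.mem_sup_left ?_) (Submodule.mem_sup_right ?_)
        · have := PL.Wk_succ_mem (Φ := fun r => Matrix.toLin' (Φ r)) hx r
          rwa [Matrix.toLin'_apply] at this
        · obtain ⟨u, hu⟩ := hy
          rw [Matrix.toLin'_apply] at hu
          rw [← hu, mulVec_mulVec, hφ, ← mulVec_mulVec]
          exact hpR _
      · rw [← mulVec_mulVec]
        exact Submodule.mem_sup_right (hpR _)
  refine exists_pi fun v => ?_
  have h1 := key m v
  rwa [sup_eq_right.2 hm] at h1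

/-- the variation of `Φ_r = M_r(F,F) J` on `im p` along the `L`-fixed derivation -/
theorem Phi_der (hD : Data k arm J B N W) {φ : Fin 3 → Matrix n n K}
    (hφ : ∀ r, Phi arm J B F r * p = p * φ r)
    {Y : Fin 3 → Matrix n n K} {wY : Matrix ι δ K} {zY : Matrix n n K}
    (hQ : Q3 arm J B N W F p Y wY zY) {d : Derivation k K K} (hdF : F.map d = wY) (r : Fin 3) :
    ∃ ν : Matrix n n K, (Phi arm J B F r).map d * p = p * ν := by
  obtain ⟨μ, hμ⟩ := hQ.img r
  refine ⟨μ + φ r * zY, ?_⟩
  have e1 : (Phi arm J B F r).map d * p =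
      wY * E K arm r * B * (Fᵀ * J * p) + F * E K arm r * B * (wYᵀ * J * p) := by
    unfold Phi M
    rw [map_mul_der, map_mul_der, map_mul_der, map_mul_der, hD.J_const, hD.B_const, E_map_der,
      map_transpose_der, hdF]
    simp only [Matrix.mul_zero, Matrix.add_mul, add_zero, Matrix.mul_assoc]
  have e2 : F * E K arm r * B * (Fᵀ * J * p * zY) = p * (φ r * zY) := by
    have h1 := hφ r
    unfold Phi M at h1
    have h2 := congrArg (fun A => A * zY) h1
    simpa only [Matrix.mul_assoc] using h2
  rw [e1, hμ, hQ.val, e2, Matrix.mul_add]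

/-- **persistence along the `L`-fixed derivation** -/
theorem persist_Q (hD : Data k arm J B N W) {φ a : Fin 3 → Matrix n n K}
    (hφ : ∀ r, Phi arm J B F r * p = p * φ r) (ha : ∑ r, φ r * a r = 1) {m : ℕ}
    (hm : Wk (fun r => Matrix.toLin' (Phi arm J B F r)) m ≤ LinearMap.range (Matrix.toLin' p))
    {Y : Fin 3 → Matrix n n K} {wY : Matrix ι δ K} {zY : Matrix n n K}
    (hQ : Q3 arm J B N W F p Y wY zY) {d : Derivation k K K} (hdF : F.map d = wY) :
    ∃ π : Matrix n n K, p.map d = p * π :=
  persist_gen hφ ha hm fun r => Phi_der hD hφ hQ hdF r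



end Crest.Agent.R172.FrmB
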