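import Mathlib
import Crest.Agent.R172.RGen
import Crest.Agent.R172.CovI
import Crest.Agent.R172.CovF
import Crest.Agent.R172.FC2
import Crest.Agent.R172.FrmP
import Crest.Agent.R172.Pt
import Crest.Agent.R172.Fin3

-- ▼ part R172/Cov1
section

/-!
Row 172, TAME (T0), arbitrary radical and arbitrary `D`: the cover of the perfect part `P` on which
`D` is an honest operator (notes 16141 (1), 16086 (1)).

The cover is a finite dimensional space `U` of sequences `y : ℕ → V`, with `y n ∈ P` and
`Gs (y n) = Fs (y (n + 1))`, stable under `Φ r` (componentwise) and under the shift.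
-/

set_option autoImplicit false
set_option linter.unusedSectionVars false

namespace Crest.Agent.R172.Cov

open Module

variable {K : Type*} [Field K] {V : Type*} [AddCommGroup V] [Module K V]
variable {L : Type*} [AddCommGroup L] [Module K L] {τ : Type*}

/-- componentwise action on sequences -/
def hat (f : End K V) : End K (ℕ → V) := LinearMap.compLeft f ℕ

@[simp] theorem hat_apply (f : End K V) (y : ℕ → V) (n : ℕ) : hat f y n = f (y n) := rfl

/-- the shift -/
def sh : End K (ℕ → V) := LinearMap.funLeft K V Nat.succ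

@[simp] theorem sh_apply (y : ℕ → V) (n : ℕ) : sh (K := K) y n = y (n + 1) := rfl

/-- evaluation at `0` -/
def ev0 : (ℕ → V) →ₗ[K] V := LinearMap.proj 0

@[simp] theorem ev0_apply (y : ℕ → V) : ev0 (K := K) y = y 0 := rfl




/-- one step `⨆ Φ_r S` -/
def Ax (Φ : τ → End K V) (S : Submodule K V) : Submodule K V := ⨆ t, S.map (Φ t)




/-- the properties of the cover -/
structure IsCover (Φ : τ → End K V) (P R : Submodule K V) (Fs Gs : V →ₗ[K] L)
    (U : Submodule K (ℕ → V)) : Prop where
  fin : FiniteDimensional K U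
  mem : ∀ y ∈ U, ∀ n, y n ∈ P
  rel : ∀ y ∈ U, ∀ n, Gs (y n) = Fs (y (n + 1))
  hat_mem : ∀ t, ∀ y ∈ U, hat (Φ t) y ∈ U
  sh_mem : ∀ y ∈ U, sh (K := K) y ∈ U
  perf : U = Ax (fun t => hat (Φ t)) U
  onto : U.map (ev0 (K := K)) = P
  rad : ∀ y ∈ U, y 0 ∈ R → ∀ n, y n ∈ R

section construct

variable {Φ : τ → End K V} {P R : Submodule K V} {Fs Gs : V →ₗ[K] L}


/-- the sequence `n ↦ a (σ ^ n q)` -/
def sq (σ : End K P) : End K P →ₗ[K] P →ₗ[K] (ℕ → V) :=
  LinearMap.mk₂ K (fun a q n => ((a ((σ ^ n) q) : P) : V))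
    (fun a a' q => by funext n; simp) (fun c a q => by funext n; simp)
    (fun a q q' => by funext n; simp) (fun c a q => by funext n; simp)

@[simp] theorem sq_apply (σ : End K P) (a : End K P) (q : P) (n : ℕ) :
    sq σ a q n = ((a ((σ ^ n) q) : P) : V) := rfl
















end construct

namespace IsCover

variable {Φ : τ → End K V} {P R : Submodule K V} {Fs Gs : V →ₗ[K] L} {U : Submodule K (ℕ → V)}

/-- the operators on the cover -/
def al (h : IsCover Φ P R Fs Gs U) (t : τ) : End K U := (hat (Φ t)).restrict (h.hat_mem t)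

/-- `D` on the cover -/
def tau (h : IsCover Φ P R Fs Gs U) : End K U := (sh (K := K)).restrict h.sh_mem

/-- the map to `V` -/
def pi (_h : IsCover Φ P R Fs Gs U) : U →ₗ[K] V := ev0 (K := K) ∘ₗ U.subtype

variable (h : IsCover Φ P R Fs Gs U)

@[simp] theorem pi_apply (y : U) : h.pi y = (y : ℕ → V) 0 := rfl

@[simp] theorem al_coe (t : τ) (y : U) : (h.al t y : ℕ → V) = hat (Φ t) y := rfl

@[simp] theorem tau_coe (y : U) : (h.tau y : ℕ → V) = sh (K := K) (y : ℕ → V) := rfl

theorem al_tau (t : τ) (y : U) : h.al t (h.tau y) = h.tau (h.al t y) := rfl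


theorem rel_pi (y : U) : Gs (h.pi y) = Fs (h.pi (h.tau y)) := h.rel y y.2 0


theorem range_pi : LinearMap.range h.pi = P := by
  unfold pi
  rw [LinearMap.range_comp, Submodule.range_subtype, h.onto]


/-- `U` is perfect -/
theorem perfect [Fintype τ] (y : U) : ∃ f : τ → U, y = ∑ t, h.al t (f t) := by
  have h1 : (y : ℕ → V) ∈ ⨆ t, U.map (hat (Φ t)) := (le_of_eq h.perf) y.2
  obtain ⟨f, hf, hs⟩ := (Submodule.mem_iSup_iff_exists_finsupp _ _).1 h1
  choose g hg1 hg2 using hf
  refine ⟨fun t => ⟨g t, hg1 t⟩, ?_⟩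
  apply Subtype.ext
  rw [AddSubmonoidClass.coe_finsetSum]
  rw [← hs, Finsupp.sum_fintype _ _ (fun _ => rfl)]
  exact Finset.sum_congr rfl fun t _ => (hg2 t).symm










end IsCover

end Crest.Agent.R172.Cov
end

-- ▼ part R172/Cov2
section

/-!
Row 172, TAME (T0): blocks of the cover `U` of `Cov1`: generalised eigenspaces of `tau`.
-/

set_option autoImplicit false
set_option linter.unusedSectionVars false

namespace Crest.Agent.R172.Cov2

open Module LinearMap Crest.Agent.R172.Cov

section fit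

variable {K : Type*} [Field K] {W : Type*} [AddCommGroup W] [Module K W]





theorem E_of_comm {f A : End K W} (hc : ∀ y, A (f y) = f (A y)) {μ : K} {x : W}
    (hx : x ∈ f.maxGenEigenspace μ) : A x ∈ f.maxGenEigenspace μ := by
  rw [Module.End.mem_maxGenEigenspace] at hx ⊢
  obtain ⟨n, hn⟩ := hx
  refine ⟨n, ?_⟩
  have hcc : Commute A (f - μ • (1 : End K W)) := by
    apply LinearMap.ext
    intro z
    simp [hc]
  have h1 := congrArg (fun g => g x) (hcc.pow_right n).eq
  simp only [Module.End.mul_apply] at h1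
  rw [← h1, hn, map_zero]





end fit

/-- the data of the core: `ρ : P → M` onto with kernel `R`, `D` on `M` -/
structure OnCore {K : Type*} [Field K] {V : Type*} [AddCommGroup V] [Module K V]
    {L : Type*} [AddCommGroup L] [Module K L] {M : Type*} [AddCommGroup M] [Module K M]
    {τ : Type*} (Φ : τ → End K V) (P R : Submodule K V) (Fs Gs : V →ₗ[K] L)
    (ρ : V →ₗ[K] M) (Ψ : τ → End K M) (D : End K M) : Prop where
  ker_iff : ∀ p ∈ P, ρ p = 0 ↔ p ∈ R
  onto : ∀ m, ∃ p ∈ P, ρ p = m
  comm : ∀ t, ∀ p ∈ P, ρ (Φ t p) = Ψ t (ρ p)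
  rel : ∀ p ∈ P, ∀ q ∈ P, Gs p = Fs q → ρ q = D (ρ p)

variable {K : Type*} [Field K] {V : Type*} [AddCommGroup V] [Module K V]
variable {L : Type*} [AddCommGroup L] [Module K L] {M : Type*} [AddCommGroup M] [Module K M]
variable {τ : Type*} {Φ : τ → End K V} {P R : Submodule K V} {Fs Gs : V →ₗ[K] L}
variable {ρ : V →ₗ[K] M} {Ψ : τ → End K M} {D : End K M}


section blocks

variable {U : Submodule K (ℕ → V)} (h : IsCover Φ P R Fs Gs U) (c : OnCore Φ P R Fs Gs ρ Ψ D)










/-- the block of `μ` -/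
def Um (h : IsCover Φ P R Fs Gs U) (μ : K) : Submodule K U := h.tau.maxGenEigenspace μ

theorem Um_al {μ : K} (t : τ) {y : U} (hy : y ∈ Um h μ) : h.al t y ∈ Um h μ :=
  E_of_comm (fun y => h.al_tau t y) hy

theorem Um_tau {μ : K} {y : U} (hy : y ∈ Um h μ) : h.tau y ∈ Um h μ :=
  E_of_comm (fun _ => rfl) hy








/-- the operators on the block -/
def alU (h : IsCover Φ P R Fs Gs U) (μ : K) (t : τ) : End K (Um h μ) :=
  (h.al t).restrict fun _ hy => Um_al h t hy

/-- `D` on the block -/
def tauU (h : IsCover Φ P R Fs Gs U) (μ : K) : End K (Um h μ) :=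
  h.tau.restrict fun _ hy => Um_tau h hy

@[simp] theorem alU_coe {μ : K} (t : τ) (y : Um h μ) :
    ((alU h μ t y : Um h μ) : U) = h.al t y := rfl

@[simp] theorem tauU_coe {μ : K} (y : Um h μ) : ((tauU h μ y : Um h μ) : U) = h.tau y := rfl













end blocks

end Crest.Agent.R172.Cov2
end

-- ▼ part R172/FrI
section

/-!
Row 172, TAME (T0), any radical: the frame (coordinates on the cover) and the parameters `t`.
-/

set_option autoImplicit false
set_option linter.unusedSectionVars false
set_option maxHeartbeats 400000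

namespace Crest.Agent.R172.FrI

open Module Matrix Crest.Agent.R172.FO Crest.Agent.R172.DerG Crest.Agent.R172.Cov
open Crest.Agent.R172.CovF (fr fr_repr toMatrix_equivFun ext_mulVec)
open Crest.Agent.R172.CovI (st lo)

variable {ι : Type*} [Fintype ι] [DecidableEq ι] {δ : Type*} [Fintype δ] [DecidableEq δ]
variable {k K : Type*} [Field k] [Field K] [Algebra k K]
variable {arm : δ → Fin 3} {J : Matrix ι ι K} {B : Matrix δ δ K}
  {N W : Submodule K (Matrix ι δ K)} {F G : Matrix ι δ K}
variable {R : Submodule K (ι → K)} {U : Submodule K (ℕ → (ι → K))}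

/-- `1 + t f` is invertible if `-1/t` is not an eigenvalue -/
theorem exists_inv {V' : Type*} [AddCommGroup V'] [Module K V'] [FiniteDimensional K V']
    (f : Module.End K V') (t : K) (ht : ∀ ν, f.maxGenEigenspace ν ≠ ⊥ → 1 + t * ν ≠ 0) :
    ∃ σ : Module.End K V', (1 + t • f) * σ = 1 ∧ σ * (1 + t • f) = 1 := by
  have hinj : Function.Injective (1 + t • f : Module.End K V') := by
    rw [← LinearMap.ker_eq_bot, LinearMap.ker_eq_bot']
    intro v hv
    have hv' : v + t • f v = 0 := hv
    by_cases h0 : t = 0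
    · subst h0
      simpa using hv'
    · by_contra hne
      have h1 : f v = (-t⁻¹) • v := by
        have h2 : t • f v = -v := by
          rw [eq_neg_iff_add_eq_zero, add_comm]; exact hv'
        calc f v = t⁻¹ • (t • f v) := by rw [smul_smul, inv_mul_cancel₀ h0, one_smul]
          _ = _ := by rw [h2, smul_neg]; exact (neg_smul _ _).symm
      have h3 : v ∈ f.maxGenEigenspace (-t⁻¹) := by
        rw [Module.End.mem_maxGenEigenspace]
        refine ⟨1, ?_⟩
        rw [pow_one, LinearMap.sub_apply, h1]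
        exact sub_self _
      refine ht (-t⁻¹) (fun h => hne ?_) ?_
      · rw [h, Submodule.mem_bot] at h3
        exact h3
      · rw [mul_neg, mul_inv_cancel₀ h0]
        ring
  let E := LinearEquiv.ofInjectiveEndo (1 + t • f : Module.End K V') hinj
  refine ⟨E.symm, ?_, ?_⟩
  · apply LinearMap.ext
    intro v
    exact E.apply_symm_apply v
  · apply LinearMap.ext
    intro v
    exact E.symm_apply_apply v

/-- words map `V` into `Tp` -/
theorem wd_mem_Tp (hD : FO.Data k arm J B N W) {H : Matrix ι δ K} (hH : H ∈ N ⊓ W) {m : ℕ}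
    (hm : St.T (DerG.Ph arm J B H) ≤ St.Nk (DerG.Ph arm J B H) m) {l : List (Fin 3)}
    (hl : l.length = m) (v : ι → K) :
    QN.wd (Phi arm J B H) l *ᵥ v ∈ St.Tp (BJ J) (DerG.Ph arm J B H) := by
  have hsa := (CovI.pen (k := k) hD hH hH).Ph_sa
  rw [CovI.Ph_eq] at hsa
  intro t ht
  rw [← Pt.wd_toLin]
  have h1 := Core.wd_adj (B := BJ J) (Φ := DerG.Ph arm J B H) hsa l v t
  have h2 : Core.wd (DerG.Ph arm J B H) l.reverse t = 0 := by
    have h3 := hm ht
    rw [Core.mem_Nk_iff] at h3
    exact h3 _ (by rw [List.length_reverse, hl])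
  rw [h2, map_zero] at h1
  exact h1

section frame

variable (hc : IsCover (DerG.Ph arm J B F) (St.Tp (BJ J) (DerG.Ph arm J B F)) R (st J F) (st J G) U)
variable {a : ℕ} (b : Module.Basis (Fin a) K U)

/-- the frame -/
noncomputable abbrev pf : Matrix ι (Fin a) K := fr b hc.pi

/-- the matrix of `Φ_s` -/
noncomputable abbrev af (s : Fin 3) : Matrix (Fin a) (Fin a) K := LinearMap.toMatrix b b (hc.al s)

/-- the matrix of `D` -/
noncomputable abbrev tf : Matrix (Fin a) (Fin a) K := LinearMap.toMatrix b b hc.tau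

theorem pf_repr (y : U) : pf hc b *ᵥ b.equivFun y = hc.pi y := fr_repr b hc.pi y
theorem af_repr (s : Fin 3) (y : U) : af hc b s *ᵥ b.equivFun y = b.equivFun (hc.al s y) :=
  toMatrix_equivFun b _ y
theorem tf_repr (y : U) : tf hc b *ᵥ b.equivFun y = b.equivFun (hc.tau y) :=
  toMatrix_equivFun b _ y

/-- `FC.Ctx` from the cover -/
theorem ctx (hD : FO.Data k arm J B N W) (hF : F ∈ N ⊓ W) (hG : G ∈ N ⊓ W) :
    FC.Ctx k arm J B N W F G (pf hc b) (af hc b) (tf hc b) where
  data := hD
  memF := hF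
  memG := hG
  hal s := by
    apply ext_mulVec b
    intro x
    rw [← mulVec_mulVec, pf_repr, ← mulVec_mulVec, af_repr, pf_repr]
    rfl
  perf := by
    choose f hf using fun j => hc.perfect (b j)
    refine ⟨fun s => Matrix.of fun i j => b.equivFun (f j s) i, ?_⟩
    have h1 : ∀ (s : Fin 3) (j : Fin a),
        (Matrix.of fun i j => b.equivFun (f j s) i : Matrix (Fin a) (Fin a) K) *ᵥ
          Pi.single j 1 = b.equivFun (f j s) := by
      intro s j
      rw [mulVec_single_one]
      rfl
    apply Matrix.ext_of_mulVec_single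
    intro j
    rw [Matrix.sum_mulVec]
    have h2 : ∀ s : Fin 3, (af hc b s * (Matrix.of fun i j => b.equivFun (f j s) i)) *ᵥ
        Pi.single j 1 = b.equivFun (hc.al s (f j s)) := by
      intro s
      rw [← mulVec_mulVec, h1, af_repr]
    rw [Finset.sum_congr rfl fun s _ => h2 s, ← map_sum, ← hf j, one_mulVec]
    ext i
    simp [Pi.single_apply, eq_comm]
  hτ := by
    apply ext_mulVec b
    intro x
    rw [← mulVec_mulVec, pf_repr]
    have g2 : (Fᵀ * J * pf hc b * tf hc b) *ᵥ (b.equivFun x) =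
        (Fᵀ * J) *ᵥ (pf hc b *ᵥ (tf hc b *ᵥ (b.equivFun x))) := by
      rw [mulVec_mulVec, mulVec_mulVec, Matrix.mul_assoc (Fᵀ * J)]
    rw [g2, tf_repr, pf_repr]
    exact hc.rel_pi x
  comm s := by
    apply ext_mulVec b
    intro x
    rw [← mulVec_mulVec, ← mulVec_mulVec, af_repr, tf_repr, tf_repr, af_repr, hc.al_tau]

/-- `FC.Par` for a constant `t` such that `1 + t tau` is invertible and `F + t G` is generic -/
theorem par [CharZero K] (hD : FO.Data k arm J B N W) (hF : Generic k arm N W F) (t : k)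
    (hH : Generic k arm N W (F + algebraMap k K t • G))
    {σ : Module.End K U} (hσ : (1 + algebraMap k K t • hc.tau) * σ = 1) :
    FC.Par k arm J B N W F G (pf hc b) (tf hc b) (algebraMap k K t)
      (1 + algebraMap k K t • tf hc b) (LinearMap.toMatrix b b σ) where
  const := ⟨t, rfl⟩
  gen := hH
  kap_eq := rfl
  mul := by
    apply ext_mulVec b
    intro x
    rw [← mulVec_mulVec, toMatrix_equivFun, Matrix.add_mulVec, one_mulVec, Matrix.smul_mulVec,
      tf_repr, one_mulVec, ← map_smul, ← map_add]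
    congr 1
    exact LinearMap.congr_fun hσ x
  nil := by
    obtain ⟨m, hm⟩ := St.T_eq_Nk (DerG.Ph arm J B (F + algebraMap k K t • G))
    refine ⟨m, fun w hw => ?_⟩
    have h1 : ∀ v : ι → K, ∃ y : U, (w.map (Phi arm J B (F + algebraMap k K t • G))).prod *ᵥ v
        = hc.pi y := by
      intro v
      have h2 := wd_mem_Tp hD hH.mem hm.le hw v
      rw [Pt.Tp_eq hD hF hH (BJ J), ← hc.range_pi] at h2
      obtain ⟨y, hy⟩ := h2
      exact ⟨y, hy.symm⟩
    choose y hy using fun j : ι => h1 (Pi.single j 1)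
    refine ⟨Matrix.of fun i j => b.equivFun (y j) i, ?_⟩
    apply Matrix.ext_of_mulVec_single
    intro j
    rw [hy, ← mulVec_mulVec]
    have h3 : (Matrix.of fun i j => b.equivFun (y j) i : Matrix (Fin a) ι K) *ᵥ
          Pi.single j 1 = b.equivFun (y j) := by
      rw [mulVec_single_one]
      rfl
    rw [h3, pf_repr]


/-- `FrmB.Vt` -/
theorem vt (hG : GenOver k arm N W F G) : FrmB.Vt k arm N W F G :=
  ⟨hG.mem, fun F' hF' => hG.vert F' hF'⟩

end frame

end Crest.Agent.R172.FrI
end

-- ▼ part R172/FrU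

/-!
Row 172, TAME (T0), any radical: the frame of ANY abstract cover `π : X → V` (in particular the
universal cover of `R172/Cov.lean`): `FC.Ctx` and `FC.Par`.
-/

set_option autoImplicit false
set_option linter.unusedSectionVars false
set_option maxHeartbeats 400000

namespace Crest.Agent.R172.FrU

open Module Matrix Crest.Agent.R172.FO Crest.Agent.R172.DerG
open Crest.Agent.R172.CovF (fr fr_repr toMatrix_equivFun ext_mulVec)

variable {ι : Type*} [Fintype ι] [DecidableEq ι] {δ : Type*} [Fintype δ] [DecidableEq δ]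
variable {k K : Type*} [Field k] [Field K] [Algebra k K]
variable {arm : δ → Fin 3} {J : Matrix ι ι K} {B : Matrix δ δ K}
  {N W : Submodule K (Matrix ι δ K)} {F G : Matrix ι δ K}
variable {X : Type*} [AddCommGroup X] [Module K X] {A : Fin 3 → End K X} {D : End K X}
  {π : X →ₗ[K] (ι → K)}

/-- an abstract cover of `P = Tp` -/
structure ACov (arm : δ → Fin 3) (J : Matrix ι ι K) (B : Matrix δ δ K) (F G : Matrix ι δ K)
    (A : Fin 3 → End K X) (D : End K X) (π : X →ₗ[K] (ι → K)) : Prop where
  piA : ∀ s x, π (A s x) = Phi arm J B F s *ᵥ π x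
  rel : ∀ x, (Gᵀ * J) *ᵥ π x = (Fᵀ * J) *ᵥ π (D x)
  comm : ∀ s x, A s (D x) = D (A s x)
  perf : ∀ x, ∃ f : Fin 3 → X, x = ∑ s, A s (f s)
  range : LinearMap.range π = St.Tp (BJ J) (DerG.Ph arm J B F)

variable (hc : ACov arm J B F G A D π)
variable {a : ℕ} (b : Module.Basis (Fin a) K X)

/-- the frame -/
noncomputable abbrev pf (π : X →ₗ[K] (ι → K)) : Matrix ι (Fin a) K := fr b π

/-- the matrix of an operator -/
noncomputable abbrev mf (T : End K X) : Matrix (Fin a) (Fin a) K := LinearMap.toMatrix b b T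

include hc in
/-- `FC.Ctx` from the cover -/
theorem ctx (hD : FO.Data k arm J B N W) (hF : F ∈ N ⊓ W) (hG : G ∈ N ⊓ W) :
    FC.Ctx k arm J B N W F G (pf b π) (fun s => mf b (A s)) (mf b D) where
  data := hD
  memF := hF
  memG := hG
  hal s := by
    apply ext_mulVec b
    intro x
    rw [← mulVec_mulVec, fr_repr, ← mulVec_mulVec, toMatrix_equivFun, fr_repr, hc.piA]
  perf := by
    choose f hf using fun j => hc.perf (b j)
    refine ⟨fun s => Matrix.of fun i j => b.equivFun (f j s) i, ?_⟩
    have h1 : ∀ (s : Fin 3) (j : Fin a),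
        (Matrix.of fun i j => b.equivFun (f j s) i : Matrix (Fin a) (Fin a) K) *ᵥ
          Pi.single j 1 = b.equivFun (f j s) := by
      intro s j
      rw [mulVec_single_one]
      rfl
    apply Matrix.ext_of_mulVec_single
    intro j
    rw [Matrix.sum_mulVec]
    have h2 : ∀ s : Fin 3, (mf b (A s) * (Matrix.of fun i j => b.equivFun (f j s) i)) *ᵥ
        Pi.single j 1 = b.equivFun (A s (f j s)) := by
      intro s
      rw [← mulVec_mulVec, h1, toMatrix_equivFun]
    rw [Finset.sum_congr rfl fun s _ => h2 s, ← map_sum, ← hf j, one_mulVec]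
    ext i
    simp [Pi.single_apply, eq_comm]
  hτ := by
    apply ext_mulVec b
    intro x
    rw [← mulVec_mulVec, fr_repr]
    have g2 : (Fᵀ * J * pf b π * mf b D) *ᵥ (b.equivFun x) =
        (Fᵀ * J) *ᵥ (pf b π *ᵥ (mf b D *ᵥ (b.equivFun x))) := by
      rw [mulVec_mulVec, mulVec_mulVec, Matrix.mul_assoc (Fᵀ * J)]
    rw [g2, toMatrix_equivFun, fr_repr]
    exact hc.rel x
  comm s := by
    apply ext_mulVec b
    intro x
    rw [← mulVec_mulVec, ← mulVec_mulVec, toMatrix_equivFun, toMatrix_equivFun,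
      toMatrix_equivFun, toMatrix_equivFun, hc.comm]

include hc in
/-- `FC.Par` for a constant `t` such that `1 + t D` is invertible -/
theorem par [CharZero K] (hD : FO.Data k arm J B N W) (hF : Generic k arm N W F) (t : k)
    (hH : Generic k arm N W (F + algebraMap k K t • G))
    {σ : Module.End K X} (hσ : (1 + algebraMap k K t • D) * σ = 1) :
    FC.Par k arm J B N W F G (pf b π) (mf b D) (algebraMap k K t)
      (1 + algebraMap k K t • mf b D) (mf b σ) where
  const := ⟨t, rfl⟩
  gen := hH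
  kap_eq := rfl
  mul := by
    apply ext_mulVec b
    intro x
    rw [← mulVec_mulVec, toMatrix_equivFun, Matrix.add_mulVec, one_mulVec, Matrix.smul_mulVec,
      toMatrix_equivFun, one_mulVec, ← map_smul, ← map_add]
    congr 1
    exact LinearMap.congr_fun hσ x
  nil := by
    obtain ⟨m, hm⟩ := St.T_eq_Nk (DerG.Ph arm J B (F + algebraMap k K t • G))
    refine ⟨m, fun w hw => ?_⟩
    have h1 : ∀ v : ι → K, ∃ y : X, (w.map (Phi arm J B (F + algebraMap k K t • G))).prod *ᵥ v
        = π y := by
      intro v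
      have h2 := FrI.wd_mem_Tp hD hH.mem hm.le hw v
      rw [Pt.Tp_eq hD hF hH (BJ J), ← hc.range] at h2
      obtain ⟨y, hy⟩ := h2
      exact ⟨y, hy.symm⟩
    choose y hy using fun j : ι => h1 (Pi.single j 1)
    refine ⟨Matrix.of fun i j => b.equivFun (y j) i, ?_⟩
    apply Matrix.ext_of_mulVec_single
    intro j
    rw [hy, ← mulVec_mulVec]
    have h3 : (Matrix.of fun i j => b.equivFun (y j) i : Matrix (Fin a) ι K) *ᵥ
          Pi.single j 1 = b.equivFun (y j) := by
      rw [mulVec_single_one]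
      rfl
    rw [h3, fr_repr]



end Crest.Agent.R172.FrU
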