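import Crest.Agent.R172.NilPat3

/-!
Row 172: a jointly nilpotent family is `Good` for some weighted basis.
-/

set_option autoImplicit false
set_option linter.unusedSectionVars false
set_option linter.unusedSimpArgs false

namespace Crest.Agent.R172.Kempf

open Module

variable {k V ι κ : Type*} [Field k] [AddCommGroup V] [Module k V]

/-- `Kfil M j`: vectors killed by all words of length `j`. -/
def Kfil (M : κ → V →ₗ[k] V) : ℕ → Submodule k V
  | 0 => ⊥
  | j + 1 => ⨅ s, (Kfil M j).comap (M s)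

theorem mem_Kfil_succ {M : κ → V →ₗ[k] V} {j : ℕ} {v : V} :
    v ∈ Kfil M (j + 1) ↔ ∀ s, M s v ∈ Kfil M j := by
  rw [Kfil, Submodule.mem_iInf]; rfl

theorem Kfil_le_succ (M : κ → V →ₗ[k] V) : ∀ j, Kfil M j ≤ Kfil M (j + 1)
  | 0 => by
    intro v hv
    rw [Kfil, Submodule.mem_bot] at hv
    rw [hv]; exact Submodule.zero_mem _
  | j + 1 => by
    intro v hv
    rw [mem_Kfil_succ] at hv ⊢
    exact fun s => Kfil_le_succ M j (hv s)

theorem Kfil_mono (M : κ → V →ₗ[k] V) : Monotone (Kfil M) :=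
  monotone_nat_of_le_succ (Kfil_le_succ M)

theorem mem_Kfil_iff {M : κ → V →ₗ[k] V} {j : ℕ} {v : V} :
    v ∈ Kfil M j ↔ ∀ l : List κ, l.length = j → (l.map M).prod v = 0 := by
  induction j generalizing v with
  | zero =>
    rw [Kfil, Submodule.mem_bot]
    constructor
    · rintro rfl l _; simp
    · intro h; simpa using h [] rfl
  | succ j ih =>
    rw [mem_Kfil_succ]
    constructor
    · intro h l hl
      obtain ⟨l', s, rfl⟩ : ∃ l' s, l = l' ++ [s] := by
        rcases List.eq_nil_or_concat l with h0 | ⟨l', s, h1⟩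
        · rw [h0] at hl; simp at hl
        · exact ⟨l', s, by simpa using h1⟩
      have hl' : l'.length = j := by simpa using hl
      have := (ih.1 (h s)) l' hl'
      simpa using this
    · intro h s
      rw [ih]
      intro l hl
      have := h (l ++ [s]) (by simp [hl])
      simpa using this

theorem Kfil_eq_top_of_words {M : κ → V →ₗ[k] V} {m : ℕ}
    (h : ∀ l : List κ, l.length = m → (l.map M).prod = 0) : Kfil M m = ⊤ := by
  rw [eq_top_iff]
  intro v _
  rw [mem_Kfil_iff]
  intro l hl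
  rw [h l hl]; rfl

theorem good_of_Kfil [Fintype ι] (e : Basis ι k V) (M : κ → V →ₗ[k] V) (m : ℕ)
    (h : Kfil M m = ⊤) : ∃ (e' : Basis ι k V) (w : ι → ℝ), Good M e' w := by
  classical
  obtain ⟨g, lev, hlev1, -, hspan⟩ :=
    NilPat.exists_adapted_chain e (Kfil M) (Kfil_mono M) rfl m h
  refine ⟨g, fun i => -(lev i : ℝ), ?_⟩
  rw [good_iff]
  intro s i j hj
  obtain ⟨n, hn⟩ : ∃ n, lev i = n + 1 := ⟨lev i - 1, by have := hlev1 i; omega⟩
  have h1 : g i ∈ Kfil M (n + 1) := by
    rw [hspan]; exact Submodule.subset_span ⟨i, hn.le, rfl⟩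
  have h2 : M s (g i) ∈ Kfil M n := mem_Kfil_succ.1 h1 s
  rw [hspan, g.mem_span_image] at h2
  have h3 : lev j ≤ n := h2 (by simpa using hj)
  have h4 : (lev j : ℝ) ≤ n := by exact_mod_cast h3
  have h5 : (lev i : ℝ) = n + 1 := by exact_mod_cast hn
  linarith

end Crest.Agent.R172.Kempf
private theorem rz_6070d04d73 : type_of% @_root_.Crest.Agent.R172.Kempf.Kfil.eq_def := @_root_.Crest.Agent.R172.Kempf.Kfil.eq_def -- L18
private theorem rz_071b3d3d04 : type_of% @_root_.Crest.Agent.R172.Kempf.Kfil.eq_1 := @_root_.Crest.Agent.R172.Kempf.Kfil.eq_1 -- L18
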