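import Crest.Agent.R172.Slack1
import Crest.Agent.R172.TameCount5

-- ▼ part R172/TG1
section

/-!
Row 172, TAME (t1'), R = 0: the end of the c-scaling proof (helper813's 14722 (4)).

* `SS arm N F P s` = `SS_s + TT_s`: the `A` with `(A + z) F_s ∈ N`, `z F_t ∈ N` (`t ≠ s`), `z P = 0`.
* `glue`: `X` skew, `X = P X P`, `X ∈ SS s` for all `s` implies `X = 0`.
* `tame_false`: if `range P` is tame and every `A` preserving all `range (Φ_s ^ j)` of the arm `s`
  lies in `SS s`, contradiction.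
-/

set_option autoImplicit false
set_option linter.unusedSectionVars false

namespace Crest.Agent.R172.TG

open Matrix Module Crest.Agent.R172.FO Crest.Agent.R172.Core

variable {ι : Type*} [Fintype ι] [DecidableEq ι] {δ : Type*} [Fintype δ] [DecidableEq δ]
variable {k K : Type*} [Field k] [Field K] [Algebra k K]
variable {arm : δ → Fin 3} {J : Matrix ι ι K} {B : Matrix δ δ K}
  {N W : Submodule K (Matrix ι δ K)} {F : Matrix ι δ K} {P : Matrix ι ι K}

/-- `SS_s + TT_s` of note 14722 -/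
def SS (arm : δ → Fin 3) (N : Submodule K (Matrix ι δ K)) (F : Matrix ι δ K) (P : Matrix ι ι K)
    (s : Fin 3) : Submodule K (Matrix ι ι K) where
  carrier := {A | ∃ z : Matrix ι ι K, z * P = 0 ∧ (A + z) * F * E K arm s ∈ N ∧
    ∀ t, t ≠ s → z * F * E K arm t ∈ N}
  add_mem' := by
    rintro A A' ⟨z, h1, h2, h3⟩ ⟨z', h1', h2', h3'⟩
    refine ⟨z + z', by rw [Matrix.add_mul, h1, h1', add_zero], ?_, fun t ht => ?_⟩
    · have e : (A + A' + (z + z')) * F * E K arm s
          = (A + z) * F * E K arm s + (A' + z') * F * E K arm s := by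
        rw [← Matrix.add_mul, ← Matrix.add_mul]
        congr 2
        abel
      rw [e]
      exact N.add_mem h2 h2'
    · rw [Matrix.add_mul, Matrix.add_mul]
      exact N.add_mem (h3 t ht) (h3' t ht)
  zero_mem' := ⟨0, by simp, by simp, fun t _ => by simp⟩
  smul_mem' := by
    rintro c A ⟨z, h1, h2, h3⟩
    refine ⟨c • z, by rw [Matrix.smul_mul, h1, smul_zero], ?_, fun t ht => ?_⟩
    · rw [← smul_add, Matrix.smul_mul, Matrix.smul_mul]
      exact N.smul_mem c h2
    · rw [Matrix.smul_mul, Matrix.smul_mul]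
      exact N.smul_mem c (h3 t ht)


/-- **the glue**: the conclusion of the c-scaling proof. -/
theorem glue (hD : Data k arm J B N W) (h2 : (2 : K) ≠ 0) (hF : F ∈ N ⊓ W)
    {R : Matrix δ ι K} (hR : F * R = P) (hPJ : Pᵀ * J = J * P) {X : Matrix ι ι K}
    (hX : Xᵀ * J + J * X = 0) (hPX : P * X = X) (hXP : X * P = X)
    (hS : ∀ s, X ∈ SS arm N F P s) : X = 0 := by
  choose z hz1 hz2 hz3 using hS
  have hGN : (X + ∑ s, z s) * F ∈ N := by
    have e : (X + ∑ s, z s) * F = ∑ t, (X + ∑ s, z s) * F * E K arm t := by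
      rw [← Matrix.mul_sum, sum_E, Matrix.mul_one]
    rw [e]
    refine N.sum_mem fun t _ => ?_
    have e2 : (X + ∑ s, z s) * F * E K arm t
        = (X + z t) * F * E K arm t + ∑ s ∈ Finset.univ.erase t, z s * F * E K arm t := by
      rw [← Finset.add_sum_erase _ z (Finset.mem_univ t), ← add_assoc, Matrix.add_mul,
        Matrix.add_mul, Matrix.sum_mul, Matrix.sum_mul]
    rw [e2]
    refine N.add_mem (hz2 t) (N.sum_mem fun s hs => ?_)
    exact hz3 s t (Finset.ne_of_mem_erase hs).symm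
  have hG : (X + ∑ s, z s) * F ∈ N ⊓ W := ⟨hGN, hD.W_left _ hF.2 _⟩
  have hsym := hD.symm_U hF hG
  have hGR : (X + ∑ s, z s) * F * R = X := by
    rw [Matrix.mul_assoc, hR, Matrix.add_mul, Matrix.sum_mul, hXP,
      Finset.sum_eq_zero fun s _ => hz1 s, add_zero]
  have h3 : Xᵀ * J * P = Pᵀ * J * X := by
    have e1 : Rᵀ * (((X + ∑ s, z s) * F)ᵀ * J * F) * R = Xᵀ * J * P := by
      calc Rᵀ * (((X + ∑ s, z s) * F)ᵀ * J * F) * R
          = ((X + ∑ s, z s) * F * R)ᵀ * J * (F * R) := by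
            rw [transpose_mul _ R]; simp only [Matrix.mul_assoc]
        _ = _ := by rw [hGR, hR]
    have e2 : Rᵀ * (Fᵀ * J * ((X + ∑ s, z s) * F)) * R = Pᵀ * J * X := by
      calc Rᵀ * (Fᵀ * J * ((X + ∑ s, z s) * F)) * R
          = (F * R)ᵀ * J * ((X + ∑ s, z s) * F * R) := by
            rw [transpose_mul _ R]; simp only [Matrix.mul_assoc]
        _ = _ := by rw [hGR, hR]
    rw [← e1, ← e2, hsym]
  have h4 : Xᵀ * J = -(J * X) := eq_neg_of_add_eq_zero_left hX
  rw [h4, hPJ, Matrix.mul_assoc J P X, hPX, Matrix.neg_mul, Matrix.mul_assoc, hXP] at h3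
  have h5 : (2 : K) • (J * X) = 0 := by
    rw [two_smul]
    nth_rewrite 1 [← h3]
    exact neg_add_cancel _
  have h6 : J * X = 0 := (smul_eq_zero.1 h5).resolve_left h2
  obtain ⟨Ji, hJi, hJi', _⟩ := symm_inv hD.J_symm hD.J_unit
  calc X = Ji * (J * X) := by rw [← Matrix.mul_assoc, hJi', Matrix.one_mul]
    _ = 0 := by rw [h6, Matrix.mul_zero]


section tame

variable {M : Submodule K (ι → K)}

/-- projection onto `M` given by the projector matrix `P` -/
def prM (P : Matrix ι ι K) (hM : ∀ v, v ∈ M ↔ ∃ w, v = P *ᵥ w) : (ι → K) →ₗ[K] M :=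
  (toLin' P).codRestrict M fun v => (hM _).2 ⟨v, toLin'_apply P v⟩



/-- extension of an endomorphism of `M` by zero on `ker P`, as a matrix -/
def hat (P : Matrix ι ι K) (hM : ∀ v, v ∈ M ↔ ∃ w, v = P *ᵥ w) :
    (Module.End K M) →ₗ[K] Matrix ι ι K :=
  LinearMap.toMatrix'.toLinearMap ∘ₗ
    (LinearMap.llcomp K (ι → K) M (ι → K) M.subtype ∘ₗ LinearMap.lcomp K M (prM P hM))







theorem adj {A A' : Matrix ι ι K} (h : Aᵀ * J = J * A') (v w : ι → K) :
    (A *ᵥ v) ⬝ᵥ (J *ᵥ w) = v ⬝ᵥ (J *ᵥ (A' *ᵥ w)) := by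
  rw [dotProduct_comm, dotProduct_mulVec, ← Matrix.transpose_transpose A, vecMul_transpose,
    mulVec_mulVec, h, ← mulVec_mulVec, dotProduct_comm]



end tame

end Crest.Agent.R172.TG
end

-- ▼ part R172/TG2

/-!
Row 172, TAME (T0), node N4 of MASTER v3: the END in the quotient-space form (notes 15122, 15129).

* `QQ J N W F e`: `Y` with `Y - z F - h ∈ N`, `z` self-adjoint, `h ∈ W`, `e h = 0`.
* `glueQQ`: `X` skew, `X = e X e`, `X F E_s ∈ QQ` for all arms `s` implies `X = 0`.
* `tame_falseR`: arbitrary radical: every `A` filtered at all arms has a lift `A'` (`e A' e = A`) with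
  `A' F ∈ QQ`: then `(M, Φ, D)` is not tame.
* `tame_falseQQ`: the form for `R = 0`, arm by arm.
-/

set_option autoImplicit false
set_option linter.unusedSectionVars false

namespace Crest.Agent.R172.TG

open Matrix Module Crest.Agent.R172.FO Crest.Agent.R172.Core

variable {ι : Type*} [Fintype ι] [DecidableEq ι] {δ : Type*} [Fintype δ] [DecidableEq δ]
variable {k K : Type*} [Field k] [Field K] [Algebra k K]
variable {arm : δ → Fin 3} {J : Matrix ι ι K} {B : Matrix δ δ K}
  {N W : Submodule K (Matrix ι δ K)} {F : Matrix ι δ K} {e : Matrix ι ι K}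

/-- the space `QQ` -/
def QQ (J : Matrix ι ι K) (N W : Submodule K (Matrix ι δ K)) (F : Matrix ι δ K)
    (e : Matrix ι ι K) : Submodule K (Matrix ι δ K) where
  carrier := {Y | ∃ (z : Matrix ι ι K) (h : Matrix ι δ K), zᵀ * J = J * z ∧ h ∈ W ∧ e * h = 0 ∧
    Y - z * F - h ∈ N}
  add_mem' := by
    rintro Y Y' ⟨z, h, h1, h2, h3, h4⟩ ⟨z', h', h1', h2', h3', h4'⟩
    refine ⟨z + z', h + h', ?_, W.add_mem h2 h2', ?_, ?_⟩
    · rw [transpose_add, Matrix.add_mul, Matrix.mul_add, h1, h1']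
    · rw [Matrix.mul_add, h3, h3', add_zero]
    · have : Y + Y' - (z + z') * F - (h + h') = (Y - z * F - h) + (Y' - z' * F - h') := by
        rw [Matrix.add_mul]; abel
      rw [this]
      exact N.add_mem h4 h4'
  zero_mem' := ⟨0, 0, by simp, W.zero_mem, by simp, by simp⟩
  smul_mem' := by
    rintro c Y ⟨z, h, h1, h2, h3, h4⟩
    refine ⟨c • z, c • h, ?_, W.smul_mem c h2, ?_, ?_⟩
    · rw [transpose_smul, Matrix.smul_mul, h1, Matrix.mul_smul]
    · rw [Matrix.mul_smul, h3, smul_zero]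
    · have : c • Y - (c • z) * F - c • h = c • (Y - z * F - h) := by
        rw [Matrix.smul_mul, smul_sub, smul_sub]
      rw [this]
      exact N.smul_mem c h4






section tame

variable {M : Submodule K (ι → K)}







end tame

end Crest.Agent.R172.TG
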