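import Crest.Agent.R172.ThX3
import Crest.Agent.R172.TG2

/-!
Row 172, TAME (T0), node N5, part 1: linear algebra of a core with radical zero, and spectral
projectors of a self-adjoint operator.
-/

set_option autoImplicit false
set_option linter.unusedSectionVars false

namespace Crest.Agent.R172.N5

open Module LinearMap St _root_.Crest.Agent.R172.Core

section core

variable {K : Type*} [Field K] {V : Type*} [AddCommGroup V] [Module K V] {ι : Type*}
variable {B : LinearMap.BilinForm K V} {Φ : ι → End K V}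

/-- the radical of the core is zero -/
def Rad0 (B : LinearMap.BilinForm K V) (Φ : ι → End K V) : Prop :=
  ∀ v ∈ T Φ, v ∈ Tp B Φ → v = 0

theorem pi_fix (hR : Rad0 B Φ) (C : St.Core B Φ) {v : V} (hv : v ∈ Tp B Φ) : C.π v = v := by
  have h1 := C.rem v hv
  have h2 : v - C.π v ∈ Tp B Φ := Submodule.sub_mem _ hv (C.le _ (C.mem v))
  exact (sub_eq_zero.1 (hR _ h1 h2)).symm






theorem cp_val [FiniteDimensional K V] (hR : Rad0 B Φ) (C : St.Core B Φ)
    {f : End K V} (hf : Pres B Φ f) (v : C.M) : ((cp C f v : C.M) : V) = f v := by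
  rw [cp_coe]
  exact pi_fix hR C (hf.Tp _ (C.le _ v.2))

/-- `M = ∑ Φ_s M` -/
theorem perf [FiniteDimensional K V] [Fintype ι] (hB : NS B) (hΦ : ∀ s, Sa B (Φ s))
    (hR : Rad0 B Φ) (C : St.Core B Φ) (v : C.M) : ∃ w : ι → C.M, (v : V) = ∑ s, Φ s (w s) := by
  classical
  have h1 := iSup_range_eq_top (NS_BM hB C) (Φ := fun s => cp C (Φ s))
    (fun s v w => cp_sa C (hΦ s) v w) (fun v h => cp_ker hΦ C v h)
  have h2 : v ∈ ⨆ s, LinearMap.range (cp C (Φ s)) := by rw [h1]; trivial
  rw [Submodule.mem_iSup_iff_exists_finsupp] at h2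
  obtain ⟨f, hf, hfv⟩ := h2
  choose w hw using fun s => hf s
  refine ⟨w, ?_⟩
  have h3 : (v : V) = ((f.sum fun _ x => x : C.M) : V) := by rw [hfv]
  rw [h3, Finsupp.sum, Submodule.coe_sum]
  have h4 : ∑ s ∈ f.support, ((f s : C.M) : V) = ∑ s, ((f s : C.M) : V) := by
    apply Finset.sum_subset (Finset.subset_univ _)
    intro s _ hs
    rw [Finsupp.notMem_support_iff.1 hs]
    rfl
  rw [h4]
  refine Finset.sum_congr rfl fun s _ => ?_
  rw [← hw s, cp_val hR C (pres_Φ hΦ s)]

end core

section spec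

variable {K : Type*} [Field K] {V : Type*} [AddCommGroup V] [Module K V] [FiniteDimensional K V]
variable {B : LinearMap.BilinForm K V}

/-- **Spectral projectors** of a self-adjoint operator. -/
theorem exists_spec (D : End K V) (hDs : ⨆ ν, D.maxGenEigenspace ν = ⊤)
    (hDB : ∀ v w, B (D v) w = B v (D w)) :
    ∃ (m : ℕ) (lam : Fin m → K) (π : Fin m → End K V), Function.Injective lam ∧
      (∀ i v, π i v ∈ D.maxGenEigenspace (lam i)) ∧
      (∀ i, ∀ v ∈ D.maxGenEigenspace (lam i), π i v = v) ∧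
      (∀ i j, i ≠ j → ∀ v ∈ D.maxGenEigenspace (lam j), π i v = 0) ∧
      (∀ v, ∑ i, π i v = v) ∧
      (∀ i v w, B (π i v) w = B v (π i w)) ∧
      (∀ (f : End K V), (∀ v, D (f v) = f (D v)) → ∀ i v, π i (f v) = f (π i v)) ∧
      (∀ i, D.maxGenEigenspace (lam i) ≠ ⊥) ∧
      (∀ ν, D.maxGenEigenspace ν ≠ ⊥ → ∃ i, lam i = ν) := by
  classical
  have hind := Module.End.independent_maxGenEigenspace D
  have hfin : {ν | D.maxGenEigenspace ν ≠ ⊥}.Finite :=
    WellFoundedGT.finite_ne_bot_of_iSupIndep hind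
  let S : Finset K := hfin.toFinset
  let eq : Fin S.card ≃ S := (Finset.equivFin S).symm
  let lam : Fin S.card → K := fun i => (eq i : K)
  have hlam : Function.Injective lam := fun i j h => eq.injective (Subtype.ext h)
  have hne : ∀ i, D.maxGenEigenspace (lam i) ≠ ⊥ := fun i =>
    (Set.Finite.mem_toFinset hfin).1 (eq i).2
  have hall : ∀ ν, D.maxGenEigenspace ν ≠ ⊥ → ∃ i, lam i = ν := by
    intro ν hν
    refine ⟨eq.symm ⟨ν, (Set.Finite.mem_toFinset hfin).2 hν⟩, ?_⟩
    change ((eq (eq.symm ⟨ν, _⟩) : S) : K) = ν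
    rw [Equiv.apply_symm_apply]
  let π : Fin S.card → End K V := fun i =>
    (D.maxGenEigenspace (lam i)).projection (co D (lam i)) (gen_isCompl hDs (lam i))
  have hmem : ∀ i v, π i v ∈ D.maxGenEigenspace (lam i) := fun i v =>
    Submodule.projection_apply_mem _ v
  have hfix : ∀ i, ∀ v ∈ D.maxGenEigenspace (lam i), π i v = v := fun i v hv =>
    Submodule.projection_apply_of_mem_left _ hv
  have hzero : ∀ i, ∀ v ∈ co D (lam i), π i v = 0 := fun i v hv =>
    (Submodule.projection_apply_eq_zero_iff _).2 hv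
  have hle : ∀ {i : Fin S.card} {ν : K}, ν ≠ lam i → D.maxGenEigenspace ν ≤ co D (lam i) := by
    intro i ν h
    exact le_iSup_of_le ν (le_iSup_of_le h le_rfl)
  have hz : ∀ i j, i ≠ j → ∀ v ∈ D.maxGenEigenspace (lam j), π i v = 0 := fun i j hij v hv =>
    hzero i v (hle (fun h => hij (hlam h).symm) hv)
  have hsum : ∀ v, ∑ i, π i v = v := by
    intro v
    have h1 : (⨆ ν, D.maxGenEigenspace ν) ≤ LinearMap.eqLocus (∑ i, π i) LinearMap.id := by
      refine iSup_le fun ν => ?_
      intro v hv
      rw [LinearMap.mem_eqLocus, LinearMap.sum_apply, LinearMap.id_apply]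
      by_cases hν : D.maxGenEigenspace ν = ⊥
      · rw [hν, Submodule.mem_bot] at hv
        subst hv
        simp
      · obtain ⟨j, rfl⟩ := hall ν hν
        rw [Finset.sum_eq_single j, hfix j v hv]
        · intro i _ hij
          exact hz i j hij v hv
        · intro h
          exact absurd (Finset.mem_univ j) h
    rw [hDs] at h1
    have h2 := h1 (Submodule.mem_top (x := v))
    rw [LinearMap.mem_eqLocus, LinearMap.sum_apply, LinearMap.id_apply] at h2
    exact h2
  have hsa : ∀ i v w, B (π i v) w = B v (π i w) := by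
    intro i v w
    have h1 : B (π i v) w = B (π i v) (π i w) := by
      conv_lhs => rw [← hsum w, map_sum]
      rw [Finset.sum_eq_single i]
      · intro j _ hji
        exact gen_ortho hDB (fun h => hji (hlam h).symm) _ (hmem i v) _ (hmem j w)
      · intro h
        exact absurd (Finset.mem_univ i) h
    have h2 : B v (π i w) = B (π i v) (π i w) := by
      conv_lhs => rw [← hsum v, map_sum, LinearMap.sum_apply]
      rw [Finset.sum_eq_single i]
      · intro j _ hji
        exact gen_ortho hDB (fun h => hji (hlam h)) _ (hmem j v) _ (hmem i w)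
      · intro h
        exact absurd (Finset.mem_univ i) h
    rw [h1, h2]
  refine ⟨S.card, lam, π, hlam, hmem, hfix, hz, hsum, hsa, ?_, hne, hall⟩
  intro f hf i v
  have h1 : ∀ j, f (π j v) ∈ D.maxGenEigenspace (lam j) := fun j =>
    gen_stable hf (lam j) _ (hmem j v)
  conv_lhs => rw [← hsum v, map_sum, map_sum]
  rw [Finset.sum_eq_single i]
  · exact hfix i _ (h1 i)
  · intro j _ hji
    exact hz i j hji.symm _ (h1 j)
  · intro h
    exact absurd (Finset.mem_univ i) h

end spec

end Crest.Agent.R172.N5
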