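import Crest.Agent.R172.Core5

-- ▼ part R172/ThX1
section

/-!
Row 172 (S0260), Theorem X of note 13222, linear algebra part.

`Φ_s = M_s(F,F)`, `Ψ_s = M_s(F,G)`, `Θ_s = M_s(G,G)` are self-adjoint operators with the exchange
relations `Φ_s Ψ_t = Ψ_s Φ_t`, `Ψ_s Ψ_t = Θ_s Φ_t`, `Ψ_s Θ_t = Θ_s Ψ_t`.
* `exists_tau`: on the core of `Φ` there is a self-adjoint `τ` commuting with the `Φ_s` with
  `Ψ_s = Φ_s τ`.
* `words_vanish`: if `τ` is nilpotent then all long words in the `Ψ_s` vanish on `V`.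
-/

set_option autoImplicit false

namespace Crest.Agent.R172.ThX

open Module LinearMap St _root_.Crest.Agent.R172.Core

variable {K : Type*} [Field K] {V : Type*} [AddCommGroup V] [Module K V] {ι : Type*}
variable {B : LinearMap.BilinForm K V} {Φ Ψ Θ : ι → End K V}

theorem wd_cons (Φ : ι → End K V) (s : ι) (l : List ι) (v : V) :
    wd Φ (s :: l) v = Φ s (wd Φ l v) := by simp [wd]

theorem wd_nil (Φ : ι → End K V) (v : V) : wd Φ [] v = v := by simp [wd]

/-- `Ψ_s` preserves the nilpotent filtration. -/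
theorem Nk_stable (hex : ∀ s t v, Φ s (Ψ t v) = Ψ s (Φ t v)) (k : ℕ) :
    ∀ t v, v ∈ Nk Φ k → Ψ t v ∈ Nk Φ k := by
  induction k with
  | zero => intro t v hv; rw [mem_Nk_zero] at hv ⊢; rw [hv, map_zero]
  | succ k ih =>
    intro t v hv
    rw [mem_Nk_succ] at hv ⊢
    intro s
    rw [hex]
    exact ih s _ (hv t)

theorem pres_Ψ (hΨ : ∀ s, Sa B (Ψ s)) (hex : ∀ s t v, Φ s (Ψ t v) = Ψ s (Φ t v)) (s : ι) :
    Pres B Φ (Ψ s) := by
  have hT : ∀ t ∈ T Φ, Ψ s t ∈ T Φ := by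
    intro t ht
    obtain ⟨k, hk⟩ := mem_T.1 ht
    exact mem_T.2 ⟨k, Nk_stable hex k s t hk⟩
  exact ⟨hT, fun t ht => Tp_stable (hΨ s) hT ht⟩

theorem exists_tau [FiniteDimensional K V] [Fintype ι] (hB : NS B) (hΦ : ∀ s, Sa B (Φ s))
    (hΨ : ∀ s, Sa B (Ψ s)) (hex : ∀ s t v, Φ s (Ψ t v) = Ψ s (Φ t v)) (C : St.Core B Φ) :
    ∃ τ : End K C.M, (∀ v w, BM C (τ v) w = BM C v (τ w)) ∧
      (∀ s v, τ (cp C (Φ s) v) = cp C (Φ s) (τ v)) ∧ (∀ s v, cp C (Ψ s) v = cp C (Φ s) (τ v)) := by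
  classical
  have hφ : ∀ s, ∀ v w, BM C (cp C (Φ s) v) w = BM C v (cp C (Φ s) w) :=
    fun s v w => cp_sa C (hΦ s) v w
  have hψ : ∀ s, ∀ v w, BM C (cp C (Ψ s) v) w = BM C v (cp C (Ψ s) w) :=
    fun s v w => cp_sa C (hΨ s) v w
  have hexM : ∀ s t v, cp C (Φ s) (cp C (Ψ t) v) = cp C (Ψ s) (cp C (Φ t) v) := by
    intro s t v
    rw [cp_comp C (pres_Φ hΦ s) (pres_Ψ hΨ hex t), cp_comp C (pres_Ψ hΨ hex s) (pres_Φ hΦ t)]
    congr 1
    exact congrArg _ (LinearMap.ext fun v => hex s t v)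
  let φh : (ι → C.M) →ₗ[K] C.M := ∑ s, (cp C (Φ s)) ∘ₗ LinearMap.proj s
  let ψh : (ι → C.M) →ₗ[K] C.M := ∑ s, (cp C (Ψ s)) ∘ₗ LinearMap.proj s
  have hφh : ∀ v, φh v = ∑ s, cp C (Φ s) (v s) := by intro v; simp [φh, LinearMap.sum_apply]
  have hψh : ∀ v, ψh v = ∑ s, cp C (Ψ s) (v s) := by intro v; simp [ψh, LinearMap.sum_apply]
  have hsurj : LinearMap.range φh = ⊤ := by
    have h1 := iSup_range_eq_top (NS_BM hB C) (Φ := fun s => cp C (Φ s)) hφ
      (fun v h => cp_ker hΦ C v h)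
    rw [eq_top_iff, ← h1]
    refine iSup_le fun s => ?_
    rintro _ ⟨v, rfl⟩
    refine ⟨Pi.single s v, ?_⟩
    rw [hφh, Finset.sum_eq_single s]
    · simp
    · intro t _ hts; simp [hts]
    · intro h; exact absurd (Finset.mem_univ s) h
  obtain ⟨σ, hσ⟩ := φh.exists_rightInverse_of_surjective hsurj
  have hσ' : ∀ x, φh (σ x) = x := fun x => LinearMap.congr_fun hσ x
  have hker : ∀ v, φh v = 0 → ψh v = 0 := by
    intro v hv
    apply cp_ker hΦ C
    intro t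
    rw [hψh, map_sum]
    have : ∀ s, cp C (Φ t) (cp C (Ψ s) (v s)) = cp C (Ψ t) (cp C (Φ s) (v s)) :=
      fun s => hexM t s (v s)
    simp only [this]
    rw [← map_sum, ← hφh, hv, map_zero]
  let τ : End K C.M := ψh ∘ₗ σ
  have hτ : ∀ v, τ (φh v) = ψh v := by
    intro v
    have h1 : ψh (σ (φh v) - v) = 0 := hker _ (by rw [map_sub, hσ', sub_self])
    rw [map_sub, sub_eq_zero] at h1
    exact h1
  have hrep : ∀ x, ∃ v, φh v = x := fun x => ⟨σ x, hσ' x⟩
  have hτφ : ∀ s v, τ (cp C (Φ s) v) = cp C (Ψ s) v := by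
    intro s v
    have h1 := hτ (Pi.single s v)
    have h2 : φh (Pi.single s v) = cp C (Φ s) v := by
      rw [hφh, Finset.sum_eq_single s]
      · simp
      · intro t _ hts; simp [hts]
      · intro h; exact absurd (Finset.mem_univ s) h
    have h3 : ψh (Pi.single s v) = cp C (Ψ s) v := by
      rw [hψh, Finset.sum_eq_single s]
      · simp
      · intro t _ hts; simp [hts]
      · intro h; exact absurd (Finset.mem_univ s) h
    rw [h2, h3] at h1
    exact h1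
  have hφτ : ∀ s x, cp C (Φ s) (τ x) = cp C (Ψ s) x := by
    intro s x
    obtain ⟨v, rfl⟩ := hrep x
    rw [hτ, hψh, hφh, map_sum, map_sum]
    exact Finset.sum_congr rfl fun t _ => hexM s t (v t)
  refine ⟨τ, ?_, ?_, ?_⟩
  · intro x y
    obtain ⟨v, rfl⟩ := hrep x
    obtain ⟨w, rfl⟩ := hrep y
    rw [hτ, hτ, hψh, hψh, hφh, hφh]
    simp only [map_sum, LinearMap.sum_apply]
    refine Finset.sum_congr rfl fun s _ => Finset.sum_congr rfl fun t _ => ?_
    rw [hψ, ← hexM, hφ]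
  · intro s v; rw [hτφ, hφτ]
  · intro s v; rw [hφτ]

/-- moving a `Θ` through a `Ψ`-word -/
theorem wd_theta (hΨΘ : ∀ s t v, Ψ s (Θ t v) = Θ s (Ψ t v)) (l : List ι) (s : ι) (x : V) :
    ∃ (a : ι) (l' : List ι), l'.length = l.length ∧ wd Ψ l (Θ s x) = Θ a (wd Ψ l' x) := by
  induction l with
  | nil => exact ⟨s, [], rfl, by simp [wd_nil]⟩
  | cons b l ih =>
    obtain ⟨a, l', hl', h⟩ := ih
    refine ⟨b, a :: l', by simp [hl'], ?_⟩
    rw [wd_cons, h, hΨΘ, wd_cons]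

theorem kill_Nk (hΨΨ : ∀ s t v, Ψ s (Ψ t v) = Θ s (Φ t v))
    (hΨΘ : ∀ s t v, Ψ s (Θ t v) = Θ s (Ψ t v)) (j : ℕ) :
    ∀ v, v ∈ Nk Φ j → ∀ l : List ι, l.length = 2 * j → wd Ψ l v = 0 := by
  induction j with
  | zero => intro v hv l _; rw [mem_Nk_zero] at hv; rw [hv, map_zero]
  | succ j ih =>
    intro v hv l hl
    have hl2 : l = l.take (2 * j) ++ l.drop (2 * j) := (List.take_append_drop _ _).symm
    have hlen1 : (l.take (2 * j)).length = 2 * j := by rw [List.length_take]; omega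
    have hlen2 : (l.drop (2 * j)).length = 2 := by rw [List.length_drop]; omega
    obtain ⟨s, t, hst⟩ : ∃ s t, l.drop (2 * j) = [s, t] := by
      match h : l.drop (2 * j), hlen2 with
      | [s, t], _ => exact ⟨s, t, rfl⟩
    rw [hl2, wd_append, hst, wd_cons, wd_cons, wd_nil, hΨΨ]
    obtain ⟨a, l', hl', h⟩ := wd_theta hΨΘ (l.take (2 * j)) s (Φ t v)
    rw [h, ih (Φ t v) (mem_Nk_succ.1 hv t) l' (by omega), map_zero]

/-- If `τ` is nilpotent on the core then all long `Ψ`-words vanish. -/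
theorem words_vanish [FiniteDimensional K V] (hΨ : ∀ s, Sa B (Ψ s))
    (hex : ∀ s t v, Φ s (Ψ t v) = Ψ s (Φ t v))
    (hΨΨ : ∀ s t v, Ψ s (Ψ t v) = Θ s (Φ t v)) (hΨΘ : ∀ s t v, Ψ s (Θ t v) = Θ s (Ψ t v))
    (C : St.Core B Φ) (τ : End K C.M) (hτφ : ∀ s v, τ (cp C (Φ s) v) = cp C (Φ s) (τ v))
    (hψ : ∀ s v, cp C (Ψ s) v = cp C (Φ s) (τ v)) (n : ℕ) (hn : ∀ v, (τ ^ n) v = 0) :
    ∃ m, ∀ l : List ι, m ≤ l.length → ∀ v, wd Ψ l v = 0 := by
  obtain ⟨N, hN⟩ := T_eq_Nk Φ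
  -- words on the core
  have hwdM : ∀ l : List ι, ∀ v, wd (fun s => cp C (Ψ s)) l v
      = wd (fun s => cp C (Φ s)) l ((τ ^ l.length) v) := by
    intro l
    induction l with
    | nil => intro v; simp [wd_nil]
    | cons s l ih =>
      intro v
      rw [wd_cons, wd_cons, hψ, ih]
      congr 1
      have hc : ∀ x, wd (fun s => cp C (Φ s)) l (τ x) = τ (wd (fun s => cp C (Φ s)) l x) :=
        fun x => wd_comm (Φ := fun s => cp C (Φ s)) (E := τ) hτφ l x
      rw [List.length_cons, pow_succ']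
      exact (hc _).symm
  have hpr : ∀ s, Pres B Φ (Ψ s) := fun s => pres_Ψ hΨ hex s
  have hprw : ∀ l : List ι, ∀ v ∈ Tp B Φ, wd Ψ l v ∈ Tp B Φ := by
    intro l
    induction l with
    | nil => intro v hv; rw [wd_nil]; exact hv
    | cons s l ih => intro v hv; rw [wd_cons]; exact (hpr s).Tp _ (ih v hv)
  have hπw : ∀ l : List ι, ∀ v ∈ Tp B Φ, C.π (wd Ψ l v)
      = ((wd (fun s => cp C (Ψ s)) l ⟨C.π v, C.mem v⟩ : C.M) : V) := by
    intro l
    induction l with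
    | nil => intro v _; rw [wd_nil, wd_nil]
    | cons s l ih =>
      intro v hv
      rw [wd_cons, wd_cons, cp_coe, ← ih v hv, pi_pres C (hpr s) (hprw l v hv)]
  have hmid : ∀ l : List ι, n ≤ l.length → ∀ v ∈ Tp B Φ, wd Ψ l v ∈ T Φ := by
    intro l hl v hv
    have h1 : C.π (wd Ψ l v) = 0 := by
      rw [hπw l v hv, hwdM]
      have h2 : (τ ^ l.length) (⟨C.π v, C.mem v⟩ : C.M) = 0 := by
        obtain ⟨k, hk⟩ := Nat.exists_eq_add_of_le hl
        rw [hk, add_comm, pow_add]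
        show (τ ^ k) ((τ ^ n) _) = 0
        rw [hn, map_zero]
      rw [h2, map_zero]; rfl
    have h3 := C.rem _ (hprw l v hv)
    rwa [h1, sub_zero] at h3
  have hkill : ∀ v ∈ T Φ, ∀ l : List ι, l.length = 2 * N → wd Ψ l v = 0 := by
    intro v hv l hl
    rw [hN] at hv
    exact kill_Nk hΨΨ hΨΘ N v hv l hl
  have himg : ∀ l : List ι, l.length = 2 * N → ∀ v, wd Ψ l v ∈ Tp B Φ := by
    intro l hl v t ht
    rw [wd_adj hΨ, hkill t ht _ (by rw [List.length_reverse]; exact hl), map_zero]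
  refine ⟨2 * N + n + 2 * N, fun l hl v => ?_⟩
  set a := l.length with ha
  have h1 : l = l.take (a - (n + 2 * N)) ++ l.drop (a - (n + 2 * N)) :=
    (List.take_append_drop _ _).symm
  set l1 := l.take (a - (n + 2 * N)) with hl1
  set l2 := l.drop (a - (n + 2 * N)) with hl2
  have hlen1 : 2 * N ≤ l1.length := by rw [hl1, List.length_take]; omega
  have hlen2 : l2.length = n + 2 * N := by rw [hl2, List.length_drop]; omega
  have h2 : l2 = l2.take n ++ l2.drop n := (List.take_append_drop _ _).symm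
  have hlen3 : (l2.take n).length = n := by rw [List.length_take]; omega
  have hlen4 : (l2.drop n).length = 2 * N := by rw [List.length_drop]; omega
  rw [h1, wd_append, h2, wd_append]
  have h3 := himg _ hlen4 v
  have h4 := hmid _ hlen3.ge _ h3
  have h5 : l1 = l1.take (l1.length - 2 * N) ++ l1.drop (l1.length - 2 * N) :=
    (List.take_append_drop _ _).symm
  rw [h5, wd_append, hkill _ h4 _ (by rw [List.length_drop]; omega), map_zero]

end Crest.Agent.R172.ThX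
end

-- ▼ part R172/ThX2
section

/-!
Row 172 (S0260), Theorem X of note 13222 (= Theorem U of 13447, R of 13450), abstract form.
-/

set_option autoImplicit false

namespace Crest.Agent.R172.ThX

open Module LinearMap St _root_.Crest.Agent.R172.Core

variable {K : Type*} [Field K] {V : Type*} [AddCommGroup V] [Module K V]
variable {U : Type*} [AddCommGroup U] [Module K U] {ι : Type*}

/-- The operator `M_s(F,G) = F p_s G^*`. -/
def MM (p : ι → End K U) (adj : (U →ₗ[K] V) →ₗ[K] (V →ₗ[K] U)) (F G : U →ₗ[K] V) (s : ι) :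
    End K V := F ∘ₗ p s ∘ₗ adj G

theorem MM_apply (p : ι → End K U) (adj : (U →ₗ[K] V) →ₗ[K] (V →ₗ[K] U)) (F G : U →ₗ[K] V)
    (s : ι) (v : V) : MM p adj F G s v = F (p s (adj G v)) := rfl

/-- First order relations on the space `𝒦` of maps `U → V`. -/
structure Sys (B : LinearMap.BilinForm K V) (q : LinearMap.BilinForm K U) (p : ι → End K U)
    (adj : (U →ₗ[K] V) →ₗ[K] (V →ₗ[K] U)) (𝒦 : Submodule K (U →ₗ[K] V)) : Prop where
  adj_spec : ∀ (F : U →ₗ[K] V) (u : U) (v : V), B (F u) v = q u (adj F v)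
  p_sa : ∀ s u u', q (p s u) u' = q u (p s u')
  F1 : ∀ F ∈ 𝒦, ∀ G ∈ 𝒦, ∀ u u', B (F u) (G u') = B (G u) (F u')
  F2 : ∀ F ∈ 𝒦, ∀ G ∈ 𝒦, ∀ s v, MM p adj F G s v = MM p adj G F s v

variable {B : LinearMap.BilinForm K V} {q : LinearMap.BilinForm K U} {p : ι → End K U}
variable {adj : (U →ₗ[K] V) →ₗ[K] (V →ₗ[K] U)} {𝒦 : Submodule K (U →ₗ[K] V)}

theorem Sys.adj_adj (S : Sys B q p adj 𝒦) (hq : NS q) {F G : U →ₗ[K] V} (hF : F ∈ 𝒦)
    (hG : G ∈ 𝒦) (u : U) : adj F (G u) = adj G (F u) := by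
  rw [← sub_eq_zero]
  apply hq.nd
  intro w
  rw [hq.symm, map_sub, ← S.adj_spec, ← S.adj_spec, S.F1 F hF G hG, sub_self]

theorem Sys.exchange (S : Sys B q p adj 𝒦) (hq : NS q) {F1 F2 F3 F4 : U →ₗ[K] V}
    (h2 : F2 ∈ 𝒦) (h3 : F3 ∈ 𝒦) (s t : ι) (v : V) :
    MM p adj F1 F2 s (MM p adj F3 F4 t v) = MM p adj F1 F3 s (MM p adj F2 F4 t v) := by
  simp only [MM_apply]
  rw [S.adj_adj hq h2 h3]

theorem Sys.MM_sa (S : Sys B q p adj 𝒦) (hB : NS B) (hq : NS q) {F G : U →ₗ[K] V} (hF : F ∈ 𝒦)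
    (hG : G ∈ 𝒦) (s : ι) : Sa B (MM p adj F G s) := by
  intro v w
  rw [S.F2 F hF G hG s w, MM_apply, MM_apply, S.adj_spec, S.p_sa, hB.symm v, S.adj_spec,
    hq.symm, S.p_sa, hq.symm, S.p_sa]

theorem MM_sub_smul (p : ι → End K U) (adj : (U →ₗ[K] V) →ₗ[K] (V →ₗ[K] U)) (F G : U →ₗ[K] V)
    (lam : K) (s : ι) (v : V) :
    MM p adj F (G - lam • F) s v = MM p adj F G s v - lam • MM p adj F F s v := by
  simp only [MM_apply, map_sub, LinearMap.sub_apply, map_smul, LinearMap.smul_apply]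

variable [FiniteDimensional K V] [Fintype ι]

/-- The operator `τ_G` on the core of `Φ = M(F,F)`. -/
theorem Sys.exists_tau (S : Sys B q p adj 𝒦) (hB : NS B) (hq : NS q) {F G : U →ₗ[K] V}
    (hF : F ∈ 𝒦) (hG : G ∈ 𝒦) (C : St.Core B (MM p adj F F)) :
    ∃ τ : End K C.M, (∀ v w, BM C (τ v) w = BM C v (τ w)) ∧
      (∀ s v, τ (cp C (MM p adj F F s) v) = cp C (MM p adj F F s) (τ v)) ∧
      (∀ s v, cp C (MM p adj F G s) v = cp C (MM p adj F F s) (τ v)) :=
  ThX.exists_tau hB (fun s => S.MM_sa hB hq hF hF s) (fun s => S.MM_sa hB hq hF hG s)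
    (fun s t v => by
      rw [S.F2 F hF G hG t v, S.exchange hq hF hG]) C

/-- **Theorem X, nilpotency**: if `τ_G` has the only eigenvalue `lam` on the core, then all long
words in the `M_s(F, G - lam F)` vanish. -/
theorem Sys.words (S : Sys B q p adj 𝒦) (hB : NS B) (hq : NS q) {F G : U →ₗ[K] V}
    (hF : F ∈ 𝒦) (hG : G ∈ 𝒦) (C : St.Core B (MM p adj F F)) (τ : End K C.M)
    (hτφ : ∀ s v, τ (cp C (MM p adj F F s) v) = cp C (MM p adj F F s) (τ v))
    (hψ : ∀ s v, cp C (MM p adj F G s) v = cp C (MM p adj F F s) (τ v)) (lam : K)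
    (hlam : τ.maxGenEigenspace lam = ⊤) :
    ∃ m, ∀ l : List ι, m ≤ l.length → ∀ v, wd (MM p adj F (G - lam • F)) l v = 0 := by
  have hG' : G - lam • F ∈ 𝒦 := 𝒦.sub_mem hG (𝒦.smul_mem lam hF)
  refine words_vanish (Φ := MM p adj F F) (Ψ := MM p adj F (G - lam • F))
    (Θ := MM p adj (G - lam • F) (G - lam • F)) (fun s => S.MM_sa hB hq hF hG' s) ?_ ?_ ?_ C
    (τ - lam • 1) ?_ ?_ (finrank K C.M) ?_
  · intro s t v
    rw [S.F2 F hF _ hG' t v, S.exchange hq hF hG']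
  · intro s t v
    rw [S.F2 F hF _ hG' s, S.F2 F hF _ hG' t, S.exchange hq hF hG']
  · intro s t v
    rw [S.F2 F hF _ hG' s, S.exchange hq hF hG']
  · intro s v
    simp only [LinearMap.sub_apply, LinearMap.smul_apply, Module.End.one_apply, hτφ, map_sub,
      map_smul]
  · intro s v
    have h1 : MM p adj F (G - lam • F) s = MM p adj F G s - lam • MM p adj F F s :=
      LinearMap.ext fun v => by
        rw [MM_sub_smul]; rfl
    rw [h1, cp_sub, cp_smul]
    simp only [LinearMap.sub_apply, LinearMap.smul_apply, Module.End.one_apply, map_sub,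
      map_smul, hψ]
  · intro v
    have hv : v ∈ τ.maxGenEigenspace lam := by rw [hlam]; trivial
    rw [Module.End.maxGenEigenspace_eq_genEigenspace_finrank,
      Module.End.mem_genEigenspace_nat] at hv
    exact hv



end Crest.Agent.R172.ThX
end

-- ▼ part R172/ThX3

/-!
Row 172 (S0260): isotropic elements. If `NIL` holds for all pairs, every isotropic `G ∈ 𝒦` is
perpendicular to `𝒦`; together with the identity `(*)` (Theorem X at the generic point, descended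
to the base field) the space `𝒦iso` has codimension at most one.
-/

set_option autoImplicit false

namespace Crest.Agent.R172.ThX

open Module LinearMap St _root_.Crest.Agent.R172.Core

variable {K : Type*} [Field K] {V : Type*} [AddCommGroup V] [Module K V]
variable {U : Type*} [AddCommGroup U] [Module K U] {ι : Type*}
variable {B : LinearMap.BilinForm K V} {q : LinearMap.BilinForm K U} {p : ι → End K U}
variable {adj : (U →ₗ[K] V) →ₗ[K] (V →ₗ[K] U)} {𝒦 : Submodule K (U →ₗ[K] V)}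

/-- The space of elements of `𝒦` perpendicular to all of `𝒦`. -/
def Kiso (B : LinearMap.BilinForm K V) (𝒦 : Submodule K (U →ₗ[K] V)) :
    Submodule K (U →ₗ[K] V) where
  carrier := {G | G ∈ 𝒦 ∧ ∀ F ∈ 𝒦, ∀ u u', B (F u) (G u') = 0}
  zero_mem' := ⟨𝒦.zero_mem, by intro F _ u u'; simp⟩
  add_mem' := by
    rintro G G' ⟨h1, h2⟩ ⟨h1', h2'⟩
    refine ⟨𝒦.add_mem h1 h1', fun F hF u u' => ?_⟩
    rw [LinearMap.add_apply, map_add, h2 F hF, h2' F hF, add_zero]
  smul_mem' := by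
    rintro c G ⟨h1, h2⟩
    refine ⟨𝒦.smul_mem c h1, fun F hF u u' => ?_⟩
    rw [LinearMap.smul_apply, map_smul, h2 F hF, smul_zero]

theorem mem_Kiso {G : U →ₗ[K] V} :
    G ∈ Kiso B 𝒦 ↔ G ∈ 𝒦 ∧ ∀ F ∈ 𝒦, ∀ u u', B (F u) (G u') = 0 := Iff.rfl

theorem Kiso_le : Kiso B 𝒦 ≤ 𝒦 := fun _ h => h.1

/-- words of length two in `M(F,G)` vanish if `G` is isotropic -/
theorem Sys.words_of_iso (S : Sys B q p adj 𝒦) (hq : NS q) {F G : U →ₗ[K] V} (hF : F ∈ 𝒦)
    (hG : G ∈ 𝒦) (hiso : ∀ u u', B (G u) (G u') = 0) :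
    ∀ l : List ι, 2 ≤ l.length → ∀ v, wd (MM p adj F G) l v = 0 := by
  have h0 : ∀ u, adj G (G u) = 0 := by
    intro u
    apply hq.nd
    intro w
    rw [hq.symm, ← S.adj_spec, hiso]
  have h1 : ∀ s t v, MM p adj F G s (MM p adj F G t v) = 0 := by
    intro s t v
    rw [S.F2 F hF G hG t v]
    simp only [MM_apply, h0, map_zero]
  intro l hl v
  match l, hl with
  | s :: t :: l, _ => rw [wd_cons, wd_cons, h1]

/-- **Isotropic elements are perpendicular to everything.** -/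
theorem Sys.iso_mem (S : Sys B q p adj 𝒦) (hB : NS B) (hq : NS q)
    (nil : ∀ F ∈ 𝒦, ∀ G ∈ 𝒦, (∃ m, ∀ l : List ι, m ≤ l.length → ∀ v,
      wd (MM p adj F G) l v = 0) → ∀ u u', B (F u) (G u') = 0)
    {G : U →ₗ[K] V} (hG : G ∈ 𝒦) (hiso : ∀ u u', B (G u) (G u') = 0) : G ∈ Kiso B 𝒦 :=
  ⟨hG, fun F hF => nil F hF G hG ⟨2, S.words_of_iso hq hF hG hiso⟩⟩

/-- **Codimension at most one.** `hX` is Theorem X descended to the base field. -/
theorem Sys.codim [IsAlgClosed K] (S : Sys B q p adj 𝒦) (hB : NS B) (hq : NS q)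
    (nil : ∀ F ∈ 𝒦, ∀ G ∈ 𝒦, (∃ m, ∀ l : List ι, m ≤ l.length → ∀ v,
      wd (MM p adj F G) l v = 0) → ∀ u u', B (F u) (G u') = 0)
    (hX : ∀ F ∈ 𝒦, ∀ G ∈ 𝒦, ∀ u1 u1' u2 u2', B (F u1) (G u1') * B (F u2) (F u2')
      = B (F u2) (G u2') * B (F u1) (F u1')) :
    Kiso B 𝒦 = 𝒦 ∨ ∃ F0 ∈ 𝒦, F0 ∉ Kiso B 𝒦 ∧ 𝒦 = Kiso B 𝒦 ⊔ Submodule.span K {F0} := by
  by_cases hall : ∀ F ∈ 𝒦, ∀ u u', B (F u) (F u') = 0
  · left
    exact le_antisymm Kiso_le fun G hG => S.iso_mem hB hq nil hG (hall G hG)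
  right
  push Not at hall
  obtain ⟨F0, hF0, u0, u0', h0⟩ := hall
  have hsymm : ∀ F ∈ 𝒦, ∀ G ∈ 𝒦, ∀ u u', B (F u) (G u') = B (G u) (F u') :=
    fun F hF G hG u u' => S.F1 F hF G hG u u'
  -- `a`-isotropic elements are isotropic
  have hiso : ∀ G ∈ 𝒦, B (G u0) (G u0') = 0 → ∀ u u', B (G u) (G u') = 0 := by
    intro G hG ha u u'
    by_cases hFG : B (F0 u0) (G u0') = 0
    · have h1 : ∀ F ∈ 𝒦, B (F u0) (G u0') = 0 → B (F u0) (F u0') ≠ 0 → B (F u) (G u') = 0 := by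
        intro F hF h2 h3
        have h4 := hX F hF G hG u0 u0' u u'
        rw [h2, zero_mul] at h4
        exact (mul_eq_zero.mp h4.symm).resolve_right h3
      have h5 := h1 F0 hF0 hFG h0
      have h6 := h1 (F0 + G) (𝒦.add_mem hF0 hG) (by
        rw [LinearMap.add_apply, map_add, LinearMap.add_apply, hFG, ha, add_zero]) (by
        rw [LinearMap.add_apply, LinearMap.add_apply, map_add, map_add, LinearMap.add_apply,
          LinearMap.add_apply, ha, hFG, ← hsymm F0 hF0 G hG, hFG, add_zero, add_zero, add_zero]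
        exact h0)
      rw [LinearMap.add_apply, map_add, LinearMap.add_apply, h5, zero_add] at h6
      exact h6
    · have h4 := hX G hG F0 hF0 u0 u0' u u'
      rw [ha, mul_zero] at h4
      have h5 : B (G u0) (F0 u0') ≠ 0 := by rw [← hsymm F0 hF0 G hG]; exact hFG
      exact (mul_eq_zero.mp h4).resolve_left h5
  refine ⟨F0, hF0, ?_, ?_⟩
  · intro h; exact h0 (h.2 F0 hF0 u0 u0')
  · apply le_antisymm
    · intro G hG
      obtain ⟨c, hc⟩ : ∃ c : K, B ((G - c • F0) u0) ((G - c • F0) u0') = 0 := by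
        obtain ⟨c, hc⟩ := IsAlgClosed.exists_root
          (Polynomial.C (B (F0 u0) (F0 u0')) * Polynomial.X ^ 2
            + Polynomial.C (-(B (G u0) (F0 u0') + B (F0 u0) (G u0'))) * Polynomial.X
            + Polynomial.C (B (G u0) (G u0'))) (by
          rw [Polynomial.degree_quadratic h0]; decide)
        refine ⟨c, ?_⟩
        simp only [Polynomial.IsRoot.def, Polynomial.eval_add, Polynomial.eval_mul,
          Polynomial.eval_C, Polynomial.eval_pow, Polynomial.eval_X] at hc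
        simp only [LinearMap.sub_apply, LinearMap.smul_apply, map_sub, map_smul, smul_eq_mul]
        linear_combination hc
      have hmem : G - c • F0 ∈ Kiso B 𝒦 :=
        S.iso_mem hB hq nil (𝒦.sub_mem hG (𝒦.smul_mem c hF0))
          (hiso _ (𝒦.sub_mem hG (𝒦.smul_mem c hF0)) hc)
      have : G = (G - c • F0) + c • F0 := by abel
      rw [this]
      exact Submodule.add_mem _ (Submodule.mem_sup_left hmem)
        (Submodule.mem_sup_right (Submodule.smul_mem _ _ (Submodule.mem_span_singleton_self _)))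
    · refine sup_le Kiso_le ?_
      rw [Submodule.span_singleton_le_iff_mem]
      exact hF0

/-- If there is no non-zero isotropic element then `dim 𝒦 ≤ 1`. -/
theorem Sys.finrank_le [IsAlgClosed K] [FiniteDimensional K U] [FiniteDimensional K V]
    (S : Sys B q p adj 𝒦) (hB : NS B) (hq : NS q)
    (nil : ∀ F ∈ 𝒦, ∀ G ∈ 𝒦, (∃ m, ∀ l : List ι, m ≤ l.length → ∀ v,
      wd (MM p adj F G) l v = 0) → ∀ u u', B (F u) (G u') = 0)
    (hX : ∀ F ∈ 𝒦, ∀ G ∈ 𝒦, ∀ u1 u1' u2 u2', B (F u1) (G u1') * B (F u2) (F u2')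
      = B (F u2) (G u2') * B (F u1) (F u1')) :
    finrank K 𝒦 ≤ finrank K (Kiso B 𝒦) + 1 := by
  rcases S.codim hB hq nil hX with h | ⟨F0, _, _, h⟩
  · rw [h]; omega
  · conv_lhs => rw [h]
    refine (Submodule.finrank_add_le_finrank_add_finrank _ _).trans ?_
    gcongr
    exact (finrank_span_le_card ({F0} : Set (U →ₗ[K] V))).trans (by simp)

end Crest.Agent.R172.ThX
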