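import Crest.Agent.R172.NilCount5
import Crest.Agent.R172.ThX3
import Crest.Agent.R172.Kempf5
import Crest.Agent.R172.NilPat3
import Crest.Agent.R172.Rk1

-- ▼ part R172/NilFin
section

/-!
Row 172, node NILC: the configurations of columns coming from a generic skew matrix `H`.
(E) all arms even; (O) two odd arms, extra index `none`.
-/

set_option autoImplicit false
set_option linter.unusedSectionVars false

namespace Crest.Agent.R172.NilFin

open Module Crest.Agent.R172.NilLower Crest.Agent.R172.NilCount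
open Crest.Agent.R172.NilConn (ten ten_apply)

variable {K V X σ : Type*} [Field K] [AddCommGroup V] [Module K V]

/-- `∑_x v_x ⊙ (H v)_x = 0` for skew `H`. -/
theorem sum_sten_eq_zero {Y : Type*} [Fintype Y] (B : LinearMap.BilinForm K V) (h2 : (2 : K) ≠ 0)
    (H : Y → Y → K) (hH : ∀ x y, H x y = - H y x) (v w : Y → V)
    (hw : ∀ x, w x = ∑ y, H x y • v y) : ∑ x, sten B (v x) (w x) = 0 := by
  have h1 : ∀ x, sten B (v x) (w x) = ∑ y, H x y • sten B (v x) (v y) := by
    intro x
    rw [hw x]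
    have : ∀ s : Finset Y, sten B (v x) (∑ y ∈ s, H x y • v y)
        = ∑ y ∈ s, H x y • sten B (v x) (v y) := by
      classical
      intro s
      induction s using Finset.induction_on with
      | empty => rw [Finset.sum_empty, Finset.sum_empty, sten_zero_right]
      | insert a s ha ih =>
        rw [Finset.sum_insert ha, Finset.sum_insert ha, sten_add_right, sten_smul_right, ih]
    exact this _
  have h3 : ∑ x, sten B (v x) (w x) = - ∑ x, sten B (v x) (w x) := by
    conv_lhs => simp only [h1]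
    rw [Finset.sum_comm, ← Finset.sum_neg_distrib]
    refine Finset.sum_congr rfl fun y _ => ?_
    rw [h1 y, ← Finset.sum_neg_distrib]
    refine Finset.sum_congr rfl fun x _ => ?_
    rw [hH x y, sten_comm, neg_smul]
  have h4 : (2 : K) • ∑ x, sten B (v x) (w x) = 0 := by
    rw [two_smul]
    nth_rw 1 [h3]
    abel
  exact (smul_eq_zero.mp h4).resolve_left h2

section Even

variable {B : LinearMap.BilinForm K V} [Fintype X] [Fintype σ] [DecidableEq σ]

/-- The configuration with even arms only. -/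
noncomputable def confE (arm : X → σ) (ht : X → ℕ) (v w : X → V)
    (vv : ∀ x y, arm x = arm y → B (v x) (v y) = 0)
    (vw : ∀ x y, arm x = arm y → ht x ≤ ht y → B (v x) (w y) = 0) : Conf B X σ where
  arm := arm
  ht := ht
  M := (Finset.univ.sup ht) + 1
  htM x := Nat.lt_succ_of_le (Finset.le_sup (f := ht) (Finset.mem_univ x))
  v := v
  w := w
  v0 _ := 0
  c0 _ := 0
  odd _ := False
  even0 _ _ := rfl
  c0ne _ h := h.elim
  vv := vv
  vw := vw
  v00 _ := by simp
  vv0 _ := by simp

variable {arm : X → σ} {ht : X → ℕ} {v w : X → V}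
  {vv : ∀ x y, arm x = arm y → B (v x) (v y) = 0}
  {vw : ∀ x y, arm x = arm y → ht x ≤ ht y → B (v x) (w y) = 0}

theorem confE_Phi (s : σ) : (confE arm ht v w vv vw).Phi s
    = ∑ x, if arm x = s then sten B (v x) (w x) else 0 := by
  change (∑ x, if arm x = s then sten B (v x) (w x) else 0) + (0 : K) • ten B (0 : V) 0 = _
  rw [zero_smul, add_zero]

theorem confE_sum (h2 : (2 : K) ≠ 0) (H : X → X → K) (hH : ∀ x y, H x y = - H y x)
    (hw : ∀ x, w x = ∑ y, H x y • v y) : ∑ s, (confE arm ht v w vv vw).Phi s = 0 := by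
  simp only [confE_Phi]
  rw [Finset.sum_comm]
  simp only [Finset.sum_ite_eq, Finset.mem_univ, if_true]
  exact sum_sten_eq_zero B h2 H hH v w hw

theorem confE_top (hv : Submodule.span K (Set.range v) = ⊤) :
    ⨆ s, (confE arm ht v w vv vw).Rp s = ⊤ := by
  rw [eq_top_iff, ← hv, Submodule.span_le]
  rintro _ ⟨x, rfl⟩
  refine Submodule.mem_iSup_of_mem (arm x) ?_
  exact (confE arm ht v w vv vw).R_le_Rp _ _ ((confE arm ht v w vv vw).v_mem x)

theorem confE_low [FiniteDimensional K V] [Nontrivial V] (hB : B.Nondegenerate) (hs : B.IsSymm)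
    (h2 : (2 : K) ≠ 0) (H : X → X → K) (hw : ∀ x, w x = ∑ y, H x y • v y)
    (hv : Submodule.span K (Set.range v) = ⊤)
    (hgen : ∀ G : X → X → K, (∀ x y, G x y = - G y x) →
      ∃ C : Conn B, ∀ x y, C.d (H x y) = G x y)
    [DecidablePred (confE arm ht v w vv vw).odd]
    (T : Submodule K (Conf.Wt V X σ)) (hT : (confE arm ht v w vv vw).Closed T) :
    (2 * Fintype.card X + (Finset.univ.filter (confE arm ht v w vv vw).odd).card) * finrank K V + 2
      ≤ 2 * finrank K T + 2 * finrank K V := by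
  let j : ((X → V) × (X → V)) →ₗ[K] Conf.Wt V X σ :=
    { toFun := fun p => (p.1, p.2, 0)
      map_add' := by intro p q; simp
      map_smul' := by intro c p; simp }
  have hj : ∀ p, j p = (p.1, p.2, 0) := fun p => rfl
  have hjinj : Function.Injective j := by
    intro p q h
    rw [hj, hj] at h
    have h1 := congrArg Prod.fst h
    have h3 := congrArg (fun z => z.2.1) h
    exact Prod.ext h1 h3
  have hlow := low hB hs h2 H v hv w hw hgen (T.comap j) (by
      intro C
      rw [Submodule.mem_comap, hj]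
      have := hT.conn C
      have h0 : (fun s => C.nab ((confE arm ht v w vv vw).v0 s)) = (0 : σ → V) :=
        funext fun s => map_zero C.nab
      rw [h0] at this
      exact this) (by
      intro Z hZ
      rw [Submodule.mem_comap, hj]
      have := hT.skew Z hZ
      have h0 : (fun s => Z ((confE arm ht v w vv vw).v0 s)) = (0 : σ → V) :=
        funext fun s => map_zero Z
      rw [h0] at this
      exact this) (by
      rw [Submodule.mem_comap, hj]
      exact hT.self)
  have h3 : finrank K (T.comap j) ≤ finrank K T := by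
    refine LinearMap.finrank_le_finrank_of_injective
      (f := (j.domRestrict (T.comap j)).codRestrict T (fun x => x.2)) ?_
    intro a b hab
    exact Subtype.ext (hjinj (congrArg Subtype.val hab))
  have h4 : (Finset.univ.filter (confE arm ht v w vv vw).odd).card = 0 := by
    rw [Finset.card_eq_zero, Finset.filter_eq_empty_iff]
    intro s _ h; exact h
  rw [h4, add_zero, mul_assoc]
  omega

end Even

section Odd

variable {B : LinearMap.BilinForm K V} [Fintype X] [Fintype σ] [DecidableEq σ]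

/-- the vector of the anisotropic direction of the odd arms -/
def vodd (s1 s2 : σ) (c : K) (v w : Option X → V) (s : σ) : V :=
  if s = s1 then v none + c • w none else if s = s2 then v none - c • w none else 0

/-- the coefficients of the odd arms -/
def codd (s1 s2 : σ) (c : K) (s : σ) : K :=
  if s = s1 then (2 * c)⁻¹ else if s = s2 then - (2 * c)⁻¹ else 0

/-- The configuration with two odd arms. -/
noncomputable def confO (s1 s2 : σ) (h12 : s1 ≠ s2) (c : K) (hc : c ≠ 0) (h2 : (2 : K) ≠ 0)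
    (arm : X → σ) (ht : X → ℕ) (v w : Option X → V)
    (vv : ∀ x y, arm x = arm y → B (v (some x)) (v (some y)) = 0)
    (vw : ∀ x y, arm x = arm y → ht x ≤ ht y → B (v (some x)) (w (some y)) = 0)
    (v00 : ∀ s, B (vodd s1 s2 c v w s) (vodd s1 s2 c v w s) = 0)
    (vv0 : ∀ x, B (v (some x)) (vodd s1 s2 c v w (arm x)) = 0) : Conf B X σ where
  arm := arm
  ht := ht
  M := (Finset.univ.sup ht) + 1
  htM x := Nat.lt_succ_of_le (Finset.le_sup (f := ht) (Finset.mem_univ x))
  v x := v (some x)
  w x := w (some x)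
  v0 s := vodd s1 s2 c v w s
  c0 s := codd s1 s2 c s
  odd s := s = s1 ∨ s = s2
  even0 s hs := by
    rw [not_or] at hs
    rw [vodd, if_neg hs.1, if_neg hs.2]
  c0ne s hs := by
    have h3 : (2 * c)⁻¹ ≠ 0 := inv_ne_zero (mul_ne_zero h2 hc)
    rcases hs with rfl | rfl
    · rw [codd, if_pos rfl]; exact h3
    · rw [codd, if_neg (Ne.symm h12), if_pos rfl]; exact neg_ne_zero.mpr h3
  vv := vv
  vw := vw
  v00 := v00
  vv0 := vv0

variable {s1 s2 : σ} {h12 : s1 ≠ s2} {c : K} {hc : c ≠ 0} {h2 : (2 : K) ≠ 0}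
  {arm : X → σ} {ht : X → ℕ} {v w : Option X → V}
  {vv : ∀ x y, arm x = arm y → B (v (some x)) (v (some y)) = 0}
  {vw : ∀ x y, arm x = arm y → ht x ≤ ht y → B (v (some x)) (w (some y)) = 0}
  {v00 : ∀ s, B (vodd s1 s2 c v w s) (vodd s1 s2 c v w s) = 0}
  {vv0 : ∀ x, B (v (some x)) (vodd s1 s2 c v w (arm x)) = 0}

theorem confO_Phi (s : σ) : (confO s1 s2 h12 c hc h2 arm ht v w vv vw v00 vv0).Phi s
    = (∑ x, if arm x = s then sten B (v (some x)) (w (some x)) else 0)
      + codd s1 s2 c s • ten B (vodd s1 s2 c v w s) (vodd s1 s2 c v w s) := rfl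

theorem confO_sum (H : Option X → Option X → K) (hH : ∀ x y, H x y = - H y x)
    (hw : ∀ x, w x = ∑ y, H x y • v y) :
    ∑ s, (confO s1 s2 h12 c hc h2 arm ht v w vv vw v00 vv0).Phi s = 0 := by
  have h0 := sum_sten_eq_zero B h2 H hH v w hw
  rw [Fintype.sum_option] at h0
  simp only [confO_Phi, Finset.sum_add_distrib]
  rw [Finset.sum_comm]
  simp only [Finset.sum_ite_eq, Finset.mem_univ, if_true]
  have h3 : ∑ s, codd s1 s2 c s • ten B (vodd s1 s2 c v w s) (vodd s1 s2 c v w s)
      = sten B (v none) (w none) := by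
    have h4 : ∀ s, codd s1 s2 c s • ten B (vodd s1 s2 c v w s) (vodd s1 s2 c v w s)
        = (if s = s1 then (2 * c)⁻¹ • ten B (v none + c • w none) (v none + c • w none) else 0)
        + (if s = s2 then (-(2 * c)⁻¹) • ten B (v none - c • w none) (v none - c • w none)
            else 0) := by
      intro s
      by_cases h5 : s = s1
      · subst h5
        rw [codd, vodd, if_pos rfl, if_pos rfl, if_pos rfl, if_neg h12, add_zero]
      · by_cases h6 : s = s2
        · subst h6
          rw [codd, vodd, if_neg h5, if_neg h5, if_neg h5, if_pos rfl, if_pos rfl, if_pos rfl,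
            zero_add]
        · rw [codd, if_neg h5, if_neg h6, if_neg h5, if_neg h6, zero_smul, add_zero]
    simp only [h4, Finset.sum_add_distrib, Finset.sum_ite_eq', Finset.mem_univ, if_true]
    have h7 : ten B (v none + c • w none) (v none + c • w none)
        - ten B (v none - c • w none) (v none - c • w none)
        = (2 * c) • sten B (v none) (w none) := by
      ext z
      simp only [sten, ten_apply, LinearMap.sub_apply, LinearMap.smul_apply, LinearMap.add_apply,
        map_add, map_sub, map_smul, smul_eq_mul]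
      module
    rw [neg_smul, ← sub_eq_add_neg, ← smul_sub, h7, smul_smul,
      inv_mul_cancel₀ (mul_ne_zero h2 hc), one_smul]
  rw [h3, add_comm]
  exact h0

theorem confO_top (hv : Submodule.span K (Set.range v) = ⊤) :
    ⨆ s, (confO s1 s2 h12 c hc h2 arm ht v w vv vw v00 vv0).Rp s = ⊤ := by
  set F := confO s1 s2 h12 c hc h2 arm ht v w vv vw v00 vv0 with hF
  rw [eq_top_iff, ← hv, Submodule.span_le]
  rintro _ ⟨x, rfl⟩
  rcases x with _ | x
  · have h1 : F.v0 s1 ∈ ⨆ s, F.Rp s := Submodule.mem_iSup_of_mem s1 (F.v0_mem s1)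
    have h3 : F.v0 s2 ∈ ⨆ s, F.Rp s := Submodule.mem_iSup_of_mem s2 (F.v0_mem s2)
    have h4 : F.v0 s1 = v none + c • w none := by
      change vodd s1 s2 c v w s1 = _
      rw [vodd, if_pos rfl]
    have h5 : F.v0 s2 = v none - c • w none := by
      change vodd s1 s2 c v w s2 = _
      rw [vodd, if_neg (Ne.symm h12), if_pos rfl]
    have h6 : v none = (2 : K)⁻¹ • (F.v0 s1 + F.v0 s2) := by
      rw [h4, h5]
      have : v none + c • w none + (v none - c • w none) = (2 : K) • v none := by
        rw [two_smul]; abel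
      rw [this, smul_smul, inv_mul_cancel₀ h2, one_smul]
    change v none ∈ _
    rw [h6]
    exact Submodule.smul_mem _ _ (Submodule.add_mem _ h1 h3)
  · exact Submodule.mem_iSup_of_mem (arm x) (F.R_le_Rp _ _ (F.v_mem x))

theorem confO_low [FiniteDimensional K V] [Nontrivial V] (hB : B.Nondegenerate) (hs : B.IsSymm)
    (hcd : ∀ d : Derivation ℤ K K, d c = 0)
    (H : Option X → Option X → K) (hw : ∀ x, w x = ∑ y, H x y • v y)
    (hv : Submodule.span K (Set.range v) = ⊤)
    (hgen : ∀ G : Option X → Option X → K, (∀ x y, G x y = - G y x) →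
      ∃ C : Conn B, ∀ x y, C.d (H x y) = G x y)
    [DecidablePred (confO s1 s2 h12 c hc h2 arm ht v w vv vw v00 vv0).odd]
    (T : Submodule K (Conf.Wt V X σ))
    (hT : (confO s1 s2 h12 c hc h2 arm ht v w vv vw v00 vv0).Closed T) :
    (2 * Fintype.card X + (Finset.univ.filter
      (confO s1 s2 h12 c hc h2 arm ht v w vv vw v00 vv0).odd).card) * finrank K V + 2
      ≤ 2 * finrank K T + 2 * finrank K V := by
  classical
  set F := confO s1 s2 h12 c hc h2 arm ht v w vv vw v00 vv0 with hF
  let j : ((Option X → V) × (Option X → V)) →ₗ[K] Conf.Wt V X σ :=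
    { toFun := fun p => (fun x => p.1 (some x), fun x => p.2 (some x),
        fun s => vodd s1 s2 c p.1 p.2 s)
      map_add' := by
        intro p q
        refine Prod.ext rfl (Prod.ext rfl (funext fun s => ?_))
        change vodd s1 s2 c (p.1 + q.1) (p.2 + q.2) s
          = vodd s1 s2 c p.1 p.2 s + vodd s1 s2 c q.1 q.2 s
        unfold vodd
        split_ifs
        · simp only [Pi.add_apply, smul_add]; abel
        · simp only [Pi.add_apply, smul_add]; abel
        · rw [add_zero]
      map_smul' := by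
        intro t p
        refine Prod.ext rfl (Prod.ext rfl (funext fun s => ?_))
        change vodd s1 s2 c (t • p.1) (t • p.2) s = t • vodd s1 s2 c p.1 p.2 s
        unfold vodd
        split_ifs
        · simp only [Pi.smul_apply, smul_add, smul_comm c t]
        · simp only [Pi.smul_apply, smul_sub, smul_comm c t]
        · rw [smul_zero] }
  have hj : ∀ p, j p = (fun x => p.1 (some x), fun x => p.2 (some x),
        fun s => vodd s1 s2 c p.1 p.2 s) := fun p => rfl
  have hjinj : Function.Injective j := by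
    rw [injective_iff_map_eq_zero]
    rintro ⟨a, b⟩ h
    rw [hj] at h
    have h1 : ∀ x, a (some x) = 0 := fun x => congrFun (congrArg Prod.fst h) x
    have h3 : ∀ x, b (some x) = 0 := fun x => congrFun (congrArg (fun z => z.2.1) h) x
    have h4 : vodd s1 s2 c a b s1 = 0 := congrFun (congrArg (fun z => z.2.2) h) s1
    have h5 : vodd s1 s2 c a b s2 = 0 := congrFun (congrArg (fun z => z.2.2) h) s2
    rw [vodd, if_pos rfl] at h4
    rw [vodd, if_neg (Ne.symm h12), if_pos rfl] at h5
    have h6 : (2 : K) • a none = 0 := by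
      have : (2 : K) • a none = (a none + c • b none) + (a none - c • b none) := by
        rw [two_smul]; abel
      rw [this, h4, h5, add_zero]
    have h7 : a none = 0 := (smul_eq_zero.mp h6).resolve_left h2
    rw [h7, zero_add] at h4
    have h8 : b none = 0 := (smul_eq_zero.mp h4).resolve_left hc
    refine Prod.ext (funext fun x => ?_) (funext fun x => ?_)
    · rcases x with _ | x
      · exact h7
      · exact h1 x
    · rcases x with _ | x
      · exact h8
      · exact h3 x
  have hlow := low hB hs h2 H v hv w hw hgen (T.comap j) (by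
      intro C
      rw [Submodule.mem_comap, hj]
      have := hT.conn C
      have h0 : (fun s => C.nab (F.v0 s))
          = fun s => vodd s1 s2 c (fun x => C.nab (v x)) (fun x => C.nab (w x)) s := by
        funext s
        change C.nab (vodd s1 s2 c v w s) = _
        unfold vodd
        split_ifs
        · rw [map_add, C.leib, hcd, zero_smul, zero_add]
        · rw [map_sub, C.leib, hcd, zero_smul, zero_add]
        · rw [map_zero]
      rw [h0] at this
      exact this) (by
      intro Z hZ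
      rw [Submodule.mem_comap, hj]
      have := hT.skew Z hZ
      have h0 : (fun s => Z (F.v0 s))
          = fun s => vodd s1 s2 c (fun x => Z (v x)) (fun x => Z (w x)) s := by
        funext s
        change Z (vodd s1 s2 c v w s) = _
        unfold vodd
        split_ifs
        · rw [map_add, map_smul]
        · rw [map_sub, map_smul]
        · rw [map_zero]
      rw [h0] at this
      exact this) (by
      rw [Submodule.mem_comap, hj]
      exact hT.self)
  have h3 : finrank K (T.comap j) ≤ finrank K T := by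
    refine LinearMap.finrank_le_finrank_of_injective
      (f := (j.domRestrict (T.comap j)).codRestrict T (fun x => x.2)) ?_
    intro a b hab
    exact Subtype.ext (hjinj (congrArg Subtype.val hab))
  have h4 : (Finset.univ.filter F.odd).card = 2 := by
    have : Finset.univ.filter F.odd = {s1, s2} := by
      ext s
      simp only [Finset.mem_filter, Finset.mem_univ, true_and, Finset.mem_insert,
        Finset.mem_singleton]
      exact Iff.rfl
    rw [this, Finset.card_pair h12]
  have h4' : ∀ inst : DecidablePred (confO s1 s2 h12 c hc h2 arm ht v w vv vw v00 vv0).odd,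
      (@Finset.filter σ (confO s1 s2 h12 c hc h2 arm ht v w vv vw v00 vv0).odd inst
        Finset.univ).card = 2 := by
    intro inst
    convert h4
  rw [h4' _]
  rw [Fintype.card_option] at hlow
  have h5 : (2 * Fintype.card X + 2) * finrank K V = 2 * ((Fintype.card X + 1) * finrank K V) := by
    ring
  rw [h5]
  omega

end Odd

end Crest.Agent.R172.NilFin
end

-- ▼ part R172/NilBr
section

/-!
Row 172: the bridge from the space `𝒦` to NIL.
`Σ = U / rad b`, `b(u,u') = B(F u, G u')`.
-/

set_option autoImplicit false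
set_option linter.unusedSectionVars false

namespace Crest.Agent.R172.NilBr

open Module Crest.Agent.R172.NilLower Crest.Agent.R172.NilCount
open Crest.Agent.R172.NilConn (ten ten_apply)

variable {K : Type*} [Field K]

theorem bil_sum {V ι κ : Type*} [AddCommGroup V] [Module K V] [Fintype ι] [Fintype κ]
    (B : LinearMap.BilinForm K V) (p : ι → K) (f : ι → V) (q : κ → K) (g : κ → V) :
    B (∑ i, p i • f i) (∑ j, q j • g j) = ∑ i, ∑ j, p i * q j * B (f i) (g j) := by
  have h1 : B (∑ i, p i • f i) = ∑ i, p i • B (f i) := by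
    rw [map_sum]; exact Finset.sum_congr rfl fun i _ => map_smul _ _ _
  rw [h1, LinearMap.sum_apply]
  refine Finset.sum_congr rfl fun i _ => ?_
  rw [LinearMap.smul_apply, map_sum, Finset.smul_sum]
  refine Finset.sum_congr rfl fun j _ => ?_
  rw [map_smul, smul_eq_mul, smul_eq_mul]
  ring

/-- Every derivation of the field extends to a connection compatible with a nondegenerate symmetric
form (characteristic not two). -/
theorem exists_conn {V : Type*} [AddCommGroup V] [Module K V] [FiniteDimensional K V]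
    {B : LinearMap.BilinForm K V} (hB : B.Nondegenerate) (hs : B.IsSymm) (h2 : (2 : K) ≠ 0)
    (d : Derivation ℤ K K) : ∃ C : Conn B, C.d = d := by
  classical
  let e := Module.finBasis K V
  obtain ⟨A, hA⟩ : ∃ A : V →ₗ[K] V, ∀ i j, B (A (e i)) (e j) = 2⁻¹ * d (B (e i) (e j)) := by
    obtain ⟨A, hA⟩ := (gramMap_bijective hB e).2 (fun i j => 2⁻¹ * d (B (e i) (e j)))
    exact ⟨A, fun i j => congrFun (congrFun hA i) j⟩
  have hA' : ∀ i j, B (e i) (A (e j)) = 2⁻¹ * d (B (e i) (e j)) := by
    intro i j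
    have h1 : B (e i) (A (e j)) = B (A (e j)) (e i) := hs.eq _ _
    have h3 : B (e i) (e j) = B (e j) (e i) := hs.eq _ _
    rw [h1, h3]
    exact hA j i
  let nab : V →+ V :=
    { toFun := fun x => ∑ i, d (e.repr x i) • e i + A x
      map_zero' := by simp
      map_add' := by
        intro x y
        simp only [map_add, Finsupp.add_apply, add_smul, Finset.sum_add_distrib]
        abel }
  have hnab : ∀ x, nab x = ∑ i, d (e.repr x i) • e i + A x := fun x => rfl
  refine ⟨⟨d, nab, ?_, ?_⟩, rfl⟩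
  · intro c x
    rw [hnab, hnab, smul_add, map_smul e.repr, map_smul A, ← add_assoc]
    congr 1
    have : d c • x = ∑ i, (d c * e.repr x i) • e i := by
      conv_lhs => rw [← e.sum_repr x]
      rw [Finset.smul_sum]
      exact Finset.sum_congr rfl fun i _ => smul_smul _ _ _
    rw [this, Finset.smul_sum, ← Finset.sum_add_distrib]
    refine Finset.sum_congr rfl fun i _ => ?_
    rw [Finsupp.smul_apply, smul_eq_mul, Derivation.leibniz, smul_smul, ← add_smul, smul_eq_mul, smul_eq_mul]
    congr 1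
    ring
  · intro x y
    rw [hnab, hnab]
    have hx := e.sum_repr x
    have hy := e.sum_repr y
    have hAx : A x = ∑ i, e.repr x i • A (e i) := by
      conv_lhs => rw [← hx]
      rw [map_sum]
      exact Finset.sum_congr rfl fun i _ => map_smul _ _ _
    have hAy : A y = ∑ i, e.repr y i • A (e i) := by
      conv_lhs => rw [← hy]
      rw [map_sum]
      exact Finset.sum_congr rfl fun i _ => map_smul _ _ _
    have e1 : B x y = ∑ i, ∑ j, e.repr x i * e.repr y j * B (e i) (e j) := by
      conv_lhs => rw [← hx, ← hy]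
      exact bil_sum B _ _ _ _
    have e2 : B (∑ i, d (e.repr x i) • e i) y
        = ∑ i, ∑ j, d (e.repr x i) * e.repr y j * B (e i) (e j) := by
      conv_lhs => rw [← hy]
      exact bil_sum B _ _ _ _
    have e3 : B x (∑ i, d (e.repr y i) • e i)
        = ∑ i, ∑ j, e.repr x i * d (e.repr y j) * B (e i) (e j) := by
      conv_lhs => rw [← hx]
      exact bil_sum B _ _ _ _
    have e4 : B (A x) y = ∑ i, ∑ j, e.repr x i * e.repr y j * (2⁻¹ * d (B (e i) (e j))) := by
      rw [hAx]
      conv_lhs => rw [← hy]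
      rw [bil_sum]
      simp only [hA]
    have e5 : B x (A y) = ∑ i, ∑ j, e.repr x i * e.repr y j * (2⁻¹ * d (B (e i) (e j))) := by
      rw [hAy]
      conv_lhs => rw [← hx]
      rw [bil_sum]
      simp only [hA']
    rw [map_add, LinearMap.add_apply, map_add, e1, e2, e3, e4, e5]
    simp only [map_sum, ← Finset.sum_add_distrib]
    refine Finset.sum_congr rfl fun i _ => Finset.sum_congr rfl fun j _ => ?_
    rw [Derivation.leibniz, Derivation.leibniz]
    simp only [smul_eq_mul]
    field_simp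
    ring

end Crest.Agent.R172.NilBr
end

-- ▼ part R172/NilCount6
section

/-!
# Row 172, node NILC: the flag of an arm and the image of the variations
-/

set_option autoImplicit false
set_option linter.unusedSectionVars false
set_option linter.unusedSimpArgs false
set_option linter.unusedVariables false

namespace Crest.Agent.R172.NilCount

open Module Crest.Agent.R172.Kempf Crest.Agent.R172.NilPat
open Crest.Agent.R172.NilConn (ten ten_apply)

/-- the pattern of an arm -/
def rho {ι : Type*} (u : ι → ℝ) (j k : ι) : Prop :=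
  0 < u j + u k ∧ ¬ (u j = 1 ∧ u k = 0) ∧ ¬ (u j = 0 ∧ u k = 1)

theorem rho_symm {ι : Type*} {u : ι → ℝ} {j k : ι} (h : rho u j k) : rho u k j :=
  ⟨by rw [add_comm]; exact h.1, fun h' => h.2.2 ⟨h'.2, h'.1⟩, fun h' => h.2.1 ⟨h'.2, h'.1⟩⟩

section

variable {K V X σ ι : Type*} [Field K] [AddCommGroup V] [Module K V] [Fintype ι] [DecidableEq ι]
  {B : LinearMap.BilinForm K V}

theorem repr_ten (hB : B.Nondegenerate) (hs : B.IsSymm) (f : Basis ι K V) (a b : V) (j k : ι) :
    f.repr (ten B a b (B.dualBasis hB f k)) j = f.repr b k * f.repr a j := by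
  rw [ten_apply, map_smul, Finsupp.smul_apply, smul_eq_mul]
  congr 1
  rw [bilin_eq_sum B f, Finset.sum_eq_single k]
  · rw [dual_right B hB f hs, if_pos rfl, mul_one]
  · intro l _ hl
    rw [dual_right B hB f hs, if_neg hl, mul_zero]
  · intro h; exact absurd (Finset.mem_univ _) h

theorem ten_mem_Pat (hB : B.Nondegenerate) (hs : B.IsSymm) (f : Basis ι K V) {a b : V}
    {ρ : ι → ι → Prop} (h : ∀ j k, f.repr a j ≠ 0 → f.repr b k ≠ 0 → ρ j k) :
    ten B a b ∈ Pat B hB f ρ := by
  intro j k hjk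
  rw [repr_ten hB hs]
  by_contra hne
  exact hjk (h j k (right_ne_zero_of_mul hne) (left_ne_zero_of_mul hne))

theorem sten_mem_Pat (hB : B.Nondegenerate) (hs : B.IsSymm) (f : Basis ι K V) {a b : V}
    {ρ : ι → ι → Prop} (hρ : ∀ j k, ρ j k → ρ k j)
    (h : ∀ j k, f.repr a j ≠ 0 → f.repr b k ≠ 0 → ρ j k) :
    sten B a b ∈ Pat B hB f ρ :=
  (Pat B hB f ρ).add_mem (ten_mem_Pat hB hs f h)
    (ten_mem_Pat hB hs f fun j k hj hk => hρ _ _ (h k j hk hj))

theorem eq_sum_ten (hB : B.Nondegenerate) (hs : B.IsSymm) (f : Basis ι K V) (A : V →ₗ[K] V) :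
    A = ∑ k, ∑ j, f.repr (A (B.dualBasis hB f k)) j • ten B (f j) (f k) := by
  ext x
  rw [apply_eq_sum B hB f hs A x]
  simp only [LinearMap.sum_apply, LinearMap.smul_apply, ten_apply, smul_smul]

theorem two_smul_eq_sum_sten (hB : B.Nondegenerate) (hs : B.IsSymm) (f : Basis ι K V)
    {A : V →ₗ[K] V} (hA : A ∈ Sym B) :
    (2 : K) • A = ∑ k, ∑ j, f.repr (A (B.dualBasis hB f k)) j • sten B (f j) (f k) := by
  have h1 := eq_sum_ten hB hs f A
  have h2 : A = ∑ k, ∑ j, f.repr (A (B.dualBasis hB f k)) j • ten B (f k) (f j) := by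
    conv_lhs => rw [h1, Finset.sum_comm]
    refine Finset.sum_congr rfl fun k _ => Finset.sum_congr rfl fun j _ => ?_
    rw [(mem_Sym_iff_coef B hB f hs).1 hA k j]
  rw [two_smul]
  conv_lhs => rw [h1]
  conv_lhs => rw [← h1]
  conv_lhs => enter [2]; rw [h2]
  conv_lhs => enter [1]; rw [h1]
  rw [← Finset.sum_add_distrib]
  refine Finset.sum_congr rfl fun k _ => ?_
  rw [← Finset.sum_add_distrib]
  refine Finset.sum_congr rfl fun j _ => ?_
  rw [sten, smul_add]

end

namespace Conf

variable {K V X σ ι : Type*} [Field K] [AddCommGroup V] [Module K V] [Fintype ι] [DecidableEq ι]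
  {B : LinearMap.BilinForm K V} (F : Conf B X σ)

/-- `(f, u)` is the weighted flag of the arm `s`. -/
structure Flag (s : σ) (f : Basis ι K V) (u : ι → ℝ) : Prop where
  sd : SD B f u
  int : ∀ i, ∃ z : ℤ, u i = z
  R : ∀ i ≤ F.M, Fil f u ((F.M : ℝ) + 2 - i) = F.R s i
  Rp : Fil f u 1 = F.Rp s
  Ro : ∀ i ≤ F.M, Fil f u (-((F.M : ℝ) + 1 - i)) = F.Ro s i

theorem exists_Flag (hB : B.Nondegenerate) (hs : B.IsSymm) (e : Basis ι K V) (s : σ) :
    ∃ (g : Basis ι K V) (om : ι → ℝ), F.Flag s g om := by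
  obtain ⟨g, om, h1, h2, h3, h4, h5⟩ := exists_isotropic_flag B hB hs e (F.M + 1) (F.ch s)
    (F.ch_mono s) (F.ch_zero s) (by rw [F.ch_top]; exact F.Rp_iso hs s)
  refine ⟨g, om, h1, h2, ?_, ?_, ?_⟩
  · intro i hi
    rw [← F.ch_of_le s hi, ← h4 i (by omega)]
    congr 1; push_cast; ring
  · rw [← F.ch_top s, ← h4 _ le_rfl]
    congr 1; push_cast; ring
  · intro i hi
    ext x
    rw [mem_Ro, ← F.ch_of_le s hi, ← h5 i (by omega)]
    push_cast; rfl

theorem Flag.congr {F : Conf B X σ} {s : σ} {f g : Basis ι K V} {u om : ι → ℝ} (h : F.Flag s g om)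
    (hf : ∀ a, Fil f u a = Fil g om a) : F.Flag s f u := by
  refine ⟨h.sd.congr hf, ?_, ?_, ?_, ?_⟩
  · intro i
    obtain ⟨π, hπ⟩ := exists_perm g f om u hf
    obtain ⟨z, hz⟩ := h.int (π.symm i)
    refine ⟨z, ?_⟩
    rw [← hz, hπ, Equiv.apply_symm_apply]
  · intro i hi; rw [hf, h.R i hi]
  · rw [hf, h.Rp]
  · intro i hi; rw [hf, h.Ro i hi]


section Maps

variable [Fintype X] [DecidableEq σ] [DecidableEq X]

/-- the space `n` of the arm -/
noncomputable def nn (s : σ) : Submodule K (V →ₗ[K] V) := (F.Nn s).map (F.phi s)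

theorem sten_mem_nn {s : σ} {x : X} (hx : F.arm x = s) {b : V} (hb : b ∈ F.Ro s (F.ht x + 1)) :
    sten B (F.v x) b ∈ F.nn s := by
  refine ⟨(0, Pi.single x b, 0), ?_, ?_⟩
  · refine ⟨fun _ _ => Submodule.zero_mem _, fun _ _ => rfl, ?_, ?_, fun _ => Submodule.zero_mem _,
      fun _ => rfl, fun _ _ => rfl⟩
    · intro y hy
      by_cases hyx : y = x
      · subst hyx; simpa using hb
      · simp only [Pi.single_eq_of_ne hyx]; exact Submodule.zero_mem _
    · intro y hy
      have hyx : y ≠ x := by rintro rfl; exact hy hx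
      simp only [Pi.single_eq_of_ne hyx]
  · rw [phi_apply, Finset.sum_eq_single x]
    · rw [if_pos hx]
      simp [sten_zero_left]
    · intro y _ hy
      simp [Pi.single_eq_of_ne hy, sten_zero_left, sten_zero_right]
    · intro h; exact absurd (Finset.mem_univ _) h

theorem sten_v0_mem_nn {s : σ} {t : V} (ht : t ∈ F.Rp s) : sten B t (F.v0 s) ∈ F.nn s := by
  by_cases ho : F.odd s
  · refine ⟨(0, 0, Pi.single s ((F.c0 s)⁻¹ • t)), ?_, ?_⟩
    · refine ⟨fun _ _ => Submodule.zero_mem _, fun _ _ => rfl, fun _ _ => Submodule.zero_mem _,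
        fun _ _ => rfl, fun _ => ?_, fun h => absurd ho h, fun t' ht' => ?_⟩
      · simpa using Submodule.smul_mem _ _ ht
      · simp only [Pi.single_eq_of_ne ht']
    · rw [phi_apply, Finset.sum_eq_zero, zero_add]
      · simp only [Pi.single_eq_same]
        rw [sten_smul_left, smul_smul, mul_inv_cancel₀ (F.c0ne s ho), one_smul]
      · intro y _
        simp [sten_zero_left, sten_zero_right]
  · rw [F.even0 s ho, sten_zero_right]; exact Submodule.zero_mem _

/-- **The image of the allowed variations is a pattern.** -/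
theorem nn_eq (hB : B.Nondegenerate) (hs : B.IsSymm) (h2 : (2 : K) ≠ 0) {s : σ}
    {f : Basis ι K V} {u : ι → ℝ} (h : F.Flag s f u) :
    F.nn s = Sym B ⊓ Pat B hB f (rho u) := by
  have hρ : ∀ j k, rho u j k → rho u k j := fun _ _ => rho_symm
  apply le_antisymm
  · rintro _ ⟨z, ⟨h1, -, h3, -, h5, h6, -⟩, rfl⟩
    refine ⟨F.phi_mem_Sym hs s z, ?_⟩
    rw [phi_apply]
    have key : ∀ i ≤ F.M, ∀ a ∈ F.R s i, ∀ b ∈ F.Ro s i, sten B a b ∈ Pat B hB f (rho u) := by
      intro i hi a ha b hb
      apply sten_mem_Pat hB hs f hρ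
      intro j k hj hk
      rw [← h.R i hi] at ha
      rw [← h.Ro i hi] at hb
      have e1 := ha j hj
      have e2 := hb k hk
      have e3 : (i : ℝ) ≤ F.M := by exact_mod_cast hi
      refine ⟨by linarith, ?_, ?_⟩
      · rintro ⟨e4, -⟩; linarith
      · rintro ⟨e4, -⟩; linarith
    refine Submodule.add_mem _ (Submodule.sum_mem _ fun x _ => ?_) (Submodule.smul_mem _ _ ?_)
    · split_ifs with hx
      · have hM : F.ht x + 1 ≤ F.M := F.htM x
        refine Submodule.add_mem _ (key _ hM _ (h1 x hx) _ ?_) (key _ hM _ ?_ _ (h3 x hx))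
        · rw [← hx]; exact F.w_mem x
        · rw [← hx]; exact F.v_mem x
      · exact Submodule.zero_mem _
    · by_cases ho : F.odd s
      · apply sten_mem_Pat hB hs f hρ
        intro j k hj hk
        have ha := h5 ho
        have hb := F.v0_mem s
        rw [← h.Rp] at ha hb
        have e1 := ha j hj
        have e2 := hb k hk
        refine ⟨by linarith, ?_, ?_⟩
        · rintro ⟨-, e4⟩; linarith
        · rintro ⟨e4, -⟩; linarith
      · rw [F.even0 s ho, sten_zero_right]; exact Submodule.zero_mem _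
  · rintro A ⟨hA1, hA2⟩
    -- pairs with `u j ≥ 2`
    have hbig : ∀ j k, 2 ≤ u j → 0 < u j + u k → sten B (f j) (f k) ∈ F.nn s := by
      intro j k hj hjk
      obtain ⟨a, ha⟩ := h.int j
      obtain ⟨b, hb⟩ := h.int k
      by_cases hjM : u j ≤ (F.M : ℝ) + 2
      · -- `i = M + 2 - u j`
        have ha2 : (2 : ℤ) ≤ a := by rw [ha] at hj; exact_mod_cast hj
        have haM : a ≤ (F.M : ℤ) + 2 := by rw [ha] at hjM; exact_mod_cast hjM
        obtain ⟨i, hi⟩ : ∃ i : ℕ, (i : ℤ) = (F.M : ℤ) + 2 - a :=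
          ⟨((F.M : ℤ) + 2 - a).toNat, Int.toNat_of_nonneg (by omega)⟩
        have hiM : i ≤ F.M := by omega
        have hiR : (i : ℝ) = (F.M : ℝ) + 2 - a := by exact_mod_cast hi
        have h1 : f j ∈ F.R s i := by
          rw [← h.R i hiM]
          apply basis_mem_Fil
          rw [ha, hiR]; linarith
        have hab : 1 ≤ a + b := by
          rw [ha, hb] at hjk
          have : (0 : ℤ) < a + b := by exact_mod_cast hjk
          omega
        have habR : (1 : ℝ) ≤ a + b := by exact_mod_cast hab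
        have h2 : f k ∈ F.Ro s i := by
          rw [← h.Ro i hiM]
          apply basis_mem_Fil
          rw [hb, hiR]; linarith
        have h3 : F.R s i ≤ (F.nn s).comap
            ({ toFun := fun y => sten B y (f k)
               map_add' := fun a b => sten_add_left B a b (f k)
               map_smul' := fun c a => sten_smul_left B c a (f k) } : V →ₗ[K] (V →ₗ[K] V)) := by
          rw [Conf.R, Submodule.span_le]
          rintro _ ⟨x, ⟨hx1, hx2⟩, rfl⟩
          exact F.sten_mem_nn hx1 (F.Ro_anti s hx2 h2)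
        exact h3 h1
      · exfalso
        have h1 : f j ∈ F.R s 0 := by
          rw [← h.R 0 (Nat.zero_le _)]
          apply basis_mem_Fil
          push_cast
          linarith [not_le.mp hjM]
        rw [R_zero, Submodule.mem_bot] at h1
        exact f.ne_zero j h1
    -- pairs in `Rp`
    have hone : ∀ y ∈ F.Rp s, ∀ z ∈ F.Rp s, sten B y z ∈ F.nn s := by
      intro y hy z hz
      have h3 : F.Rp s ≤ (F.nn s).comap
          ({ toFun := fun y => sten B y z
             map_add' := fun a b => sten_add_left B a b z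
             map_smul' := fun c a => sten_smul_left B c a z } : V →ₗ[K] (V →ₗ[K] V)) := by
        rw [Conf.Rp, sup_le_iff]
        constructor
        · rw [Conf.R, Submodule.span_le]
          rintro _ ⟨x, ⟨hx1, hx2⟩, rfl⟩
          exact F.sten_mem_nn hx1 (F.Rp_le_Ro hs s _ hz)
        · rw [Submodule.span_singleton_le_iff_mem]
          change sten B (F.v0 s) z ∈ F.nn s
          rw [sten_comm]
          exact F.sten_v0_mem_nn hz
      exact h3 hy
    have hall : ∀ j k, rho u j k → sten B (f j) (f k) ∈ F.nn s := by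
      intro j k hjk
      by_cases h3 : 2 ≤ u j
      · exact hbig j k h3 hjk.1
      by_cases h4 : 2 ≤ u k
      · rw [sten_comm]; exact hbig k j h4 (rho_symm hjk).1
      obtain ⟨a, ha⟩ := h.int j
      obtain ⟨b, hb⟩ := h.int k
      have h5 : 1 ≤ u j ∧ 1 ≤ u k := by
        obtain ⟨e1, e2, e3⟩ := hjk
        rw [ha, hb] at e1 e2 e3
        rw [ha] at h3
        rw [hb] at h4
        rw [ha, hb]
        have f1 : (0 : ℤ) < a + b := by exact_mod_cast e1
        have f2 : ¬ (a = 1 ∧ b = 0) := fun h' => e2 ⟨by rw [h'.1]; simp, by rw [h'.2]; simp⟩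
        have f3 : ¬ (a = 0 ∧ b = 1) := fun h' => e3 ⟨by rw [h'.1]; simp, by rw [h'.2]; simp⟩
        have f4 : a < 2 := by
          have := not_le.mp h3
          exact_mod_cast this
        have f5 : b < 2 := by
          have := not_le.mp h4
          exact_mod_cast this
        have f6 : (1 : ℤ) ≤ a ∧ (1 : ℤ) ≤ b := by omega
        exact ⟨by exact_mod_cast f6.1, by exact_mod_cast f6.2⟩
      apply hone
      · rw [← h.Rp]; exact basis_mem_Fil f u h5.1
      · rw [← h.Rp]; exact basis_mem_Fil f u h5.2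
    have h3 : (2 : K) • A ∈ F.nn s := by
      rw [two_smul_eq_sum_sten hB hs f hA1]
      refine Submodule.sum_mem _ fun k _ => Submodule.sum_mem _ fun j _ => ?_
      by_cases hjk : rho u j k
      · exact Submodule.smul_mem _ _ (hall j k hjk)
      · rw [hA2 j k hjk, zero_smul]; exact Submodule.zero_mem _
    have h4 : A = (2 : K)⁻¹ • ((2 : K) • A) := by rw [smul_smul, inv_mul_cancel₀ h2, one_smul]
    rw [h4]
    exact Submodule.smul_mem _ _ h3

end Maps

end Conf

end Crest.Agent.R172.NilCount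
end

-- ▼ part R172/NilCount7
section

/-!
# Row 172, node NILC: the abstract arms of a configuration
-/

set_option autoImplicit false
set_option linter.unusedSectionVars false
set_option linter.unusedSimpArgs false
set_option linter.unusedVariables false

namespace Crest.Agent.R172.NilCount

open Module Crest.Agent.R172.Kempf Crest.Agent.R172.NilPat
open Crest.Agent.R172.NilConn (ten ten_apply)

namespace Conf

variable {K V X σ ι : Type*} [Field K] [AddCommGroup V] [Module K V] [Fintype ι] [DecidableEq ι]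
  {B : LinearMap.BilinForm K V} (F : Conf B X σ)

theorem finrank_R_add_Ro [FiniteDimensional K V] (hB : B.Nondegenerate) (hs : B.IsSymm) (s : σ)
    (i : ℕ) : finrank K (F.R s i) + finrank K (F.Ro s i) = finrank K V := by
  have h := finrank_inf_perp B ⊤ (F.R s i) (fun x _ h => hB.1 x fun y => h y trivial) le_top
  have h2 : (⊤ : Submodule K V) ⊓ perp B (F.R s i) = F.Ro s i := by
    ext y
    simp only [Submodule.mem_inf, Submodule.mem_top, true_and, mem_perp, mem_Ro]
    constructor
    · intro h x hx; rw [hs.eq x y]; exact h x hx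
    · intro h x hx; rw [hs.eq y x]; exact h x hx
  rw [h2, finrank_top] at h
  omega

section Maps

variable [Fintype X] [DecidableEq σ] [DecidableEq X] [FiniteDimensional K V]

/-- number of columns of the arm -/
def card (s : σ) : ℕ := (Finset.univ.filter fun x => F.arm x = s).card

open Classical in
theorem finrank_Nn (hB : B.Nondegenerate) (hs : B.IsSymm) (s : σ) :
    finrank K (F.Nn s) ≤ F.card s * finrank K V + (if F.odd s then finrank K (F.Rp s) else 0) := by
  let A : X → Submodule K V := fun x => if F.arm x = s then F.R s (F.ht x + 1) else ⊥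
  let C : X → Submodule K V := fun x => if F.arm x = s then F.Ro s (F.ht x + 1) else ⊥
  let D : Submodule K V := if F.odd s then F.Rp s else ⊥
  have hA : ∀ z : F.Nn s, ∀ x, z.1.1 x ∈ A x := by
    intro z x
    by_cases hx : F.arm x = s
    · simp only [A, if_pos hx]; exact z.2.1 x hx
    · simp only [A, if_neg hx]; rw [z.2.2.1 x hx]; exact Submodule.zero_mem _
  have hC : ∀ z : F.Nn s, ∀ x, z.1.2.1 x ∈ C x := by
    intro z x
    by_cases hx : F.arm x = s
    · simp only [C, if_pos hx]; exact z.2.2.2.1 x hx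
    · simp only [C, if_neg hx]; rw [z.2.2.2.2.1 x hx]; exact Submodule.zero_mem _
  have hD : ∀ z : F.Nn s, z.1.2.2 s ∈ D := by
    intro z
    by_cases hx : F.odd s
    · simp only [D, if_pos hx]; exact z.2.2.2.2.2.1 hx
    · simp only [D, if_neg hx]; rw [z.2.2.2.2.2.2.1 hx]; exact Submodule.zero_mem _
  let g : F.Nn s →ₗ[K] (∀ x, A x) × (∀ x, C x) × D :=
    { toFun := fun z => (fun x => ⟨z.1.1 x, hA z x⟩, fun x => ⟨z.1.2.1 x, hC z x⟩,
        ⟨z.1.2.2 s, hD z⟩)
      map_add' := fun _ _ => rfl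
      map_smul' := fun _ _ => rfl }
  have hg : Function.Injective g := by
    rw [injective_iff_map_eq_zero]
    intro z hz
    apply Subtype.ext
    refine Prod.ext ?_ (Prod.ext ?_ ?_)
    · funext x
      exact congrArg (fun q : (∀ x, A x) × (∀ x, C x) × D => (q.1 x : V)) hz
    · funext x
      exact congrArg (fun q : (∀ x, A x) × (∀ x, C x) × D => (q.2.1 x : V)) hz
    · funext t
      by_cases ht : t = s
      · subst ht
        exact congrArg (fun q : (∀ x, A x) × (∀ x, C x) × D => (q.2.2 : V)) hz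
      · exact z.2.2.2.2.2.2.2 t ht
  have h1 := LinearMap.finrank_le_finrank_of_injective hg
  rw [finrank_prod, finrank_prod, finrank_pi_fintype, finrank_pi_fintype] at h1
  have h2 : ∑ x, finrank K (A x) + ∑ x, finrank K (C x) = F.card s * finrank K V := by
    rw [← Finset.sum_add_distrib, card, Finset.card_filter, Finset.sum_mul]
    refine Finset.sum_congr rfl fun x _ => ?_
    by_cases hx : F.arm x = s
    · have e1 : A x = F.R s (F.ht x + 1) := if_pos hx
      have e2 : C x = F.Ro s (F.ht x + 1) := if_pos hx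
      rw [e1, e2, if_pos hx, one_mul]; exact F.finrank_R_add_Ro hB hs s _
    · have e1 : A x = ⊥ := if_neg hx
      have e2 : C x = ⊥ := if_neg hx
      rw [e1, e2, if_neg hx, zero_mul, finrank_bot, add_zero]
  have h3 : finrank K D = (if F.odd s then finrank K (F.Rp s) else 0) := by
    by_cases hx : F.odd s
    · have e1 : D = F.Rp s := if_pos hx
      rw [e1, if_pos hx]
    · have e1 : D = ⊥ := if_neg hx
      rw [e1, if_neg hx, finrank_bot]
  omega

theorem sum_card [Fintype σ] : ∑ s, F.card s = Fintype.card X := by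
  simp only [card]
  rw [← Finset.card_eq_sum_card_fiberwise (s := Finset.univ) (t := Finset.univ)
    (f := F.arm) (fun _ _ => Finset.mem_coe.2 (Finset.mem_univ _)), Finset.card_univ]

/-- restriction of a variation to an arm -/
def restr (s : σ) (f : Wt V X σ) : Wt V X σ :=
  (fun x => if F.arm x = s then f.1 x else 0, fun x => if F.arm x = s then f.2.1 x else 0,
    fun t => if t = s then f.2.2 t else 0)

theorem sum_restr [Fintype σ] (f : Wt V X σ) : ∑ s, F.restr s f = f := by
  have h1 : (∑ s, F.restr s f).1 = f.1 := by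
    rw [Prod.fst_sum]
    funext x
    rw [Finset.sum_apply, Finset.sum_eq_single (F.arm x)]
    · exact if_pos rfl
    · intro s _ hs; exact if_neg (Ne.symm hs)
    · intro h; exact absurd (Finset.mem_univ _) h
  have h2 : (∑ s, F.restr s f).2.1 = f.2.1 := by
    rw [Prod.snd_sum, Prod.fst_sum]
    funext x
    rw [Finset.sum_apply, Finset.sum_eq_single (F.arm x)]
    · exact if_pos rfl
    · intro s _ hs; exact if_neg (Ne.symm hs)
    · intro h; exact absurd (Finset.mem_univ _) h
  have h3 : (∑ s, F.restr s f).2.2 = f.2.2 := by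
    rw [Prod.snd_sum, Prod.snd_sum]
    funext t
    rw [Finset.sum_apply, Finset.sum_eq_single t]
    · exact if_pos rfl
    · intro s _ hs; exact if_neg (Ne.symm hs)
    · intro h; exact absurd (Finset.mem_univ _) h
  exact Prod.ext h1 (Prod.ext h2 h3)

theorem phi_restr (s : σ) (f : Wt V X σ) : F.phi s (F.restr s f) = F.phi s f := by
  rw [phi_apply, phi_apply]
  congr 1
  · refine Finset.sum_congr rfl fun x _ => ?_
    by_cases hx : F.arm x = s
    · simp only [restr, if_pos hx]
    · simp only [if_neg hx]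
  · simp only [restr, if_pos]

theorem restr_mem (s : σ) {f : Wt V X σ} (h1 : ∀ x, F.arm x = s → f.1 x ∈ F.R s (F.ht x + 1))
    (h2 : ∀ x, F.arm x = s → f.2.1 x ∈ F.Ro s (F.ht x + 1)) (h3 : F.odd s → f.2.2 s ∈ F.Rp s)
    (h4 : ¬ F.odd s → f.2.2 s = 0) : F.restr s f ∈ F.Nn s := by
  refine ⟨fun x hx => ?_, fun x hx => ?_, fun x hx => ?_, fun x hx => ?_, fun hx => ?_,
    fun hx => ?_, fun t ht => ?_⟩
  · simp only [restr, if_pos hx]; exact h1 x hx
  · simp only [restr, if_neg hx]
  · simp only [restr, if_pos hx]; exact h2 x hx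
  · simp only [restr, if_neg hx]
  · simp only [restr, if_pos]; exact h3 hx
  · simp only [restr, if_pos]; exact h4 hx
  · simp only [restr, if_neg ht]

/-- the columns acted upon by an additive map -/
def app (A : V → V) : Wt V X σ := (fun x => A (F.v x), fun x => A (F.w x), fun s => A (F.v0 s))

theorem act_eq (s : σ) (A : V →ₗ[K] V) : F.act s A = F.restr s (F.app A) := by
  rw [act_apply]
  refine Prod.ext rfl (Prod.ext rfl ?_)
  funext t
  by_cases ht : t = s
  · subst ht; rfl
  · simp only [restr, if_neg ht]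

/-- An additive map preserving the flag of the arm gives an allowed variation. -/
theorem app_mem {F : Conf B X σ} {s : σ} {f : Basis ι K V} {u : ι → ℝ} (h : F.Flag s f u)
    (A : V → V) (hA0 : A 0 = 0) (hA : ∀ a x, x ∈ Fil f u a → A x ∈ Fil f u a) :
    F.restr s (F.app A) ∈ F.Nn s := by
  apply F.restr_mem
  · intro x hx
    rw [← h.R _ (F.htM x)]
    apply hA
    rw [h.R _ (F.htM x), ← hx]
    exact F.v_mem x
  · intro x hx
    rw [← h.Ro _ (F.htM x)]
    apply hA
    rw [h.Ro _ (F.htM x), ← hx]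
    exact F.w_mem x
  · intro _
    rw [← h.Rp]
    apply hA
    rw [h.Rp]
    exact F.v0_mem s
  · intro ho
    change A (F.v0 s) = 0
    rw [F.even0 s ho, hA0]

/-- the abstract arm -/
noncomputable def farm (hB : B.Nondegenerate) (hs : B.IsSymm) (h2 : (2 : K) ≠ 0)
    (e : Basis ι K V) (w : ι → ℝ) (hsd : SD B e w) (s : σ) (f : Basis ι K V) (u : ι → ℝ)
    (h : F.Flag s f u) (hG : F.Phi s ∈ Ge e w 1) :
    FArm (mkData B hB hs h2 e w hsd) (Wt V X σ) where
  Φ := F.Phi s
  n := F.nn s
  q := Skw B ⊓ Ge f u 0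
  p := Skw B ⊓ Gt f u 0
  ΦS := F.Phi_mem_Sym hs s
  ΦG := hG
  nS := by rintro _ ⟨z, -, rfl⟩; exact F.phi_mem_Sym hs s z
  qL := inf_le_left
  pL := inf_le_left
  qp := by
    intro x hx hy
    refine ⟨hx, ?_⟩
    exact (mkData B hB hs h2 f u h.sd).mem_of_L (mkData B hB hs h2 f u h.sd).split0p
      (mkData B hB hs h2 f u h.sd).dual0 hx fun y hyL hyG => hy y ⟨hyL, hyG⟩
  pq := by
    intro x hx hy
    refine ⟨hx, ?_⟩
    exact (mkData B hB hs h2 f u h.sd).mem_of_L (mkData B hB hs h2 f u h.sd).split0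
      (mkData B hB hs h2 f u h.sd).dual0p hx fun y hyL hyG => hy y ⟨hyL, hyG⟩
  pq0 := by
    intro x hx y hy
    exact ((mkData B hB hs h2 f u h.sd).dual0p x).1 hx.2 y hy.2
  br := by
    intro Y hY
    refine ⟨F.act s Y, ?_, F.phi_act hs s hY.1⟩
    rw [SetLike.mem_coe, act_eq]
    exact app_mem h Y (map_zero Y) fun a x hx => by simpa using hY.2 a x hx
  act := F.act s
  N := F.Nn s
  φ := F.phi s
  φN := fun z hz => ⟨z, hz, rfl⟩
  φsurj := by rintro _ ⟨z, hz, rfl⟩; exact ⟨z, hz, rfl⟩
  actN := by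
    intro Y hY
    rw [act_eq]
    exact app_mem h Y (map_zero Y) fun a x hx => by simpa using hY.2 a x hx
  φact := fun Y hY => F.phi_act hs s hY.1

/-- bracket of `Phi` with a connection -/
theorem phi_conn (hs : B.IsSymm) (s : σ) (C : NilLower.Conn B) (hc : C.d (F.c0 s) = 0)
    {Z : V →ₗ[K] V} (hZ : ∀ x y, B (Z x) y = - B x (Z y)) (z : V) :
    F.phi s (F.app fun x => C.nab x - Z x) z =
      (C.nab (F.Phi s z) - Z (F.Phi s z)) - F.Phi s (C.nab z - Z z) := by
  have hst : ∀ a b : V, sten B (C.nab a - Z a) b z + sten B a (C.nab b - Z b) z =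
      (C.nab (sten B a b z) - Z (sten B a b z)) - sten B a b (C.nab z - Z z) := by
    intro a b
    have h1 := NilConn.conn_ten C hZ a b z
    have h2 := NilConn.conn_ten C hZ b a z
    simp only [sten, LinearMap.add_apply, map_add]
    have h3 : C.nab (ten B a b z) + C.nab (ten B b a z) -
        (Z (ten B a b z) + Z (ten B b a z)) =
        (C.nab (ten B a b z) - Z (ten B a b z)) + (C.nab (ten B b a z) - Z (ten B b a z)) := by
      abel
    rw [h3, h1, h2]; abel
  have ht : sten B (C.nab (F.v0 s) - Z (F.v0 s)) (F.v0 s) z =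
      (C.nab (ten B (F.v0 s) (F.v0 s) z) - Z (ten B (F.v0 s) (F.v0 s) z)) -
      ten B (F.v0 s) (F.v0 s) (C.nab z - Z z) := by
    rw [NilConn.conn_ten C hZ (F.v0 s) (F.v0 s) z, sten, LinearMap.add_apply]; abel
  rw [phi_apply, Phi]
  simp only [LinearMap.add_apply, LinearMap.sum_apply, LinearMap.smul_apply, map_add, map_sum,
    map_smul, C.leib, hc, zero_smul, zero_add]
  have hx : ∀ x, (if F.arm x = s then sten B ((F.app fun x => C.nab x - Z x).1 x) (F.w x) +
      sten B (F.v x) ((F.app fun x => C.nab x - Z x).2.1 x) else 0) z =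
      (C.nab ((if F.arm x = s then sten B (F.v x) (F.w x) else 0) z) -
      Z ((if F.arm x = s then sten B (F.v x) (F.w x) else 0) z)) -
      (if F.arm x = s then sten B (F.v x) (F.w x) else 0) (C.nab z - Z z) := by
    intro x
    by_cases hx : F.arm x = s
    · simp only [if_pos hx, LinearMap.add_apply]
      exact hst _ _
    · simp only [if_neg hx, LinearMap.zero_apply, map_zero, sub_zero]
  simp only [hx, Finset.sum_sub_distrib]
  have h4 : sten B ((F.app fun x => C.nab x - Z x).2.2 s) (F.v0 s) z =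
      sten B (C.nab (F.v0 s) - Z (F.v0 s)) (F.v0 s) z := rfl
  rw [h4, ht]
  simp only [smul_sub]
  abel

theorem phi_self (s : σ) : F.phi s (F.app id) = (2 : K) • F.Phi s := by
  rw [phi_apply, Phi, smul_add, Finset.smul_sum]
  congr 1
  · refine Finset.sum_congr rfl fun x _ => ?_
    by_cases hx : F.arm x = s
    · simp only [if_pos hx, two_smul]; rfl
    · simp only [if_neg hx, smul_zero]
  · rw [two_smul, ← smul_add]; rfl

end Maps

end Conf

end Crest.Agent.R172.NilCount
end

-- ▼ part R172/NilCount8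
section

/-!
# Row 172, node NILC: the tangent space of a configuration
-/

set_option autoImplicit false
set_option linter.unusedSectionVars false
set_option linter.unusedSimpArgs false
set_option linter.unusedVariables false

namespace Crest.Agent.R172.NilCount

open Module Crest.Agent.R172.Kempf Crest.Agent.R172.NilPat
open Crest.Agent.R172.NilConn (ten ten_apply)

namespace Conf

variable {K V X σ ι : Type*} [Field K] [AddCommGroup V] [Module K V] [Fintype ι] [DecidableEq ι]
  {B : LinearMap.BilinForm K V} (F : Conf B X σ) [Fintype X] [DecidableEq σ] [DecidableEq X]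
  [FiniteDimensional K V] [Fintype σ]

/-- all the arms -/
noncomputable def farms (hB : B.Nondegenerate) (hs : B.IsSymm) (h2 : (2 : K) ≠ 0)
    (e : Basis ι K V) (w : ι → ℝ) (hsd : SD B e w) (f : σ → Basis ι K V) (u : σ → ι → ℝ)
    (h : ∀ s, F.Flag s (f s) (u s)) (hG : ∀ s, F.Phi s ∈ Ge e w 1) (s : σ) :
    FArm (mkData B hB hs h2 e w hsd) (Wt V X σ) :=
  F.farm hB hs h2 e w hsd s (f s) (u s) (h s) (hG s)

section

variable (hB : B.Nondegenerate) (hs : B.IsSymm) (h2 : (2 : K) ≠ 0)
    (e : Basis ι K V) (w : ι → ℝ) (hsd : SD B e w) (f : σ → Basis ι K V) (u : σ → ι → ℝ)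
    (h : ∀ s, F.Flag s (f s) (u s)) (hG : ∀ s, F.Phi s ∈ Ge e w 1)

/-- the tangent space -/
noncomputable def Tg : Submodule K (Wt V X σ) :=
  (LinearMap.ker (cmap (mkData B hB hs h2 e w hsd) (F.farms hB hs h2 e w hsd f u h hG))).map
    (evmap (mkData B hB hs h2 e w hsd) (F.farms hB hs h2 e w hsd f u h hG))

theorem mem_Tg (Y : V →ₗ[K] V) (hY : Y ∈ Skw B) (Z : σ → V →ₗ[K] V) (hZ : ∀ s, Z s ∈ Skw B)
    (hZ0 : ∀ s, Z s ∈ Ge e w 0) (G : σ → Wt V X σ) (hGN : ∀ s, G s ∈ F.Nn s)
    (hG1 : ∀ s, F.phi s (G s) ∈ Ge e w 1)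
    (h0 : ∑ s, ((Z s * F.Phi s - F.Phi s * Z s) + F.phi s (G s)) = 0) :
    ∑ s, (F.act s (Y + Z s) + G s) ∈ F.Tg hB hs h2 e w hsd f u h hG := by
  refine ⟨(⟨Y, hY⟩, fun s => (⟨Z s, hZ s, hZ0 s⟩, ⟨G s, hGN s, hG1 s⟩)), ?_, rfl⟩
  rw [SetLike.mem_coe, LinearMap.mem_ker]
  exact h0

theorem skew_act_eq (A : V →ₗ[K] V) : ∑ s, F.act s A = F.app A := by
  simp only [act_eq]
  exact F.sum_restr _

theorem closed (hf : ∀ s a, Fil (f s) w a = Fil e w a) (hsum : ∑ s, F.Phi s = 0)
    (hc : ∀ s (C : NilLower.Conn B), C.d (F.c0 s) = 0) :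
    F.Closed (F.Tg hB hs h2 e w hsd f u h hG) := by
  refine ⟨?_, ?_, ?_⟩
  · intro C
    obtain ⟨Z0, hZ0, hZ0'⟩ := NilConn.conn_split hB hs h2 e C
    have hex : ∀ s, ∃ Z : V →ₗ[K] V, (∀ x y, B (Z x) y = - B x (Z y)) ∧
        ∀ v : ι → ℝ, SD B (f s) v → ∀ a x, x ∈ Fil (f s) v a → C.nab x - Z x ∈ Fil (f s) v a :=
      fun s => NilConn.conn_split hB hs h2 (f s) C
    choose Z hZ hZ' using hex
    have hsdf : ∀ s, SD B (f s) w := fun s => hsd.congr (hf s)
    have hpres : ∀ s a x, x ∈ Fil e w a → C.nab x - Z s x ∈ Fil e w a := by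
      intro s a x hx
      rw [← hf s] at hx ⊢
      exact hZ' s w (hsdf s) a x hx
    have hpres0 : ∀ a x, x ∈ Fil e w a → C.nab x - Z0 x ∈ Fil e w a := hZ0' w hsd
    have key := F.mem_Tg hB hs h2 e w hsd f u h hG Z0 hZ0 (fun s => Z s - Z0)
      (fun s => (Skw B).sub_mem (hZ s) hZ0)
      (by
        intro s a x hx
        have h1 := Submodule.sub_mem _ (hpres0 a x hx) (hpres s a x hx)
        have h2 : (Z s - Z0) x = (C.nab x - Z0 x) - (C.nab x - Z s x) := by
          rw [LinearMap.sub_apply]; abel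
        rw [h2, add_zero]; exact h1)
      (fun s => F.restr s (F.app fun x => C.nab x - Z s x))
      (fun s => app_mem (h s) _ (by simp) (hZ' s (u s) (h s).sd))
      (by
        intro s a x hx
        rw [phi_restr, phi_conn F hs s C (hc s C) (hZ s)]
        exact Submodule.sub_mem _ (hpres s _ _ (hG s a x hx)) (hG s a _ (hpres s _ _ hx)))
      (by
        ext z
        simp only [LinearMap.sum_apply, LinearMap.add_apply, LinearMap.sub_apply,
          LinearMap.zero_apply, phi_restr, phi_conn F hs _ C (hc _ C) (hZ _), Module.End.mul_apply]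
        have h1 : ∀ y, ∑ s, F.Phi s y = 0 := by
          intro y
          rw [← LinearMap.sum_apply, hsum, LinearMap.zero_apply]
        have h3 : ∀ s, Z s (F.Phi s z) - Z0 (F.Phi s z) - F.Phi s (Z s z - Z0 z) +
            (C.nab (F.Phi s z) - Z s (F.Phi s z) - F.Phi s (C.nab z - Z s z)) =
            C.nab (F.Phi s z) - Z0 (F.Phi s z) + F.Phi s (Z0 z) - F.Phi s (C.nab z) := by
          intro s; rw [map_sub, map_sub]; abel
        simp only [h3, Finset.sum_add_distrib, Finset.sum_sub_distrib, ← map_sum, h1, map_zero,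
          sub_zero, add_zero])
    convert key using 1
    have h3 : ∀ s, F.act s (Z0 + (Z s - Z0)) + F.restr s (F.app fun x => C.nab x - Z s x) =
        F.restr s (F.app C.nab) := by
      intro s
      rw [add_sub_cancel, act_eq]
      refine Prod.ext ?_ (Prod.ext ?_ ?_)
      · funext x
        simp only [restr, app, Prod.fst_add, Pi.add_apply]
        split_ifs <;> abel
      · funext x
        simp only [restr, app, Prod.fst_add, Prod.snd_add, Pi.add_apply]
        split_ifs <;> abel
      · funext x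
        simp only [restr, app, Prod.fst_add, Prod.snd_add, Pi.add_apply]
        split_ifs <;> abel
    simp only [h3, sum_restr]
    rfl
  · intro Z hZ
    have key := F.mem_Tg hB hs h2 e w hsd f u h hG Z hZ (fun s => 0)
      (fun s => (Skw B).zero_mem) (fun s => Submodule.zero_mem _) (fun s => 0)
      (fun s => Submodule.zero_mem _)
      (fun s => by rw [map_zero]; exact Submodule.zero_mem _)
      (by simp)
    simp only [add_zero] at key
    rw [skew_act_eq] at key
    exact key
  · have key := F.mem_Tg hB hs h2 e w hsd f u h hG 0 (Skw B).zero_mem (fun s => 0)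
      (fun s => (Skw B).zero_mem) (fun s => Submodule.zero_mem _)
      (fun s => F.restr s (F.app id))
      (fun s => app_mem (h s) _ rfl (fun _ _ hx => hx))
      (fun s => by rw [phi_restr, phi_self]; exact Submodule.smul_mem _ _ (hG s))
      (by
        simp only [phi_restr, phi_self, zero_mul, mul_zero, sub_zero, zero_add,
          ← Finset.smul_sum, hsum, smul_zero])
    simp only [add_zero, map_zero, zero_add, sum_restr] at key
    exact key

end

end Conf

end Crest.Agent.R172.NilCount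
end

-- ▼ part R172/NilCount9
section

/-!
# Row 172, node NILC: type of an arm
-/

set_option autoImplicit false
set_option linter.unusedSectionVars false
set_option linter.unusedSimpArgs false
set_option linter.unusedVariables false

namespace Crest.Agent.R172.NilCount

open Module Crest.Agent.R172.Kempf Crest.Agent.R172.NilPat
open Crest.Agent.R172.NilConn (ten ten_apply)

namespace Conf

variable {K V X σ ι : Type*} [Field K] [AddCommGroup V] [Module K V] [Fintype ι] [DecidableEq ι]
  {B : LinearMap.BilinForm K V} (F : Conf B X σ) [Fintype X] [DecidableEq σ] [DecidableEq X]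
  [FiniteDimensional K V] [Fintype σ]

theorem Flag.R_top {F : Conf B X σ} {s : σ} {f : Basis ι K V} {u : ι → ℝ} (h : F.Flag s f u) :
    Fil f u 2 = F.R s F.M := by
  rw [← h.R F.M le_rfl]; congr 1; ring

theorem Flag.typeB {F : Conf B X σ} {s : σ} {f : Basis ι K V} {u : ι → ℝ} (h : F.Flag s f u)
    (hv : F.v0 s ∈ F.R s F.M) (i : ι) : u i ≠ 1 := by
  intro hi
  have h1 : F.Rp s = F.R s F.M := by
    rw [Conf.Rp, sup_eq_left, Submodule.span_singleton_le_iff_mem]; exact hv
  have h2 : f i ∈ Fil f u 1 := basis_mem_Fil f u hi.ge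
  rw [h.Rp, h1, ← h.R_top] at h2
  have h3 := h2 i (by simp)
  linarith

theorem Flag.typeA {F : Conf B X σ} {s : σ} {f : Basis ι K V} {u : ι → ℝ} (h : F.Flag s f u)
    (hB : B.Nondegenerate) (hs : B.IsSymm)
    (hv : F.v0 s ∉ F.R s F.M) {w : ι → ℝ} (hw : SD B f w) (hG : F.Phi s ∈ Ge f w 1) :
    ∃ j, (∀ i, u i = 1 ↔ i = j) ∧ 1 ≤ 2 * w j := by
  have ho : F.odd s := by
    by_contra ho
    apply hv
    rw [F.even0 s ho]; exact Submodule.zero_mem _
  have hv1 : F.v0 s ∈ Fil f u 1 := by rw [h.Rp]; exact F.v0_mem s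
  have hv2 : F.v0 s ∉ Fil f u 2 := by rw [h.R_top]; exact hv
  obtain ⟨j, hj1, hj2⟩ : ∃ j, f.repr (F.v0 s) j ≠ 0 ∧ ¬ 2 ≤ u j := by
    by_contra hne
    apply hv2
    intro j hj
    by_contra h3
    exact hne ⟨j, hj, h3⟩
  have huj : u j = 1 := by
    have h3 := hv1 j hj1
    obtain ⟨z, hz⟩ := h.int j
    rw [hz] at hj2 h3 ⊢
    have h4 : z < 2 := by
      have := not_le.mp hj2
      exact_mod_cast this
    have h5 : 1 ≤ z := by exact_mod_cast h3
    have : z = 1 := by omega
    rw [this]; simp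
  refine ⟨j, fun i => ⟨fun hi => ?_, fun hi => by rw [hi, huj]⟩, ?_⟩
  · -- uniqueness
    by_contra hij
    have h3 : f i ∈ F.Rp s := by rw [← h.Rp]; exact basis_mem_Fil f u hi.ge
    have h4 : f j ∈ F.Rp s := by rw [← h.Rp]; exact basis_mem_Fil f u huj.ge
    rw [Conf.Rp] at h3 h4
    obtain ⟨a, ha, b, hb, hab⟩ := Submodule.mem_sup.mp h3
    obtain ⟨c, rfl⟩ := Submodule.mem_span_singleton.mp hb
    obtain ⟨a', ha', b', hb', hab'⟩ := Submodule.mem_sup.mp h4
    obtain ⟨c', rfl⟩ := Submodule.mem_span_singleton.mp hb'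
    rw [← h.R_top] at ha ha'
    have hz : ∀ {y : V}, y ∈ Fil f u 2 → ∀ {l : ι}, u l = 1 → f.repr y l = 0 := by
      intro y hy l hl
      by_contra hne
      have := hy l hne
      linarith
    -- coordinates
    have e1 := congrArg (fun y => f.repr y i) hab
    have e2 := congrArg (fun y => f.repr y j) hab
    have e3 := congrArg (fun y => f.repr y j) hab'
    have e4 := congrArg (fun y => f.repr y i) hab'
    simp only [map_add, map_smul, Finsupp.add_apply, Finsupp.smul_apply, smul_eq_mul,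
      Basis.repr_self, hz ha hi, hz ha huj, hz ha' hi, hz ha' huj, zero_add,
      Finsupp.single_eq_same] at e1 e2 e3 e4
    rw [Finsupp.single_eq_of_ne (Ne.symm hij)] at e2
    rw [Finsupp.single_eq_of_ne hij] at e4
    have h5 : c = 0 := by
      rcases mul_eq_zero.mp e2 with h6 | h6
      · exact h6
      · exact absurd h6 hj1
    rw [h5, zero_mul] at e1
    exact zero_ne_one e1
  · -- the weight
    rw [Ge_eq_Pat B hB f hs hw] at hG
    by_contra hlt
    have h3 := hG j j (by linarith [not_le.mp hlt])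
    apply hj1
    have hz : ∀ x, F.arm x = s → f.repr (F.v x) j = 0 := by
      intro x hx
      by_contra hne
      have h4 : F.v x ∈ Fil f u 2 := by
        rw [h.R_top, ← hx]; exact F.R_le _ _ (F.v_mem x)
      have := h4 j hne
      linarith
    have h5 : f.repr (F.Phi s (B.dualBasis hB f j)) j =
        F.c0 s * (f.repr (F.v0 s) j * f.repr (F.v0 s) j) := by
      rw [Phi, LinearMap.add_apply, map_add, Finsupp.add_apply, LinearMap.sum_apply, map_sum,
        Finsupp.coe_finsetSum, Finset.sum_apply, Finset.sum_eq_zero, zero_add,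
        LinearMap.smul_apply, map_smul, Finsupp.smul_apply, smul_eq_mul, repr_ten hB hs]
      intro x _
      by_cases hx : F.arm x = s
      · rw [if_pos hx, sten, LinearMap.add_apply, map_add, Finsupp.add_apply, repr_ten hB hs,
          repr_ten hB hs, hz x hx, mul_zero, zero_mul, add_zero]
      · rw [if_neg hx, LinearMap.zero_apply, map_zero, Finsupp.zero_apply]
    rw [h5] at h3
    rcases mul_eq_zero.mp h3 with h6 | h6
    · exact absurd h6 (F.c0ne s ho)
    · rcases mul_eq_zero.mp h6 with h7 | h7 <;> exact h7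

end Conf

end Crest.Agent.R172.NilCount
end

-- ▼ part R172/NilNum
section

/-!
Row 172, node NILC: the counting part (N0)-(N3).
-/

set_option autoImplicit false
set_option linter.unusedSectionVars false
set_option linter.unusedSimpArgs false
set_option linter.unusedVariables false

namespace Crest.Agent.R172.NilNum

open Module Crest.Agent.R172.Kempf Crest.Agent.R172.NilPat

variable {K V ι : Type*} [Field K] [AddCommGroup V] [Module K V] [Fintype ι] [DecidableEq ι]

/-- Vectors supported on `P`. -/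
def Supp (f : Basis ι K V) (P : ι → Prop) : Submodule K V where
  carrier := {v | ∀ i, f.repr v i ≠ 0 → P i}
  zero_mem' := by intro i h; simp at h
  add_mem' := by
    intro x y hx hy i h
    by_cases h1 : f.repr x i = 0
    · refine hy i ?_
      intro h2; apply h; simp [h1, h2]
    · exact hx i h1
  smul_mem' := by
    intro c x hx i h
    refine hx i ?_
    intro h2; apply h; simp [h2]

theorem mem_Supp {f : Basis ι K V} {P : ι → Prop} {v : V} :
    v ∈ Supp f P ↔ ∀ i, f.repr v i ≠ 0 → P i := Iff.rfl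

theorem Supp_eq_span (f : Basis ι K V) (P : ι → Prop) :
    Supp f P = Submodule.span K (f '' {i | P i}) := by
  ext v
  rw [f.mem_span_image]
  constructor
  · intro h i hi
    exact h i (by simpa using hi)
  · intro h i hi
    exact h (by simpa using hi)

theorem finrank_Supp (f : Basis ι K V) (P : ι → Prop) :
    finrank K (Supp f P) = Nat.card {i // P i} := by
  classical
  rw [Supp_eq_span]
  have hli : LinearIndependent K (fun x : {i | P i} => f x) :=
    f.linearIndependent.comp _ Subtype.val_injective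
  have := finrank_span_eq_card (R := K) hli
  rw [Set.image_eq_range, this, Nat.card_eq_fintype_card]
  rfl

theorem Supp_inf (f : Basis ι K V) (P Q : ι → Prop) :
    Supp f P ⊓ Supp f Q = Supp f (fun i => P i ∧ Q i) := by
  ext v
  rw [Submodule.mem_inf, mem_Supp, mem_Supp, mem_Supp]
  exact ⟨fun h i hi => ⟨h.1 i hi, h.2 i hi⟩, fun h => ⟨fun i hi => (h i hi).1, fun i hi => (h i hi).2⟩⟩

theorem Fil_eq_Supp (f : Basis ι K V) (w : ι → ℝ) (a : ℝ) :
    Fil f w a = Supp f (fun i => a ≤ w i) := rfl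

/-- Strict steps of the filtration. -/
def Vgt (f : Basis ι K V) (w : ι → ℝ) (c : ℝ) : Submodule K V := Supp f (fun i => c < w i)

theorem mem_Vgt {f : Basis ι K V} {w : ι → ℝ} {c : ℝ} {v : V} :
    v ∈ Vgt f w c ↔ ∀ i, f.repr v i ≠ 0 → c < w i := Iff.rfl

/-- (N0) `Vgt` depends only on the flag. -/
theorem Vgt_congr {e f : Basis ι K V} {w u : ι → ℝ} (h : ∀ a, Fil f u a = Fil e w a) (c : ℝ) :
    Vgt f u c = Vgt e w c := by
  ext v
  rw [mem_Vgt, mem_Vgt]
  exact ⟨fun hv => strict_of_strict (fun a => (h a).symm) hv, fun hv => strict_of_strict h hv⟩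

theorem card_subtype_eq (P : ι → Prop) [DecidablePred P] :
    Nat.card {i // P i} = (Finset.univ.filter P).card := by
  rw [Nat.card_eq_fintype_card, Fintype.card_subtype]

theorem finrank_Vgt (f : Basis ι K V) (w : ι → ℝ) (c : ℝ) :
    finrank K (Vgt f w c) = Nat.card {i // c < w i} := finrank_Supp f _

theorem finrank_Fil' (f : Basis ι K V) (w : ι → ℝ) (c : ℝ) :
    finrank K (Fil f w c) = Nat.card {i // c ≤ w i} := finrank_Supp f _

/-- (N0). -/
theorem finrank_Fil_inf_Vgt (f : Basis ι K V) (u w : ι → ℝ) (a c : ℝ) :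
    finrank K (Fil f u a ⊓ Vgt f w c : Submodule K V) = Nat.card {i // a ≤ u i ∧ c < w i} := by
  rw [Fil_eq_Supp, Vgt, Supp_inf, finrank_Supp]

/-- (N0). -/
theorem finrank_Fil_inf_Fil (f : Basis ι K V) (u w : ι → ℝ) (a c : ℝ) :
    finrank K (Fil f u a ⊓ Fil f w c : Submodule K V) = Nat.card {i // a ≤ u i ∧ c ≤ w i} := by
  rw [Fil_eq_Supp, Fil_eq_Supp, Supp_inf, finrank_Supp]

theorem card_congr {P Q : ι → Prop} (h : ∀ i, P i ↔ Q i) :
    Nat.card {i // P i} = Nat.card {i // Q i} :=
  Nat.card_congr (Equiv.subtypeEquivRight h)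

section

variable (B : LinearMap.BilinForm K V) (hB : B.Nondegenerate) (hs : B.IsSymm)
  (h2 : (2 : K) ≠ 0) (f : Basis ι K V) (w u : ι → ℝ)

include hB hs h2

/-- (N1), strict part. -/
theorem finrank_Sym_Gt (hw : SD B f w) :
    finrank K (Sym B ⊓ Gt f w 0 : Submodule K (V →ₗ[K] V)) =
      finrank K (Skw B ⊓ Gt f w 0 : Submodule K (V →ₗ[K] V)) + finrank K (Vgt f w 0) := by
  rw [Gt_eq_Pat B hB f hs hw, finrank_Sym_eq B hB f hs h2 _ (fun j k h => by linarith),
    finrank_Vgt]
  congr 1
  exact card_congr fun i => by constructor <;> intro h <;> linarith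

/-- (N1), second part. -/
theorem finrank_Sym_Ge (hw : SD B f w) :
    finrank K (Sym B ⊓ Ge f w 1 : Submodule K (V →ₗ[K] V)) =
      finrank K (Skw B ⊓ Ge f w 1 : Submodule K (V →ₗ[K] V)) + finrank K (Fil f w (1 / 2)) := by
  rw [Ge_eq_Pat B hB f hs hw, finrank_Sym_eq B hB f hs h2 _ (fun j k h => by linarith),
    finrank_Fil']
  congr 1
  exact card_congr fun i => by constructor <;> intro h <;> linarith

end

/-- The pattern of the arms. -/
def rho (u : ι → ℝ) (j k : ι) : Prop :=
  0 < u j + u k ∧ ¬ (u j = 1 ∧ u k = 0) ∧ ¬ (u j = 0 ∧ u k = 1)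

theorem rho_symm (u : ι → ℝ) (j k : ι) (h : rho u j k) : rho u k j := by
  obtain ⟨h1, h2, h3⟩ := h
  exact ⟨by linarith, fun h => h3 ⟨h.2, h.1⟩, fun h => h2 ⟨h.2, h.1⟩⟩

/-- The space `n` of an arm. -/
def nn (B : LinearMap.BilinForm K V) (hB : B.Nondegenerate) (f : Basis ι K V) (u : ι → ℝ) :
    Submodule K (V →ₗ[K] V) := Sym B ⊓ Pat B hB f (rho u)

/-- The space `p` of an arm. -/
def pp (B : LinearMap.BilinForm K V) (f : Basis ι K V) (u : ι → ℝ) :
    Submodule K (V →ₗ[K] V) := Skw B ⊓ Gt f u 0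

section

variable (B : LinearMap.BilinForm K V) (hB : B.Nondegenerate) (hs : B.IsSymm)
  (h2 : (2 : K) ≠ 0) (f : Basis ι K V) (w u : ι → ℝ)

theorem nn_inf_Gt (hs : B.IsSymm) (hw : SD B f w) :
    nn B hB f u ⊓ Gt f w 0 = Sym B ⊓ Pat B hB f (fun j k => rho u j k ∧ 0 < w j + w k) := by
  rw [nn, Gt_eq_Pat B hB f hs hw, inf_assoc, Pat_inf]

theorem nn_inf_Ge (hs : B.IsSymm) (hw : SD B f w) :
    nn B hB f u ⊓ Ge f w 1 = Sym B ⊓ Pat B hB f (fun j k => rho u j k ∧ 1 ≤ w j + w k) := by
  rw [nn, Ge_eq_Pat B hB f hs hw, inf_assoc, Pat_inf]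

theorem pp_eq (hs : B.IsSymm) (hu : SD B f u) :
    pp B f u = Skw B ⊓ Pat B hB f (fun j k => 0 < u j + u k) := by
  rw [pp, Gt_eq_Pat B hB f hs hu]

theorem pp_inf_Gt (hs : B.IsSymm) (hw : SD B f w) (hu : SD B f u) :
    pp B f u ⊓ Gt f w 0 =
      Skw B ⊓ Pat B hB f (fun j k => 0 < u j + u k ∧ 0 < w j + w k) := by
  rw [pp, Gt_eq_Pat B hB f hs hw, Gt_eq_Pat B hB f hs hu, inf_assoc, Pat_inf]

theorem pp_inf_Ge (hs : B.IsSymm) (hw : SD B f w) (hu : SD B f u) :
    pp B f u ⊓ Ge f w 1 =
      Skw B ⊓ Pat B hB f (fun j k => 0 < u j + u k ∧ 1 ≤ w j + w k) := by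
  rw [pp, Ge_eq_Pat B hB f hs hw, Gt_eq_Pat B hB f hs hu, inf_assoc, Pat_inf]

include hB hs h2

/-- (N2), first. -/
theorem finrank_nn_even (hu : SD B f u) (hint : ∀ i, ∃ z : ℤ, u i = z) (h1 : ∀ i, u i ≠ 1) :
    finrank K (nn B hB f u) = finrank K (pp B f u) + finrank K (Fil f u 1) := by
  have hρ : nn B hB f u = Sym B ⊓ Pat B hB f (fun j k => 0 < u j + u k) := by
    rw [nn]
    congr 2
    funext j k
    apply propext
    exact ⟨fun h => h.1, fun h => ⟨h, fun h' => h1 j h'.1, fun h' => h1 k h'.2⟩⟩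
  rw [hρ, pp_eq B hB f u hs hu, finrank_Sym_eq B hB f hs h2 _ (fun j k h => by linarith),
    finrank_Fil']
  congr 1
  refine card_congr fun i => ?_
  obtain ⟨z, hz⟩ := hint i
  rw [hz]
  constructor
  · intro h
    have : (0 : ℝ) < z := by linarith
    have : 0 < z := by exact_mod_cast this
    have : 1 ≤ z := this
    exact_mod_cast this
  · intro h; linarith

/-- (N2), second. -/
theorem finrank_nn_Gt_even (hw : SD B f w) (hu : SD B f u) (hint : ∀ i, ∃ z : ℤ, u i = z)
    (h1 : ∀ i, u i ≠ 1) :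
    finrank K (nn B hB f u ⊓ Gt f w 0 : Submodule K (V →ₗ[K] V)) =
      finrank K (pp B f u ⊓ Gt f w 0 : Submodule K (V →ₗ[K] V)) +
        finrank K (Fil f u 1 ⊓ Vgt f w 0 : Submodule K V) := by
  have hρ : nn B hB f u ⊓ Gt f w 0 =
      Sym B ⊓ Pat B hB f (fun j k => 0 < u j + u k ∧ 0 < w j + w k) := by
    rw [nn_inf_Gt B hB f w u hs hw]
    congr 2
    funext j k
    apply propext
    exact ⟨fun h => ⟨h.1.1, h.2⟩,
      fun h => ⟨⟨h.1, fun h' => h1 j h'.1, fun h' => h1 k h'.2⟩, h.2⟩⟩
  rw [hρ, pp_inf_Gt B hB f w u hs hw hu,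
    finrank_Sym_eq B hB f hs h2 _ (fun j k h => ⟨by linarith [h.1], by linarith [h.2]⟩),
    finrank_Fil_inf_Vgt]
  congr 1
  refine card_congr fun i => ?_
  obtain ⟨z, hz⟩ := hint i
  rw [hz]
  constructor
  · rintro ⟨h, h'⟩
    refine ⟨?_, by linarith⟩
    have : (0 : ℝ) < z := by linarith
    have : 0 < z := by exact_mod_cast this
    have : 1 ≤ z := this
    exact_mod_cast this
  · rintro ⟨h, h'⟩; constructor <;> linarith

/-- (N2), third. -/
theorem finrank_nn_Ge_even (hw : SD B f w) (hu : SD B f u) (hint : ∀ i, ∃ z : ℤ, u i = z)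
    (h1 : ∀ i, u i ≠ 1) :
    finrank K (nn B hB f u ⊓ Ge f w 1 : Submodule K (V →ₗ[K] V)) =
      finrank K (pp B f u ⊓ Ge f w 1 : Submodule K (V →ₗ[K] V)) +
        finrank K (Fil f u 1 ⊓ Fil f w (1 / 2) : Submodule K V) := by
  have hρ : nn B hB f u ⊓ Ge f w 1 =
      Sym B ⊓ Pat B hB f (fun j k => 0 < u j + u k ∧ 1 ≤ w j + w k) := by
    rw [nn_inf_Ge B hB f w u hs hw]
    congr 2
    funext j k
    apply propext
    exact ⟨fun h => ⟨h.1.1, h.2⟩,
      fun h => ⟨⟨h.1, fun h' => h1 j h'.1, fun h' => h1 k h'.2⟩, h.2⟩⟩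
  rw [hρ, pp_inf_Ge B hB f w u hs hw hu,
    finrank_Sym_eq B hB f hs h2 _ (fun j k h => ⟨by linarith [h.1], by linarith [h.2]⟩),
    finrank_Fil_inf_Fil]
  congr 1
  refine card_congr fun i => ?_
  obtain ⟨z, hz⟩ := hint i
  rw [hz]
  constructor
  · rintro ⟨h, h'⟩
    refine ⟨?_, by linarith⟩
    have : (0 : ℝ) < z := by linarith
    have : 0 < z := by exact_mod_cast this
    have : 1 ≤ z := this
    exact_mod_cast this
  · rintro ⟨h, h'⟩; constructor <;> linarith

end

/-! ### Symmetry of the weights of a self-dual flag -/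

theorem SD_dual {B : LinearMap.BilinForm K V} (hB : B.Nondegenerate) (hs : B.IsSymm)
    {f : Basis ι K V} {w : ι → ℝ} (h : SD B f w) (a : ℝ) :
    Fil (B.dualBasis hB f) (fun i => - w i) a = Fil f w a := by
  ext x
  rw [h, mem_Fil]
  constructor
  · intro hx i hi
    by_contra hne
    have := hx i (by rw [dual_repr, hs.eq x (f i)]; exact hne)
    linarith
  · intro hx i hi
    rw [dual_repr, hs.eq x (f i)] at hi
    by_contra hlt
    exact hi (hx i (by linarith [not_le.mp hlt]))

theorem Fil_combine' {e f : Basis ι K V} {w u w' u' : ι → ℝ} (hw : ∀ a, Fil f w' a = Fil e w a)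
    (hu : ∀ a, Fil f u' a = Fil e u a) {c : ℝ} (hc : 0 ≤ c) (a : ℝ) :
    Fil f (fun i => w' i + c * u' i) a = Fil e (fun i => w i + c * u i) a := by
  have key : ∀ {e f : Basis ι K V} {w u w' u' : ι → ℝ}, (∀ a, Fil f w' a = Fil e w a) →
      (∀ a, Fil f u' a = Fil e u a) → ∀ a,
      Fil f (fun i => w' i + c * u' i) a ≤ Fil e (fun i => w i + c * u i) a := by
    intro e f w u w' u' hw hu a
    rw [Fil_eq_span, Submodule.span_le]
    rintro _ ⟨j, hj, rfl⟩
    intro i hi
    have h1 : f j ∈ Fil e w (w' j) := by rw [← hw]; exact basis_mem_Fil f w' le_rfl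
    have h2 : f j ∈ Fil e u (u' j) := by rw [← hu]; exact basis_mem_Fil f u' le_rfl
    have h3 := h1 i hi
    have h4 := mul_le_mul_of_nonneg_left (h2 i hi) hc
    have h5 : a ≤ w' j + c * u' j := hj
    linarith
  exact le_antisymm (key hw hu a) (key (fun a => (hw a).symm) (fun a => (hu a).symm) a)

theorem exists_generic_c' (w u : ι → ℝ) : ∃ c : ℝ, 0 < c ∧
    ∀ i j, (w i + c * u i) + (w j + c * u j) = 0 → w i + w j = 0 ∧ u i + u j = 0 := by
  classical
  let S : Finset ℝ := Finset.univ.image fun p : ι × ι => -(w p.1 + w p.2) / (u p.1 + u p.2)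
  obtain ⟨c, hc0, hc⟩ := (Set.Ioi_infinite (0 : ℝ)).exists_notMem_finset S
  refine ⟨c, hc0, fun i j hij => ?_⟩
  have hu : u i + u j = 0 := by
    by_contra hne
    apply hc
    rw [Finset.mem_image]
    refine ⟨(i, j), Finset.mem_univ _, ?_⟩
    rw [div_eq_iff hne]
    linarith
  refine ⟨?_, hu⟩
  have : (w i + w j) + c * (u i + u j) = 0 := by linarith
  rw [hu] at this; linarith

/-- The pairs of weights of two self-dual flags with a common adapted basis are symmetric. -/
theorem exists_neg_perm {B : LinearMap.BilinForm K V} (hB : B.Nondegenerate) (hs : B.IsSymm)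
    {f : Basis ι K V} {w u : ι → ℝ} (hw : SD B f w) (hu : SD B f u) :
    ∃ σ : Equiv.Perm ι, ∀ i, w (σ i) = - w i ∧ u (σ i) = - u i := by
  obtain ⟨c, hc0, hc⟩ := exists_generic_c' w u
  let t : ι → ℝ := fun i => w i + c * u i
  have sdt : ∀ a, Fil (B.dualBasis hB f) (fun i => - t i) a = Fil f t a := by
    intro a
    have := Fil_combine' (SD_dual hB hs hw) (SD_dual hB hs hu) hc0.le a
    rw [← this]
    congr 1
    funext i
    simp only [t]; ring
  obtain ⟨σ, hσ⟩ := exists_perm f (B.dualBasis hB f) t (fun i => - t i) sdt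
  refine ⟨σ, fun i => ?_⟩
  have h1 := hσ i
  have := hc i (σ i) (by simp only [t] at h1; linarith)
  constructor <;> linarith [this.1, this.2]

theorem card_neg {B : LinearMap.BilinForm K V} (hB : B.Nondegenerate) (hs : B.IsSymm)
    {f : Basis ι K V} {w u : ι → ℝ} (hw : SD B f w) (hu : SD B f u) (P : ℝ → ℝ → Prop) :
    Nat.card {i // P (w i) (u i)} = Nat.card {i // P (- w i) (- u i)} := by
  obtain ⟨σ, hσ⟩ := exists_neg_perm hB hs hw hu
  refine (Nat.card_congr (Equiv.subtypeEquiv σ fun i => ?_)).symm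
  rw [(hσ i).1, (hσ i).2]

/-- (N2), last. -/
theorem two_mul_finrank_Fil_le {B : LinearMap.BilinForm K V} (hB : B.Nondegenerate)
    (hs : B.IsSymm) {f : Basis ι K V} {u : ι → ℝ} (hu : SD B f u) :
    2 * finrank K (Fil f u 1) ≤ finrank K V := by
  classical
  rw [finrank_Fil', Module.finrank_eq_card_basis f]
  have h1 : Nat.card {i // 1 ≤ u i} = Nat.card {i // 1 ≤ - u i} :=
    card_neg hB hs hu hu (fun a _ => 1 ≤ a)
  have h2 : Nat.card {i // 1 ≤ u i} + Nat.card {i // 1 ≤ - u i} ≤ Fintype.card ι := by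
    rw [card_subtype_eq, card_subtype_eq, ← Finset.card_union_of_disjoint]
    · exact Finset.card_le_univ _
    · rw [Finset.disjoint_left]
      intro i hi hi'
      have a1 := (Finset.mem_filter.mp hi).2
      have a2 := (Finset.mem_filter.mp hi').2
      linarith
  omega

/-! ### (N3) -/

section

variable (B : LinearMap.BilinForm K V) (hB : B.Nondegenerate) (hs : B.IsSymm)
  (h2 : (2 : K) ≠ 0) (f : Basis ι K V) (w u : ι → ℝ)

/-- Counting pairs in the type A pattern. -/
theorem card_pairs (j0 : ι) (hj0 : ∀ i, u i = 1 ↔ i = j0) (τ : ι → ι → Prop)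
    (hτ : ∀ j k, τ j k → τ k j) :
    Nat.card {p : ι × ι // 0 < u p.1 + u p.2 ∧ τ p.1 p.2} =
      Nat.card {p : ι × ι // rho u p.1 p.2 ∧ τ p.1 p.2} +
        2 * Nat.card {k // u k = 0 ∧ τ j0 k} := by
  classical
  have hu0 : u j0 = 1 := (hj0 j0).2 rfl
  rw [card_subtype_eq, card_subtype_eq, card_subtype_eq]
  set Z : Finset ι := Finset.univ.filter fun k => u k = 0 ∧ τ j0 k with hZ
  have hsplit : (Finset.univ.filter fun p : ι × ι => 0 < u p.1 + u p.2 ∧ τ p.1 p.2) =
      (Finset.univ.filter fun p : ι × ι => rho u p.1 p.2 ∧ τ p.1 p.2) ∪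
        (Z.image (fun k => (j0, k)) ∪ Z.image (fun k => (k, j0))) := by
    ext ⟨j, k⟩
    simp only [Finset.mem_union, Finset.mem_filter, Finset.mem_univ, true_and, Finset.mem_image,
      hZ, Prod.mk.injEq]
    constructor
    · rintro ⟨h1, h2⟩
      by_cases hA : u j = 1 ∧ u k = 0
      · have hj : j = j0 := (hj0 j).1 hA.1
        subst hj
        exact Or.inr (Or.inl ⟨k, ⟨hA.2, h2⟩, rfl, rfl⟩)
      · by_cases hB : u j = 0 ∧ u k = 1
        · have hk : k = j0 := (hj0 k).1 hB.2
          subst hk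
          exact Or.inr (Or.inr ⟨j, ⟨hB.1, hτ _ _ h2⟩, rfl, rfl⟩)
        · exact Or.inl ⟨⟨h1, hA, hB⟩, h2⟩
    · rintro (⟨h1, h2⟩ | ⟨l, ⟨h1, h2⟩, rfl, rfl⟩ | ⟨l, ⟨h1, h2⟩, rfl, rfl⟩)
      · exact ⟨h1.1, h2⟩
      · exact ⟨by rw [hu0, h1]; norm_num, h2⟩
      · exact ⟨by rw [hu0, h1]; norm_num, hτ _ _ h2⟩
  rw [hsplit, Finset.card_union_of_disjoint, Finset.card_union_of_disjoint,
    Finset.card_image_of_injective, Finset.card_image_of_injective]
  · ring
  · intro a b h; exact (Prod.mk.inj h).1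
  · intro a b h; exact (Prod.mk.inj h).2
  · rw [Finset.disjoint_left]
    rintro ⟨j, k⟩ h1 h2
    obtain ⟨l, hl, he⟩ := Finset.mem_image.mp h1
    obtain ⟨m, hm, he'⟩ := Finset.mem_image.mp h2
    have e1 : j0 = j := (Prod.mk.inj he).1
    have e2 : m = j := (Prod.mk.inj he').1
    have h3 : u m = 0 := (Finset.mem_filter.mp hm).2.1
    rw [e2, ← e1, hu0] at h3
    norm_num at h3
  · rw [Finset.disjoint_left]
    rintro ⟨j, k⟩ h1 h2
    have hr := (Finset.mem_filter.mp h1).2.1
    rcases Finset.mem_union.mp h2 with h3 | h3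
    · obtain ⟨l, hl, he⟩ := Finset.mem_image.mp h3
      obtain ⟨rfl, rfl⟩ := Prod.mk.inj he
      exact hr.2.1 ⟨hu0, (Finset.mem_filter.mp hl).2.1⟩
    · obtain ⟨l, hl, he⟩ := Finset.mem_image.mp h3
      obtain ⟨rfl, rfl⟩ := Prod.mk.inj he
      exact hr.2.2 ⟨(Finset.mem_filter.mp hl).2.1, hu0⟩

include hs h2

/-- The basic formula of type A: `dim n_τ + #Z_τ = dim p_τ + β_τ`. -/
theorem typeA_basic (j0 : ι) (hj0 : ∀ i, u i = 1 ↔ i = j0) (τ : ι → ι → Prop)
    (hτ : ∀ j k, τ j k → τ k j) :
    finrank K (Sym B ⊓ Pat B hB f (fun j k => rho u j k ∧ τ j k) : Submodule K (V →ₗ[K] V)) +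
        Nat.card {k // u k = 0 ∧ τ j0 k} =
      finrank K (Skw B ⊓ Pat B hB f (fun j k => 0 < u j + u k ∧ τ j k) :
        Submodule K (V →ₗ[K] V)) + Nat.card {i // 0 < u i + u i ∧ τ i i} := by
  have s1 : ∀ j k, (rho u j k ∧ τ j k) → (rho u k j ∧ τ k j) := fun j k h =>
    ⟨rho_symm u j k h.1, hτ _ _ h.2⟩
  have s2 : ∀ j k, (0 < u j + u k ∧ τ j k) → (0 < u k + u j ∧ τ k j) := fun j k h =>
    ⟨by linarith [h.1], hτ _ _ h.2⟩
  have a1 := finrank_Sym_eq B hB f hs h2 (fun j k => rho u j k ∧ τ j k) s1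
  have a2 := finrank_Sym_add_Skw B hB f hs h2 (fun j k => rho u j k ∧ τ j k) s1
  have b1 := finrank_Sym_eq B hB f hs h2 (fun j k => 0 < u j + u k ∧ τ j k) s2
  have b2 := finrank_Sym_add_Skw B hB f hs h2 (fun j k => 0 < u j + u k ∧ τ j k) s2
  have c1 := card_pairs u j0 hj0 τ hτ
  have d1 : Nat.card {i // rho u i i ∧ τ i i} = Nat.card {i // 0 < u i + u i ∧ τ i i} := by
    refine card_congr fun i => ⟨fun h => ⟨h.1.1, h.2⟩, fun h => ⟨⟨h.1, ?_, ?_⟩, h.2⟩⟩
    · rintro ⟨h1, h2⟩; rw [h1] at h2; norm_num at h2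
    · rintro ⟨h1, h2⟩; rw [h1] at h2; norm_num at h2
  omega

include hB

/-- (N3). -/
theorem typeA (hw : SD B f w) (hu : SD B f u) (hint : ∀ i, ∃ z : ℤ, u i = z) (j0 : ι)
    (hj0 : ∀ i, u i = 1 ↔ i = j0) (hw0 : 1 ≤ 2 * w j0) :
    2 * finrank K (pp B f u) + 4 * finrank K (Fil f u 1) +
        finrank K (nn B hB f u ⊓ Gt f w 0 : Submodule K (V →ₗ[K] V)) +
        finrank K (nn B hB f u ⊓ Ge f w 1 : Submodule K (V →ₗ[K] V)) ≤
      2 * finrank K (nn B hB f u) + finrank K V +
        finrank K (pp B f u ⊓ Gt f w 0 : Submodule K (V →ₗ[K] V)) +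
        finrank K (pp B f u ⊓ Ge f w 1 : Submodule K (V →ₗ[K] V)) +
        finrank K (Fil f u 1 ⊓ Vgt f w 0 : Submodule K V) +
        finrank K (Fil f u 1 ⊓ Fil f w (1 / 2) : Submodule K V) := by
  classical
  have hpos : ∀ i, 0 < u i + u i ↔ 1 ≤ u i := by
    intro i
    obtain ⟨z, hz⟩ := hint i
    rw [hz]
    constructor
    · intro h
      have : (0 : ℝ) < z := by linarith
      have : 0 < z := by exact_mod_cast this
      have : 1 ≤ z := this
      exact_mod_cast this
    · intro h; linarith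
  -- the three instances
  have t0 := typeA_basic B hB hs h2 f u j0 hj0 (fun _ _ => True) (fun _ _ _ => trivial)
  have t1 := typeA_basic B hB hs h2 f u j0 hj0 (fun j k => 0 < w j + w k)
    (fun j k h => by linarith)
  have t2 := typeA_basic B hB hs h2 f u j0 hj0 (fun j k => 1 ≤ w j + w k)
    (fun j k h => by linarith)
  have e0 : (Sym B ⊓ Pat B hB f (fun j k => rho u j k ∧ True) : Submodule K (V →ₗ[K] V)) =
      nn B hB f u := by
    rw [nn]; congr 2; funext j k; simp
  have e0' : (Skw B ⊓ Pat B hB f (fun j k => 0 < u j + u k ∧ True) : Submodule K (V →ₗ[K] V)) =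
      pp B f u := by
    rw [pp_eq B hB f u hs hu]; congr 2; funext j k; simp
  rw [e0, e0'] at t0
  rw [← nn_inf_Gt B hB f w u hs hw, ← pp_inf_Gt B hB f w u hs hw hu] at t1
  rw [← nn_inf_Ge B hB f w u hs hw, ← pp_inf_Ge B hB f w u hs hw hu] at t2
  have c0 : Nat.card {i // 0 < u i + u i ∧ True} = finrank K (Fil f u 1) := by
    rw [finrank_Fil']; exact card_congr fun i => by rw [hpos]; simp
  have c1 : Nat.card {i // 0 < u i + u i ∧ 0 < w i + w i} =
      finrank K (Fil f u 1 ⊓ Vgt f w 0 : Submodule K V) := by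
    rw [finrank_Fil_inf_Vgt]
    refine card_congr fun i => ?_
    rw [hpos]
    exact ⟨fun h => ⟨h.1, by linarith [h.2]⟩, fun h => ⟨h.1, by linarith [h.2]⟩⟩
  have c2 : Nat.card {i // 0 < u i + u i ∧ 1 ≤ w i + w i} =
      finrank K (Fil f u 1 ⊓ Fil f w (1 / 2) : Submodule K V) := by
    rw [finrank_Fil_inf_Fil]
    refine card_congr fun i => ?_
    rw [hpos]
    exact ⟨fun h => ⟨h.1, by linarith [h.2]⟩, fun h => ⟨h.1, by linarith [h.2]⟩⟩
  rw [c0] at t0
  rw [c1] at t1
  rw [c2] at t2
  -- sizes of the zero level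
  have z0 : Nat.card {k // u k = 0 ∧ True} = Nat.card {k // u k = 0} :=
    card_congr fun i => by simp
  rw [z0] at t0
  -- `N = 2 r' + #Z`
  have hN : finrank K V = 2 * finrank K (Fil f u 1) + Nat.card {k // u k = 0} := by
    rw [Module.finrank_eq_card_basis f, finrank_Fil']
    have h1 : Nat.card {i // 1 ≤ u i} = Nat.card {i // 1 ≤ - u i} :=
      card_neg hB hs hu hu (fun a _ => 1 ≤ a)
    have h3 : Fintype.card ι = Nat.card {i // 1 ≤ u i} + Nat.card {i // 1 ≤ - u i} +
        Nat.card {k // u k = 0} := by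
      rw [card_subtype_eq, card_subtype_eq, card_subtype_eq, ← Finset.card_union_of_disjoint,
        ← Finset.card_union_of_disjoint, ← Finset.card_univ]
      · congr 1
        ext i
        simp only [Finset.mem_univ, Finset.mem_union, Finset.mem_filter, true_and, true_iff]
        obtain ⟨z, hz⟩ := hint i
        rw [hz]
        rcases lt_trichotomy z 0 with h | h | h
        · left; right
          have : 1 ≤ -z := by omega
          exact_mod_cast this
        · right; exact_mod_cast h
        · left; left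
          have : 1 ≤ z := h
          exact_mod_cast this
      · rw [Finset.disjoint_left]
        intro i hi hi'
        have a2 := (Finset.mem_filter.mp hi').2
        rcases Finset.mem_union.mp hi with h | h
        · have a1 := (Finset.mem_filter.mp h).2
          linarith
        · have a1 := (Finset.mem_filter.mp h).2
          linarith
      · rw [Finset.disjoint_left]
        intro i hi hi'
        have a1 := (Finset.mem_filter.mp hi).2
        have a2 := (Finset.mem_filter.mp hi').2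
        linarith
    omega
  -- `#Z ≤ z1 + z2`
  have hZ : Nat.card {k // u k = 0} ≤ Nat.card {k // u k = 0 ∧ 0 < w j0 + w k} +
      Nat.card {k // u k = 0 ∧ 1 ≤ w j0 + w k} := by
    have h1 : Nat.card {k // u k = 0 ∧ w j0 ≤ - w k} =
        Nat.card {k // u k = 0 ∧ w j0 ≤ w k} := by
      have := card_neg hB hs hw hu (fun a b => b = 0 ∧ w j0 ≤ -a)
      simp only [neg_eq_zero, neg_neg] at this
      exact this
    have h3 : Nat.card {k // u k = 0 ∧ w j0 ≤ w k} ≤
        Nat.card {k // u k = 0 ∧ 1 ≤ w j0 + w k} := by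
      rw [card_subtype_eq, card_subtype_eq]
      apply Finset.card_le_card
      intro i hi
      have a1 := (Finset.mem_filter.mp hi).2
      exact Finset.mem_filter.mpr ⟨Finset.mem_univ _, a1.1, by linarith [a1.2]⟩
    have h4 : Nat.card {k // u k = 0} ≤ Nat.card {k // u k = 0 ∧ 0 < w j0 + w k} +
        Nat.card {k // u k = 0 ∧ w j0 ≤ - w k} := by
      rw [card_subtype_eq, card_subtype_eq, card_subtype_eq]
      refine le_trans (Finset.card_le_card ?_) (Finset.card_union_le _ _)
      intro i hi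
      have a1 := (Finset.mem_filter.mp hi).2
      by_cases h : 0 < w j0 + w i
      · exact Finset.mem_union_left _ (Finset.mem_filter.mpr ⟨Finset.mem_univ _, a1, h⟩)
      · exact Finset.mem_union_right _ (Finset.mem_filter.mpr ⟨Finset.mem_univ _, a1,
          by linarith [not_lt.mp h]⟩)
    omega
  omega

end

end Crest.Agent.R172.NilNum
end

-- ▼ part R172/NilCount10
section

/-!
# Row 172, node NILC: the final count
-/

set_option autoImplicit false
set_option linter.unusedSectionVars false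
set_option linter.unusedSimpArgs false
set_option linter.unusedVariables false

namespace Crest.Agent.R172.NilCount

open Module Crest.Agent.R172.Kempf Crest.Agent.R172.NilPat
open Crest.Agent.R172.NilConn (ten ten_apply)

namespace Conf

variable {K V X σ ι : Type*} [Field K] [AddCommGroup V] [Module K V] [Fintype ι] [DecidableEq ι]
  {B : LinearMap.BilinForm K V} (F : Conf B X σ) [Fintype X] [DecidableEq σ] [DecidableEq X]
  [FiniteDimensional K V] [Fintype σ]

/-- The inequality of one arm. -/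
theorem arm_ineq [DecidablePred F.odd] (hB : B.Nondegenerate) (hs : B.IsSymm) (h2 : (2 : K) ≠ 0)
    {s : σ} {f : Basis ι K V} {u : ι → ℝ} (h : F.Flag s f u) {w : ι → ℝ} (hw : SD B f w)
    (hG : F.Phi s ∈ Ge f w 1) :
    2 * finrank K (F.Nn s) + 2 * finrank K ↥(Skw B ⊓ Gt f u 0) + finrank K ↥(F.nn s ⊓ Gt f w 0) +
      finrank K ↥(F.nn s ⊓ Ge f w 1) + 2 * finrank K (F.Rp s) ≤
    2 * finrank K (F.nn s) + finrank K ↥(Skw B ⊓ Gt f u 0 ⊓ Gt f w 0) +
      finrank K ↥(Skw B ⊓ Gt f u 0 ⊓ Ge f w 1) +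
      (2 * F.card s + (if F.odd s then 1 else 0)) * finrank K V +
      finrank K ↥(F.Rp s ⊓ NilNum.Vgt f w 0) + finrank K ↥(F.Rp s ⊓ Fil f w (1 / 2)) := by
  classical
  have hN := F.finrank_Nn hB hs s
  have hnn : F.nn s = NilNum.nn B hB f u := F.nn_eq hB hs h2 h
  have hpp : Skw B ⊓ Gt f u 0 = NilNum.pp B f u := rfl
  have h2r := NilNum.two_mul_finrank_Fil_le hB hs h.sd
  rw [hnn, hpp]
  by_cases hv : F.v0 s ∈ F.R s F.M
  · -- type B
    have ht := h.typeB hv
    have e1 := NilNum.finrank_nn_even B hB hs h2 f u h.sd h.int ht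
    have e2 := NilNum.finrank_nn_Gt_even B hB hs h2 f w u hw h.sd h.int ht
    have e3 := NilNum.finrank_nn_Ge_even B hB hs h2 f w u hw h.sd h.int ht
    rw [h.Rp] at e1 e2 e3 h2r
    by_cases ho : F.odd s
    · rw [if_pos ho] at hN ⊢
      have h3 : (2 * F.card s + 1) * finrank K V = 2 * (F.card s * finrank K V) + finrank K V := by
        ring
      rw [h3, e1, e2, e3]
      omega
    · rw [if_neg ho] at hN ⊢
      have h3 : (2 * F.card s + 0) * finrank K V = 2 * (F.card s * finrank K V) := by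
        ring
      rw [h3, e1, e2, e3]
      omega
  · -- type A
    have ho : F.odd s := by
      by_contra ho
      apply hv
      rw [F.even0 s ho]; exact Submodule.zero_mem _
    obtain ⟨j0, hj0, hw0⟩ := h.typeA hB hs hv hw hG
    have e1 := NilNum.typeA B hB hs h2 f w u hw h.sd h.int j0 hj0 hw0
    rw [h.Rp] at e1
    rw [if_pos ho] at hN ⊢
    have h3 : (2 * F.card s + 1) * finrank K V = 2 * (F.card s * finrank K V) + finrank K V := by
      ring
    rw [h3]
    omega

end Conf

/-- **NIL, the core.** -/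
theorem nil_core {K V X σ : Type*} [Field K] [AddCommGroup V] [Module K V]
    [FiniteDimensional K V] [Nontrivial V] {B : LinearMap.BilinForm K V}
    (hB : B.Nondegenerate) (hs : B.IsSymm) (h2 : (2 : K) ≠ 0) [Fintype X] [Fintype σ]
    [DecidableEq σ] (F : Conf B X σ) [DecidablePred F.odd]
    (hc : ∀ s (C : NilLower.Conn B), C.d (F.c0 s) = 0)
    (hsum : ∑ s, F.Phi s = 0) (htop : ⨆ s, F.Rp s = ⊤)
    (hlow : ∀ T : Submodule K (Conf.Wt V X σ), F.Closed T →
      (2 * Fintype.card X + (Finset.univ.filter F.odd).card) * finrank K V + 2 ≤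
        2 * finrank K T + 2 * finrank K V)
    (m : ℕ) (hnil : ∀ l : List σ, l.length = m → (l.map F.Phi).prod = 0) : False := by
  classical
  obtain ⟨e, w, π, -, hort, hk1, hk2⟩ := kempf F.Phi
    (good_of_Kfil (finBasis K V) F.Phi m (Kfil_eq_top_of_words hnil)) B hB hs h2
    (fun s => F.Phi_mem_Sym hs s)
  have hsd : SD B e w := SD.of_grading hB hs hort
  have kd : KData F.Phi e w := KData.of_kempf hk1 hk2
  have hex : ∀ s, ∃ (f : Basis _ K V) (u : Fin (finrank K V) → ℝ),
      (∀ a, Fil f w a = Fil e w a) ∧ F.Flag s f u := by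
    intro s
    obtain ⟨g, om, hg⟩ := F.exists_Flag hB hs e s
    obtain ⟨f, u, hf, hu⟩ := exists_common e g w om
    exact ⟨f, u, hf, hg.congr hu⟩
  choose f u hf hfl using hex
  have hG : ∀ s, F.Phi s ∈ Ge e w 1 := kd.ge
  have hcl := F.closed hB hs h2 e w hsd f u hfl hG hf hsum hc
  have low := hlow _ hcl
  have f3 := F3 (mkData B hB hs h2 e w hsd)
    (fun s => (F.farms hB hs h2 e w hsd f u hfl hG s).toArm) hsum (fun x hx hc => kd.K2 hx hc)
  have f4 := F4 (mkData B hB hs h2 e w hsd) (F.farms hB hs h2 e w hsd f u hfl hG) hsum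
    (fun x hx => kd.K1 hx) (F.Tg hB hs h2 e w hsd f u hfl hG)
    (by rintro _ ⟨z, hz, rfl⟩; exact ⟨z, hz, rfl⟩)
  have n1 := NilNum.finrank_Sym_Gt B hB hs h2 e w hsd
  have n2 := NilNum.finrank_Sym_Ge B hB hs h2 e w hsd
  have c1 := NilConn.spanning (NilNum.Vgt e w 0) F.Rp htop
  have c2 := NilConn.spanning (Fil e w (1 / 2)) F.Rp htop
  have hsum' : ∑ s, (2 * finrank K (F.Nn s) + 2 * finrank K ↥(Skw B ⊓ Gt (f s) (u s) 0) +
      finrank K ↥(F.nn s ⊓ Gt e w 0) +
      finrank K ↥(F.nn s ⊓ Ge e w 1) + 2 * finrank K (F.Rp s)) ≤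
    ∑ s, (2 * finrank K (F.nn s) + finrank K ↥(Skw B ⊓ Gt (f s) (u s) 0 ⊓ Gt e w 0) +
      finrank K ↥(Skw B ⊓ Gt (f s) (u s) 0 ⊓ Ge e w 1) +
      (2 * F.card s + (if F.odd s then 1 else 0)) * finrank K V +
      finrank K ↥(F.Rp s ⊓ NilNum.Vgt e w 0) + finrank K ↥(F.Rp s ⊓ Fil e w (1 / 2))) := by
    refine Finset.sum_le_sum fun s _ => ?_
    have h := F.arm_ineq hB hs h2 (hfl s) (hsd.congr (hf s))
      (by rw [Ge_congr (hf s)]; exact hG s)
    rw [Ge_congr (hf s), Gt_congr (hf s), NilNum.Vgt_congr (hf s), hf s] at h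
    exact h
  have hcard : ∑ s, (2 * F.card s + (if F.odd s then 1 else 0)) * finrank K V =
      (2 * Fintype.card X + (Finset.univ.filter F.odd).card) * finrank K V := by
    rw [← Finset.sum_mul, Finset.sum_add_distrib, ← Finset.mul_sum, F.sum_card,
      Finset.card_filter]
  simp only [Finset.sum_add_distrib, ← Finset.mul_sum] at hsum' f3 f4
  rw [hcard] at hsum'
  have hV : 0 < finrank K V := finrank_pos
  -- names
  change finrank K ↥(Sym B ⊓ Gt e w 0) + finrank K ↥(Skw B ⊓ Gt e w 0) +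
      (∑ s, finrank K ↥(F.nn s ⊓ Ge e w 1) +
        ∑ s, finrank K ↥(Skw B ⊓ Gt (f s) (u s) 0 ⊓ Ge e w 1)) ≤
    finrank K ↥(Sym B ⊓ Ge e w 1) + finrank K ↥(Skw B ⊓ Ge e w 1) +
      (∑ s, finrank K ↥(F.nn s ⊓ Gt e w 0) +
        ∑ s, finrank K ↥(Skw B ⊓ Gt (f s) (u s) 0 ⊓ Gt e w 0)) at f3
  change finrank K ↥(F.Tg hB hs h2 e w hsd f u hfl hG) + finrank K ↥(Sym B ⊓ Ge e w 1) +
      (∑ s, finrank K ↥(Skw B ⊓ Gt (f s) (u s) 0 ⊓ Gt e w 0) + ∑ s, finrank K (F.nn s)) ≤
    finrank K ↥(Skw B ⊓ Gt e w 0) +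
      (∑ s, finrank K ↥(Skw B ⊓ Gt (f s) (u s) 0) + ∑ s, finrank K (F.Nn s) +
        ∑ s, finrank K ↥(F.nn s ⊓ Ge e w 1)) at f4
  omega

end Crest.Agent.R172.NilCount
end

-- ▼ part R172/NilFin2
section

/-!
Row 172, node NILC: the final NIL theorems over a generic skew matrix `H`.
-/

set_option autoImplicit false
set_option linter.unusedSectionVars false

namespace Crest.Agent.R172.NilFin

open Module Crest.Agent.R172.NilLower Crest.Agent.R172.NilCount
open Crest.Agent.R172.NilConn (ten ten_apply)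

variable {K V X σ : Type*} [Field K] [AddCommGroup V] [Module K V]
variable {B : LinearMap.BilinForm K V} [Fintype X] [Fintype σ] [DecidableEq σ]

/-- **NIL, even arms.** -/
theorem nil_even [FiniteDimensional K V] [Nontrivial V] (hB : B.Nondegenerate) (hs : B.IsSymm)
    (h2 : (2 : K) ≠ 0) (arm : X → σ) (ht : X → ℕ) (H : X → X → K) (hH : ∀ x y, H x y = - H y x)
    (v w : X → V) (hw : ∀ x, w x = ∑ y, H x y • v y)
    (hv : Submodule.span K (Set.range v) = ⊤)
    (hgen : ∀ G : X → X → K, (∀ x y, G x y = - G y x) →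
      ∃ C : Conn B, ∀ x y, C.d (H x y) = G x y)
    (vv : ∀ x y, arm x = arm y → B (v x) (v y) = 0)
    (vw : ∀ x y, arm x = arm y → ht x ≤ ht y → B (v x) (w y) = 0)
    (m : ℕ) (hnil : ∀ l : List σ, l.length = m →
      (l.map fun s => ∑ x, if arm x = s then sten B (v x) (w x) else 0).prod = 0) : False := by
  classical
  refine nil_core hB hs h2 (confE arm ht v w vv vw) ?_ (confE_sum h2 H hH hw) (confE_top hv)
    (fun T hT => confE_low hB hs h2 H hw hv hgen T hT) m ?_
  · intro s C
    change C.d (0 : K) = 0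
    exact map_zero _
  · intro l hl
    have h := hnil l hl
    have h1 : (confE arm ht v w vv vw).Phi
        = fun s => ∑ x, if arm x = s then sten B (v x) (w x) else 0 :=
      funext fun s => confE_Phi s
    rw [h1]
    exact h

/-- **NIL, two odd arms.** -/
theorem nil_odd [FiniteDimensional K V] [Nontrivial V] (hB : B.Nondegenerate) (hs : B.IsSymm)
    (h2 : (2 : K) ≠ 0) (s1 s2 : σ) (h12 : s1 ≠ s2) (c : K) (hc : c ≠ 0)
    (hcd : ∀ d : Derivation ℤ K K, d c = 0) (arm : X → σ) (ht : X → ℕ)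
    (H : Option X → Option X → K) (hH : ∀ x y, H x y = - H y x)
    (v w : Option X → V) (hw : ∀ x, w x = ∑ y, H x y • v y)
    (hv : Submodule.span K (Set.range v) = ⊤)
    (hgen : ∀ G : Option X → Option X → K, (∀ x y, G x y = - G y x) →
      ∃ C : Conn B, ∀ x y, C.d (H x y) = G x y)
    (vv : ∀ x y, arm x = arm y → B (v (some x)) (v (some y)) = 0)
    (vw : ∀ x y, arm x = arm y → ht x ≤ ht y → B (v (some x)) (w (some y)) = 0)
    (v00 : ∀ s, B (vodd s1 s2 c v w s) (vodd s1 s2 c v w s) = 0)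
    (vv0 : ∀ x, B (v (some x)) (vodd s1 s2 c v w (arm x)) = 0)
    (m : ℕ) (hnil : ∀ l : List σ, l.length = m →
      (l.map fun s => (∑ x, if arm x = s then sten B (v (some x)) (w (some x)) else 0)
        + codd s1 s2 c s • ten B (vodd s1 s2 c v w s) (vodd s1 s2 c v w s)).prod = 0) :
    False := by
  classical
  refine nil_core hB hs h2 (confO s1 s2 h12 c hc h2 arm ht v w vv vw v00 vv0) ?_
    (confO_sum H hH hw) (confO_top hv) (fun T hT => confO_low hB hs hcd H hw hv hgen T hT) m ?_
  · intro s C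
    change C.d (codd s1 s2 c s) = 0
    have h3 : C.d (2 * c)⁻¹ = 0 := by
      rw [Derivation.leibniz_inv, Derivation.leibniz, hcd, smul_zero, zero_add]
      have : C.d (2 : K) = 0 := by
        have := C.d.map_natCast 2
        simpa using this
      rw [this, smul_zero, smul_zero]
    unfold codd
    split_ifs
    · exact h3
    · rw [map_neg, h3, neg_zero]
    · exact map_zero _
  · intro l hl
    exact hnil l hl

end Crest.Agent.R172.NilFin
end

-- ▼ part R172/NilBr2
section

/-!
Row 172: the abstract bridge from a symmetric form `b(u,u') = B(F u, G u')` on `U` to NIL.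
-/

set_option autoImplicit false
set_option linter.unusedSectionVars false

namespace Crest.Agent.R172.NilBr

open Module Crest.Agent.R172.NilLower Crest.Agent.R172.NilCount Crest.Agent.R172.NilFin
open Crest.Agent.R172.NilConn (ten ten_apply)

variable {K : Type*} [Field K] {U : Type*} [AddCommGroup U] [Module K U]

/-- the nondegenerate quotient of a symmetric form, as a subspace. -/
theorem exists_nondeg (b : LinearMap.BilinForm K U) (hs : b.IsSymm) :
    ∃ (S : Submodule K U) (c : U →ₗ[K] S), Function.Surjective c ∧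
      (b.restrict S).Nondegenerate ∧ (b.restrict S).IsSymm ∧
      ∀ u u', b.restrict S (c u) (c u') = b u u' := by
  obtain ⟨S, hS⟩ := (LinearMap.ker b).exists_isCompl
  have hS' := hS.symm
  let c : U →ₗ[K] S := S.projectionOnto (LinearMap.ker b) hS'
  have hc : ∀ u, (c u : U) - u ∈ LinearMap.ker b := by
    intro u
    have h1 : c ((c u : U) - u) = 0 := by
      rw [map_sub, Submodule.projectionOnto_apply_left, sub_self]
    exact (Submodule.projectionOnto_apply_eq_zero_iff hS').1 h1
  have hb1 : ∀ u u', b (c u : U) u' = b u u' := by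
    intro u u'
    have := hc u
    rw [LinearMap.mem_ker] at this
    have h2 := LinearMap.congr_fun this u'
    rw [map_sub, LinearMap.sub_apply, LinearMap.zero_apply, sub_eq_zero] at h2
    exact h2
  have hb : ∀ u u', b.restrict S (c u) (c u') = b u u' := by
    intro u u'
    change b (c u : U) (c u' : U) = _
    rw [hb1, hs.eq u, hb1, hs.eq]
  have hsym : (b.restrict S).IsSymm := ⟨fun x y => hs.eq _ _⟩
  have hleft : ∀ x : S, (∀ y : S, b.restrict S x y = 0) → x = 0 := by
    intro x hx
    have h1 : (x : U) ∈ LinearMap.ker b := by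
      rw [LinearMap.mem_ker]
      ext u
      have h2 := hx (c u)
      change b (x : U) (c u : U) = 0 at h2
      rw [hs.eq, hb1, hs.eq] at h2
      rw [LinearMap.zero_apply]
      exact h2
    have h2 : (x : U) ∈ S ⊓ LinearMap.ker b := ⟨x.2, h1⟩
    rw [hS'.inf_eq_bot, Submodule.mem_bot] at h2
    exact Subtype.ext h2
  refine ⟨S, c, ?_, ⟨hleft, ?_⟩, hsym, hb⟩
  · intro x
    exact ⟨x, Submodule.projectionOnto_apply_left hS' x⟩
  · intro y hy
    exact hleft y fun x => by rw [hsym.eq]; exact hy x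

/-- pushing words down -/
theorem words_push {σ : Type*} {S : Type*} [AddCommGroup S] [Module K S] (c : U →ₗ[K] S)
    (Ψ : σ → Module.End K U) (Φ : σ → Module.End K S) (h : ∀ s u, Φ s (c u) = c (Ψ s u))
    (l : List σ) (u : U) : (l.map Φ).prod (c u) = c ((l.map Ψ).prod u) := by
  induction l generalizing u with
  | nil => simp
  | cons s l ih =>
    rw [List.map_cons, List.map_cons, List.prod_cons, List.prod_cons, Module.End.mul_apply,
      Module.End.mul_apply, ih, h]

variable [FiniteDimensional K U] {X σ : Type*} [Fintype X] [Fintype σ] [DecidableEq σ]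

/-- the operator `(E_s ∘ adj F ∘ G)` written in a hyperbolic basis. -/
noncomputable def psiE (b : LinearMap.BilinForm K U) (arm : X → σ) (e h : X → U) (s : σ) :
    Module.End K U := ∑ x, if arm x = s then sten b (e x) (h x) else 0

theorem span_v {Y S : Type*} [Fintype Y] [AddCommGroup S] [Module K S]
    (c : U →ₗ[K] S) (hc : Function.Surjective c) (e h : Y → U) (H : Y → Y → K)
    (hw : ∀ x, c (h x) = ∑ y, H x y • c (e y))
    (hspan : Submodule.span K (Set.range e ∪ Set.range h) = ⊤) :
    Submodule.span K (Set.range fun x => c (e x)) = ⊤ := by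
  have h1 : Submodule.map c (Submodule.span K (Set.range e ∪ Set.range h)) = ⊤ := by
    rw [hspan, Submodule.map_top, LinearMap.range_eq_top]
    exact hc
  rw [eq_top_iff, ← h1, Submodule.map_span_le]
  rintro _ (⟨x, rfl⟩ | ⟨x, rfl⟩)
  · exact Submodule.subset_span ⟨x, rfl⟩
  · rw [hw]
    exact Submodule.sum_mem _ fun y _ => Submodule.smul_mem _ _ (Submodule.subset_span ⟨y, rfl⟩)

theorem sten_push {S : Type*} [AddCommGroup S] [Module K S] (c : U →ₗ[K] S)
    (b : LinearMap.BilinForm K U) (b' : LinearMap.BilinForm K S)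
    (hb : ∀ u u', b' (c u) (c u') = b u u') (x y u : U) :
    sten b' (c x) (c y) (c u) = c (sten b x y u) := by
  simp only [sten, LinearMap.add_apply, ten_apply, map_add, map_smul, hb]

theorem ten_push {S : Type*} [AddCommGroup S] [Module K S] (c : U →ₗ[K] S)
    (b : LinearMap.BilinForm K U) (b' : LinearMap.BilinForm K S)
    (hb : ∀ u u', b' (c u) (c u') = b u u') (x y u : U) :
    ten b' (c x) (c y) (c u) = c (ten b x y u) := by
  simp only [ten_apply, map_smul, hb]

/-- **The abstract bridge, even arms.** -/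
theorem bridge_even (b : LinearMap.BilinForm K U) (hs : b.IsSymm) (h2 : (2 : K) ≠ 0)
    (arm : X → σ) (ht : X → ℕ) (e h : X → U) (H : X → X → K) (hH : ∀ x y, H x y = - H y x)
    (hw : ∀ x u, b (h x) u = ∑ y, H x y * b (e y) u)
    (hspan : Submodule.span K (Set.range e ∪ Set.range h) = ⊤)
    (hgen : ∀ G : X → X → K, (∀ x y, G x y = - G y x) →
      ∃ d : Derivation ℤ K K, ∀ x y, d (H x y) = G x y)
    (vv : ∀ x y, arm x = arm y → b (e x) (e y) = 0)
    (vw : ∀ x y, arm x = arm y → ht x ≤ ht y → b (e x) (h y) = 0)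
    (m : ℕ) (hnil : ∀ l : List σ, l.length = m →
      ∀ u u', b ((l.map (psiE b arm e h)).prod u) u' = 0) : ∀ u u', b u u' = 0 := by
  classical
  by_contra hne
  push Not at hne
  obtain ⟨u0, u0', h0⟩ := hne
  obtain ⟨S, c, hc, hnd, hsym, hb⟩ := exists_nondeg b hs
  have hnt : Nontrivial S := by
    refine ⟨⟨c u0, 0, fun h => h0 ?_⟩⟩
    rw [← hb, h, map_zero, LinearMap.zero_apply]
  have hw' : ∀ x, c (h x) = ∑ y, H x y • c (e y) := by
    intro x
    rw [← sub_eq_zero]
    refine hnd.1 _ fun z => ?_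
    obtain ⟨u, rfl⟩ := hc z
    rw [map_sub, LinearMap.sub_apply, hb, hw, map_sum, LinearMap.sum_apply, sub_eq_zero]
    refine Finset.sum_congr rfl fun y _ => ?_
    rw [map_smul, LinearMap.smul_apply, hb, smul_eq_mul]
  refine nil_even hnd hsym h2 arm ht H hH (fun x => c (e x)) (fun x => c (h x)) hw'
    (span_v c hc e h H hw' hspan) ?_ ?_ ?_ m ?_
  · intro G hG
    obtain ⟨d, hd⟩ := hgen G hG
    obtain ⟨C, hC⟩ := exists_conn hnd hsym h2 d
    exact ⟨C, fun x y => by rw [hC]; exact hd x y⟩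
  · intro x y hxy; rw [hb]; exact vv x y hxy
  · intro x y hxy hle; rw [hb]; exact vw x y hxy hle
  · intro l hl
    refine LinearMap.ext fun z => ?_
    obtain ⟨u, rfl⟩ := hc z
    rw [words_push c (psiE b arm e h)]
    · refine hnd.1 _ fun z' => ?_
      obtain ⟨u', rfl⟩ := hc z'
      rw [hb]
      exact hnil l hl u u'
    · intro s u
      rw [psiE, LinearMap.sum_apply, LinearMap.sum_apply, map_sum]
      refine Finset.sum_congr rfl fun x _ => ?_
      split_ifs
      · exact sten_push c b _ hb _ _ _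
      · rw [LinearMap.zero_apply, LinearMap.zero_apply, map_zero]

/-- the operator in the presence of two odd arms. -/
noncomputable def psiO (s1 s2 : σ) (c0 : K) (b : LinearMap.BilinForm K U) (arm : X → σ)
    (e h : Option X → U) (s : σ) : Module.End K U :=
  (∑ x, if arm x = s then sten b (e (some x)) (h (some x)) else 0)
    + codd s1 s2 c0 s • ten b (vodd s1 s2 c0 e h s) (vodd s1 s2 c0 e h s)

theorem vodd_push {S : Type*} [AddCommGroup S] [Module K S] (c : U →ₗ[K] S)
    (s1 s2 : σ) (c0 : K) (e h : Option X → U) (s : σ) :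
    vodd s1 s2 c0 (fun x => c (e x)) (fun x => c (h x)) s = c (vodd s1 s2 c0 e h s) := by
  unfold vodd
  split_ifs
  · rw [map_add, map_smul]
  · rw [map_sub, map_smul]
  · rw [map_zero]

/-- **The abstract bridge, two odd arms.** -/
theorem bridge_odd (b : LinearMap.BilinForm K U) (hs : b.IsSymm) (h2 : (2 : K) ≠ 0)
    (s1 s2 : σ) (h12 : s1 ≠ s2) (c0 : K) (hc0 : c0 ≠ 0)
    (hcd : ∀ d : Derivation ℤ K K, d c0 = 0)
    (arm : X → σ) (ht : X → ℕ) (e h : Option X → U) (H : Option X → Option X → K)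
    (hH : ∀ x y, H x y = - H y x)
    (hw : ∀ x u, b (h x) u = ∑ y, H x y * b (e y) u)
    (hspan : Submodule.span K (Set.range e ∪ Set.range h) = ⊤)
    (hgen : ∀ G : Option X → Option X → K, (∀ x y, G x y = - G y x) →
      ∃ d : Derivation ℤ K K, ∀ x y, d (H x y) = G x y)
    (vv : ∀ x y, arm x = arm y → b (e (some x)) (e (some y)) = 0)
    (vw : ∀ x y, arm x = arm y → ht x ≤ ht y → b (e (some x)) (h (some y)) = 0)
    (v00 : ∀ s, b (vodd s1 s2 c0 e h s) (vodd s1 s2 c0 e h s) = 0)
    (vv0 : ∀ x, b (e (some x)) (vodd s1 s2 c0 e h (arm x)) = 0)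
    (m : ℕ) (hnil : ∀ l : List σ, l.length = m →
      ∀ u u', b ((l.map (psiO s1 s2 c0 b arm e h)).prod u) u' = 0) : ∀ u u', b u u' = 0 := by
  classical
  by_contra hne
  push Not at hne
  obtain ⟨u0, u0', h0⟩ := hne
  obtain ⟨S, c, hc, hnd, hsym, hb⟩ := exists_nondeg b hs
  have hnt : Nontrivial S := by
    refine ⟨⟨c u0, 0, fun h => h0 ?_⟩⟩
    rw [← hb, h, map_zero, LinearMap.zero_apply]
  have hw' : ∀ x, c (h x) = ∑ y, H x y • c (e y) := by
    intro x
    rw [← sub_eq_zero]
    refine hnd.1 _ fun z => ?_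
    obtain ⟨u, rfl⟩ := hc z
    rw [map_sub, LinearMap.sub_apply, hb, hw, map_sum, LinearMap.sum_apply, sub_eq_zero]
    refine Finset.sum_congr rfl fun y _ => ?_
    rw [map_smul, LinearMap.smul_apply, hb, smul_eq_mul]
  refine nil_odd hnd hsym h2 s1 s2 h12 c0 hc0 hcd arm ht H hH (fun x => c (e x))
    (fun x => c (h x)) hw' (span_v c hc e h H hw' hspan) ?_ ?_ ?_ ?_ ?_ m ?_
  · intro G hG
    obtain ⟨d, hd⟩ := hgen G hG
    obtain ⟨C, hC⟩ := exists_conn hnd hsym h2 d
    exact ⟨C, fun x y => by rw [hC]; exact hd x y⟩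
  · intro x y hxy; rw [hb]; exact vv x y hxy
  · intro x y hxy hle; rw [hb]; exact vw x y hxy hle
  · intro s; rw [vodd_push, hb]; exact v00 s
  · intro x; rw [vodd_push, hb]; exact vv0 x
  · intro l hl
    refine LinearMap.ext fun z => ?_
    obtain ⟨u, rfl⟩ := hc z
    rw [words_push c (psiO s1 s2 c0 b arm e h)]
    · refine hnd.1 _ fun z' => ?_
      obtain ⟨u', rfl⟩ := hc z'
      rw [hb]
      exact hnil l hl u u'
    · intro s u
      rw [psiO, LinearMap.add_apply, LinearMap.add_apply, LinearMap.sum_apply,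
        LinearMap.sum_apply, map_add, map_sum, LinearMap.smul_apply, LinearMap.smul_apply,
        map_smul, vodd_push, ten_push c b _ hb]
      congr 1
      refine Finset.sum_congr rfl fun x _ => ?_
      split_ifs
      · exact sten_push c b _ hb _ _ _
      · rw [LinearMap.zero_apply, LinearMap.zero_apply, map_zero]

end Crest.Agent.R172.NilBr
end

-- ▼ part R172/NilBr3

/-!
Row 172: the concrete bridge. `CSys`: the concrete system `(V, U, p_s, adj, 𝒦)` of ThX2/ThX3.
-/

set_option autoImplicit false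
set_option linter.unusedSectionVars false

namespace Crest.Agent.R172.CSys

open Module Matrix Crest.AlgebraR.SpinSaturation Crest.Agent.R172.SoGrade Crest.Agent.R172.CF
open Crest.Agent.R172.Gen (Jm Ix emb Ent ent)
open Crest.Agent.R172.NilLower Crest.Agent.R172.NilCount Crest.Agent.R172.NilFin
open Crest.Agent.R172.NilBr Crest.Agent.R172.ThX
open Crest.Agent.R172.NilConn (ten ten_apply)
open Crest.Agent.R172.Core (NS)

variable {n : ℕ} {a : Fin 3 → Fin n → ℤ}

section forms

variable (c : Cfg n a) (K : Type) [Field K]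

/-- the form of `V` -/
noncomputable def BV (n : ℕ) (K : Type) [Field K] : LinearMap.BilinForm K (Ix n → K) :=
  Matrix.toLinearMap₂' K (Jm n K)

/-- the form of `U` -/
noncomputable def BU : LinearMap.BilinForm K (c.δ → K) := Matrix.toLinearMap₂' K (c.B K)

/-- the projector on an arm -/
noncomputable def pU (s : Fin 3) : Module.End K (c.δ → K) := Matrix.toLin' (FO.E K c.arm s)

/-- the adjoint -/
noncomputable def adjU :
    ((c.δ → K) →ₗ[K] (Ix n → K)) →ₗ[K] ((Ix n → K) →ₗ[K] (c.δ → K)) where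
  toFun F := Matrix.toLin' (c.B K * (LinearMap.toMatrix' F)ᵀ * Jm n K)
  map_add' F G := by
    rw [map_add, transpose_add, Matrix.mul_add, Matrix.add_mul, map_add]
  map_smul' t F := by
    rw [map_smul, transpose_smul, Matrix.mul_smul, Matrix.smul_mul, map_smul, RingHom.id_apply]

variable {c K}

theorem BV_apply (v w : Ix n → K) : BV n K v w = v ⬝ᵥ (Jm n K *ᵥ w) :=
  Matrix.toLinearMap₂'_apply' _ _ _

theorem BU_apply (v w : c.δ → K) : BU c K v w = v ⬝ᵥ (c.B K *ᵥ w) :=
  Matrix.toLinearMap₂'_apply' _ _ _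

theorem dot_symm {ι : Type*} [Fintype ι] {A : Matrix ι ι K} (hA : Aᵀ = A) (v w : ι → K) :
    v ⬝ᵥ (A *ᵥ w) = w ⬝ᵥ (A *ᵥ v) := by
  rw [dotProduct_mulVec, ← mulVec_transpose, hA, dotProduct_comm]

theorem BV_ns : NS (BV n K) where
  symm v w := by rw [BV_apply, BV_apply]; exact dot_symm (Jm_transpose n K) v w
  nd v h := by
    have h1 : ∀ w, v ⬝ᵥ w = 0 := by
      intro w
      have h2 := h (Jm n K *ᵥ w)
      rw [BV_apply, mulVec_mulVec, Jm_sq, one_mulVec] at h2
      exact h2
    exact dotProduct_eq_zero v h1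

theorem BU_ns : NS (BU c K) where
  symm v w := by rw [BU_apply, BU_apply]; exact dot_symm (c.B_transpose K) v w
  nd v h := by
    have h1 : ∀ w, v ⬝ᵥ w = 0 := by
      intro w
      have h2 := h (c.B K *ᵥ w)
      rw [BU_apply, mulVec_mulVec, c.B_sq, one_mulVec] at h2
      exact h2
    exact dotProduct_eq_zero v h1

/-- the form `b(u,u') = B(F u, G u')` -/
theorem BV_mulVec (F G : Matrix (Ix n) c.δ K) (u u' : c.δ → K) :
    BV n K (F *ᵥ u) (G *ᵥ u') = u ⬝ᵥ ((Fᵀ * Jm n K * G) *ᵥ u') := by
  rw [BV_apply, ← mulVec_mulVec, ← mulVec_mulVec, dotProduct_mulVec u, vecMul_transpose]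

theorem adjU_toLin (F : Matrix (Ix n) c.δ K) (v : Ix n → K) :
    adjU c K (Matrix.toLin' F) v = (c.B K * Fᵀ * Jm n K) *ᵥ v := by
  change Matrix.toLin' (c.B K * (LinearMap.toMatrix' (Matrix.toLin' F))ᵀ * Jm n K) v = _
  rw [LinearMap.toMatrix'_toLin', Matrix.toLin'_apply]

theorem MM_toLin (F G : Matrix (Ix n) c.δ K) (s : Fin 3) (v : Ix n → K) :
    MM (pU c K) (adjU c K) (Matrix.toLin' F) (Matrix.toLin' G) s v
      = (FO.M c.arm (c.B K) s F G * Jm n K) *ᵥ v := by
  rw [MM_apply, adjU_toLin, pU, Matrix.toLin'_apply, Matrix.toLin'_apply, mulVec_mulVec,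
    mulVec_mulVec, FO.M]
  congr 1
  simp only [Matrix.mul_assoc]

/-- the space `𝒦` as a space of maps `U → V`. -/
noncomputable def KK (S : Submodule K (Matrix (Ix n) c.δ K)) :
    Submodule K ((c.δ → K) →ₗ[K] (Ix n → K)) :=
  S.map (Matrix.toLin' : Matrix (Ix n) c.δ K ≃ₗ[K] _).toLinearMap

theorem mem_KK {S : Submodule K (Matrix (Ix n) c.δ K)} {f : (c.δ → K) →ₗ[K] (Ix n → K)} :
    f ∈ KK S ↔ ∃ F ∈ S, Matrix.toLin' F = f := Iff.rfl

theorem finrank_KK (S : Submodule K (Matrix (Ix n) c.δ K)) :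
    finrank K (KK S) = finrank K S :=
  LinearEquiv.finrank_map_eq (Matrix.toLin' : Matrix (Ix n) c.δ K ≃ₗ[K] _) S

/-- **The concrete system.** -/
theorem sys [Algebra ℂ K] {N W : Submodule K (Matrix (Ix n) c.δ K)}
    (hD : FO.Data ℂ c.arm (Jm n K) (c.B K) N W) :
    Sys (BV n K) (BU c K) (pU c K) (adjU c K) (KK (N ⊓ W)) where
  adj_spec F u v := by
    obtain ⟨F, rfl⟩ := (Matrix.toLin' : Matrix (Ix n) c.δ K ≃ₗ[K] _).surjective F
    rw [adjU_toLin, BV_apply, BU_apply, Matrix.toLin'_apply, mulVec_mulVec, ← Matrix.mul_assoc,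
      ← Matrix.mul_assoc, c.B_sq, Matrix.one_mul, ← mulVec_mulVec, dotProduct_mulVec u,
      vecMul_transpose]
  p_sa s u u' := by
    rw [BU_apply, BU_apply, pU, Matrix.toLin'_apply, Matrix.toLin'_apply, mulVec_mulVec,
      ← FO3.B_arm, ← mulVec_mulVec, dotProduct_mulVec u, ← mulVec_transpose, FO.E_transpose]
  F1 F hF G hG u u' := by
    obtain ⟨F, hF, rfl⟩ := hF
    obtain ⟨G, hG, rfl⟩ := hG
    change BV n K (F *ᵥ u) (G *ᵥ u') = BV n K (G *ᵥ u) (F *ᵥ u')
    rw [BV_mulVec, BV_mulVec, hD.symm_U hF hG]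
  F2 F hF G hG s v := by
    obtain ⟨F, hF, rfl⟩ := hF
    obtain ⟨G, hG, rfl⟩ := hG
    change MM (pU c K) (adjU c K) (Matrix.toLin' F) (Matrix.toLin' G) s v
      = MM (pU c K) (adjU c K) (Matrix.toLin' G) (Matrix.toLin' F) s v
    rw [MM_toLin, MM_toLin, hD.symm_arm hF hG]

end forms

section bridge

variable {c : Cfg n a} {K : Type} [Field K] [Algebra ℂ K]

/-- coordinate vectors -/
def sg (K : Type) [Field K] (d : c.δ) : c.δ → K := Pi.single d 1

theorem mulVec_sg (F : Matrix (Ix n) c.δ K) (d : c.δ) : F *ᵥ sg K d = F.col d := by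
  rw [sg, mulVec_single_one]

theorem sg_dot (v : c.δ → K) (d : c.δ) : sg K d ⬝ᵥ v = v d := single_one_dotProduct _ _

theorem sg_apply (d e : c.δ) : sg K d e = if e = d then 1 else 0 := by
  rw [sg, Pi.single_apply]

theorem sg_self (d : c.δ) : sg K d d = 1 := by rw [sg_apply, if_pos rfl]

theorem sg_ne {d e : c.δ} (h : e ≠ d) : sg K d e = 0 := by rw [sg_apply, if_neg h]

variable (q : SPol c)

/-- left half of the hyperbolic basis (the isotropic type columns) -/
noncomputable def eV (K : Type) [Field K] [Algebra ℂ K] (i : Fin q.m) : c.δ → K :=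
  if q.z = some i then sg K (q.dd (Sum.inl i)) + algebraMap ℂ K Complex.I • sg K (q.dd (Sum.inr i))
  else sg K (q.dd (Sum.inr i))

/-- right half of the hyperbolic basis -/
noncomputable def hV (K : Type) [Field K] [Algebra ℂ K] (i : Fin q.m) : c.δ → K :=
  if q.z = some i then (2 : K)⁻¹ • (sg K (q.dd (Sum.inl i)) -
    algebraMap ℂ K Complex.I • sg K (q.dd (Sum.inr i)))
  else sg K (q.dd (Sum.inl i))

theorem II : algebraMap ℂ K Complex.I * algebraMap ℂ K Complex.I = -1 := by
  rw [← map_mul, Complex.I_mul_I, map_neg, map_one]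

theorem two_ne : (2 : K) ≠ 0 := by
  have hcz : CharZero K := charZero_of_injective_algebraMap (algebraMap ℂ K).injective
  exact two_ne_zero

variable {q}

/-- the columns of `F ∈ V ⊗ L_H` -/
theorem col_inl {H : Matrix (Fin q.m) (Fin q.m) K} (R : Matrix (Ix n) (Fin q.m) K) (i : Fin q.m)
    (x : Ix n) : (R * (q.toPol.P H)ᵀ) x (q.dd (Sum.inl i)) =
      ∑ j, H i j * R x j + if q.z = some i then 2⁻¹ * R x i else 0 := by
  have h1 : (R * (q.toPol.P H)ᵀ) x (q.dd (Sum.inl i)) =
      ∑ j, R x j * q.toPol.P H (q.dd (Sum.inl i)) j := rfl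
  rw [h1]
  simp only [SPol.P_inl, mul_add, Finset.sum_add_distrib]
  congr 1
  · exact Finset.sum_congr rfl fun j _ => mul_comm _ _
  · split_ifs
    · simp only [mul_ite, mul_zero, Finset.sum_ite_eq, Finset.mem_univ, if_true]
      ring
    · simp

theorem col_inr {H : Matrix (Fin q.m) (Fin q.m) K} (R : Matrix (Ix n) (Fin q.m) K) (i : Fin q.m)
    (x : Ix n) : (R * (q.toPol.P H)ᵀ) x (q.dd (Sum.inr i)) =
      if q.z = some i then algebraMap ℂ K Complex.I * (∑ j, H i j * R x j - 2⁻¹ * R x i)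
        else R x i := by
  have h1 : (R * (q.toPol.P H)ᵀ) x (q.dd (Sum.inr i)) =
      ∑ j, R x j * q.toPol.P H (q.dd (Sum.inr i)) j := rfl
  rw [h1]
  simp only [SPol.P_inr]
  split_ifs
  · rw [mul_sub, Finset.mul_sum]
    simp only [mul_sub, mul_ite, mul_zero, Finset.sum_sub_distrib, Finset.sum_ite_eq,
      Finset.mem_univ, if_true]
    congr 1
    · exact Finset.sum_congr rfl fun j _ => by ring
    · ring
  · simp

theorem F_eV {H : Matrix (Fin q.m) (Fin q.m) K} (R : Matrix (Ix n) (Fin q.m) K) (i : Fin q.m)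
    (x : Ix n) : ((R * (q.toPol.P H)ᵀ) *ᵥ eV q K i) x = R x i := by
  have h2 : (2 : K) ≠ 0 := two_ne
  unfold eV
  by_cases hz : q.z = some i
  · rw [if_pos hz, mulVec_add, mulVec_smul, mulVec_sg, mulVec_sg, Pi.add_apply, Pi.smul_apply,
      Matrix.col_apply, Matrix.col_apply, col_inl, col_inr, if_pos hz, if_pos hz, smul_eq_mul,
      ← mul_assoc, II]
    field_simp
    ring
  · rw [if_neg hz, mulVec_sg, Matrix.col_apply, col_inr, if_neg hz]

theorem F_hV {H : Matrix (Fin q.m) (Fin q.m) K} (R : Matrix (Ix n) (Fin q.m) K) (i : Fin q.m)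
    (x : Ix n) : ((R * (q.toPol.P H)ᵀ) *ᵥ hV q K i) x = ∑ j, H i j * R x j := by
  have h2 : (2 : K) ≠ 0 := two_ne
  unfold hV
  by_cases hz : q.z = some i
  · rw [if_pos hz, mulVec_smul, mulVec_sub, mulVec_smul, mulVec_sg, mulVec_sg, Pi.smul_apply,
      Pi.sub_apply, Pi.smul_apply, Matrix.col_apply, Matrix.col_apply, col_inl, col_inr,
      if_pos hz, if_pos hz, smul_eq_mul, smul_eq_mul, ← mul_assoc (algebraMap ℂ K Complex.I), II]
    field_simp
    ring
  · rw [if_neg hz, mulVec_sg, Matrix.col_apply, col_inl, if_neg hz, add_zero]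

/-- the relation `F h_i = ∑ H_ij F e_j` -/
theorem F_rel {H : Matrix (Fin q.m) (Fin q.m) K} {F : Matrix (Ix n) c.δ K}
    (hF : F ∈ VL (q.toPol.LH H)) (i : Fin q.m) :
    F *ᵥ hV q K i = ∑ j, H i j • (F *ᵥ eV q K j) := by
  obtain ⟨R, rfl⟩ := q.toPol.mem_VL_iff.1 hF
  funext x
  have h1 : ((R * (q.toPol.P H)ᵀ) *ᵥ hV q K i) x = ∑ j, H i j * R x j := F_hV R i x
  rw [h1, Finset.sum_apply]
  refine Finset.sum_congr rfl fun j _ => ?_
  rw [Pi.smul_apply, smul_eq_mul]
  congr 1
  exact (F_eV R j x).symm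

theorem sg_span : Submodule.span K (Set.range (fun d : c.δ => sg K d)) = ⊤ := by
  rw [eq_top_iff]
  intro v _
  have : v = ∑ d, v d • sg K d := by
    funext e
    rw [Finset.sum_apply, Finset.sum_eq_single e]
    · rw [Pi.smul_apply, sg_self, smul_eq_mul, mul_one]
    · intro d _ hd
      rw [Pi.smul_apply, sg_ne hd.symm, smul_zero]
    · intro h; exact absurd (Finset.mem_univ _) h
  rw [this]
  exact Submodule.sum_mem _ fun d _ => Submodule.smul_mem _ _ (Submodule.subset_span ⟨d, rfl⟩)

theorem eh_span : Submodule.span K (Set.range (eV q K) ∪ Set.range (hV q K)) = ⊤ := by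
  have h2 : (2 : K) ≠ 0 := two_ne
  rw [eq_top_iff, ← sg_span (c := c) (K := K), Submodule.span_le]
  have hS : ∀ i, sg K (q.dd (Sum.inl i)) ∈
      Submodule.span K (Set.range (eV q K) ∪ Set.range (hV q K)) ∧
      sg K (q.dd (Sum.inr i)) ∈ Submodule.span K (Set.range (eV q K) ∪ Set.range (hV q K)) := by
    intro i
    have he : eV q K i ∈ Submodule.span K (Set.range (eV q K) ∪ Set.range (hV q K)) :=
      Submodule.subset_span (Or.inl ⟨i, rfl⟩)
    have hh : hV q K i ∈ Submodule.span K (Set.range (eV q K) ∪ Set.range (hV q K)) :=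
      Submodule.subset_span (Or.inr ⟨i, rfl⟩)
    by_cases hz : q.z = some i
    · have e1 : sg K (q.dd (Sum.inl i)) = (2 : K)⁻¹ • eV q K i + hV q K i := by
        rw [eV, hV, if_pos hz, if_pos hz, ← smul_add]
        have : sg K (q.dd (Sum.inl i)) + algebraMap ℂ K Complex.I • sg K (q.dd (Sum.inr i)) +
            (sg K (q.dd (Sum.inl i)) - algebraMap ℂ K Complex.I • sg K (q.dd (Sum.inr i)))
            = (2 : K) • sg K (q.dd (Sum.inl i)) := by
          rw [two_smul]; abel
        rw [this, smul_smul, inv_mul_cancel₀ h2, one_smul]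
      have e2 : sg K (q.dd (Sum.inr i)) = -(algebraMap ℂ K Complex.I) •
          ((2 : K)⁻¹ • eV q K i - hV q K i) := by
        rw [eV, hV, if_pos hz, if_pos hz, ← smul_sub]
        have : sg K (q.dd (Sum.inl i)) + algebraMap ℂ K Complex.I • sg K (q.dd (Sum.inr i)) -
            (sg K (q.dd (Sum.inl i)) - algebraMap ℂ K Complex.I • sg K (q.dd (Sum.inr i)))
            = (2 : K) • (algebraMap ℂ K Complex.I • sg K (q.dd (Sum.inr i))) := by
          rw [two_smul]; abel
        rw [this, smul_smul (2 : K)⁻¹, inv_mul_cancel₀ h2, one_smul, smul_smul, neg_mul, II,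
          neg_neg, one_smul]
      refine ⟨?_, ?_⟩
      · rw [e1]; exact Submodule.add_mem _ (Submodule.smul_mem _ _ he) hh
      · rw [e2]
        exact Submodule.smul_mem _ _ (Submodule.sub_mem _ (Submodule.smul_mem _ _ he) hh)
    · have e1 : sg K (q.dd (Sum.inr i)) = eV q K i := by rw [eV, if_neg hz]
      have e2 : sg K (q.dd (Sum.inl i)) = hV q K i := by rw [hV, if_neg hz]
      rw [e1, e2]
      exact ⟨hh, he⟩
  rintro _ ⟨d, rfl⟩
  obtain ⟨x, rfl⟩ := q.dd.surjective d
  rcases x with i | i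
  · exact (hS i).1
  · exact (hS i).2

/-- the form `b(u,u') = B(F u, G u')` -/
noncomputable def bFG (F G : Matrix (Ix n) c.δ K) : LinearMap.BilinForm K (c.δ → K) :=
  Matrix.toLinearMap₂' K (Fᵀ * Jm n K * G)

theorem bFG_apply (F G : Matrix (Ix n) c.δ K) (u u' : c.δ → K) :
    bFG F G u u' = BV n K (F *ᵥ u) (G *ᵥ u') := by
  rw [BV_mulVec, bFG, Matrix.toLinearMap₂'_apply']

theorem bFG_dot (F G : Matrix (Ix n) c.δ K) (u u' : c.δ → K) :
    bFG F G u u' = u ⬝ᵥ ((Fᵀ * Jm n K * G) *ᵥ u') := by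
  rw [bFG, Matrix.toLinearMap₂'_apply']

theorem bFG_sg (F G : Matrix (Ix n) c.δ K) (d : c.δ) (u' : c.δ → K) :
    bFG F G (sg K d) u' = ((Fᵀ * Jm n K * G) *ᵥ u') d := by
  rw [bFG_dot, sg_dot]

theorem bFG_sg_sg (F G : Matrix (Ix n) c.δ K) (d e : c.δ) :
    bFG F G (sg K d) (sg K e) = (Fᵀ * Jm n K * G) d e := by
  rw [bFG_sg, sg, mulVec_single_one, Matrix.col_apply]

/-- the operator `E_s ∘ adj F ∘ G` -/
noncomputable def TT (F G : Matrix (Ix n) c.δ K) (s : Fin 3) : Module.End K (c.δ → K) :=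
  Matrix.toLin' (FO.E K c.arm s * c.B K * Fᵀ * Jm n K * G)

theorem TT_apply (F G : Matrix (Ix n) c.δ K) (s : Fin 3) (u : c.δ → K) (d : c.δ) :
    TT F G s u d = if c.arm d = s then ((Fᵀ * Jm n K * G) *ᵥ u) (c.σ d) else 0 := by
  have h1 : TT F G s u = FO.E K c.arm s *ᵥ (c.B K *ᵥ ((Fᵀ * Jm n K * G) *ᵥ u)) := by
    rw [TT, Matrix.toLin'_apply, mulVec_mulVec, mulVec_mulVec]
    congr 1
    simp only [Matrix.mul_assoc]
  rw [h1, FO.E, mulVec_diagonal, c.mulVec_B]
  split_ifs <;> simp

/-- words in `TT` and words in `M_s(G,F)` -/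
theorem G_words (F G : Matrix (Ix n) c.δ K) (l : List (Fin 3)) (u : c.δ → K) :
    G *ᵥ ((l.map (TT F G)).prod u) =
      Core.wd (MM (pU c K) (adjU c K) (Matrix.toLin' G) (Matrix.toLin' F)) l (G *ᵥ u) := by
  induction l with
  | nil => simp [Core.wd]
  | cons s l ih =>
    rw [wd_cons, ← ih, MM_toLin, List.map_cons, List.prod_cons, Module.End.mul_apply, TT,
      Matrix.toLin'_apply, mulVec_mulVec, mulVec_mulVec, FO.M]
    congr 1
    simp only [Matrix.mul_assoc]

/-- the columns `dd (inr i)` have positive rank -/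
def PosR (R : Ranked c) (q : SPol c) : Prop := ∀ i, q.z ≠ some i → 0 < R.rk (q.dd (Sum.inr i))

end bridge

end Crest.Agent.R172.CSys
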