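import Mathlib

-- ▼ part R172/Kempf1
section

/-!
Row 172, node (K) of note 12626: weighted flags given by a basis and a weight function.
-/

set_option autoImplicit false
set_option linter.unusedSectionVars false
set_option linter.unusedSimpArgs false

namespace Crest.Agent.R172.Kempf

open Module

variable {k V ι κ : Type*} [Field k] [AddCommGroup V] [Module k V] [Fintype ι]

/-- The filtration step of weight `≥ a` of a weighted basis. -/
def Fil (e : Basis ι k V) (w : ι → ℝ) (a : ℝ) : Submodule k V where
  carrier := {v | ∀ i, e.repr v i ≠ 0 → a ≤ w i}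
  zero_mem' := by intro i h; simp at h
  add_mem' := by
    intro x y hx hy i h
    by_cases h1 : e.repr x i = 0
    · refine hy i ?_
      intro h2; apply h; simp [h1, h2]
    · exact hx i h1
  smul_mem' := by
    intro c x hx i h
    refine hx i ?_
    intro h2; apply h; simp [h2]

theorem mem_Fil {e : Basis ι k V} {w : ι → ℝ} {a : ℝ} {v : V} :
    v ∈ Fil e w a ↔ ∀ i, e.repr v i ≠ 0 → a ≤ w i := Iff.rfl

theorem Fil_anti (e : Basis ι k V) (w : ι → ℝ) {a b : ℝ} (h : a ≤ b) :
    Fil e w b ≤ Fil e w a := fun _ hv i hi => h.trans (hv i hi)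

theorem basis_mem_Fil (e : Basis ι k V) (w : ι → ℝ) {i : ι} {a : ℝ} (h : a ≤ w i) :
    e i ∈ Fil e w a := by
  classical
  intro j hj
  rw [Basis.repr_self, Finsupp.single_apply] at hj
  by_cases hij : i = j
  · subst hij; exact h
  · simp [hij] at hj

theorem Fil_eq_span (e : Basis ι k V) (w : ι → ℝ) (a : ℝ) :
    Fil e w a = Submodule.span k (e '' {i | a ≤ w i}) := by
  ext v
  rw [e.mem_span_image]
  constructor
  · intro h i hi
    exact h i (by simpa using hi)
  · intro h i hi
    exact h (by simpa using hi)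

theorem finrank_Fil (e : Basis ι k V) (w : ι → ℝ) (a : ℝ) :
    finrank k (Fil e w a) = Nat.card {i | a ≤ w i} := by
  classical
  rw [Fil_eq_span]
  have hli : LinearIndependent k (fun x : {i | a ≤ w i} => e x) :=
    e.linearIndependent.comp _ Subtype.val_injective
  have := finrank_span_eq_card (R := k) hli
  rw [Nat.card_eq_fintype_card, ← this, Set.image_eq_range]

/-- If every vector of the basis `f` lies in the right step, `f` is adapted. -/
theorem Fil_eq_of_mem (e f : Basis ι k V) (w : ι → ℝ) (h : ∀ i, f i ∈ Fil e w (w i)) (a : ℝ) :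
    Fil f w a = Fil e w a := by
  have : FiniteDimensional k V := Module.Finite.of_basis e
  apply Submodule.eq_of_le_of_finrank_eq
  · rw [Fil_eq_span, Submodule.span_le]
    rintro _ ⟨i, hi, rfl⟩
    exact Fil_anti e w hi (h i)
  · rw [finrank_Fil, finrank_Fil]

/-- `f` and `e` adapted to the same flag: the weights agree up to a permutation. -/
theorem exists_perm (e f : Basis ι k V) (w u : ι → ℝ) (h : ∀ a, Fil f u a = Fil e w a) :
    ∃ σ : Equiv.Perm ι, ∀ i, w i = u (σ i) := by
  classical
  -- a permutation with nonzero product of coefficients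
  have key : ∀ (e f : Basis ι k V) (w u : ι → ℝ), (∀ a, Fil f u a = Fil e w a) →
      ∃ σ : Equiv.Perm ι, ∀ i, w i ≤ u (σ i) := by
    intro e f w u h
    have hdet : (f.toMatrix e).det ≠ 0 := by
      have := (f.invertibleToMatrix e)
      exact (Matrix.isUnit_det_of_invertible (f.toMatrix e)).ne_zero
    rw [Matrix.det_apply] at hdet
    obtain ⟨σ, -, hσ⟩ := Finset.exists_ne_zero_of_sum_ne_zero hdet
    refine ⟨σ, fun i => ?_⟩
    have hprod : (∏ i, f.toMatrix e (σ i) i) ≠ 0 := by
      intro h0; apply hσ; rw [h0, smul_zero]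
    have hi := (Finset.prod_ne_zero_iff.mp hprod) i (Finset.mem_univ i)
    rw [Basis.toMatrix_apply] at hi
    have hmem : e i ∈ Fil f u (w i) := by rw [h]; exact basis_mem_Fil e w le_rfl
    exact hmem _ hi
  obtain ⟨σ, hσ⟩ := key e f w u h
  obtain ⟨τ, hτ⟩ := key f e u w (fun a => (h a).symm)
  refine ⟨σ, ?_⟩
  have h1 : ∑ i, w i ≤ ∑ i, u (σ i) := Finset.sum_le_sum fun i _ => hσ i
  have h2 : ∑ i, u (σ i) = ∑ i, u i := Equiv.sum_comp σ u
  have h3 : ∑ i, u i ≤ ∑ i, w (τ i) := Finset.sum_le_sum fun i _ => hτ i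
  have h4 : ∑ i, w (τ i) = ∑ i, w i := Equiv.sum_comp τ w
  have h5 : ∑ i, w i = ∑ i, u (σ i) := le_antisymm h1 (by rw [h2]; exact h3.trans h4.le)
  intro i
  exact (Finset.sum_eq_sum_iff_of_le (fun i _ => hσ i)).1 h5 i (Finset.mem_univ i)

theorem sum_sq_eq (e f : Basis ι k V) (w u : ι → ℝ) (h : ∀ a, Fil f u a = Fil e w a) :
    ∑ i, (w i) ^ 2 = ∑ i, (u i) ^ 2 := by
  obtain ⟨σ, hσ⟩ := exists_perm e f w u h
  simp_rw [hσ]
  exact Equiv.sum_comp σ (fun i => (u i) ^ 2)

/-- Replace one vector of a basis. -/
theorem exists_replace (f : Basis ι k V) (i0 : ι) (v : V) (hv : f.repr v i0 ≠ 0) :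
    ∃ f' : Basis ι k V, f' i0 = v ∧ ∀ i, i ≠ i0 → f' i = f i := by
  classical
  have : FiniteDimensional k V := Module.Finite.of_basis f
  let T : V →ₗ[k] V := LinearMap.id + (f.coord i0).smulRight (v - f i0)
  have hT : ∀ x, T x = x + f.repr x i0 • (v - f i0) := by
    intro x; simp [T]
  have hinj : Function.Injective T := by
    rw [← LinearMap.ker_eq_bot, LinearMap.ker_eq_bot']
    intro x hx
    rw [hT] at hx
    have h0 : f.repr (x + f.repr x i0 • (v - f i0)) i0 = 0 := by rw [hx]; simp
    simp only [map_add, map_smul, map_sub, Finsupp.add_apply, Finsupp.smul_apply,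
      Finsupp.sub_apply, Basis.repr_self, Finsupp.single_eq_same, smul_eq_mul] at h0
    have h1 : f.repr x i0 * f.repr v i0 = 0 := by linear_combination h0
    have h2 : f.repr x i0 = 0 := by
      rcases mul_eq_zero.mp h1 with h | h
      · exact h
      · exact absurd h hv
    rw [h2, zero_smul, add_zero] at hx
    exact hx
  let E : V ≃ₗ[k] V := LinearEquiv.ofInjectiveEndo T hinj
  refine ⟨f.map E, ?_, ?_⟩
  · rw [Basis.map_apply]
    change T (f i0) = v
    rw [hT]; simp
  · intro i hi
    rw [Basis.map_apply]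
    change T (f i) = f i
    rw [hT]; simp [Finsupp.single_apply, hi]

/-- Two weighted flags have a common adapted basis. -/
theorem exists_common (e e' : Basis ι k V) (w w' : ι → ℝ) :
    ∃ (f : Basis ι k V) (u : ι → ℝ), (∀ a, Fil f w a = Fil e w a) ∧
      (∀ a, Fil f u a = Fil e' w' a) := by
  classical
  have : FiniteDimensional k V := Module.Finite.of_basis e
  -- the admissible index functions
  let A : Set (ι → ι) := {j | ∃ f : Basis ι k V, (∀ a, Fil f w a = Fil e w a) ∧
    ∀ i, f i ∈ Fil e' w' (w' (j i))}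
  -- nonempty : each vector has a minimal index
  have hmin : ∀ v : V, v ≠ 0 → ∃ j, e'.repr v j ≠ 0 ∧ v ∈ Fil e' w' (w' j) := by
    intro v hv
    have hne : (e'.repr v).support.Nonempty := by
      rw [Finsupp.support_nonempty_iff]
      intro h; apply hv; exact e'.repr.map_eq_zero_iff.mp h
    obtain ⟨j, hj, hj2⟩ := Finset.exists_min_image _ w' hne
    refine ⟨j, by simpa using hj, ?_⟩
    intro i hi
    exact hj2 i (by simpa using hi)
  have hA : A.Nonempty := by
    choose g hg1 hg2 using fun i => hmin (e i) (e.ne_zero i)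
    exact ⟨g, e, fun a => rfl, hg2⟩
  obtain ⟨j, hjA, hjmax⟩ := Set.exists_max_image A (fun j => ∑ i, w' (j i)) (Set.toFinite A) hA
  obtain ⟨f, hf, hfj⟩ := hjA
  refine ⟨f, fun i => w' (j i), hf, ?_⟩
  intro a
  apply le_antisymm
  · rw [Fil_eq_span, Submodule.span_le]
    rintro _ ⟨i, hi, rfl⟩
    exact Fil_anti e' w' hi (hfj i)
  · intro v hv
    by_contra hnot
    rw [mem_Fil] at hnot
    push Not at hnot
    obtain ⟨i1, hi1, hi1a⟩ := hnot
    -- the minimal level on the support
    have hsupp : (f.repr v).support.Nonempty := ⟨i1, by simpa using hi1⟩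
    obtain ⟨i2, hi2, hi2min⟩ := Finset.exists_min_image _ (fun i => w' (j i)) hsupp
    set μ := w' (j i2) with hμ
    have hμa : μ < a := lt_of_le_of_lt (hi2min i1 (by simpa using hi1)) hi1a
    let I0 : Finset ι := (f.repr v).support.filter (fun i => w' (j i) = μ)
    have hI0 : I0.Nonempty := ⟨i2, Finset.mem_filter.mpr ⟨hi2, rfl⟩⟩
    let v0 : V := ∑ i ∈ I0, (f.repr v i) • f i
    -- coordinates of v0
    have hv0r : ∀ i, f.repr v0 i = if i ∈ I0 then f.repr v i else 0 := by
      intro i
      simp only [v0, map_sum, map_smul, Basis.repr_self, Finsupp.coe_finsetSum, Finset.sum_apply,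
        Finsupp.smul_apply, smul_eq_mul, Finsupp.single_apply, mul_ite, mul_one, mul_zero]
      rw [Finset.sum_ite_eq']
    -- v0 lies in a strictly higher step
    have hb : ∃ b, μ < b ∧ v0 ∈ Fil e' w' b := by
      let I1 : Finset ι := (f.repr v).support.filter (fun i => ¬ w' (j i) = μ)
      have hsplit : v = v0 + ∑ i ∈ I1, (f.repr v i) • f i := by
        rw [Finset.sum_filter_add_sum_filter_not]
        conv_lhs => rw [← f.linearCombination_repr v]
        rw [Finsupp.linearCombination_apply, Finsupp.sum]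
      have hv0 : v0 = v - ∑ i ∈ I1, (f.repr v i) • f i := by
        rw [eq_sub_iff_add_eq]; exact hsplit.symm
      by_cases hI1 : I1.Nonempty
      · obtain ⟨i3, hi3, hi3min⟩ := Finset.exists_min_image I1 (fun i => w' (j i)) hI1
        have h3 : μ < w' (j i3) := by
          have := Finset.mem_filter.mp hi3
          exact lt_of_le_of_ne (hi2min i3 this.1) (Ne.symm this.2)
        refine ⟨min a (w' (j i3)), lt_min hμa h3, ?_⟩
        rw [hv0]
        apply Submodule.sub_mem
        · exact Fil_anti e' w' (min_le_left _ _) hv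
        · apply Submodule.sum_mem
          intro i hi
          apply Submodule.smul_mem
          exact Fil_anti e' w' ((min_le_right _ _).trans (hi3min i hi)) (hfj i)
      · rw [Finset.not_nonempty_iff_eq_empty] at hI1
        refine ⟨a, hμa, ?_⟩
        rw [hv0, hI1]; simpa using hv
    obtain ⟨b, hμb, hv0b⟩ := hb
    -- the index of lowest F-weight in I0
    obtain ⟨i0, hi0, hi0min⟩ := Finset.exists_min_image I0 w hI0
    have hi0' := Finset.mem_filter.mp hi0
    have hc : f.repr v0 i0 ≠ 0 := by
      rw [hv0r, if_pos hi0]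
      simpa using hi0'.1
    have hv0ne : v0 ≠ 0 := by
      intro h; apply hc; rw [h]; simp
    obtain ⟨f', hf'0, hf'⟩ := exists_replace f i0 v0 hc
    obtain ⟨j0, hj0, hj0m⟩ := hmin v0 hv0ne
    have hj0b : b ≤ w' j0 := hv0b j0 hj0
    -- the new index function
    have hnew : Function.update j i0 j0 ∈ A := by
      refine ⟨f', ?_, ?_⟩
      · intro a
        rw [← hf]
        apply Fil_eq_of_mem
        intro i
        by_cases hi : i = i0
        · subst hi
          rw [hf'0]
          intro l hl
          rw [hv0r] at hl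
          have hlI : l ∈ I0 := by
            by_contra h; simp [h] at hl
          exact hi0min l hlI
        · rw [hf' i hi]; exact basis_mem_Fil f w le_rfl
      · intro i
        by_cases hi : i = i0
        · subst hi
          rw [hf'0, Function.update_self]; exact hj0m
        · rw [hf' i hi, Function.update_of_ne hi]; exact hfj i
    have hle := hjmax _ hnew
    have hlt : ∑ i, w' (j i) < ∑ i, w' (Function.update j i0 j0 i) := by
      apply Finset.sum_lt_sum
      · intro i _
        by_cases hi : i = i0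
        · subst hi
          rw [Function.update_self]
          rw [hi0'.2]; exact (hμb.trans_le hj0b).le
        · rw [Function.update_of_ne hi]
      · refine ⟨i0, Finset.mem_univ _, ?_⟩
        rw [Function.update_self, hi0'.2]; exact hμb.trans_le hj0b
    exact absurd hle (not_le.mpr hlt)

end Crest.Agent.R172.Kempf
end

-- ▼ part R172/Kempf2
section

/-!
Row 172, node (K) of note 12626: the minimising weighted flag of a nilpotent family, its
uniqueness, and the statement about the leading parts.
-/

set_option autoImplicit false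
set_option linter.unusedSectionVars false
set_option linter.unusedSimpArgs false

namespace Crest.Agent.R172.Kempf

open Module

variable {k V ι κ : Type*} [Field k] [AddCommGroup V] [Module k V] [Fintype ι]

/-- The family `M` raises the weights by at least one. -/
def Good (M : κ → V →ₗ[k] V) (e : Basis ι k V) (w : ι → ℝ) : Prop :=
  ∀ s a, ∀ v ∈ Fil e w a, M s v ∈ Fil e w (a + 1)

theorem good_iff {M : κ → V →ₗ[k] V} {e : Basis ι k V} {w : ι → ℝ} :
    Good M e w ↔ ∀ s i j, e.repr (M s (e i)) j ≠ 0 → w i + 1 ≤ w j := by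
  constructor
  · intro h s i j hj
    exact h s (w i) (e i) (basis_mem_Fil e w le_rfl) j hj
  · intro h s a v hv
    have hvs : M s v = ∑ i, e.repr v i • M s (e i) := by
      conv_lhs => rw [← e.sum_repr v]
      rw [map_sum]
      exact Finset.sum_congr rfl fun i _ => by rw [map_smul]
    rw [hvs]
    apply Submodule.sum_mem
    intro i _
    by_cases h0 : e.repr v i = 0
    · rw [h0, zero_smul]; exact Submodule.zero_mem _
    · apply Submodule.smul_mem
      intro j hj
      have h1 := hv i h0
      have h2 := h s i j hj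
      linarith

theorem Good.congr {M : κ → V →ₗ[k] V} {e f : Basis ι k V} {w u : ι → ℝ} (hg : Good M e w)
    (h : ∀ a, Fil f u a = Fil e w a) : Good M f u := by
  intro s a v hv
  rw [h] at hv ⊢
  exact hg s a v hv

/-- `(e, w)` minimises `∑ w²` among the good weighted bases. -/
def IsMin (M : κ → V →ₗ[k] V) (e : Basis ι k V) (w : ι → ℝ) : Prop :=
  Good M e w ∧ ∀ (e' : Basis ι k V) (w' : ι → ℝ), Good M e' w' → ∑ i, (w i) ^ 2 ≤ ∑ i, (w' i) ^ 2

theorem IsMin.congr {M : κ → V →ₗ[k] V} {e f : Basis ι k V} {w u : ι → ℝ} (hg : IsMin M e w)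
    (h : ∀ a, Fil f u a = Fil e w a) : IsMin M f u := by
  refine ⟨hg.1.congr h, fun e' w' h' => ?_⟩
  rw [← sum_sq_eq e f w u h]
  exact hg.2 e' w' h'

/-- The polyhedron of weights allowed by a set of relations. -/
def Poly (R : Set (ι × ι)) : Set (ι → ℝ) := {w | ∀ p ∈ R, w p.1 + 1 ≤ w p.2}

theorem isClosed_Poly (R : Set (ι × ι)) : IsClosed (Poly R) := by
  have : Poly R = ⋂ p ∈ R, {w : ι → ℝ | w p.1 + 1 ≤ w p.2} := by
    ext w; simp [Poly]
  rw [this]
  refine isClosed_biInter fun p _ => isClosed_le ?_ ?_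
  · exact (continuous_apply p.1).add continuous_const
  · exact continuous_apply p.2

theorem exists_min_Poly (R : Set (ι × ι)) (h : (Poly R).Nonempty) :
    ∃ w ∈ Poly R, ∀ w' ∈ Poly R, ∑ i, (w i) ^ 2 ≤ ∑ i, (w' i) ^ 2 := by
  obtain ⟨w0, hw0⟩ := h
  -- compact sublevel set
  let C := ∑ i, (w0 i) ^ 2
  have hcont : Continuous fun w : ι → ℝ => ∑ i, (w i) ^ 2 :=
    continuous_finsetSum _ fun i _ => (continuous_apply i).pow 2
  let K : Set (ι → ℝ) := Poly R ∩ {w | ∑ i, (w i) ^ 2 ≤ C}
  have hK : IsCompact K := by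
    have hcl : IsClosed K := (isClosed_Poly R).inter (isClosed_le hcont continuous_const)
    have hsub : K ⊆ Set.pi Set.univ (fun _ : ι => Set.Icc (-(C + 1)) (C + 1)) := by
      intro w hw i _
      have h1 : (w i) ^ 2 ≤ C :=
        (Finset.single_le_sum (f := fun i => (w i) ^ 2) (fun j _ => sq_nonneg _)
          (Finset.mem_univ i)).trans hw.2
      have hC : 0 ≤ C := Finset.sum_nonneg fun j _ => sq_nonneg _
      constructor
      · nlinarith
      · nlinarith
    exact (isCompact_univ_pi fun _ => isCompact_Icc).of_isClosed_subset hcl hsub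
  obtain ⟨w, hwK, hwmin⟩ := hK.exists_isMinOn ⟨w0, hw0, le_refl C⟩ hcont.continuousOn
  refine ⟨w, hwK.1, fun w' hw' => ?_⟩
  by_cases h' : ∑ i, (w' i) ^ 2 ≤ C
  · exact hwmin ⟨hw', h'⟩
  · exact (hwK.2 : _).trans (not_le.mp h').le

theorem exists_isMin (M : κ → V →ₗ[k] V) (e : Basis ι k V) (w : ι → ℝ) (h : Good M e w) :
    ∃ (e' : Basis ι k V) (w' : ι → ℝ), IsMin M e' w' := by
  classical
  let Rel : Basis ι k V → Set (ι × ι) := fun e => {p | ∃ s, e.repr (M s (e p.1)) p.2 ≠ 0}
  have hgp : ∀ (e : Basis ι k V) (w : ι → ℝ), Good M e w ↔ w ∈ Poly (Rel e) := by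
    intro e w
    rw [good_iff]
    constructor
    · rintro h ⟨i, j⟩ ⟨s, hs⟩; exact h s i j hs
    · intro h s i j hs; exact h (i, j) ⟨s, hs⟩
  let S : Set (Set (ι × ι)) := {R | (∃ e : Basis ι k V, Rel e = R) ∧ (Poly R).Nonempty}
  have hS : S.Nonempty := ⟨Rel e, ⟨e, rfl⟩, w, (hgp e w).1 h⟩
  have hmin : ∀ R : Set (ι × ι), ∃ m : ι → ℝ, (Poly R).Nonempty →
      (m ∈ Poly R ∧ ∀ w' ∈ Poly R, ∑ i, (m i) ^ 2 ≤ ∑ i, (w' i) ^ 2) := by
    intro R
    by_cases hR : (Poly R).Nonempty
    · obtain ⟨m, hm, hm2⟩ := exists_min_Poly R hR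
      exact ⟨m, fun _ => ⟨hm, hm2⟩⟩
    · exact ⟨0, fun h => absurd h hR⟩
  choose m hm using hmin
  obtain ⟨R, ⟨⟨e1, he1⟩, hR⟩, hRmin⟩ :=
    Set.exists_min_image S (fun R => ∑ i, (m R i) ^ 2) (Set.toFinite S) hS
  refine ⟨e1, m R, ?_, ?_⟩
  · rw [hgp, he1]; exact (hm R hR).1
  · intro e' w' h'
    rw [hgp] at h'
    have hne : (Poly (Rel e')).Nonempty := ⟨w', h'⟩
    exact (hRmin (Rel e') ⟨⟨e', rfl⟩, hne⟩).trans ((hm _ hne).2 w' h')

/-- The minimising weighted flag is unique. -/
theorem IsMin.unique {M : κ → V →ₗ[k] V} {e e' : Basis ι k V} {w w' : ι → ℝ}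
    (h : IsMin M e w) (h' : IsMin M e' w') (a : ℝ) : Fil e w a = Fil e' w' a := by
  obtain ⟨f, u, hf, hu⟩ := exists_common e e' w w'
  have h1 : IsMin M f w := h.congr hf
  have h2 : IsMin M f u := h'.congr hu
  have hmid : Good M f (fun i => (w i + u i) / 2) := by
    rw [good_iff]
    intro s i j hj
    have a1 := good_iff.1 h1.1 s i j hj
    have a2 := good_iff.1 h2.1 s i j hj
    linarith
  have e1 : ∑ i, (w i) ^ 2 = ∑ i, (u i) ^ 2 :=
    le_antisymm (h1.2 f u h2.1) (h2.2 f w h1.1)
  have e2 := h1.2 f _ hmid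
  have e3 : ∑ i, ((w i + u i) / 2) ^ 2 =
      (∑ i, (w i) ^ 2) / 2 + (∑ i, (u i) ^ 2) / 2 - (∑ i, (w i - u i) ^ 2) / 4 := by
    rw [Finset.sum_div, Finset.sum_div, Finset.sum_div, ← Finset.sum_add_distrib,
      ← Finset.sum_sub_distrib]
    exact Finset.sum_congr rfl fun i _ => by ring
  have e4 : ∑ i, (w i - u i) ^ 2 ≤ 0 := by
    rw [e3] at e2; linarith
  have e5 : ∀ i, w i = u i := by
    intro i
    have h0 := (Finset.single_le_sum (f := fun i => (w i - u i) ^ 2) (fun j _ => sq_nonneg _)
          (Finset.mem_univ i)).trans e4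
    have : (w i - u i) ^ 2 = 0 := le_antisymm h0 (sq_nonneg _)
    have := pow_eq_zero_iff (n := 2) (by norm_num) |>.1 this
    linarith
  have e6 : u = w := funext fun i => (e5 i).symm
  rw [← hf, ← hu, e6]

theorem Fil_map (e : Basis ι k V) (w : ι → ℝ) (g : V ≃ₗ[k] V) (a : ℝ) (v : V) :
    v ∈ Fil (e.map g) w a ↔ g.symm v ∈ Fil e w a := by
  rw [mem_Fil, mem_Fil]; rfl

/-- The minimising flag is invariant under the automorphisms commuting with the family. -/
theorem IsMin.invariant {M : κ → V →ₗ[k] V} {e : Basis ι k V} {w : ι → ℝ}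
    (h : IsMin M e w) (g : V ≃ₗ[k] V) (hg : ∀ s v, g (M s v) = M s (g v)) (a : ℝ) (v : V)
    (hv : v ∈ Fil e w a) : g v ∈ Fil e w a := by
  have hgood : Good M (e.map g) w := by
    intro s a v hv
    rw [Fil_map] at hv ⊢
    have := h.1 s a _ hv
    have h2 : g.symm (M s v) = M s (g.symm v) := by
      rw [LinearEquiv.symm_apply_eq, hg, LinearEquiv.apply_symm_apply]
    rw [h2]; exact this
  have hmin : IsMin M (e.map g) w := ⟨hgood, fun e' w' h' => h.2 e' w' h'⟩
  have := hmin.unique h a
  rw [← this, Fil_map, LinearEquiv.symm_apply_apply]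
  exact hv

/-- Homogeneous part of degree `d` of an endomorphism. -/
noncomputable def part (e : Basis ι k V) (w : ι → ℝ) (d : ℝ) (T : V →ₗ[k] V) : V →ₗ[k] V := by
  classical
  exact e.constr k fun i => ∑ j, if w j = w i + d then e.repr (T (e i)) j • e j else 0

theorem repr_part (e : Basis ι k V) (w : ι → ℝ) (d : ℝ) (T : V →ₗ[k] V) (i j : ι) [Decidable (w j = w i + d)] :
    e.repr (part e w d T (e i)) j = if w j = w i + d then e.repr (T (e i)) j else 0 := by
  classical
  rw [part, Basis.constr_basis, map_sum, Finsupp.coe_finsetSum, Finset.sum_apply]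
  rw [Finset.sum_eq_single j]
  · by_cases h : w j = w i + d
    · simp [h]
    · simp [h]
  · intro l _ hl
    by_cases h : w l = w i + d
    · simp [h, Finsupp.single_apply, hl]
    · simp [h]
  · intro h; exact absurd (Finset.mem_univ _) h

end Crest.Agent.R172.Kempf
end

-- ▼ part R172/Kempf3
section

/-!
Row 172, node (K) of note 12626: the flag which minimises for `M` also minimises for the leading
part of `M`, and no strictly lowering endomorphism commutes with the leading part.
-/

set_option autoImplicit false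
set_option linter.unusedSectionVars false
set_option linter.unusedSimpArgs false

namespace Crest.Agent.R172.Kempf

open Module

variable {k V ι κ : Type*} [Field k] [AddCommGroup V] [Module k V] [Fintype ι]

/-- Projection on the weight `a` part of the grading given by `(e, w)`. -/
noncomputable def pr (e : Basis ι k V) (w : ι → ℝ) (a : ℝ) : V →ₗ[k] V := by
  classical
  exact e.constr k fun i => if w i = a then e i else 0

theorem pr_basis (e : Basis ι k V) (w : ι → ℝ) (a : ℝ) (i : ι) [Decidable (w i = a)] :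
    pr e w a (e i) = if w i = a then e i else 0 := by
  classical
  rw [pr, Basis.constr_basis]
  by_cases h : w i = a <;> simp [h]

theorem repr_pr (e : Basis ι k V) (w : ι → ℝ) (a : ℝ) (v : V) (j : ι) [Decidable (w j = a)] :
    e.repr (pr e w a v) j = if w j = a then e.repr v j else 0 := by
  classical
  conv_lhs => rw [← e.sum_repr v]
  rw [map_sum, map_sum, Finsupp.coe_finsetSum, Finset.sum_apply]
  rw [Finset.sum_eq_single j]
  · rw [map_smul, pr_basis]
    by_cases h : w j = a
    · simp [h]
    · simp [h]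
  · intro l _ hl
    rw [map_smul, pr_basis]
    by_cases h : w l = a
    · simp [h, Finsupp.single_apply, hl]
    · simp [h]
  · intro h; exact absurd (Finset.mem_univ _) h

/-- Strict steps of the filtration only depend on the flag. -/
theorem strict_of_strict {e f : Basis ι k V} {w u : ι → ℝ} (h : ∀ a, Fil f u a = Fil e w a)
    {a : ℝ} {v : V} (hv : ∀ j, e.repr v j ≠ 0 → a < w j) : ∀ j, f.repr v j ≠ 0 → a < u j := by
  classical
  intro j hj
  have hne : (e.repr v).support.Nonempty := by
    rw [Finsupp.support_nonempty_iff]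
    intro h0
    have : v = 0 := e.repr.map_eq_zero_iff.mp h0
    apply hj; rw [this]; simp
  obtain ⟨l, hl, hlmin⟩ := Finset.exists_min_image _ w hne
  have hmem : v ∈ Fil e w (w l) := fun i hi => hlmin i (by simpa using hi)
  rw [← h] at hmem
  exact (hv l (by simpa using hl)).trans_le (hmem j hj)

/-- The homogeneous parts of an adapted basis form an adapted basis. -/
theorem exists_homogeneous {e f : Basis ι k V} {w : ι → ℝ} (h : ∀ a, Fil f w a = Fil e w a) :
    ∃ g : Basis ι k V, (∀ i, g i = pr e w (w i) (f i)) ∧ ∀ a, Fil g w a = Fil e w a := by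
  classical
  have : FiniteDimensional k V := Module.Finite.of_basis e
  have hli : LinearIndependent k fun i => pr e w (w i) (f i) := by
    rw [Fintype.linearIndependent_iff]
    intro c hc i0
    by_contra hi0
    -- the part of weight `w i0`
    let a := w i0
    let v : V := ∑ i, (if w i = a then c i else 0) • f i
    have hvf : ∀ i, f.repr v i = if w i = a then c i else 0 := by
      intro i
      have : f.repr v = f.repr (∑ i, (if w i = a then c i else 0) • f i) := rfl
      rw [this, f.repr_sum_self]
    have hva : v ∈ Fil e w a := by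
      rw [← h]
      intro i hi
      rw [hvf] at hi
      by_contra h'
      apply hi
      rw [if_neg]
      intro h''; exact h' h''.ge
    have hprv : pr e w a v = 0 := by
      have e1 : pr e w a v = ∑ i, (if w i = a then c i else 0) • pr e w a (f i) := by
        simp only [v, map_sum, map_smul]
      have e2 : pr e w a (∑ i, c i • pr e w (w i) (f i)) =
          ∑ i, (if w i = a then c i else 0) • pr e w a (f i) := by
        rw [map_sum]
        refine Finset.sum_congr rfl fun i _ => ?_
        rw [map_smul]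
        apply e.repr.injective
        ext j
        by_cases hi : w i = a
        · rw [if_pos hi, hi]
          simp only [map_smul, Finsupp.smul_apply, repr_pr]
          by_cases hj : w j = a <;> simp [hj]
        · rw [if_neg hi]
          simp only [map_smul, Finsupp.smul_apply, repr_pr, zero_smul, Finsupp.zero_apply, map_zero]
          by_cases hj : w j = a
          · have : ¬ a = w i := fun h => hi h.symm
            simp [hj, this]
          · simp [hj]
      rw [e1, ← e2, hc, map_zero]
    have hstrict : ∀ j, e.repr v j ≠ 0 → a < w j := by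
      intro j hj
      refine lt_of_le_of_ne (hva j hj) ?_
      intro haj
      apply hj
      have := repr_pr e w a v j
      rw [hprv, if_pos haj.symm] at this
      rw [← this]; simp
    have := strict_of_strict h hstrict i0 (by rw [hvf]; simpa [a] using hi0)
    exact lt_irrefl _ this
  let g : Basis ι k V := basisOfLinearIndependentOfCardEqFinrank' _ hli
    (Module.finrank_eq_card_basis e).symm
  have hg : ∀ i, g i = pr e w (w i) (f i) := fun i => by
    simp [g]
  refine ⟨g, hg, fun a => Fil_eq_of_mem e g w (fun i => ?_) a⟩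
  rw [hg]
  intro j hj
  rw [repr_pr] at hj
  by_contra h'
  apply hj
  rw [if_neg]
  intro h''; exact h' h''.ge

theorem pr_part (e : Basis ι k V) (w : ι → ℝ) (d a : ℝ) (T : V →ₗ[k] V) (v : V) :
    pr e w (a + d) (part e w d T v) = part e w d T (pr e w a v) := by
  classical
  have : (pr e w (a + d)).comp (part e w d T) = (part e w d T).comp (pr e w a) := by
    apply e.ext
    intro i
    apply e.repr.injective
    ext j
    rw [LinearMap.comp_apply, LinearMap.comp_apply, repr_pr, repr_part, pr_basis]
    by_cases hi : w i = a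
    · rw [if_pos hi, repr_part, hi]
      by_cases hj : w j = a + d <;> simp [hj]
    · rw [if_neg hi, map_zero, map_zero, Finsupp.zero_apply]
      by_cases hj : w j = a + d
      · rw [if_pos hj, if_neg]
        intro h; apply hi; linarith
      · rw [if_neg hj]
  exact congrArg (fun f : V →ₗ[k] V => f v) this

theorem IsMin.lead {M : κ → V →ₗ[k] V} {e : Basis ι k V} {w : ι → ℝ} (h : IsMin M e w) :
    IsMin (fun s => part e w 1 (M s)) e w := by
  classical
  set L : κ → V →ₗ[k] V := fun s => part e w 1 (M s) with hL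
  have hLg : Good L e w := by
    rw [good_iff]
    intro s i j hj
    rw [hL] at hj
    simp only [repr_part] at hj
    by_contra h'
    apply hj
    rw [if_neg]
    intro h''; exact h' h''.ge
  obtain ⟨g, u0, hgu⟩ := exists_isMin L e w hLg
  obtain ⟨f, u, hf, hu⟩ := exists_common e g w u0
  obtain ⟨f0, hf0, hf0F⟩ := exists_homogeneous hf
  have hLfu : Good L f u := hgu.1.congr hu
  -- homogeneity of `f0`
  have hhom : ∀ i j, e.repr (f0 i) j ≠ 0 → w j = w i := by
    intro i j hj
    rw [hf0, repr_pr] at hj
    by_contra h'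
    apply hj; rw [if_neg h']
  -- coordinates of `L f0`
  have hLf0 : ∀ s i, L s (f0 i) = ∑ j, (if w j = w i + 1 then f.repr (L s (f i)) j else 0) • f0 j := by
    intro s i
    rw [hf0 i]
    have e1 : L s (pr e w (w i) (f i)) = pr e w (w i + 1) (L s (f i)) := by
      rw [hL]; exact (pr_part e w 1 (w i) (M s) (f i)).symm
    rw [e1]
    conv_lhs => rw [← f.sum_repr (L s (f i))]
    rw [map_sum]
    refine Finset.sum_congr rfl fun j _ => ?_
    rw [map_smul]
    by_cases hj : w j = w i + 1
    · rw [if_pos hj, hf0 j, hj]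
    · rw [if_neg hj, zero_smul]
      by_cases hc : f.repr (L s (f i)) j = 0
      · rw [hc, zero_smul]
      · have h1 : L s (f i) ∈ Fil e w (w i + 1) := by
          apply hLg
          rw [← hf]; exact basis_mem_Fil f w le_rfl
        rw [← hf] at h1
        have h2 : w i + 1 < w j := lt_of_le_of_ne (h1 j hc) (Ne.symm hj)
        have h3 : pr e w (w i + 1) (f j) = 0 := by
          apply e.repr.injective
          ext l
          rw [repr_pr, map_zero, Finsupp.zero_apply]
          by_cases hl : w l = w i + 1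
          · rw [if_pos hl]
            by_contra hne
            have h4 : f j ∈ Fil e w (w j) := by rw [← hf]; exact basis_mem_Fil f w le_rfl
            have := h4 l hne
            linarith
          · rw [if_neg hl]
        rw [h3, smul_zero]
  have hLf0r : ∀ s i j, f0.repr (L s (f0 i)) j =
      if w j = w i + 1 then f.repr (L s (f i)) j else 0 := by
    intro s i j
    rw [hLf0, f0.repr_sum_self]
  -- relations of `M` in the basis `f0`
  have hrel : ∀ s i j, f0.repr (M s (f0 i)) j ≠ 0 →
      (w i + 1 < w j) ∨ (w j = w i + 1 ∧ u i + 1 ≤ u j) := by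
    intro s i j hj
    have h1 : w i + 1 ≤ w j := good_iff.1 (h.1.congr hf0F) s i j hj
    rcases h1.lt_or_eq with h2 | h2
    · exact Or.inl h2
    · refine Or.inr ⟨h2.symm, ?_⟩
      -- the difference lies in a strict step
      have hstr : ∀ l, e.repr (M s (f0 i) - L s (f0 i)) l ≠ 0 → w i + 1 < w l := by
        intro l hl
        have e1 : e.repr (M s (f0 i) - L s (f0 i)) l =
            ∑ m, e.repr (f0 i) m * (e.repr (M s (e m)) l - if w l = w m + 1 then
              e.repr (M s (e m)) l else 0) := by
          have : M s (f0 i) - L s (f0 i) = ∑ m, e.repr (f0 i) m • (M s (e m) - L s (e m)) := by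
            conv_lhs => rw [← e.sum_repr (f0 i)]
            simp only [map_sum, map_smul, smul_sub, Finset.sum_sub_distrib]
          rw [this, map_sum, Finsupp.coe_finsetSum, Finset.sum_apply]
          refine Finset.sum_congr rfl fun m _ => ?_
          rw [map_smul, map_sub, Finsupp.smul_apply, Finsupp.sub_apply, smul_eq_mul]
          rw [hL]
          simp only [repr_part]
        rw [e1] at hl
        obtain ⟨m, -, hm⟩ := Finset.exists_ne_zero_of_sum_ne_zero hl
        have hm1 : e.repr (f0 i) m ≠ 0 := left_ne_zero_of_mul hm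
        have hm2 := right_ne_zero_of_mul hm
        have hwm := hhom i m hm1
        by_cases hlm : w l = w m + 1
        · rw [if_pos hlm, sub_self] at hm2; exact absurd rfl hm2
        · rw [if_neg hlm, sub_zero] at hm2
          have := good_iff.1 h.1 s m l hm2
          rw [hwm] at this hlm
          exact lt_of_le_of_ne this (Ne.symm hlm)
      have hstr' := strict_of_strict hf0F hstr
      have heq : f0.repr (M s (f0 i)) j = f0.repr (L s (f0 i)) j := by
        by_contra hne
        have : f0.repr (M s (f0 i) - L s (f0 i)) j ≠ 0 := by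
          rw [map_sub, Finsupp.sub_apply]; exact sub_ne_zero.mpr hne
        have := hstr' j this
        linarith
      rw [heq, hLf0r, if_pos h2.symm] at hj
      exact good_iff.1 hLfu s i j hj
  -- comparison of the norms
  have hle : ∑ i, (w i) ^ 2 ≤ ∑ i, (u i) ^ 2 := by
    by_contra hlt
    rw [not_le] at hlt
    have hev : ∀ᶠ ε : ℝ in nhdsWithin 0 (Set.Ioi 0), (∀ p : ι × ι, w p.1 + 1 < w p.2 →
        0 < (1 - ε) * (w p.2 - w p.1 - 1) + ε * (u p.2 - u p.1 - 1)) ∧ ε < 1 := by
      refine Filter.Eventually.and ?_ ?_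
      · rw [Filter.eventually_all]
        intro p
        by_cases hp : w p.1 + 1 < w p.2
        · have hc : Continuous fun ε : ℝ => (1 - ε) * (w p.2 - w p.1 - 1) +
              ε * (u p.2 - u p.1 - 1) := by fun_prop
          have : ∀ᶠ ε : ℝ in nhds 0, 0 < (1 - ε) * (w p.2 - w p.1 - 1) +
              ε * (u p.2 - u p.1 - 1) := by
            refine (hc.tendsto 0).eventually (lt_mem_nhds ?_)
            simp only [sub_zero, one_mul, zero_mul, add_zero]
            linarith
          exact (this.filter_mono nhdsWithin_le_nhds).mono fun ε hε _ => hε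
        · exact Filter.Eventually.of_forall fun ε h => absurd h hp
      · exact (eventually_lt_nhds one_pos).filter_mono nhdsWithin_le_nhds
    obtain ⟨ε, ⟨hε1, hε2⟩, hε0⟩ := (hev.and self_mem_nhdsWithin).exists
    have hε0 : 0 < ε := hε0
    have hgood : Good M f0 (fun i => (1 - ε) * w i + ε * u i) := by
      rw [good_iff]
      intro s i j hj
      rcases hrel s i j hj with h1 | ⟨h1, h2⟩
      · have := hε1 (i, j) h1
        simp only at this
        linarith
      · rw [h1]; nlinarith
    have h1 := h.2 f0 _ hgood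
    have h2 : ∑ i, ((1 - ε) * w i + ε * u i) ^ 2 ≤
        (1 - ε) * ∑ i, (w i) ^ 2 + ε * ∑ i, (u i) ^ 2 := by
      rw [Finset.mul_sum, Finset.mul_sum, ← Finset.sum_add_distrib]
      apply Finset.sum_le_sum
      intro i _
      nlinarith [mul_nonneg (mul_nonneg hε0.le (sub_nonneg.mpr hε2.le)) (sq_nonneg (w i - u i))]
    nlinarith
  refine ⟨hLg, fun e' w' h' => ?_⟩
  calc ∑ i, (w i) ^ 2 ≤ ∑ i, (u i) ^ 2 := hle
    _ = ∑ i, (u0 i) ^ 2 := (sum_sq_eq g f u0 u hu).symm
    _ ≤ ∑ i, (w' i) ^ 2 := hgu.2 e' w' h'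

/-- **Node (K)**: no nonzero strictly lowering endomorphism commutes with the leading parts. -/
theorem IsMin.eq_zero_of_commute {M : κ → V →ₗ[k] V} {e : Basis ι k V} {w : ι → ℝ}
    (h : IsMin M e w) (Y : V →ₗ[k] V) (hY : ∀ i j, e.repr (Y (e i)) j ≠ 0 → w j < w i)
    (hc : ∀ s v, Y (part e w 1 (M s) v) = part e w 1 (M s) (Y v)) : Y = 0 := by
  classical
  have : FiniteDimensional k V := Module.Finite.of_basis e
  let T : V →ₗ[k] V := LinearMap.id + Y
  have hinj : Function.Injective T := by
    rw [← LinearMap.ker_eq_bot, LinearMap.ker_eq_bot']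
    intro x hx
    by_contra hx0
    have hne : (e.repr x).support.Nonempty := by
      rw [Finsupp.support_nonempty_iff]
      intro h0; exact hx0 (e.repr.map_eq_zero_iff.mp h0)
    obtain ⟨j, hj, hjmax⟩ := Finset.exists_max_image _ w hne
    have h0 : e.repr (T x) j = e.repr x j + ∑ i, e.repr x i * e.repr (Y (e i)) j := by
      have : T x = x + ∑ i, e.repr x i • Y (e i) := by
        simp only [T, LinearMap.add_apply, LinearMap.id_apply]
        congr 1
        conv_lhs => rw [← e.sum_repr x]
        simp only [map_sum, map_smul]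
      rw [this, map_add, map_sum, Finsupp.add_apply, Finsupp.coe_finsetSum, Finset.sum_apply]
      simp
    have h1 : ∑ i, e.repr x i * e.repr (Y (e i)) j = 0 := by
      apply Finset.sum_eq_zero
      intro i _
      by_contra hne
      have h2 := left_ne_zero_of_mul hne
      have h3 := hY i j (right_ne_zero_of_mul hne)
      have h4 := hjmax i (by simpa using h2)
      linarith
    rw [hx, h1, map_zero, Finsupp.zero_apply, add_zero] at h0
    exact (by simpa using hj : e.repr x j ≠ 0) h0.symm
  let g : V ≃ₗ[k] V := LinearEquiv.ofInjectiveEndo T hinj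
  have hg : ∀ v, g v = v + Y v := fun v => rfl
  have hinv := h.lead.invariant g (by
    intro s v
    rw [hg, hg, map_add, hc])
  apply e.ext
  intro i
  rw [LinearMap.zero_apply]
  apply e.repr.injective
  ext j
  rw [map_zero, Finsupp.zero_apply]
  by_contra hne
  have h1 := hinv (w i) (e i) (basis_mem_Fil e w le_rfl)
  rw [hg] at h1
  have h2 : Y (e i) ∈ Fil e w (w i) := by
    have := Submodule.sub_mem _ h1 (basis_mem_Fil e w (le_refl (w i)))
    simpa using this
  have := h2 j hne
  exact absurd (hY i j hne) (not_lt.mpr this)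

end Crest.Agent.R172.Kempf
end

-- ▼ part R172/Kempf4
section

/-!
Row 172, node (K) of note 12626: self-duality of the minimising flag of a family of symmetric
endomorphisms, and the final statement.
-/

set_option autoImplicit false
set_option linter.unusedSectionVars false
set_option linter.unusedSimpArgs false

namespace Crest.Agent.R172.Kempf

open Module

variable {k V ι κ : Type*} [Field k] [AddCommGroup V] [Module k V] [Fintype ι] [DecidableEq ι]

theorem dual_repr (B : LinearMap.BilinForm k V) (hB : B.Nondegenerate) (e : Basis ι k V) (x : V)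
    (i : ι) : (B.dualBasis hB e).repr x i = B x (e i) := by
  rw [LinearMap.BilinForm.dualBasis_repr_apply]

theorem repr_dual (B : LinearMap.BilinForm k V) (hB : B.Nondegenerate) (e : Basis ι k V) (x : V)
    (i : ι) : e.repr x i = B (B.dualBasis hB e i) x := by
  conv_rhs => rw [← e.sum_repr x]
  rw [map_sum, Finset.sum_eq_single i]
  · simp [LinearMap.BilinForm.apply_dualBasis_left]
  · intro j _ hj
    simp [LinearMap.BilinForm.apply_dualBasis_left, hj]
  · intro h; exact absurd (Finset.mem_univ _) h

theorem IsMin.dual {M : κ → V →ₗ[k] V} {e : Basis ι k V} {w : ι → ℝ} (h : IsMin M e w)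
    (B : LinearMap.BilinForm k V) (hB : B.Nondegenerate)
    (hM : ∀ s x y, B (M s x) y = B x (M s y)) :
    IsMin M (B.dualBasis hB e) (fun i => - w i) := by
  refine ⟨?_, fun e' w' h' => ?_⟩
  · rw [good_iff]
    intro s i j hj
    rw [dual_repr, hM, ← repr_dual] at hj
    have := good_iff.1 h.1 s j i hj
    linarith
  · simpa using h.2 e' w' h'

/-- Self-duality: the steps `≥ a` and `≥ b` are orthogonal if `a + b > 0`. -/
theorem IsMin.ortho {M : κ → V →ₗ[k] V} {e : Basis ι k V} {w : ι → ℝ} (h : IsMin M e w)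
    (B : LinearMap.BilinForm k V) (hB : B.Nondegenerate)
    (hM : ∀ s x y, B (M s x) y = B x (M s y)) {a b : ℝ} (hab : 0 < a + b) {x y : V}
    (hx : x ∈ Fil e w a) (hy : y ∈ Fil e w b) : B x y = 0 := by
  rw [h.unique (h.dual B hB hM) a] at hx
  have e1 : B x y = ∑ i, e.repr y i * B x (e i) := by
    conv_lhs => rw [← e.sum_repr y]
    rw [map_sum]
    exact Finset.sum_congr rfl fun i _ => by rw [map_smul, smul_eq_mul]
  rw [e1]
  apply Finset.sum_eq_zero
  intro i _
  by_contra hne
  have h1 := hy i (left_ne_zero_of_mul hne)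
  have h2 := hx i (by rw [dual_repr]; exact right_ne_zero_of_mul hne)
  linarith

/-- The minimising flag of a symmetric family has an orthogonal-dual splitting. -/
theorem IsMin.exists_selfdual {M : κ → V →ₗ[k] V} {e : Basis ι k V} {w : ι → ℝ}
    (h : IsMin M e w) (B : LinearMap.BilinForm k V) (hB : B.Nondegenerate) (hs : B.IsSymm)
    (h2 : (2 : k) ≠ 0) (hM : ∀ s x y, B (M s x) y = B x (M s y)) :
    ∃ (e' : Basis ι k V) (σ : Equiv.Perm ι), IsMin M e' w ∧ (∀ i, w (σ i) = - w i) ∧
      (∀ i j, w i + w j ≠ 0 → B (e' i) (e' j) = 0) := by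
  have : FiniteDimensional k V := Module.Finite.of_basis e
  have hdual := h.dual B hB hM
  obtain ⟨σ, hσ⟩ := exists_perm e (B.dualBasis hB e) w (fun i => - w i)
    (fun a => (h.unique hdual a).symm)
  have hσ' : ∀ i, w (σ i) = - w i := fun i => by have := hσ i; linarith
  set d := B.dualBasis hB e with hd
  have hde : ∀ i j, B (d i) (e j) = if j = i then 1 else 0 := fun i j => by
    rw [hd, LinearMap.BilinForm.apply_dualBasis_left]
  have hort : ∀ i j, 0 < w i + w j → B (e i) (e j) = 0 := fun i j hij =>
    h.ortho B hB hM hij (basis_mem_Fil e w le_rfl) (basis_mem_Fil e w le_rfl)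
  -- the corrected dual vectors
  let q : ι → V := fun i => d i - (2 : k)⁻¹ • ∑ l, (if 0 < w l then B (d i) (d l) else 0) • e l
  have hqe : ∀ i j, 0 ≤ w j → B (q i) (e j) = if j = i then 1 else 0 := by
    intro i j hj
    have hz : ∑ l, (if 0 < w l then B (d i) (d l) else 0) * B (e l) (e j) = 0 := by
      apply Finset.sum_eq_zero
      intro l _
      by_cases hl : 0 < w l
      · rw [hort l j (by linarith), mul_zero]
      · rw [if_neg hl, zero_mul]
    simp only [q, map_sub, LinearMap.sub_apply, map_smul, LinearMap.smul_apply, map_sum,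
      LinearMap.sum_apply, smul_eq_mul, hz, mul_zero, sub_zero, hde]
  have hqq : ∀ i j, 0 < w i → 0 < w j → B (q i) (q j) = 0 := by
    intro i j hi hj
    have e1 : B (q i) (q j) = B (q i) (d j) -
        (2 : k)⁻¹ * ∑ l, (if 0 < w l then B (d j) (d l) else 0) * B (q i) (e l) := by
      simp only [q, map_sub, LinearMap.sub_apply, map_smul, LinearMap.smul_apply, map_sum,
        LinearMap.sum_apply, smul_eq_mul]
    have e2 : ∑ l, (if 0 < w l then B (d j) (d l) else 0) * B (q i) (e l) = B (d j) (d i) := by
      rw [Finset.sum_eq_single i]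
      · rw [if_pos hi, hqe i i hi.le, if_pos rfl, mul_one]
      · intro l _ hl
        by_cases hl0 : 0 < w l
        · rw [hqe i l hl0.le, if_neg hl, mul_zero]
        · rw [if_neg hl0, zero_mul]
      · intro h; exact absurd (Finset.mem_univ _) h
    have e3 : B (q i) (d j) = B (d i) (d j) -
        (2 : k)⁻¹ * ∑ l, (if 0 < w l then B (d i) (d l) else 0) * B (e l) (d j) := by
      simp only [q, map_sub, LinearMap.sub_apply, map_smul, LinearMap.smul_apply, map_sum,
        LinearMap.sum_apply, smul_eq_mul]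
    have e4 : ∑ l, (if 0 < w l then B (d i) (d l) else 0) * B (e l) (d j) = B (d i) (d j) := by
      rw [Finset.sum_eq_single j]
      · rw [if_pos hj, hs.eq (e j) (d j), hde, if_pos rfl, mul_one]
      · intro l _ hl
        rw [hs.eq (e l) (d j), hde, if_neg hl, mul_zero]
      · intro h; exact absurd (Finset.mem_univ _) h
    rw [e1, e2, e3, e4, hs.eq (d j) (d i)]
    have : (2 : k)⁻¹ * B (d i) (d j) + (2 : k)⁻¹ * B (d i) (d j) = B (d i) (d j) := by
      rw [← two_mul, ← mul_assoc, mul_inv_cancel₀ h2, one_mul]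
    linear_combination -this
  -- the new basis
  let g : ι → V := fun i => if 0 ≤ w i then e i else q (σ i)
  have hgpos : ∀ i, 0 ≤ w i → g i = e i := fun i hi => if_pos hi
  have hgneg : ∀ i, w i < 0 → g i = q (σ i) := fun i hi => if_neg (not_le.mpr hi)
  have hli : LinearIndependent k g := by
    rw [Fintype.linearIndependent_iff]
    intro c hc
    have hneg : ∀ i, w i < 0 → c i = 0 := by
      intro i hi
      have h1 : B (∑ l, c l • g l) (e (σ i)) = 0 := by rw [hc]; simp
      rw [map_sum, LinearMap.sum_apply, Finset.sum_eq_single i] at h1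
      · rw [map_smul, LinearMap.smul_apply, hgneg i hi, hqe _ _ (by rw [hσ']; linarith),
          if_pos rfl, smul_eq_mul, mul_one] at h1
        exact h1
      · intro l _ hl
        rw [map_smul, LinearMap.smul_apply]
        by_cases hl0 : 0 ≤ w l
        · rw [hgpos l hl0, hort l (σ i) (by rw [hσ']; linarith), smul_zero]
        · rw [hgneg l (not_le.mp hl0), hqe _ _ (by rw [hσ']; linarith), if_neg, smul_zero]
          intro h; exact hl (σ.injective h.symm)
      · intro h; exact absurd (Finset.mem_univ _) h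
    have hc' : ∑ l, c l • e l = 0 := by
      rw [← hc]
      refine Finset.sum_congr rfl fun l _ => ?_
      by_cases hl0 : 0 ≤ w l
      · rw [hgpos l hl0]
      · rw [hneg l (not_le.mp hl0), zero_smul, zero_smul]
    exact Fintype.linearIndependent_iff.1 e.linearIndependent c hc'
  let e' : Basis ι k V := basisOfLinearIndependentOfCardEqFinrank' _ hli
    (Module.finrank_eq_card_basis e).symm
  have he' : ∀ i, e' i = g i := fun i => by simp [e']
  have hdm : ∀ i, d i ∈ Fil e w (- w i) := by
    intro i
    rw [h.unique hdual (- w i)]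
    exact basis_mem_Fil d _ le_rfl
  have hmem : ∀ i, e' i ∈ Fil e w (w i) := by
    intro i
    rw [he']
    by_cases hi : 0 ≤ w i
    · rw [hgpos i hi]; exact basis_mem_Fil e w le_rfl
    · rw [hgneg i (not_le.mp hi)]
      apply Submodule.sub_mem
      · have := hdm (σ i)
        rw [hσ', neg_neg] at this; exact this
      · apply Submodule.smul_mem
        apply Submodule.sum_mem
        intro l _
        by_cases hl : 0 < w l
        · apply Submodule.smul_mem
          apply basis_mem_Fil
          have := not_le.mp hi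
          linarith
        · rw [if_neg hl, zero_smul]; exact Submodule.zero_mem _
  refine ⟨e', σ, h.congr (Fil_eq_of_mem e e' w hmem), hσ', ?_⟩
  intro i j hij
  rw [he', he']
  by_cases hi : 0 ≤ w i
  · by_cases hj : 0 ≤ w j
    · rw [hgpos i hi, hgpos j hj]
      apply hort
      exact lt_of_le_of_ne (by linarith) (Ne.symm hij)
    · have hj' := not_le.mp hj
      rw [hgpos i hi, hgneg j hj', hs.eq, hqe _ _ hi, if_neg]
      intro h'
      apply hij
      rw [h', hσ']; ring
  · have hi' := not_le.mp hi
    by_cases hj : 0 ≤ w j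
    · rw [hgneg i hi', hgpos j hj, hqe _ _ hj, if_neg]
      intro h'
      apply hij
      rw [h', hσ']; ring
    · have hj' := not_le.mp hj
      rw [hgneg i hi', hgneg j hj']
      apply hqq
      · rw [hσ']; linarith
      · rw [hσ']; linarith

/-- **Node (K)**, final form. `M` is a family of symmetric endomorphisms which is strictly
triangular with respect to some weighted basis. -/
theorem kempf (M : κ → V →ₗ[k] V) (hgood : ∃ (e : Basis ι k V) (w : ι → ℝ), Good M e w)
    (B : LinearMap.BilinForm k V) (hB : B.Nondegenerate) (hs : B.IsSymm)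
    (h2 : (2 : k) ≠ 0) (hM : ∀ s x y, B (M s x) y = B x (M s y)) :
    ∃ (e : Basis ι k V) (w : ι → ℝ) (σ : Equiv.Perm ι),
      -- the weights are symmetric and the form pairs weight `a` with weight `-a`
      (∀ i, w (σ i) = - w i) ∧ (∀ i j, w i + w j ≠ 0 → B (e i) (e j) = 0) ∧
      -- `M` raises the weights by at least one
      (∀ s i j, e.repr (M s (e i)) j ≠ 0 → w i + 1 ≤ w j) ∧
      -- nothing strictly lowering commutes with the parts of degree one
      (∀ Y : V →ₗ[k] V, (∀ i j, e.repr (Y (e i)) j ≠ 0 → w j < w i) →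
        (∀ s v, Y (part e w 1 (M s) v) = part e w 1 (M s) (Y v)) → Y = 0) := by
  obtain ⟨e0, w0, h0⟩ := hgood
  obtain ⟨e1, w, h1⟩ := exists_isMin M e0 w0 h0
  obtain ⟨e, σ, h, hσ, hort⟩ := h1.exists_selfdual B hB hs h2 hM
  exact ⟨e, w, σ, hσ, hort, good_iff.1 h.1, fun Y hY hc => h.eq_zero_of_commute Y hY hc⟩

end Crest.Agent.R172.Kempf
end

-- ▼ part R172/NilPat1
section

/-!
Row 172, node NILC: filtered pieces of the endomorphism algebra, trace duality (P1), and the
statement (K) of `Kempf.kempf` in filtered form (P4).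
-/

set_option autoImplicit false
set_option linter.unusedSectionVars false
set_option linter.unusedSimpArgs false

namespace Crest.Agent.R172.NilPat

open Module Crest.Agent.R172.Kempf

variable {K V ι κ : Type*} [Field K] [AddCommGroup V] [Module K V] [Fintype ι]

/-- `B`-symmetric endomorphisms. -/
def Sym (B : LinearMap.BilinForm K V) : Submodule K (V →ₗ[K] V) where
  carrier := {A | ∀ x y, B (A x) y = B x (A y)}
  zero_mem' := by intro x y; simp
  add_mem' := by
    intro A A' h h' x y
    simp only [LinearMap.add_apply, map_add, h x y, h' x y]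
  smul_mem' := by
    intro c A h x y
    simp only [LinearMap.smul_apply, map_smul, h x y]

/-- `B`-skew endomorphisms. -/
def Skw (B : LinearMap.BilinForm K V) : Submodule K (V →ₗ[K] V) where
  carrier := {A | ∀ x y, B (A x) y = - B x (A y)}
  zero_mem' := by intro x y; simp
  add_mem' := by
    intro A A' h h' x y
    simp only [LinearMap.add_apply, map_add, h x y, h' x y]; ring
  smul_mem' := by
    intro c A h x y
    simp only [LinearMap.smul_apply, map_smul, h x y, smul_eq_mul]; ring



/-- Endomorphisms raising the weights by at least `c`. -/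
def Ge (e : Basis ι K V) (w : ι → ℝ) (c : ℝ) : Submodule K (V →ₗ[K] V) where
  carrier := {A | ∀ a x, x ∈ Fil e w a → A x ∈ Fil e w (a + c)}
  zero_mem' := by intro a x _; exact Submodule.zero_mem _
  add_mem' := by
    intro A A' h h' a x hx
    exact Submodule.add_mem _ (h a x hx) (h' a x hx)
  smul_mem' := by
    intro r A h a x hx
    exact Submodule.smul_mem _ r (h a x hx)

theorem mem_Ge {e : Basis ι K V} {w : ι → ℝ} {c : ℝ} {A : V →ₗ[K] V} :
    A ∈ Ge e w c ↔ ∀ a x, x ∈ Fil e w a → A x ∈ Fil e w (a + c) := Iff.rfl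

/-- Endomorphisms raising the weights by more than `c`. -/
def Gt (e : Basis ι K V) (w : ι → ℝ) (c : ℝ) : Submodule K (V →ₗ[K] V) where
  carrier := {A | ∀ i j, w j ≤ w i + c → e.repr (A (e i)) j = 0}
  zero_mem' := by intro i j _; simp
  add_mem' := by
    intro A A' h h' i j hij
    simp [h i j hij, h' i j hij]
  smul_mem' := by
    intro r A h i j hij
    simp [h i j hij]


theorem repr_apply_eq_sum (e : Basis ι K V) (A : V →ₗ[K] V) (x : V) (j : ι) :
    e.repr (A x) j = ∑ i, e.repr x i * e.repr (A (e i)) j := by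
  conv_lhs => rw [← e.sum_repr x]
  rw [map_sum, map_sum, Finsupp.coe_finsetSum, Finset.sum_apply]
  refine Finset.sum_congr rfl fun i _ => ?_
  rw [map_smul, map_smul, Finsupp.smul_apply, smul_eq_mul]

theorem mem_Ge_iff {e : Basis ι K V} {w : ι → ℝ} {c : ℝ} {A : V →ₗ[K] V} :
    A ∈ Ge e w c ↔ ∀ i j, w j < w i + c → e.repr (A (e i)) j = 0 := by
  constructor
  · intro h i j hij
    by_contra hne
    have := h (w i) (e i) (basis_mem_Fil e w le_rfl) j hne
    linarith
  · intro h a x hx j hj
    by_contra hlt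
    apply hj
    rw [repr_apply_eq_sum]
    apply Finset.sum_eq_zero
    intro i _
    by_cases hi : e.repr x i = 0
    · rw [hi, zero_mul]
    · have := hx i hi
      rw [h i j (by linarith [not_le.mp hlt]), mul_zero]

/-- `Gt` in flag form. -/
theorem mem_Gt_flag {e : Basis ι K V} {w : ι → ℝ} {c : ℝ} {A : V →ₗ[K] V} :
    A ∈ Gt e w c ↔ ∀ a x, x ∈ Fil e w a → ∀ j, e.repr (A x) j ≠ 0 → a + c < w j := by
  constructor
  · intro h a x hx j hj
    by_contra hlt
    apply hj
    rw [repr_apply_eq_sum]
    apply Finset.sum_eq_zero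
    intro i _
    by_cases hi : e.repr x i = 0
    · rw [hi, zero_mul]
    · have := hx i hi
      rw [h i j (by linarith [not_lt.mp hlt]), mul_zero]
  · intro h i j hij
    by_contra hne
    have := h (w i) (e i) (basis_mem_Fil e w le_rfl) j hne
    linarith

theorem Ge_congr {e f : Basis ι K V} {w u : ι → ℝ} (h : ∀ a, Fil f u a = Fil e w a) (c : ℝ) :
    Ge f u c = Ge e w c := by
  ext A
  rw [mem_Ge, mem_Ge]
  simp_rw [h]

theorem Gt_congr {e f : Basis ι K V} {w u : ι → ℝ} (h : ∀ a, Fil f u a = Fil e w a) (c : ℝ) :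
    Gt f u c = Gt e w c := by
  have key : ∀ {e f : Basis ι K V} {w u : ι → ℝ}, (∀ a, Fil f u a = Fil e w a) →
      Gt e w c ≤ Gt f u c := by
    intro e f w u h A hA
    rw [mem_Gt_flag] at hA ⊢
    intro a x hx
    rw [h] at hx
    exact strict_of_strict h (hA a x hx)
  exact le_antisymm (key fun a => (h a).symm) (key h)

theorem Gt_le_Ge (e : Basis ι K V) (w : ι → ℝ) (c : ℝ) : Gt e w c ≤ Ge e w c := by
  intro A hA
  rw [mem_Ge_iff]
  intro i j hij
  exact hA i j hij.le

theorem Ge_anti (e : Basis ι K V) (w : ι → ℝ) {c d : ℝ} (h : c ≤ d) : Ge e w d ≤ Ge e w c := by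
  intro A hA
  rw [mem_Ge_iff] at hA ⊢
  intro i j hij
  exact hA i j (by linarith)

theorem Gt_anti (e : Basis ι K V) (w : ι → ℝ) {c d : ℝ} (h : c ≤ d) : Gt e w d ≤ Gt e w c := by
  intro A hA i j hij
  exact hA i j (by linarith)

theorem Ge_le_Gt (e : Basis ι K V) (w : ι → ℝ) {c d : ℝ} (h : c < d) : Ge e w d ≤ Gt e w c := by
  intro A hA i j hij
  rw [mem_Ge_iff] at hA
  exact hA i j (by linarith)

theorem Ge_mul {e : Basis ι K V} {w : ι → ℝ} {c d : ℝ} {A A' : V →ₗ[K] V} (hA : A ∈ Ge e w c)
    (hA' : A' ∈ Ge e w d) : A * A' ∈ Ge e w (c + d) := by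
  intro a x hx
  have := hA _ _ (hA' a x hx)
  rw [show a + (c + d) = a + d + c by ring]
  exact this

theorem Gt_mul_Ge {e : Basis ι K V} {w : ι → ℝ} {c d : ℝ} {A A' : V →ₗ[K] V}
    (hA : A ∈ Gt e w c) (hA' : A' ∈ Ge e w d) : A * A' ∈ Gt e w (c + d) := by
  rw [mem_Gt_flag] at hA ⊢
  intro a x hx j hj
  have := hA _ _ (hA' a x hx) j hj
  linarith

theorem Ge_mul_Gt {e : Basis ι K V} {w : ι → ℝ} {c d : ℝ} {A A' : V →ₗ[K] V}
    (hA : A ∈ Ge e w c) (hA' : A' ∈ Gt e w d) : A * A' ∈ Gt e w (c + d) := by
  rw [mem_Gt_flag] at hA' ⊢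
  intro a x hx j hj
  have h1 := hA' a x hx
  -- coordinates of `A' x` lie strictly above `a + d`
  by_contra hlt
  apply hj
  have : (A * A') x = A (A' x) := rfl
  rw [this, repr_apply_eq_sum]
  apply Finset.sum_eq_zero
  intro i _
  by_cases hi : e.repr (A' x) i = 0
  · rw [hi, zero_mul]
  · have h2 := h1 i hi
    rw [mem_Ge_iff] at hA
    rw [hA i j (by linarith [not_lt.mp hlt]), mul_zero]

/-! ### (P1) trace duality -/

theorem trace_mul_eq [DecidableEq ι] (e : Basis ι K V) (A A' : V →ₗ[K] V) :
    LinearMap.trace K V (A * A') = ∑ j, ∑ i, e.repr (A' (e j)) i * e.repr (A (e i)) j := by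
  rw [LinearMap.trace_eq_matrix_trace K e, Matrix.trace]
  refine Finset.sum_congr rfl fun j _ => ?_
  rw [Matrix.diag_apply, LinearMap.toMatrix_apply]
  exact repr_apply_eq_sum e A (A' (e j)) j

/-- The elementary endomorphism `e_j ↦ e_i`. -/
noncomputable def Elem (e : Basis ι K V) (j i : ι) : V →ₗ[K] V := (e.coord j).smulRight (e i)

theorem repr_Elem [DecidableEq ι] (e : Basis ι K V) (j i l m : ι) :
    e.repr (Elem e j i (e l)) m = if l = j ∧ m = i then 1 else 0 := by
  rw [Elem, LinearMap.smulRight_apply, Basis.coord_apply, map_smul, Basis.repr_self,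
    Basis.repr_self, Finsupp.smul_apply, Finsupp.single_apply, Finsupp.single_apply, smul_eq_mul]
  by_cases h1 : l = j
  · by_cases h2 : m = i
    · simp [h1, h2]
    · have : ¬ i = m := fun h => h2 h.symm
      simp [h1, h2, this]
  · simp [h1]

theorem trace_mul_Elem (e : Basis ι K V) (A : V →ₗ[K] V) (j i : ι) :
    LinearMap.trace K V (A * Elem e j i) = e.repr (A (e i)) j := by
  classical
  rw [trace_mul_eq e, Finset.sum_eq_single j, Finset.sum_eq_single i]
  · rw [repr_Elem]; simp
  · intro m _ hm
    rw [repr_Elem, if_neg, zero_mul]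
    rintro ⟨-, h⟩; exact hm h
  · intro h; exact absurd (Finset.mem_univ _) h
  · intro l _ hl
    apply Finset.sum_eq_zero
    intro m _
    rw [repr_Elem, if_neg, zero_mul]
    rintro ⟨h, -⟩; exact hl h
  · intro h; exact absurd (Finset.mem_univ _) h

theorem trace_eq_zero_of_Gt_Ge {e : Basis ι K V} {w : ι → ℝ} {c : ℝ} {A A' : V →ₗ[K] V}
    (hA : A ∈ Gt e w (-c)) (hA' : A' ∈ Ge e w c) : LinearMap.trace K V (A * A') = 0 := by
  classical
  rw [trace_mul_eq e]
  apply Finset.sum_eq_zero
  intro j _
  apply Finset.sum_eq_zero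
  intro i _
  rw [mem_Ge_iff] at hA'
  by_cases h : w i < w j + c
  · rw [hA' j i h, zero_mul]
  · rw [hA i j (by linarith [not_lt.mp h]), mul_zero]

theorem trace_mul_comm' (A A' : V →ₗ[K] V) :
    LinearMap.trace K V (A * A') = LinearMap.trace K V (A' * A) := LinearMap.trace_mul_comm K A A'

/-- (P1), first half. -/
theorem mem_Gt_iff_trace {e : Basis ι K V} {w : ι → ℝ} {c : ℝ} {A : V →ₗ[K] V} :
    A ∈ Gt e w (-c) ↔ ∀ A' ∈ Ge e w c, LinearMap.trace K V (A * A') = 0 := by
  classical
  refine ⟨fun h A' hA' => trace_eq_zero_of_Gt_Ge h hA', fun h i j hij => ?_⟩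
  rw [← trace_mul_Elem]
  apply h
  rw [mem_Ge_iff]
  intro l m hlm
  rw [repr_Elem, if_neg]
  rintro ⟨h1, h2⟩
  subst h1 h2
  linarith

/-- (P1), second half. -/
theorem mem_Ge_iff_trace {e : Basis ι K V} {w : ι → ℝ} {c : ℝ} {A : V →ₗ[K] V} :
    A ∈ Ge e w (-c) ↔ ∀ A' ∈ Gt e w c, LinearMap.trace K V (A * A') = 0 := by
  classical
  constructor
  · intro h A' hA'
    rw [trace_mul_comm']
    apply trace_eq_zero_of_Gt_Ge (c := -c) _ h
    rw [neg_neg]; exact hA'
  · intro h
    rw [mem_Ge_iff]
    intro i j hij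
    rw [← trace_mul_Elem]
    apply h
    intro l m hlm
    rw [repr_Elem, if_neg]
    rintro ⟨h1, h2⟩
    subst h1 h2
    linarith

/-! ### (P4) the Kempf statement in filtered form -/

/-- Kempf data for the family `M`. -/
structure KData (M : κ → V →ₗ[K] V) (e : Basis ι K V) (w : ι → ℝ) : Prop where
  ge : ∀ s, M s ∈ Ge e w 1
  key : ∀ Y : V →ₗ[K] V, (∀ i j, e.repr (Y (e i)) j ≠ 0 → w j < w i) →
        (∀ s v, Y (part e w 1 (M s) v) = part e w 1 (M s) (Y v)) → Y = 0

theorem KData.of_kempf {M : κ → V →ₗ[K] V} {e : Basis ι K V} {w : ι → ℝ}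
    (h1 : ∀ s i j, e.repr (M s (e i)) j ≠ 0 → w i + 1 ≤ w j)
    (h2 : ∀ Y : V →ₗ[K] V, (∀ i j, e.repr (Y (e i)) j ≠ 0 → w j < w i) →
        (∀ s v, Y (part e w 1 (M s) v) = part e w 1 (M s) (Y v)) → Y = 0) : KData M e w := by
  refine ⟨fun s => ?_, h2⟩
  rw [mem_Ge_iff]
  intro i j hij
  by_contra hne
  have := h1 s i j hne
  linarith

/-- Step: `S ∈ Ge (-j)`, `[S, M_s] ∈ Gt (1-j)`, `j > 0` imply `S ∈ Gt (-j)`. -/
theorem KData.step {M : κ → V →ₗ[K] V} {e : Basis ι K V} {w : ι → ℝ} (h : KData M e w)
    {d : ℝ} (hd : 0 < d) {S : V →ₗ[K] V} (hS : S ∈ Ge e w (-d))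
    (hc : ∀ s, S * M s - M s * S ∈ Gt e w (1 - d)) : S ∈ Gt e w (-d) := by
  classical
  -- the leading part of `S`
  have hY : part e w (-d) S = 0 := by
    apply h.key
    · intro i j hij
      rw [repr_part] at hij
      by_contra hlt
      apply hij
      rw [if_neg]
      intro h'; apply hlt; linarith
    · intro s v
      have hlin : (part e w (-d) S).comp (part e w 1 (M s)) =
          (part e w 1 (M s)).comp (part e w (-d) S) := by
        apply e.ext
        intro i
        apply e.repr.injective
        ext j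
        rw [LinearMap.comp_apply, LinearMap.comp_apply, repr_apply_eq_sum e _ (part e w 1 (M s) (e i)),
          repr_apply_eq_sum e _ (part e w (-d) S (e i))]
        simp only [repr_part]
        have hSg := mem_Ge_iff.1 hS
        have hMg := mem_Ge_iff.1 (h.ge s)
        by_cases hij : w j = w i + (1 - d)
        · have e1 : ∑ l, (if w l = w i + 1 then e.repr (M s (e i)) l else 0) *
              (if w j = w l + -d then e.repr (S (e l)) j else 0) = e.repr ((S * M s) (e i)) j := by
            rw [show (S * M s) (e i) = S (M s (e i)) from rfl, repr_apply_eq_sum]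
            refine Finset.sum_congr rfl fun l _ => ?_
            by_cases h1 : w l = w i + 1
            · rw [if_pos h1, if_pos (by linarith)]
            · rw [if_neg h1, zero_mul]
              rcases lt_or_gt_of_ne h1 with h2 | h2
              · rw [hMg i l h2, zero_mul]
              · rw [hSg l j (by linarith), mul_zero]
          have e2 : ∑ l, (if w l = w i + -d then e.repr (S (e i)) l else 0) *
              (if w j = w l + 1 then e.repr (M s (e l)) j else 0) = e.repr ((M s * S) (e i)) j := by
            rw [show (M s * S) (e i) = M s (S (e i)) from rfl, repr_apply_eq_sum]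
            refine Finset.sum_congr rfl fun l _ => ?_
            by_cases h1 : w l = w i + -d
            · rw [if_pos h1, if_pos (by linarith)]
            · rw [if_neg h1, zero_mul]
              rcases lt_or_gt_of_ne h1 with h2 | h2
              · rw [hSg i l h2, zero_mul]
              · rw [hMg l j (by linarith), mul_zero]
          rw [e1, e2]
          have := hc s i j hij.le
          rw [LinearMap.sub_apply, map_sub, Finsupp.sub_apply, sub_eq_zero] at this
          exact this
        · have e1 : ∑ l, (if w l = w i + 1 then e.repr (M s (e i)) l else 0) *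
              (if w j = w l + -d then e.repr (S (e l)) j else 0) = 0 := by
            apply Finset.sum_eq_zero
            intro l _
            by_cases h1 : w l = w i + 1
            · rw [if_pos h1, if_neg (fun h2 => hij (by linarith)), mul_zero]
            · rw [if_neg h1, zero_mul]
          have e2 : ∑ l, (if w l = w i + -d then e.repr (S (e i)) l else 0) *
              (if w j = w l + 1 then e.repr (M s (e l)) j else 0) = 0 := by
            apply Finset.sum_eq_zero
            intro l _
            by_cases h1 : w l = w i + -d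
            · rw [if_pos h1, if_neg (fun h2 => hij (by linarith)), mul_zero]
            · rw [if_neg h1, zero_mul]
          rw [e1, e2]
      exact congrArg (fun f : V →ₗ[K] V => f v) hlin
  intro i j hij
  rcases hij.lt_or_eq with h1 | h1
  · exact mem_Ge_iff.1 hS i j h1
  · have := repr_part e w (-d) S i j
    rw [hY, if_pos h1] at this
    rw [← this]; simp

/-- The lowest degree of an endomorphism. -/
theorem exists_lowest {e : Basis ι K V} {w : ι → ℝ} {S : V →ₗ[K] V} (hS : S ≠ 0) :
    ∃ c, S ∈ Ge e w c ∧ ∃ i j, w j = w i + c ∧ e.repr (S (e i)) j ≠ 0 := by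
  classical
  let P : Finset (ι × ι) := Finset.univ.filter fun p => e.repr (S (e p.1)) p.2 ≠ 0
  have hP : P.Nonempty := by
    by_contra hne
    rw [Finset.not_nonempty_iff_eq_empty] at hne
    apply hS
    apply e.ext
    intro i
    apply e.repr.injective
    ext j
    by_contra h
    have : (i, j) ∈ P := Finset.mem_filter.mpr ⟨Finset.mem_univ _, by simpa using h⟩
    rw [hne] at this
    exact absurd this (Finset.notMem_empty _)
  obtain ⟨⟨i, j⟩, hij, hmin⟩ := Finset.exists_min_image P (fun p => w p.2 - w p.1) hP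
  refine ⟨w j - w i, ?_, i, j, by ring, (Finset.mem_filter.mp hij).2⟩
  rw [mem_Ge_iff]
  intro l m hlm
  by_contra hne
  have := hmin (l, m) (Finset.mem_filter.mpr ⟨Finset.mem_univ _, hne⟩)
  simp only at this
  linarith

/-- (K1). -/
theorem KData.K1 {M : κ → V →ₗ[K] V} {e : Basis ι K V} {w : ι → ℝ} (h : KData M e w)
    {S : V →ₗ[K] V} (hc : ∀ s, S * M s - M s * S ∈ Gt e w 0) : S ∈ Gt e w (-1) := by
  by_cases hS : S = 0
  · rw [hS]; exact Submodule.zero_mem _
  obtain ⟨c, hc1, i, j, hij, hne⟩ := exists_lowest (e := e) (w := w) hS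
  by_cases h1 : -1 < c
  · exact Ge_le_Gt e w h1 hc1
  · exfalso
    have hc' := not_lt.mp h1
    have := h.step (d := -c) (by linarith) (by rw [neg_neg]; exact hc1)
      (fun s => Gt_anti e w (by linarith) (hc s))
    rw [neg_neg] at this
    exact hne (this i j hij.le)

/-- (K2). -/
theorem KData.K2 {M : κ → V →ₗ[K] V} {e : Basis ι K V} {w : ι → ℝ} (h : KData M e w)
    {S : V →ₗ[K] V} (hS1 : S ∈ Gt e w (-1)) (hc : ∀ s, S * M s - M s * S ∈ Ge e w 1) :
    S ∈ Ge e w 0 := by
  by_cases hS : S = 0
  · rw [hS]; exact Submodule.zero_mem _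
  obtain ⟨c, hc1, i, j, hij, hne⟩ := exists_lowest (e := e) (w := w) hS
  by_cases h1 : 0 ≤ c
  · exact Ge_anti e w h1 hc1
  · exfalso
    have hc' := not_le.mp h1
    have hc2 : -1 < c := by
      by_contra hlt
      exact hne (hS1 i j (by linarith [not_lt.mp hlt]))
    have := h.step (d := -c) (by linarith) (by rw [neg_neg]; exact hc1)
      (fun s => Ge_le_Gt e w (by linarith) (hc s))
    rw [neg_neg] at this
    exact hne (this i j hij.le)

end Crest.Agent.R172.NilPat
end

-- ▼ part R172/NilPat2

/-!
Row 172, node NILC: self-dual weighted flags (P2) and patterns (P3).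
-/

set_option autoImplicit false
set_option linter.unusedSectionVars false
set_option linter.unusedSimpArgs false

namespace Crest.Agent.R172.NilPat

open Module Crest.Agent.R172.Kempf

variable {K V ι κ : Type*} [Field K] [AddCommGroup V] [Module K V] [Fintype ι] [DecidableEq ι]

/-! ### (P2) self-dual weighted flags -/

/-- The weighted flag `(e, w)` is self-dual for `B`. -/
def SD (B : LinearMap.BilinForm K V) (e : Basis ι K V) (w : ι → ℝ) : Prop :=
  ∀ a x, x ∈ Fil e w a ↔ ∀ i, -a < w i → B (e i) x = 0

theorem bilin_eq_sum (B : LinearMap.BilinForm K V) (e : Basis ι K V) (x y : V) :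
    B x y = ∑ i, e.repr x i * B (e i) y := by
  conv_lhs => rw [← e.sum_repr x]
  rw [map_sum, LinearMap.sum_apply]
  exact Finset.sum_congr rfl fun i _ => by rw [map_smul, LinearMap.smul_apply, smul_eq_mul]

theorem SD.mem_iff_flag {B : LinearMap.BilinForm K V} {e : Basis ι K V} {w : ι → ℝ}
    (h : SD B e w) (a : ℝ) (x : V) :
    x ∈ Fil e w a ↔ ∀ b, -a < b → ∀ y ∈ Fil e w b, B y x = 0 := by
  rw [h]
  constructor
  · intro hx b hb y hy
    rw [bilin_eq_sum B e]
    apply Finset.sum_eq_zero
    intro i _
    by_cases hi : e.repr y i = 0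
    · rw [hi, zero_mul]
    · rw [hx i (hb.trans_le (hy i hi)), mul_zero]
  · intro hx i hi
    exact hx (w i) hi (e i) (basis_mem_Fil e w le_rfl)

/-- Orthogonality of the steps `≥ a` and `≥ b` for `a + b > 0`. -/
theorem SD.ortho {B : LinearMap.BilinForm K V} {e : Basis ι K V} {w : ι → ℝ}
    (h : SD B e w) {a b : ℝ} (hab : 0 < a + b) {x y : V} (hx : x ∈ Fil e w a)
    (hy : y ∈ Fil e w b) : B x y = 0 :=
  (h.mem_iff_flag b y).1 hy a (by linarith) x hx

theorem SD.congr {B : LinearMap.BilinForm K V} {e f : Basis ι K V} {w u : ι → ℝ}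
    (h : SD B e w) (hf : ∀ a, Fil f u a = Fil e w a) : SD B f u := by
  intro a x
  rw [hf, h.mem_iff_flag]
  constructor
  · intro hx i hi
    exact hx (u i) hi (f i) (by rw [← hf]; exact basis_mem_Fil f u le_rfl)
  · intro hx b hb y hy
    rw [← hf] at hy
    rw [bilin_eq_sum B f]
    apply Finset.sum_eq_zero
    intro i _
    by_cases hi : f.repr y i = 0
    · rw [hi, zero_mul]
    · rw [hx i (hb.trans_le (hy i hi)), mul_zero]

/-- An orthogonal-dual grading (output of `kempf`) gives a self-dual flag. -/
theorem SD.of_grading {B : LinearMap.BilinForm K V} (hB : B.Nondegenerate) (hs : B.IsSymm)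
    {e : Basis ι K V} {w : ι → ℝ} (h : ∀ i j, w i + w j ≠ 0 → B (e i) (e j) = 0) : SD B e w := by
  have hfd : FiniteDimensional K V := Module.Finite.of_basis e
  intro a x
  constructor
  · intro hx i hi
    rw [hs.eq (e i) x, bilin_eq_sum B e]
    apply Finset.sum_eq_zero
    intro j _
    by_cases hj : e.repr x j = 0
    · rw [hj, zero_mul]
    · have := hx j hj
      rw [h j i (by linarith), mul_zero]
  · intro hx
    -- the part of `x` of weight `< a` vanishes
    let x1 : V := ∑ j, (if w j < a then e.repr x j else 0) • e j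
    have hx1r : ∀ j, e.repr x1 j = if w j < a then e.repr x j else 0 := fun j => by
      rw [show e.repr x1 = e.repr (∑ j, (if w j < a then e.repr x j else 0) • e j) from rfl,
        e.repr_sum_self]
    have hx1 : x1 = 0 := by
      have hB' := hB
      apply (LinearMap.BilinForm.nondegenerate_iff_ker_eq_bot.mp hB |> fun h =>
        LinearMap.ker_eq_bot.mp h)
      rw [map_zero]
      apply e.ext
      intro i
      rw [LinearMap.zero_apply, bilin_eq_sum B e]
      by_cases hi : -a < w i
      · have h1 : B x (e i) = 0 := by rw [hs.eq x (e i)]; exact hx i hi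
        rw [bilin_eq_sum B e] at h1
        rw [← h1]
        refine Finset.sum_congr rfl fun j _ => ?_
        rw [hx1r]
        by_cases hj : w j < a
        · rw [if_pos hj]
        · rw [if_neg hj, h j i (by linarith [not_lt.mp hj]), mul_zero, mul_zero]
      · apply Finset.sum_eq_zero
        intro j _
        rw [hx1r]
        by_cases hj : w j < a
        · rw [h j i (by linarith [not_lt.mp hi]), mul_zero]
        · rw [if_neg hj, zero_mul]
    intro j hj
    by_contra hlt
    apply hj
    have := hx1r j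
    rw [hx1, if_pos (not_le.mp hlt)] at this
    rw [← this]; simp

/-! ### (P3) patterns -/

section Pat

variable (B : LinearMap.BilinForm K V) (hB : B.Nondegenerate) (b : Basis ι K V)

theorem dual_left (i j : ι) : B (B.dualBasis hB b i) (b j) = if j = i then 1 else 0 :=
  LinearMap.BilinForm.apply_dualBasis_left hB b i j

theorem dual_right (hs : B.IsSymm) (i j : ι) :
    B (b j) (B.dualBasis hB b i) = if j = i then 1 else 0 := by
  rw [hs.eq (b j) (B.dualBasis hB b i), dual_left]

/-- Endomorphisms `x ↦ ∑ C j k • B (b k) x • b j` with `C` supported on `ρ`. -/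
def Pat (ρ : ι → ι → Prop) : Submodule K (V →ₗ[K] V) where
  carrier := {A | ∀ j k, ¬ ρ j k → b.repr (A (B.dualBasis hB b k)) j = 0}
  zero_mem' := by intro j k _; simp
  add_mem' := by
    intro A A' h h' j k hjk
    simp [h j k hjk, h' j k hjk]
  smul_mem' := by
    intro r A h j k hjk
    simp [h j k hjk]

theorem mem_Pat {ρ : ι → ι → Prop} {A : V →ₗ[K] V} :
    A ∈ Pat B hB b ρ ↔ ∀ j k, ¬ ρ j k → b.repr (A (B.dualBasis hB b k)) j = 0 := Iff.rfl

theorem apply_eq_sum (hs : B.IsSymm) (A : V →ₗ[K] V) (x : V) :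
    A x = ∑ k, ∑ j, (b.repr (A (B.dualBasis hB b k)) j * B (b k) x) • b j := by
  conv_lhs => rw [← (B.dualBasis hB b).sum_repr x]
  rw [map_sum]
  refine Finset.sum_congr rfl fun k _ => ?_
  rw [map_smul, dual_repr, hs.eq x (b k)]
  conv_lhs => rw [← b.sum_repr (A (B.dualBasis hB b k)), Finset.smul_sum]
  refine Finset.sum_congr rfl fun j _ => ?_
  rw [smul_smul, mul_comm]


theorem Pat_inf (ρ ρ' : ι → ι → Prop) :
    Pat B hB b ρ ⊓ Pat B hB b ρ' = Pat B hB b (fun j k => ρ j k ∧ ρ' j k) := by
  ext A
  rw [Submodule.mem_inf, mem_Pat, mem_Pat, mem_Pat]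
  constructor
  · rintro ⟨h1, h2⟩ j k hjk
    by_cases hρ : ρ j k
    · exact h2 j k (fun h => hjk ⟨hρ, h⟩)
    · exact h1 j k hρ
  · intro h
    exact ⟨fun j k hjk => h j k (fun h' => hjk h'.1), fun j k hjk => h j k (fun h' => hjk h'.2)⟩


/-- Under self-duality the steps of the filtration of `End V` are patterns. -/
theorem Ge_eq_Pat (hs : B.IsSymm) {w : ι → ℝ} (h : SD B b w) (c : ℝ) :
    Ge b w c = Pat B hB b (fun j k => c ≤ w j + w k) := by
  ext A
  have hd : ∀ k, B.dualBasis hB b k ∈ Fil b w (- w k) := by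
    intro k
    rw [h]
    intro i hi
    rw [dual_right B hB b hs, if_neg]
    rintro rfl; linarith
  constructor
  · intro hA j k hjk
    by_contra hne
    have := hA _ _ (hd k) j hne
    linarith
  · intro hA a x hx
    rw [apply_eq_sum B hB b hs A x]
    apply Submodule.sum_mem
    intro k _
    apply Submodule.sum_mem
    intro j _
    by_cases hk : -a < w k
    · rw [(h a x).1 hx k hk, mul_zero, zero_smul]; exact Submodule.zero_mem _
    · by_cases hjk : c ≤ w j + w k
      · apply Submodule.smul_mem
        apply basis_mem_Fil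
        linarith [not_lt.mp hk]
      · rw [hA j k hjk, zero_mul, zero_smul]; exact Submodule.zero_mem _

theorem Gt_eq_Pat (hs : B.IsSymm) {w : ι → ℝ} (h : SD B b w) (c : ℝ) :
    Gt b w c = Pat B hB b (fun j k => c < w j + w k) := by
  ext A
  have hd : ∀ k, B.dualBasis hB b k ∈ Fil b w (- w k) := by
    intro k
    rw [h]
    intro i hi
    rw [dual_right B hB b hs, if_neg]
    rintro rfl; linarith
  constructor
  · intro hA j k hjk
    by_contra hne
    have := mem_Gt_flag.1 hA _ _ (hd k) j hne
    linarith [not_lt.mp hjk]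
  · intro hA
    rw [mem_Gt_flag]
    intro a x hx l hl
    by_contra hlt
    apply hl
    rw [apply_eq_sum B hB b hs A x]
    rw [map_sum, Finsupp.coe_finsetSum, Finset.sum_apply]
    apply Finset.sum_eq_zero
    intro k _
    rw [b.repr_sum_self]
    by_cases hk : -a < w k
    · rw [(h a x).1 hx k hk, mul_zero]
    · by_cases hlk : c < w l + w k
      · exfalso; linarith [not_lt.mp hk, not_lt.mp hlt]
      · rw [hA l k hlk, zero_mul]

/-- Coefficients as values of the form. -/
theorem coef_eq (hs : B.IsSymm) (A : V →ₗ[K] V) (j k : ι) :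
    b.repr (A (B.dualBasis hB b k)) j = B (A (B.dualBasis hB b k)) (B.dualBasis hB b j) := by
  rw [bilin_eq_sum B b, Finset.sum_eq_single j]
  · rw [dual_right B hB b hs, if_pos rfl, mul_one]
  · intro l _ hl
    rw [dual_right B hB b hs, if_neg hl, mul_zero]
  · intro h; exact absurd (Finset.mem_univ _) h

theorem mem_Sym_iff_coef (hs : B.IsSymm) {A : V →ₗ[K] V} :
    A ∈ Sym B ↔ ∀ j k, b.repr (A (B.dualBasis hB b k)) j = b.repr (A (B.dualBasis hB b j)) k := by
  constructor
  · intro h j k
    rw [coef_eq B hB b hs, coef_eq B hB b hs, h, hs.eq (B.dualBasis hB b k) (A _)]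
  · intro h
    have hbil : (B.comp A LinearMap.id : LinearMap.BilinForm K V) = B.comp LinearMap.id A := by
      apply LinearMap.BilinForm.ext_basis (B.dualBasis hB b)
      intro i j
      simp only [LinearMap.BilinForm.comp_apply, LinearMap.id_apply]
      rw [← coef_eq B hB b hs, h j i, coef_eq B hB b hs, hs.eq (A _) _]
    intro x y
    have := congrArg (fun C : LinearMap.BilinForm K V => C x y) hbil
    simpa using this

theorem mem_Skw_iff_coef (hs : B.IsSymm) {A : V →ₗ[K] V} :
    A ∈ Skw B ↔ ∀ j k, b.repr (A (B.dualBasis hB b k)) j = - b.repr (A (B.dualBasis hB b j)) k := by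
  constructor
  · intro h j k
    rw [coef_eq B hB b hs, coef_eq B hB b hs, h, hs.eq (B.dualBasis hB b k) (A _)]
  · intro h
    have hbil : (B.comp A LinearMap.id : LinearMap.BilinForm K V) = - B.comp LinearMap.id A := by
      apply LinearMap.BilinForm.ext_basis (B.dualBasis hB b)
      intro i j
      simp only [LinearMap.BilinForm.comp_apply, LinearMap.id_apply, LinearMap.neg_apply]
      rw [← coef_eq B hB b hs, h j i, coef_eq B hB b hs, hs.eq (A _) _]
    intro x y
    have := congrArg (fun C : LinearMap.BilinForm K V => C x y) hbil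
    simpa using this

end Pat

/-! ### Dimension formulas -/

/-- Symmetric arrays supported on `ρ`. -/
def MSym (K : Type*) [Field K] (ρ : ι → ι → Prop) : Submodule K (ι → ι → K) where
  carrier := {C | (∀ j k, C j k = C k j) ∧ ∀ j k, ¬ ρ j k → C j k = 0}
  zero_mem' := ⟨fun _ _ => rfl, fun _ _ _ => rfl⟩
  add_mem' := by
    rintro C C' ⟨h1, h2⟩ ⟨h1', h2'⟩
    exact ⟨fun j k => by simp only [Pi.add_apply, h1 j k, h1' j k],
      fun j k hjk => by simp only [Pi.add_apply, h2 j k hjk, h2' j k hjk, add_zero]⟩
  smul_mem' := by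
    rintro r C ⟨h1, h2⟩
    exact ⟨fun j k => by simp only [Pi.smul_apply, h1 j k],
      fun j k hjk => by simp only [Pi.smul_apply, h2 j k hjk, smul_zero]⟩

/-- Skew arrays supported on `ρ`. -/
def MSkw (K : Type*) [Field K] (ρ : ι → ι → Prop) : Submodule K (ι → ι → K) where
  carrier := {C | (∀ j k, C j k = - C k j) ∧ ∀ j k, ¬ ρ j k → C j k = 0}
  zero_mem' := ⟨fun _ _ => by simp, fun _ _ _ => rfl⟩
  add_mem' := by
    rintro C C' ⟨h1, h2⟩ ⟨h1', h2'⟩
    exact ⟨fun j k => by simp only [Pi.add_apply]; rw [h1 j k, h1' j k]; ring,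
      fun j k hjk => by simp only [Pi.add_apply, h2 j k hjk, h2' j k hjk, add_zero]⟩
  smul_mem' := by
    rintro r C ⟨h1, h2⟩
    exact ⟨fun j k => by simp only [Pi.smul_apply]; rw [h1 j k]; simp,
      fun j k hjk => by simp only [Pi.smul_apply, h2 j k hjk, smul_zero]⟩

theorem finrank_MSym_add_MSkw (h2 : (2 : K) ≠ 0) (ρ : ι → ι → Prop) (hρ : ∀ j k, ρ j k → ρ k j) :
    finrank K (MSym K ρ) + finrank K (MSkw K ρ) = Nat.card {p : ι × ι // ρ p.1 p.2} := by
  classical
  let F : (MSym K ρ × MSkw K ρ) →ₗ[K] ({p : ι × ι // ρ p.1 p.2} → K) :=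
    { toFun := fun x p => x.1.1 p.1.1 p.1.2 + x.2.1 p.1.1 p.1.2
      map_add' := by intro x y; funext p; simp; ring
      map_smul' := by intro r x; funext p; simp; ring }
  have hinj : Function.Injective F := by
    rw [← LinearMap.ker_eq_bot, LinearMap.ker_eq_bot']
    rintro ⟨⟨S, hS1, hS2⟩, ⟨T, hT1, hT2⟩⟩ h
    have h' : ∀ j k, S j k + T j k = 0 := by
      intro j k
      by_cases hjk : ρ j k
      · exact congrFun h ⟨(j, k), hjk⟩
      · rw [hS2 j k hjk, hT2 j k hjk, add_zero]
    have hS : ∀ j k, S j k = 0 := by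
      intro j k
      have e1 := h' j k
      have e2 := h' k j
      rw [hS1 k j, hT1 k j] at e2
      have : 2 * S j k = 0 := by linear_combination e1 + e2
      exact (mul_eq_zero.mp this).resolve_left h2
    have hT : ∀ j k, T j k = 0 := by
      intro j k
      have e1 := h' j k
      rw [hS j k, zero_add] at e1; exact e1
    ext j k
    · exact hS j k
    · exact hT j k
  have hsurj : Function.Surjective F := by
    intro f
    let C : ι → ι → K := fun j k => if h : ρ j k then f ⟨(j, k), h⟩ else 0
    refine ⟨⟨⟨fun j k => (2 : K)⁻¹ * (C j k + C k j), ?_, ?_⟩,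
      ⟨fun j k => (2 : K)⁻¹ * (C j k - C k j), ?_, ?_⟩⟩, ?_⟩
    · intro j k; ring
    · intro j k hjk
      have hkj : ¬ ρ k j := fun h => hjk (hρ k j h)
      simp only [C, dif_neg hjk, dif_neg hkj, add_zero, mul_zero]
    · intro j k; ring
    · intro j k hjk
      have hkj : ¬ ρ k j := fun h => hjk (hρ k j h)
      simp only [C, dif_neg hjk, dif_neg hkj, sub_zero, mul_zero]
    · funext ⟨⟨j, k⟩, hjk⟩
      change (2 : K)⁻¹ * (C j k + C k j) + (2 : K)⁻¹ * (C j k - C k j) = f ⟨(j, k), hjk⟩
      have : C j k = f ⟨(j, k), hjk⟩ := dif_pos hjk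
      rw [← this]
      field_simp
      ring
  have := (LinearEquiv.ofBijective F ⟨hinj, hsurj⟩).finrank_eq
  rw [finrank_prod] at this
  rw [this, Module.finrank_fintype_fun_eq_card, Nat.card_eq_fintype_card]

theorem finrank_MSym_eq (h2 : (2 : K) ≠ 0) (ρ : ι → ι → Prop) (hρ : ∀ j k, ρ j k → ρ k j) :
    finrank K (MSym K ρ) = finrank K (MSkw K ρ) + Nat.card {i // ρ i i} := by
  classical
  let φ := Fintype.equivFin ι
  let s : ι → ι → K := fun j k => if φ j < φ k then 1 else if φ k < φ j then -1 else 0
  have hs1 : ∀ j k, s k j = - s j k := by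
    intro j k
    simp only [s]
    rcases lt_trichotomy (φ j) (φ k) with h | h | h
    · rw [if_pos h, if_neg (not_lt.mpr h.le), if_pos h]
    · rw [h]; simp
    · rw [if_pos h, if_neg (not_lt.mpr h.le), if_pos h, neg_neg]
  have hs2 : ∀ j k, j ≠ k → s j k * s j k = 1 := by
    intro j k hjk
    simp only [s]
    rcases lt_trichotomy (φ j) (φ k) with h | h | h
    · rw [if_pos h, mul_one]
    · exact absurd (φ.injective h) hjk
    · rw [if_neg (not_lt.mpr h.le), if_pos h]; ring
  have hs3 : ∀ j, s j j = 0 := by intro j; simp [s]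
  let F : MSym K ρ →ₗ[K] (MSkw K ρ × ({i // ρ i i} → K)) :=
    { toFun := fun C => (⟨fun j k => s j k * C.1 j k, by
        refine ⟨fun j k => ?_, fun j k hjk => ?_⟩
        · beta_reduce; rw [hs1 j k, C.2.1 k j]; ring
        · beta_reduce; rw [C.2.2 j k hjk, mul_zero]⟩, fun i => C.1 i.1 i.1)
      map_add' := by
        intro C C'
        refine Prod.ext (Subtype.ext ?_) rfl
        funext j k
        simp; ring
      map_smul' := by
        intro r C
        refine Prod.ext (Subtype.ext ?_) rfl
        funext j k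
        simp; ring }
  have hinj : Function.Injective F := by
    rw [← LinearMap.ker_eq_bot, LinearMap.ker_eq_bot']
    rintro ⟨C, hC1, hC2⟩ h
    apply Subtype.ext
    funext j k
    change C j k = 0
    by_cases hjk : j = k
    · subst hjk
      by_cases hj : ρ j j
      · exact congrFun (congrArg Prod.snd h) ⟨j, hj⟩
      · exact hC2 j j hj
    · have h1 : s j k * C j k = 0 := congrFun (congrFun (congrArg (fun x => x.1.1) h) j) k
      have h3 := hs2 j k hjk
      have : s j k * s j k * C j k = 0 := by rw [mul_assoc, h1, mul_zero]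
      rw [h3, one_mul] at this; exact this
  have hsurj : Function.Surjective F := by
    rintro ⟨⟨D, hD1, hD2⟩, δ⟩
    have hDd : ∀ j, D j j = 0 := by
      intro j
      have := hD1 j j
      have h3 : 2 * D j j = 0 := by linear_combination this
      exact (mul_eq_zero.mp h3).resolve_left h2
    refine ⟨⟨fun j k => s j k * D j k + (if h : ρ j j then (if j = k then δ ⟨j, h⟩ else 0) else 0),
      ?_, ?_⟩, ?_⟩
    · intro j k
      beta_reduce
      rw [hs1 j k, hD1 k j]
      by_cases hjk : j = k
      · subst hjk; ring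
      · have hkj : ¬ k = j := fun h => hjk h.symm
        simp [hjk, hkj]
    · intro j k hjk
      beta_reduce
      rw [hD2 j k hjk, mul_zero, zero_add]
      by_cases h : ρ j j
      · rw [dif_pos h, if_neg]
        rintro rfl; exact hjk h
      · rw [dif_neg h]
    · refine Prod.ext (Subtype.ext ?_) ?_
      · funext j k
        change s j k * (s j k * D j k + (if h : ρ j j then (if j = k then δ ⟨j, h⟩ else 0) else 0)) =
          D j k
        by_cases hjk : j = k
        · subst hjk; rw [hs3, zero_mul, hDd]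
        · have e1 : (if h : ρ j j then (if j = k then δ ⟨j, h⟩ else 0) else 0) = 0 := by
            by_cases h : ρ j j
            · rw [dif_pos h, if_neg hjk]
            · rw [dif_neg h]
          rw [e1, add_zero, ← mul_assoc, hs2 j k hjk, one_mul]
      · funext ⟨j, hj⟩
        change s j j * D j j + (if h : ρ j j then (if j = j then δ ⟨j, h⟩ else 0) else 0) = δ ⟨j, hj⟩
        rw [hs3, zero_mul, zero_add, dif_pos hj, if_pos rfl]
  have := (LinearEquiv.ofBijective F ⟨hinj, hsurj⟩).finrank_eq
  rw [finrank_prod, Module.finrank_fintype_fun_eq_card] at this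
  rw [this, Nat.card_eq_fintype_card]

section PatDim

variable (B : LinearMap.BilinForm K V) (hB : B.Nondegenerate) (b : Basis ι K V)

/-- Coefficient array of an endomorphism. -/
noncomputable def coefEquiv : (V →ₗ[K] V) ≃ₗ[K] (ι → ι → K) :=
  LinearMap.toMatrix (B.dualBasis hB b) b

theorem coefEquiv_apply (A : V →ₗ[K] V) (j k : ι) :
    coefEquiv B hB b A j k = b.repr (A (B.dualBasis hB b k)) j :=
  LinearMap.toMatrix_apply _ _ _ _ _

theorem finrank_Sym_inf_Pat (hs : B.IsSymm) (ρ : ι → ι → Prop) :
    finrank K (Sym B ⊓ Pat B hB b ρ : Submodule K (V →ₗ[K] V)) = finrank K (MSym K ρ) := by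
  have h : (Sym B ⊓ Pat B hB b ρ).map (coefEquiv B hB b).toLinearMap = MSym K ρ := by
    ext C
    rw [Submodule.mem_map_equiv, Submodule.mem_inf, mem_Sym_iff_coef B hB b hs, mem_Pat]
    simp_rw [← coefEquiv_apply, LinearEquiv.apply_symm_apply]
    rfl
  rw [← h]
  exact (LinearEquiv.finrank_map_eq (coefEquiv B hB b) _).symm

theorem finrank_Skw_inf_Pat (hs : B.IsSymm) (ρ : ι → ι → Prop) :
    finrank K (Skw B ⊓ Pat B hB b ρ : Submodule K (V →ₗ[K] V)) = finrank K (MSkw K ρ) := by
  have h : (Skw B ⊓ Pat B hB b ρ).map (coefEquiv B hB b).toLinearMap = MSkw K ρ := by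
    ext C
    rw [Submodule.mem_map_equiv, Submodule.mem_inf, mem_Skw_iff_coef B hB b hs, mem_Pat]
    simp_rw [← coefEquiv_apply, LinearEquiv.apply_symm_apply]
    rfl
  rw [← h]
  exact (LinearEquiv.finrank_map_eq (coefEquiv B hB b) _).symm

/-- (P3), difference formula. -/
theorem finrank_Sym_eq (hs : B.IsSymm) (h2 : (2 : K) ≠ 0) (ρ : ι → ι → Prop)
    (hρ : ∀ j k, ρ j k → ρ k j) :
    finrank K (Sym B ⊓ Pat B hB b ρ : Submodule K (V →ₗ[K] V)) =
      finrank K (Skw B ⊓ Pat B hB b ρ : Submodule K (V →ₗ[K] V)) + Nat.card {i // ρ i i} := by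
  rw [finrank_Sym_inf_Pat B hB b hs, finrank_Skw_inf_Pat B hB b hs, finrank_MSym_eq h2 ρ hρ]

/-- (P3), sum formula. -/
theorem finrank_Sym_add_Skw (hs : B.IsSymm) (h2 : (2 : K) ≠ 0) (ρ : ι → ι → Prop)
    (hρ : ∀ j k, ρ j k → ρ k j) :
    finrank K (Sym B ⊓ Pat B hB b ρ : Submodule K (V →ₗ[K] V)) +
      finrank K (Skw B ⊓ Pat B hB b ρ : Submodule K (V →ₗ[K] V)) =
      Nat.card {p : ι × ι // ρ p.1 p.2} := by
  rw [finrank_Sym_inf_Pat B hB b hs, finrank_Skw_inf_Pat B hB b hs, finrank_MSym_add_MSkw h2 ρ hρ]

end PatDim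

end Crest.Agent.R172.NilPat
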