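import Mathlib
import Crest.Agent.R172.NilPat2
import Crest.Agent.R172.NilPat3

-- ▼ part R172/NilCount1
section

/-!
# Row 172, node NILC: abstract linear algebra of the count (F3), (F4)
-/

set_option autoImplicit false
set_option linter.unusedSectionVars false

namespace Crest.Agent.R172.NilCount

open Module

section Perp

variable {K E : Type*} [Field K] [AddCommGroup E] [Module K E]

/-- left orthogonal of `W` for `T` -/
def perp (T : E →ₗ[K] E →ₗ[K] K) (W : Submodule K E) : Submodule K E where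
  carrier := {x | ∀ y ∈ W, T x y = 0}
  zero_mem' := by intro y _; simp
  add_mem' := by intro a b ha hb y hy; simp [ha y hy, hb y hy]
  smul_mem' := by intro c a ha y hy; simp [ha y hy]

theorem mem_perp {T : E →ₗ[K] E →ₗ[K] K} {W : Submodule K E} {x : E} :
    x ∈ perp T W ↔ ∀ y ∈ W, T x y = 0 := Iff.rfl

variable [FiniteDimensional K E]

/-- If `T` is nondegenerate on `S` and `W ≤ S` then `dim (S ∩ W^⊥) + dim W = dim S`. -/
theorem finrank_inf_perp (T : E →ₗ[K] E →ₗ[K] K) (S W : Submodule K E)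
    (hS : ∀ x ∈ S, (∀ y ∈ S, T x y = 0) → x = 0) (hW : W ≤ S) :
    finrank K ↥(S ⊓ perp T W) + finrank K W = finrank K S := by
  -- S → Dual S
  let f : S →ₗ[K] Dual K S := (Submodule.dualRestrict S).comp (T.comp S.subtype)
  have hf : Function.Injective f := by
    rw [← LinearMap.ker_eq_bot, LinearMap.ker_eq_bot']
    intro x hx
    apply Subtype.ext
    apply hS x x.2
    intro y hy
    exact congrArg (fun g : Dual K S => g ⟨y, hy⟩) hx
  have hf2 : Function.Surjective f := by
    rw [← LinearMap.injective_iff_surjective_of_finrank_eq_finrank]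
    · exact hf
    · exact (Subspace.dual_finrank_eq (K := K) (V := S)).symm
  -- Dual S → Dual W
  let i : W →ₗ[K] S := Submodule.inclusion hW
  have hi : Function.Injective i := Submodule.inclusion_injective hW
  let g : S →ₗ[K] Dual K W := (i.dualMap).comp f
  have hg : Function.Surjective g := by
    have h1 : Function.Surjective i.dualMap := LinearMap.dualMap_surjective_of_injective hi
    exact h1.comp hf2
  have hrn := LinearMap.finrank_range_add_finrank_ker g
  rw [LinearMap.range_eq_top.mpr hg, finrank_top, Subspace.dual_finrank_eq] at hrn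
  have hk : finrank K (LinearMap.ker g) = finrank K ↥(S ⊓ perp T W) := by
    have : (LinearMap.ker g).map S.subtype = S ⊓ perp T W := by
      ext x
      simp only [Submodule.mem_map, LinearMap.mem_ker, Submodule.coe_subtype, Subtype.exists,
        exists_and_right, exists_eq_right, Submodule.mem_inf]
      constructor
      · rintro ⟨hx, h⟩
        refine ⟨hx, fun y hy => ?_⟩
        exact congrArg (fun q : Dual K W => q ⟨y, hy⟩) h
      · rintro ⟨hx, h⟩
        refine ⟨hx, ?_⟩
        ext y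
        exact h y y.2
    rw [← this]
    exact (LinearEquiv.finrank_eq
      (Submodule.equivMapOfInjective S.subtype S.injective_subtype (LinearMap.ker g)))
  omega

theorem perp_sup (T : E →ₗ[K] E →ₗ[K] K) (W W' : Submodule K E) :
    perp T (W ⊔ W') = perp T W ⊓ perp T W' := by
  ext x
  simp only [Submodule.mem_inf, mem_perp]
  constructor
  · intro h
    exact ⟨fun y hy => h y (Submodule.mem_sup_left hy), fun y hy => h y (Submodule.mem_sup_right hy)⟩
  · rintro ⟨h1, h2⟩ y hy
    obtain ⟨a, ha, b, hb, rfl⟩ := Submodule.mem_sup.mp hy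
    rw [map_add, h1 a ha, h2 b hb, add_zero]

end Perp

/-- Abstract data: an algebra with a trace, symmetric part `S`, skew part `L`, and the four
filtration steps `G_{>-m}`, `G_{≥0}`, `G_{>0}`, `G_{≥m}`. -/
structure Data (K E : Type*) [Field K] [Ring E] [Algebra K E] where
  tr : E →ₗ[K] K
  S : Submodule K E
  L : Submodule K E
  Gmm : Submodule K E
  G0 : Submodule K E
  G0p : Submodule K E
  Gm : Submodule K E
  tr_comm : ∀ x y, tr (x * y) = tr (y * x)
  nondeg : ∀ x, (∀ y, tr (x * y) = 0) → x = 0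
  trSL : ∀ x ∈ S, ∀ y ∈ L, tr (x * y) = 0
  split : ∀ x : E, ∃ a ∈ S, ∃ b ∈ L, x = a + b
  splitmm : ∀ x ∈ Gmm, ∃ a ∈ S, ∃ b ∈ L, a ∈ Gmm ∧ b ∈ Gmm ∧ x = a + b
  split0 : ∀ x ∈ G0, ∃ a ∈ S, ∃ b ∈ L, a ∈ G0 ∧ b ∈ G0 ∧ x = a + b
  split0p : ∀ x ∈ G0p, ∃ a ∈ S, ∃ b ∈ L, a ∈ G0p ∧ b ∈ G0p ∧ x = a + b
  splitm : ∀ x ∈ Gm, ∃ a ∈ S, ∃ b ∈ L, a ∈ Gm ∧ b ∈ Gm ∧ x = a + b
  dualmm : ∀ x, x ∈ Gmm ↔ ∀ y ∈ Gm, tr (x * y) = 0
  dual0 : ∀ x, x ∈ G0 ↔ ∀ y ∈ G0p, tr (x * y) = 0
  dual0p : ∀ x, x ∈ G0p ↔ ∀ y ∈ G0, tr (x * y) = 0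
  dualm : ∀ x, x ∈ Gm ↔ ∀ y ∈ Gmm, tr (x * y) = 0
  m_le : Gm ≤ G0p
  p_le : G0p ≤ G0
  z_le : G0 ≤ Gmm
  brSS : ∀ x ∈ S, ∀ y ∈ S, x * y - y * x ∈ L
  brLS : ∀ x ∈ L, ∀ y ∈ S, x * y - y * x ∈ S
  brmm : ∀ x ∈ Gmm, ∀ y ∈ Gm, x * y - y * x ∈ G0p
  br0 : ∀ x ∈ G0, ∀ y ∈ Gm, x * y - y * x ∈ Gm

namespace Data

variable {K E : Type*} [Field K] [Ring E] [Algebra K E] (D : Data K E)

/-- the trace form -/
noncomputable def T : E →ₗ[K] E →ₗ[K] K := (LinearMap.mul K E).compr₂ D.tr

@[simp] theorem T_apply (x y : E) : D.T x y = D.tr (x * y) := rfl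

theorem trLS {x y : E} (hx : x ∈ D.L) (hy : y ∈ D.S) : D.tr (x * y) = 0 := by
  rw [D.tr_comm]; exact D.trSL y hy x hx

theorem nondegS : ∀ x ∈ D.S, (∀ y ∈ D.S, D.T x y = 0) → x = 0 := by
  intro x hx h
  apply D.nondeg
  intro y
  obtain ⟨a, ha, b, hb, rfl⟩ := D.split y
  rw [mul_add, map_add, D.trSL x hx b hb, add_zero]
  exact h a ha

theorem nondegL : ∀ x ∈ D.L, (∀ y ∈ D.L, D.T x y = 0) → x = 0 := by
  intro x hx h
  apply D.nondeg
  intro y
  obtain ⟨a, ha, b, hb, rfl⟩ := D.split y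
  rw [mul_add, map_add, D.trLS hx ha, zero_add]
  exact h b hb

/-- `tr ([x, y] z) = - tr (x [z, y])`-type identity. -/
theorem tr_bracket (x y z : E) :
    D.tr (x * (y * z - z * y)) = D.tr ((z * x - x * z) * y) := by
  rw [mul_sub, sub_mul, map_sub, map_sub, ← mul_assoc, ← mul_assoc]
  congr 1
  · rw [D.tr_comm, ← mul_assoc]
  
/-- membership in a dual piece tested on symmetric elements only -/
theorem mem_of_S {G G' : Submodule K E}
    (hsp : ∀ x ∈ G, ∃ a ∈ D.S, ∃ b ∈ D.L, a ∈ G ∧ b ∈ G ∧ x = a + b)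
    (hd : ∀ x, x ∈ G' ↔ ∀ y ∈ G, D.tr (x * y) = 0) {x : E} (hx : x ∈ D.S)
    (h : ∀ y ∈ D.S, y ∈ G → D.tr (x * y) = 0) : x ∈ G' := by
  rw [hd]
  intro y hy
  obtain ⟨a, ha, b, hb, haG, hbG, rfl⟩ := hsp y hy
  rw [mul_add, map_add, D.trSL x hx b hb, add_zero]
  exact h a ha haG

theorem mem_of_L {G G' : Submodule K E}
    (hsp : ∀ x ∈ G, ∃ a ∈ D.S, ∃ b ∈ D.L, a ∈ G ∧ b ∈ G ∧ x = a + b)
    (hd : ∀ x, x ∈ G' ↔ ∀ y ∈ G, D.tr (x * y) = 0) {x : E} (hx : x ∈ D.L)
    (h : ∀ y ∈ D.L, y ∈ G → D.tr (x * y) = 0) : x ∈ G' := by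
  rw [hd]
  intro y hy
  obtain ⟨a, ha, b, hb, haG, hbG, rfl⟩ := hsp y hy
  rw [mul_add, map_add, D.trLS hx ha, zero_add]
  exact h b hb hbG

theorem inf_perp_S {G G' : Submodule K E}
    (hsp : ∀ x ∈ G, ∃ a ∈ D.S, ∃ b ∈ D.L, a ∈ G ∧ b ∈ G ∧ x = a + b)
    (hd : ∀ x, x ∈ G' ↔ ∀ y ∈ G, D.tr (x * y) = 0) :
    D.S ⊓ perp D.T (D.S ⊓ G) = D.S ⊓ G' := by
  ext x
  simp only [Submodule.mem_inf, mem_perp, T_apply, and_congr_right_iff]
  intro hx
  constructor
  · intro h
    exact D.mem_of_S hsp hd hx fun y hy hyG => h y ⟨hy, hyG⟩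
  · intro h y hy
    exact (hd x).1 h y hy.2

theorem inf_perp_L {G G' : Submodule K E}
    (hsp : ∀ x ∈ G, ∃ a ∈ D.S, ∃ b ∈ D.L, a ∈ G ∧ b ∈ G ∧ x = a + b)
    (hd : ∀ x, x ∈ G' ↔ ∀ y ∈ G, D.tr (x * y) = 0) :
    D.L ⊓ perp D.T (D.L ⊓ G) = D.L ⊓ G' := by
  ext x
  simp only [Submodule.mem_inf, mem_perp, T_apply, and_congr_right_iff]
  intro hx
  constructor
  · intro h
    exact D.mem_of_L hsp hd hx fun y hy hyG => h y ⟨hy, hyG⟩
  · intro h y hy
    exact (hd x).1 h y hy.2

variable [FiniteDimensional K E]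

theorem finrank_S {G G' : Submodule K E}
    (hsp : ∀ x ∈ G, ∃ a ∈ D.S, ∃ b ∈ D.L, a ∈ G ∧ b ∈ G ∧ x = a + b)
    (hd : ∀ x, x ∈ G' ↔ ∀ y ∈ G, D.tr (x * y) = 0) :
    finrank K ↥(D.S ⊓ G') + finrank K ↥(D.S ⊓ G) = finrank K D.S := by
  rw [← D.inf_perp_S hsp hd]
  exact finrank_inf_perp D.T D.S _ D.nondegS inf_le_left

theorem finrank_L {G G' : Submodule K E}
    (hsp : ∀ x ∈ G, ∃ a ∈ D.S, ∃ b ∈ D.L, a ∈ G ∧ b ∈ G ∧ x = a + b)
    (hd : ∀ x, x ∈ G' ↔ ∀ y ∈ G, D.tr (x * y) = 0) :
    finrank K ↥(D.L ⊓ G') + finrank K ↥(D.L ⊓ G) = finrank K D.L := by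
  rw [← D.inf_perp_L hsp hd]
  exact finrank_inf_perp D.T D.L _ D.nondegL inf_le_left

/-- `dim (S ∩ n^⊥ ∩ G') + dim n + dim (S ∩ G) = dim S + dim (n ∩ G)`. -/
theorem finrank_S_perp {G G' n : Submodule K E} (hn : n ≤ D.S)
    (hsp : ∀ x ∈ G, ∃ a ∈ D.S, ∃ b ∈ D.L, a ∈ G ∧ b ∈ G ∧ x = a + b)
    (hd : ∀ x, x ∈ G' ↔ ∀ y ∈ G, D.tr (x * y) = 0) :
    finrank K ↥(D.S ⊓ perp D.T n ⊓ G') + finrank K n + finrank K ↥(D.S ⊓ G)
      = finrank K D.S + finrank K ↥(n ⊓ G) := by
  have h1 : D.S ⊓ perp D.T n ⊓ G' = D.S ⊓ perp D.T (n ⊔ (D.S ⊓ G)) := by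
    rw [perp_sup]
    have := D.inf_perp_S hsp hd
    calc D.S ⊓ perp D.T n ⊓ G' = perp D.T n ⊓ (D.S ⊓ G') := by
          rw [inf_comm D.S, inf_assoc]
      _ = perp D.T n ⊓ (D.S ⊓ perp D.T (D.S ⊓ G)) := by rw [this]
      _ = _ := by rw [← inf_assoc, inf_comm (perp D.T n), inf_assoc]
  have h2 := finrank_inf_perp D.T D.S (n ⊔ (D.S ⊓ G)) D.nondegS (sup_le hn inf_le_left)
  have h3 := Submodule.finrank_sup_add_finrank_inf_eq n (D.S ⊓ G)
  have h4 : n ⊓ (D.S ⊓ G) = n ⊓ G := by
    rw [← inf_assoc, inf_eq_left.mpr hn]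
  rw [h4] at h3
  rw [h1]
  omega

theorem finrank_L_perp {G G' n : Submodule K E} (hn : n ≤ D.L)
    (hsp : ∀ x ∈ G, ∃ a ∈ D.S, ∃ b ∈ D.L, a ∈ G ∧ b ∈ G ∧ x = a + b)
    (hd : ∀ x, x ∈ G' ↔ ∀ y ∈ G, D.tr (x * y) = 0) :
    finrank K ↥(D.L ⊓ perp D.T n ⊓ G') + finrank K n + finrank K ↥(D.L ⊓ G)
      = finrank K D.L + finrank K ↥(n ⊓ G) := by
  have h1 : D.L ⊓ perp D.T n ⊓ G' = D.L ⊓ perp D.T (n ⊔ (D.L ⊓ G)) := by
    rw [perp_sup]
    have := D.inf_perp_L hsp hd
    calc D.L ⊓ perp D.T n ⊓ G' = perp D.T n ⊓ (D.L ⊓ G') := by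
          rw [inf_comm D.L, inf_assoc]
      _ = perp D.T n ⊓ (D.L ⊓ perp D.T (D.L ⊓ G)) := by rw [this]
      _ = _ := by rw [← inf_assoc, inf_comm (perp D.T n), inf_assoc]
  have h2 := finrank_inf_perp D.T D.L (n ⊔ (D.L ⊓ G)) D.nondegL (sup_le hn inf_le_left)
  have h3 := Submodule.finrank_sup_add_finrank_inf_eq n (D.L ⊓ G)
  have h4 : n ⊓ (D.L ⊓ G) = n ⊓ G := by
    rw [← inf_assoc, inf_eq_left.mpr hn]
  rw [h4] at h3
  rw [h1]
  omega

end Data

end Crest.Agent.R172.NilCount
end

-- ▼ part R172/NilCount2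
section

/-!
# Row 172, node NILC: the complex (F3)
-/

set_option autoImplicit false
set_option linter.unusedSectionVars false
set_option linter.unusedFintypeInType false
set_option linter.unusedVariables false

namespace Crest.Agent.R172.NilCount

open Module

/-- the bracket with `Φ` -/
def ad (K : Type*) {E : Type*} [Field K] [Ring E] [Algebra K E] (Φ : E) : E →ₗ[K] E where
  toFun x := x * Φ - Φ * x
  map_add' x y := by rw [add_mul, mul_add]; abel
  map_smul' c x := by rw [smul_mul_assoc, mul_smul_comm, ← smul_sub]; rfl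

@[simp] theorem ad_apply {K E : Type*} [Field K] [Ring E] [Algebra K E] (Φ x : E) :
    ad K Φ x = x * Φ - Φ * x := rfl

/-- abstract arm -/
structure Arm {K E : Type*} [Field K] [Ring E] [Algebra K E] (D : Data K E) where
  Φ : E
  n : Submodule K E
  q : Submodule K E
  p : Submodule K E
  ΦS : Φ ∈ D.S
  ΦG : Φ ∈ D.Gm
  nS : n ≤ D.S
  qL : q ≤ D.L
  pL : p ≤ D.L
  qp : ∀ x ∈ D.L, (∀ y ∈ p, D.tr (x * y) = 0) → x ∈ q
  pq : ∀ x ∈ D.L, (∀ y ∈ q, D.tr (x * y) = 0) → x ∈ p
  pq0 : ∀ x ∈ p, ∀ y ∈ q, D.tr (x * y) = 0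
  br : ∀ x ∈ q, x * Φ - Φ * x ∈ n

section F3

variable {K E ι : Type*} [Field K] [Ring E] [Algebra K E] [FiniteDimensional K E] [Fintype ι]
  (D : Data K E) (A : ι → Arm D)

/-- domain of `g` -/
abbrev CC := (∀ s : ι, ↥(D.S ⊓ D.Gmm) × ↥((A s).p ⊓ D.G0p)) × ↥(D.L ⊓ D.Gm)

/-- the map `g` -/
noncomputable def gmap : CC D A →ₗ[K] E where
  toFun c := ∑ s, (ad K (A s).Φ (c.1 s).1 + ((c.1 s).2 : E)) + (c.2 : E)
  map_add' c c' := by
    simp only [Prod.fst_add, Prod.snd_add, Pi.add_apply, Submodule.coe_add, map_add,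
      Finset.sum_add_distrib]
    abel
  map_smul' r c := by
    simp only [Prod.smul_fst, Prod.smul_snd, Pi.smul_apply, Submodule.coe_smul, map_smul,
      RingHom.id_apply, smul_add, Finset.smul_sum]

theorem gmap_mem (c : CC D A) : gmap D A c ∈ D.L := by
  refine D.L.add_mem (D.L.sum_mem fun s _ => D.L.add_mem ?_ ?_) c.2.2.1
  · exact D.brSS _ (c.1 s).1.2.1 _ (A s).ΦS
  · exact (A s).pL (c.1 s).2.2.1

theorem finrank_gmap [DecidableEq ι]
    (hK2 : ∀ x ∈ D.Gmm, (∀ s, x * (A s).Φ - (A s).Φ * x ∈ D.Gm) → x ∈ D.G0) :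
    finrank K ↥(D.L ⊓ D.G0p) ≤ finrank K (LinearMap.range (gmap D A)) := by
  have h1 := finrank_inf_perp D.T D.L (LinearMap.range (gmap D A)) D.nondegL (by
    rintro _ ⟨c, rfl⟩; exact gmap_mem D A c)
  have h2 := D.finrank_L D.split0p D.dual0
  have h3 : D.L ⊓ perp D.T (LinearMap.range (gmap D A)) ≤ D.L ⊓ D.G0 := by
    rintro x ⟨hx, hp⟩
    refine ⟨hx, ?_⟩
    have hm : x ∈ D.Gmm := by
      apply D.mem_of_L D.splitm D.dualmm hx
      intro y hy hyG
      have := hp (gmap D A (0, ⟨y, hy, hyG⟩)) ⟨_, rfl⟩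
      simpa [gmap] using this
    apply hK2 x hm
    intro s
    apply D.mem_of_S D.splitmm D.dualm (D.brLS x hx _ (A s).ΦS)
    intro y hy hyG
    have := hp (gmap D A (Pi.single s (⟨y, hy, hyG⟩, 0), 0)) ⟨_, rfl⟩
    have he : gmap D A (Pi.single s (⟨y, hy, hyG⟩, 0), 0) = y * (A s).Φ - (A s).Φ * y := by
      change ∑ t, (ad K (A t).Φ
        ((Pi.single s ((⟨y, hy, hyG⟩ : ↥(D.S ⊓ D.Gmm)), (0 : ↥((A s).p ⊓ D.G0p))) :
          ∀ s : ι, ↥(D.S ⊓ D.Gmm) × ↥((A s).p ⊓ D.G0p)) t).1 +
        (((Pi.single s ((⟨y, hy, hyG⟩ : ↥(D.S ⊓ D.Gmm)), (0 : ↥((A s).p ⊓ D.G0p))) :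
          ∀ s : ι, ↥(D.S ⊓ D.Gmm) × ↥((A s).p ⊓ D.G0p)) t).2 : E)) + ((0 : ↥(D.L ⊓ D.Gm)) : E) = _
      rw [Finset.sum_eq_single s]
      · simp
      · intro t _ ht
        simp [Pi.single_eq_of_ne ht]
      · intro h; exact absurd (Finset.mem_univ s) h
    rw [he, Data.T_apply, D.tr_bracket] at this
    have h5 : (x * (A s).Φ - (A s).Φ * x) * y = -(((A s).Φ * x - x * (A s).Φ) * y) := by
      rw [← neg_mul]; congr 1; abel
    rw [h5, map_neg, this, neg_zero]
  have h4 := Submodule.finrank_mono h3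
  omega

/-- domain of `k` -/
abbrev DK := ↥(D.S ⊓ D.Gmm) ×
  (∀ s : ι, ↥(D.S ⊓ perp D.T (A s).n ⊓ D.Gmm) × ↥(D.S ⊓ D.G0) × ↥((A s).p ⊓ D.Gm))

theorem bracket_mem_p (s : ι) {x : E} (hx : x ∈ D.S) (hn : x ∈ perp D.T (A s).n) :
    x * (A s).Φ - (A s).Φ * x ∈ (A s).p := by
  apply (A s).pq _ (D.brSS x hx _ (A s).ΦS)
  intro y hy
  have h1 := hn _ ((A s).br y hy)
  rw [Data.T_apply] at h1
  have h2 := D.tr_bracket x y (A s).Φ
  rw [h1] at h2
  have h5 : (x * (A s).Φ - (A s).Φ * x) * y = -(((A s).Φ * x - x * (A s).Φ) * y) := by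
    rw [← neg_mul]; congr 1; abel
  rw [h5, map_neg, ← h2, neg_zero]

/-- the map `k` -/
noncomputable def kmap : DK D A →ₗ[K] CC D A where
  toFun z := (fun s => (⟨(z.1 : E) + ((z.2 s).1 : E) + ((z.2 s).2.1 : E),
      D.S.add_mem (D.S.add_mem z.1.2.1 (z.2 s).1.2.1.1) (z.2 s).2.1.2.1,
      D.Gmm.add_mem (D.Gmm.add_mem z.1.2.2 (z.2 s).1.2.2) (D.z_le (z.2 s).2.1.2.2)⟩,
      ⟨-ad K (A s).Φ ((z.2 s).1 : E) + ((z.2 s).2.2 : E),
        (A s).p.add_mem ((A s).p.neg_mem
          (bracket_mem_p D A s (z.2 s).1.2.1.1 (z.2 s).1.2.1.2)) (z.2 s).2.2.2.1,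
        D.G0p.add_mem (D.G0p.neg_mem (D.brmm _ (z.2 s).1.2.2 _ (A s).ΦG))
          (D.m_le (z.2 s).2.2.2.2)⟩),
    ⟨-∑ s, (ad K (A s).Φ ((z.2 s).2.1 : E) + ((z.2 s).2.2 : E)),
      D.L.neg_mem (D.L.sum_mem fun s _ => D.L.add_mem
        (D.brSS _ (z.2 s).2.1.2.1 _ (A s).ΦS) ((A s).pL (z.2 s).2.2.2.1)),
      D.Gm.neg_mem (D.Gm.sum_mem fun s _ => D.Gm.add_mem
        (D.br0 _ (z.2 s).2.1.2.2 _ (A s).ΦG) (z.2 s).2.2.2.2)⟩)
  map_add' z z' := by
    ext s
    · simp only [Prod.fst_add, Prod.snd_add, Pi.add_apply, Submodule.coe_add]; abel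
    · simp only [Prod.fst_add, Prod.snd_add, Pi.add_apply, Submodule.coe_add, map_add]; abel
    · simp only [Prod.fst_add, Prod.snd_add, Pi.add_apply, Submodule.coe_add, map_add,
        Finset.sum_add_distrib]; abel
  map_smul' r z := by
    ext s
    · simp only [Prod.smul_fst, Prod.smul_snd, Pi.smul_apply, Submodule.coe_smul,
        RingHom.id_apply, smul_add]
    · simp only [Prod.smul_fst, Prod.smul_snd, Pi.smul_apply, Submodule.coe_smul,
        RingHom.id_apply, smul_add, map_smul, smul_neg]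
    · simp only [Prod.smul_fst, Prod.smul_snd, Pi.smul_apply, Submodule.coe_smul,
        RingHom.id_apply, smul_add, map_smul, smul_neg, Finset.smul_sum]

theorem gk (hsum : ∑ s, (A s).Φ = 0) (z : DK D A) : gmap D A (kmap D A z) = 0 := by
  change ∑ s, (ad K (A s).Φ ((z.1 : E) + ((z.2 s).1 : E) + ((z.2 s).2.1 : E)) +
    (-ad K (A s).Φ ((z.2 s).1 : E) + ((z.2 s).2.2 : E))) +
    (-∑ s, (ad K (A s).Φ ((z.2 s).2.1 : E) + ((z.2 s).2.2 : E))) = 0
  have h1 : ∑ s, ad K (A s).Φ (z.1 : E) = 0 := by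
    simp only [ad_apply, Finset.sum_sub_distrib, ← Finset.mul_sum, ← Finset.sum_mul, hsum]
    simp
  simp only [map_add, Finset.sum_add_distrib, Finset.sum_neg_distrib, h1]
  abel

theorem finrank_ker_k (hsum : ∑ s, (A s).Φ = 0)
    (hK2 : ∀ x ∈ D.Gmm, (∀ s, x * (A s).Φ - (A s).Φ * x ∈ D.Gm) → x ∈ D.G0) :
    finrank K (LinearMap.ker (kmap D A)) ≤ finrank K ↥(D.S ⊓ D.G0) +
      ∑ s, finrank K ↥(D.S ⊓ perp D.T (A s).n ⊓ D.G0) := by
  have key : ∀ z : LinearMap.ker (kmap D A), ∀ s,
      (z.1.1 : E) + ((z.1.2 s).1 : E) + ((z.1.2 s).2.1 : E) = 0 ∧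
      -ad K (A s).Φ ((z.1.2 s).1 : E) + ((z.1.2 s).2.2 : E) = 0 := by
    intro z s
    have h := z.2
    rw [LinearMap.mem_ker] at h
    have h1 := congrArg (fun c : CC D A => ((c.1 s).1 : E)) h
    have h2 := congrArg (fun c : CC D A => ((c.1 s).2 : E)) h
    exact ⟨h1, h2⟩
  have hx : ∀ z : LinearMap.ker (kmap D A), (z.1.1 : E) ∈ D.G0 := by
    intro z
    apply hK2 _ z.1.1.2.2
    intro s
    obtain ⟨h1, h2⟩ := key z s
    have h3 : (z.1.1 : E) = -((z.1.2 s).1 : E) - ((z.1.2 s).2.1 : E) := by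
      rw [eq_sub_iff_add_eq, ← add_eq_zero_iff_eq_neg]
      rw [← h1]; abel
    have h4 : ad K (A s).Φ (z.1.1 : E) = -((z.1.2 s).2.2 : E) - ad K (A s).Φ ((z.1.2 s).2.1 : E) := by
      rw [h3, map_sub, map_neg]
      congr 1
      rw [eq_comm, neg_eq_iff_add_eq_zero]
      rw [← h2]; abel
    rw [← ad_apply (K := K), h4]
    exact D.Gm.sub_mem (D.Gm.neg_mem (z.1.2 s).2.2.2.2) (D.br0 _ (z.1.2 s).2.1.2.2 _ (A s).ΦG)
  have hT : ∀ z : LinearMap.ker (kmap D A), ∀ s, ((z.1.2 s).1 : E) ∈ D.G0 := by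
    intro z s
    obtain ⟨h1, h2⟩ := key z s
    have h3 : ((z.1.2 s).1 : E) = -(z.1.1 : E) - ((z.1.2 s).2.1 : E) := by
      rw [eq_sub_iff_add_eq, ← add_eq_zero_iff_eq_neg]
      rw [← h1]; abel
    rw [h3]
    exact D.G0.sub_mem (D.G0.neg_mem (hx z)) (z.1.2 s).2.1.2.2
  let f : LinearMap.ker (kmap D A) →ₗ[K]
      (↥(D.S ⊓ D.G0) × (∀ s : ι, ↥(D.S ⊓ perp D.T (A s).n ⊓ D.G0))) :=
    { toFun := fun z => (⟨(z.1.1 : E), z.1.1.2.1, hx z⟩,
        fun s => ⟨((z.1.2 s).1 : E), (z.1.2 s).1.2.1, hT z s⟩)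
      map_add' := by intro z z'; ext s <;> simp
      map_smul' := by intro r z; ext s <;> simp }
  have hf : Function.Injective f := by
    rw [injective_iff_map_eq_zero]
    intro z hz
    have hz1 : (z.1.1 : E) = 0 := congrArg (fun c => (c.1 : E)) hz
    have hz2 : ∀ s, ((z.1.2 s).1 : E) = 0 := fun s =>
      congrArg (fun c : (↥(D.S ⊓ D.G0) × (∀ s : ι, ↥(D.S ⊓ perp D.T (A s).n ⊓ D.G0))) =>
        (c.2 s : E)) hz
    apply Subtype.ext
    ext s
    · exact hz1
    · exact hz2 s
    · have := (key z s).1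
      rw [hz1, hz2 s, add_zero, zero_add] at this
      exact this
    · have := (key z s).2
      rw [hz2 s, map_zero, neg_zero, zero_add] at this
      exact this
  have := LinearMap.finrank_le_finrank_of_injective hf
  rwa [finrank_prod, finrank_pi_fintype] at this

/-- (F3) -/
theorem F3 (hsum : ∑ s, (A s).Φ = 0)
    (hK2 : ∀ x ∈ D.Gmm, (∀ s, x * (A s).Φ - (A s).Φ * x ∈ D.Gm) → x ∈ D.G0) :
    finrank K ↥(D.S ⊓ D.G0p) + finrank K ↥(D.L ⊓ D.G0p) +
      ∑ s, (finrank K ↥((A s).n ⊓ D.Gm) + finrank K ↥((A s).p ⊓ D.Gm)) ≤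
    finrank K ↥(D.S ⊓ D.Gm) + finrank K ↥(D.L ⊓ D.Gm) +
      ∑ s, (finrank K ↥((A s).n ⊓ D.G0p) + finrank K ↥((A s).p ⊓ D.G0p)) := by
  classical
  have h1 := finrank_gmap D A hK2
  have h2 := finrank_ker_k D A hsum hK2
  have h3 := LinearMap.finrank_range_add_finrank_ker (gmap D A)
  have h4 := LinearMap.finrank_range_add_finrank_ker (kmap D A)
  have h5 : finrank K (LinearMap.range (kmap D A)) ≤ finrank K (LinearMap.ker (gmap D A)) := by
    apply Submodule.finrank_mono
    rintro _ ⟨z, rfl⟩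
    exact gk D A hsum z
  rw [finrank_prod, finrank_pi_fintype] at h3
  rw [finrank_prod, finrank_pi_fintype] at h4
  simp only [finrank_prod] at h3 h4
  have e1 := D.finrank_S D.splitm D.dualmm
  have e2 := D.finrank_S D.split0p D.dual0
  have e3 := fun s => D.finrank_S_perp (A s).nS D.splitm D.dualmm
  have e4 := fun s => D.finrank_S_perp (A s).nS D.split0p D.dual0
  -- sum over arms
  have key : ∑ s : ι, (finrank K ↥(D.S ⊓ perp D.T (A s).n ⊓ D.Gmm) +
        (finrank K ↥(D.S ⊓ D.G0) + finrank K ↥((A s).p ⊓ D.Gm))) +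
      ∑ s : ι, (finrank K ↥((A s).n ⊓ D.G0p) + finrank K ↥((A s).p ⊓ D.G0p)) =
      ∑ s : ι, (finrank K ↥(D.S ⊓ D.Gmm) + finrank K ↥((A s).p ⊓ D.G0p)) +
      ∑ s : ι, finrank K ↥(D.S ⊓ perp D.T (A s).n ⊓ D.G0) +
      ∑ s : ι, (finrank K ↥((A s).n ⊓ D.Gm) + finrank K ↥((A s).p ⊓ D.Gm)) := by
    rw [← Finset.sum_add_distrib, ← Finset.sum_add_distrib, ← Finset.sum_add_distrib]
    apply Finset.sum_congr rfl
    intro s _
    have := e3 s
    have := e4 s
    omega
  omega

end F3

end Crest.Agent.R172.NilCount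
end

-- ▼ part R172/NilCount3
section

/-!
# Row 172, node NILC: the tangent bound (F4)
-/

set_option autoImplicit false
set_option linter.unusedSectionVars false
set_option linter.unusedFintypeInType false
set_option linter.unusedVariables false
set_option linter.unusedSimpArgs false

namespace Crest.Agent.R172.NilCount

open Module

/-- an arm together with its space of variations -/
structure FArm {K E : Type*} [Field K] [Ring E] [Algebra K E] (D : Data K E)
    (W : Type*) [AddCommGroup W] [Module K W] extends Arm D where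
  act : E →ₗ[K] W
  N : Submodule K W
  φ : W →ₗ[K] E
  φN : ∀ f ∈ N, φ f ∈ n
  φsurj : ∀ y ∈ n, ∃ f ∈ N, φ f = y
  actN : ∀ Y ∈ q, act Y ∈ N
  φact : ∀ Y ∈ q, φ (act Y) = Y * Φ - Φ * Y

section F4

variable {K E ι W : Type*} [Field K] [Ring E] [Algebra K E] [FiniteDimensional K E] [Fintype ι]
  [AddCommGroup W] [Module K W] [FiniteDimensional K W]
  (D : Data K E) (A : ι → FArm D W)

theorem finrank_N (s : ι) :
    finrank K ↥((A s).N ⊓ D.Gm.comap (A s).φ) + finrank K (A s).n ≤
      finrank K (A s).N + finrank K ↥((A s).n ⊓ D.Gm) := by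
  let g : (A s).N →ₗ[K] E := (A s).φ.domRestrict (A s).N
  let h : ↥((A s).N ⊓ D.Gm.comap (A s).φ) →ₗ[K] E :=
    (A s).φ.domRestrict ((A s).N ⊓ D.Gm.comap (A s).φ)
  have hg := LinearMap.finrank_range_add_finrank_ker g
  have hh := LinearMap.finrank_range_add_finrank_ker h
  have h1 : LinearMap.range g = (A s).n := by
    ext y
    constructor
    · rintro ⟨f, rfl⟩; exact (A s).φN f f.2
    · intro hy
      obtain ⟨f, hf, rfl⟩ := (A s).φsurj y hy
      exact ⟨⟨f, hf⟩, rfl⟩
  have h2 : LinearMap.range h ≤ (A s).n ⊓ D.Gm := by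
    rintro _ ⟨f, rfl⟩; exact ⟨(A s).φN f f.2.1, f.2.2⟩
  have h3 := Submodule.finrank_mono h2
  have h4 : finrank K (LinearMap.ker h) ≤ finrank K (LinearMap.ker g) := by
    let f : LinearMap.ker h →ₗ[K] LinearMap.ker g :=
      { toFun := fun z => ⟨⟨z.1.1, z.1.2.1⟩, z.2⟩
        map_add' := fun _ _ => rfl
        map_smul' := fun _ _ => rfl }
    apply LinearMap.finrank_le_finrank_of_injective (f := f)
    intro z z' hz
    apply Subtype.ext; apply Subtype.ext
    exact congrArg (fun c : LinearMap.ker g => c.1.1) hz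
  rw [h1] at hg
  omega

/-- parameter space -/
abbrev PP := D.L × (∀ s : ι, ↥(D.L ⊓ D.G0) × ↥((A s).N ⊓ D.Gm.comap (A s).φ))

/-- constraint map -/
noncomputable def cmap : PP D A →ₗ[K] E where
  toFun z := ∑ s, (ad K (A s).Φ ((z.2 s).1 : E) + (A s).φ ((z.2 s).2 : W))
  map_add' z z' := by
    simp only [Prod.snd_add, Prod.fst_add, Pi.add_apply, Submodule.coe_add, map_add,
      Finset.sum_add_distrib]
    abel
  map_smul' r z := by
    simp only [Prod.smul_snd, Prod.smul_fst, Pi.smul_apply, Submodule.coe_smul, map_smul,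
      RingHom.id_apply, Finset.smul_sum, smul_add]

/-- evaluation map -/
noncomputable def evmap : PP D A →ₗ[K] W where
  toFun z := ∑ s, ((A s).act ((z.1 : E) + ((z.2 s).1 : E)) + ((z.2 s).2 : W))
  map_add' z z' := by
    simp only [Prod.snd_add, Prod.fst_add, Pi.add_apply, Submodule.coe_add, map_add,
      Finset.sum_add_distrib]
    abel
  map_smul' r z := by
    simp only [Prod.smul_snd, Prod.smul_fst, Pi.smul_apply, Submodule.coe_smul, map_smul,
      RingHom.id_apply, Finset.smul_sum, ← smul_add]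

theorem cmap_mem (z : PP D A) : cmap D A z ∈ D.S := by
  refine D.S.sum_mem fun s _ => D.S.add_mem ?_ ?_
  · exact D.brLS _ (z.2 s).1.2.1 _ (A s).ΦS
  · exact (A s).nS ((A s).φN _ (z.2 s).2.2.1)

theorem finrank_cmap [DecidableEq ι]
    (hK1 : ∀ x, (∀ s, x * (A s).Φ - (A s).Φ * x ∈ D.G0p) → x ∈ D.Gmm) :
    finrank K ↥(D.S ⊓ D.Gm) ≤ finrank K (LinearMap.range (cmap D A)) := by
  have h1 := finrank_inf_perp D.T D.S (LinearMap.range (cmap D A)) D.nondegS (by
    rintro _ ⟨c, rfl⟩; exact cmap_mem D A c)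
  have h2 := D.finrank_S D.splitm D.dualmm
  have h3 : D.S ⊓ perp D.T (LinearMap.range (cmap D A)) ≤ D.S ⊓ D.Gmm := by
    rintro x ⟨hx, hp⟩
    refine ⟨hx, ?_⟩
    apply hK1
    intro s
    apply D.mem_of_L D.split0 D.dual0p (D.brSS x hx _ (A s).ΦS)
    intro y hy hyG
    have := hp (cmap D A (0, Pi.single s (⟨y, hy, hyG⟩, 0))) ⟨_, rfl⟩
    have he : cmap D A (0, Pi.single s (⟨y, hy, hyG⟩, 0)) = y * (A s).Φ - (A s).Φ * y := by
      change ∑ t, (ad K (A t).Φ
        ((Pi.single s ((⟨y, hy, hyG⟩ : ↥(D.L ⊓ D.G0)),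
            (0 : ↥((A s).N ⊓ D.Gm.comap (A s).φ))) :
          ∀ s : ι, ↥(D.L ⊓ D.G0) × ↥((A s).N ⊓ D.Gm.comap (A s).φ)) t).1 +
        (A t).φ (((Pi.single s ((⟨y, hy, hyG⟩ : ↥(D.L ⊓ D.G0)),
            (0 : ↥((A s).N ⊓ D.Gm.comap (A s).φ))) :
          ∀ s : ι, ↥(D.L ⊓ D.G0) × ↥((A s).N ⊓ D.Gm.comap (A s).φ)) t).2 : W)) = _
      rw [Finset.sum_eq_single s]
      · simp
      · intro t _ ht
        simp [Pi.single_eq_of_ne ht]
      · intro h; exact absurd (Finset.mem_univ s) h
    rw [he, Data.T_apply, D.tr_bracket] at this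
    have h5 : (x * (A s).Φ - (A s).Φ * x) * y = -(((A s).Φ * x - x * (A s).Φ) * y) := by
      rw [← neg_mul]; congr 1; abel
    rw [h5, map_neg, this, neg_zero]
  have h4 := Submodule.finrank_mono h3
  omega

/-- (F4) -/
theorem F4 (hsum : ∑ s, (A s).Φ = 0)
    (hK1 : ∀ x, (∀ s, x * (A s).Φ - (A s).Φ * x ∈ D.G0p) → x ∈ D.Gmm)
    (Tg : Submodule K W)
    (hT : ∀ τ ∈ Tg, ∃ z : PP D A, cmap D A z = 0 ∧ evmap D A z = τ) :
    finrank K Tg + finrank K ↥(D.S ⊓ D.Gm) +
      ∑ s, (finrank K ↥((A s).p ⊓ D.G0p) + finrank K (A s).n) ≤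
    finrank K ↥(D.L ⊓ D.G0p) +
      ∑ s, (finrank K (A s).p + finrank K (A s).N + finrank K ↥((A s).n ⊓ D.Gm)) := by
  classical
  have h1 := finrank_cmap D A hK1
  have h2 := LinearMap.finrank_range_add_finrank_ker (cmap D A)
  let e : LinearMap.ker (cmap D A) →ₗ[K] W :=
    (evmap D A).domRestrict (LinearMap.ker (cmap D A))
  have h3 := LinearMap.finrank_range_add_finrank_ker (K := K)
    (V := ↥(LinearMap.ker (cmap D A))) (V₂ := W) e
  have h4 : Tg ≤ LinearMap.range e := by
    intro τ hτ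
    obtain ⟨z, hz1, hz2⟩ := hT τ hτ
    exact ⟨⟨z, hz1⟩, hz2⟩
  have h5 := Submodule.finrank_mono h4
  -- the kernel is big
  let j0 : (↥(D.L ⊓ D.G0) × (∀ s : ι, ↥((A s).q ⊓ D.G0))) →ₗ[K] PP D A :=
    { toFun := fun y => (⟨y.1, y.1.2.1⟩, fun s =>
        (⟨((y.2 s : E)) - (y.1 : E), D.L.sub_mem ((A s).qL (y.2 s).2.1) y.1.2.1,
          D.G0.sub_mem (y.2 s).2.2 y.1.2.2⟩,
         ⟨-(A s).act (y.2 s : E), (A s).N.neg_mem ((A s).actN _ (y.2 s).2.1), by
            change (A s).φ (-(A s).act (y.2 s : E)) ∈ D.Gm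
            rw [map_neg, (A s).φact _ (y.2 s).2.1]
            exact D.Gm.neg_mem (D.br0 _ (y.2 s).2.2 _ (A s).ΦG)⟩))
      map_add' := by
        intro y y'
        ext s
        · simp
        · simp only [Prod.fst_add, Prod.snd_add, Pi.add_apply, Submodule.coe_add]; abel
        · simp only [Prod.fst_add, Prod.snd_add, Pi.add_apply, Submodule.coe_add, map_add]; abel
      map_smul' := by
        intro r y
        ext s
        · simp
        · simp only [Prod.smul_fst, Prod.smul_snd, Pi.smul_apply, Submodule.coe_smul,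
            RingHom.id_apply, smul_sub]
        · simp only [Prod.smul_fst, Prod.smul_snd, Pi.smul_apply, Submodule.coe_smul,
            RingHom.id_apply, map_smul, smul_neg] }
  have hj1 : ∀ y, cmap D A (j0 y) = 0 := by
    intro y
    change ∑ s, (ad K (A s).Φ ((y.2 s : E) - (y.1 : E)) + (A s).φ (-(A s).act (y.2 s : E))) = 0
    have h6 : ∑ s, ad K (A s).Φ (y.1 : E) = 0 := by
      simp only [ad_apply, Finset.sum_sub_distrib, ← Finset.mul_sum, ← Finset.sum_mul, hsum]
      simp
    have h7 : ∀ s, (A s).φ ((A s).act (y.2 s : E)) = ad K (A s).Φ (y.2 s : E) :=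
      fun s => (A s).φact _ (y.2 s).2.1
    simp only [map_sub, map_neg, h7, Finset.sum_add_distrib, Finset.sum_sub_distrib,
      Finset.sum_neg_distrib, h6]
    abel
  have hj2 : ∀ y, evmap D A (j0 y) = 0 := by
    intro y
    change ∑ s, ((A s).act ((y.1 : E) + ((y.2 s : E) - (y.1 : E))) + -(A s).act (y.2 s : E)) = 0
    apply Finset.sum_eq_zero
    intro s _
    rw [add_sub_cancel, add_neg_cancel]
  let j : (↥(D.L ⊓ D.G0) × (∀ s : ι, ↥((A s).q ⊓ D.G0))) →ₗ[K] LinearMap.ker e :=
    { toFun := fun y => ⟨⟨j0 y, hj1 y⟩, hj2 y⟩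
      map_add' := by intro y y'; apply Subtype.ext; apply Subtype.ext; exact map_add j0 y y'
      map_smul' := by intro r y; apply Subtype.ext; apply Subtype.ext; exact map_smul j0 r y }
  have hj : Function.Injective j := by
    rw [injective_iff_map_eq_zero]
    intro y hy
    have h8 : j0 y = 0 := congrArg (fun c : LinearMap.ker e => (c.1 : PP D A)) hy
    have h9 : (y.1 : E) = 0 := congrArg (fun c : PP D A => (c.1 : E)) h8
    have h10 : ∀ s, (y.2 s : E) - (y.1 : E) = 0 := fun s =>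
      congrArg (fun c : PP D A => ((c.2 s).1 : E)) h8
    ext s
    · exact h9
    · have := h10 s
      rw [h9, sub_zero] at this
      exact this
  have h6 := LinearMap.finrank_le_finrank_of_injective hj
  rw [finrank_prod, finrank_pi_fintype] at h6
  rw [finrank_prod, finrank_pi_fintype] at h2
  simp only [finrank_prod] at h2
  have e1 := D.finrank_L D.split0p D.dual0
  have e2 : ∀ s, finrank K ↥((A s).q ⊓ D.G0) + finrank K (A s).p + finrank K ↥(D.L ⊓ D.G0p)
      = finrank K D.L + finrank K ↥((A s).p ⊓ D.G0p) := by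
    intro s
    have h := D.finrank_L_perp (A s).pL D.split0p D.dual0
    have hq : D.L ⊓ perp D.T (A s).p = (A s).q := by
      ext x
      constructor
      · rintro ⟨hx, h⟩
        exact (A s).qp x hx h
      · intro hx
        refine ⟨(A s).qL hx, fun y hy => ?_⟩
        rw [Data.T_apply, D.tr_comm]
        exact (A s).pq0 y hy x hx
    rwa [hq] at h
  have e3 := fun s => finrank_N D A s
  have key : ∑ s : ι, (finrank K ↥(D.L ⊓ D.G0) + finrank K ↥((A s).N ⊓ D.Gm.comap (A s).φ)) +
      ∑ s : ι, (finrank K ↥((A s).p ⊓ D.G0p) + finrank K (A s).n) ≤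
      ∑ s : ι, finrank K ↥((A s).q ⊓ D.G0) +
      ∑ s : ι, (finrank K (A s).p + finrank K (A s).N + finrank K ↥((A s).n ⊓ D.Gm)) := by
    rw [← Finset.sum_add_distrib, ← Finset.sum_add_distrib]
    apply Finset.sum_le_sum
    intro s _
    have := e2 s
    have := e3 s
    omega
  omega

end F4

end Crest.Agent.R172.NilCount
end

-- ▼ part R172/NilCount4
section

/-!
# Row 172, node NILC: the data attached to a self-dual weighted flag
-/

set_option autoImplicit false
set_option linter.unusedSectionVars false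

namespace Crest.Agent.R172.NilCount

open Module Crest.Agent.R172.Kempf Crest.Agent.R172.NilPat

section Adjoint

variable {K V ι : Type*} [Field K] [AddCommGroup V] [Module K V] [Fintype ι]

theorem exists_adj [FiniteDimensional K V] {B : LinearMap.BilinForm K V} (hB : B.Nondegenerate)
    (hs : B.IsSymm) (A : V →ₗ[K] V) : ∃ A' : V →ₗ[K] V, ∀ x y, B (A x) y = B x (A' y) := by
  refine ⟨B.leftAdjointOfNondegenerate hB A, fun x y => ?_⟩
  have h := LinearMap.BilinForm.isAdjointPairLeftAdjointOfNondegenerate B hB A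
  have h1 := h y x
  rw [hs.eq (A x) y, hs.eq x _]
  exact h1.symm

theorem trace_adj [FiniteDimensional K V] {B : LinearMap.BilinForm K V} (hB : B.Nondegenerate)
    (hs : B.IsSymm) {A A' : V →ₗ[K] V} (h : ∀ x y, B (A x) y = B x (A' y)) :
    LinearMap.trace K V A = LinearMap.trace K V A' := by
  classical
  let b := finBasis K V
  let b' := B.dualBasis hB b
  rw [LinearMap.trace_eq_matrix_trace K b A, LinearMap.trace_eq_matrix_trace K b' A',
    Matrix.trace, Matrix.trace]
  refine Finset.sum_congr rfl fun i _ => ?_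
  rw [Matrix.diag_apply, Matrix.diag_apply, LinearMap.toMatrix_apply, LinearMap.toMatrix_apply]
  have h1 : ∀ x, b.repr x i = B x (b' i) := by
    intro x
    rw [bilin_eq_sum B b, Finset.sum_eq_single i]
    · rw [dual_right B hB b hs, if_pos rfl, mul_one]
    · intro l _ hl
      rw [dual_right B hB b hs, if_neg hl, mul_zero]
    · intro h; exact absurd (Finset.mem_univ _) h
  rw [h1, dual_repr B hB b, h, hs.eq]

/-- a filtration step which is dual (trace form) to another and stable under adjoints -/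
theorem adj_mem_Ge {B : LinearMap.BilinForm K V} {e : Basis ι K V} {w : ι → ℝ}
    (hsd : SD B e w) {c : ℝ} {A A' : V →ₗ[K] V} (hA : A ∈ Ge e w c)
    (h : ∀ x y, B (A x) y = B x (A' y)) : A' ∈ Ge e w c := by
  classical
  intro a y hy
  rw [hsd.mem_iff_flag]
  intro b hb z hz
  rw [← h]
  exact hsd.ortho (a := b + c) (b := a) (by linarith) (hA b z hz) hy

theorem adj_mem_Gt [FiniteDimensional K V] {B : LinearMap.BilinForm K V} (hB : B.Nondegenerate)
    (hs : B.IsSymm) {e : Basis ι K V} {w : ι → ℝ}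
    (hsd : SD B e w) {c : ℝ} {A A' : V →ₗ[K] V} (hA : A ∈ Gt e w c)
    (h : ∀ x y, B (A x) y = B x (A' y)) : A' ∈ Gt e w c := by
  have h1 := mem_Gt_iff_trace (e := e) (w := w) (c := -c) (A := A')
  rw [neg_neg] at h1
  rw [h1]
  intro Q hQ
  obtain ⟨Q', hQ'⟩ := exists_adj hB hs Q
  have hQm := adj_mem_Ge hsd hQ hQ'
  have h2 := mem_Gt_iff_trace (e := e) (w := w) (c := -c) (A := A)
  rw [neg_neg] at h2
  have h3 := h2.1 hA Q' hQm
  have h4 : ∀ x y, B ((A' * Q) x) y = B x ((Q' * A) y) := by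
    intro x y
    change B (A' (Q x)) y = B x (Q' (A y))
    rw [← hQ', hs.eq, ← h, hs.eq]
  rw [trace_adj hB hs h4, trace_mul_comm']
  exact h3

theorem split_of_adj [FiniteDimensional K V] {B : LinearMap.BilinForm K V} (hB : B.Nondegenerate)
    (hs : B.IsSymm) (h2 : (2 : K) ≠ 0) {G : Submodule K (V →ₗ[K] V)}
    (hG : ∀ A ∈ G, ∀ A' : V →ₗ[K] V, (∀ x y, B (A x) y = B x (A' y)) → A' ∈ G)
    {A : V →ₗ[K] V} (hA : A ∈ G) :
    ∃ a ∈ Sym B, ∃ b ∈ Skw B, a ∈ G ∧ b ∈ G ∧ A = a + b := by
  obtain ⟨A', hA'⟩ := exists_adj hB hs A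
  have h' : ∀ x y, B (A' x) y = B x (A y) := by
    intro x y; rw [hs.eq, ← hA', hs.eq]
  have hm := hG A hA A' hA'
  refine ⟨(2 : K)⁻¹ • (A + A'), ?_, (2 : K)⁻¹ • (A - A'), ?_, G.smul_mem _ (G.add_mem hA hm),
    G.smul_mem _ (G.sub_mem hA hm), ?_⟩
  · intro x y
    simp only [LinearMap.smul_apply, LinearMap.add_apply, map_smul, map_add, hA', h']
    ring
  · intro x y
    simp only [LinearMap.smul_apply, LinearMap.sub_apply, map_smul, map_sub, hA', h', smul_eq_mul]
    ring
  · rw [← smul_add]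
    have : A + A' + (A - A') = (2 : K) • A := by rw [two_smul]; abel
    rw [this, smul_smul, inv_mul_cancel₀ h2, one_smul]

theorem trace_sym_skw [FiniteDimensional K V] {B : LinearMap.BilinForm K V} (hB : B.Nondegenerate)
    (hs : B.IsSymm) (h2 : (2 : K) ≠ 0) {x y : V →ₗ[K] V} (hx : x ∈ Sym B) (hy : y ∈ Skw B) :
    LinearMap.trace K V (x * y) = 0 := by
  have h : ∀ u v, B ((x * y) u) v = B u ((-(y * x)) v) := by
    intro u v
    change B (x (y u)) v = B u (-(y (x v)))
    rw [hx, hy, map_neg]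
  have h1 := trace_adj hB hs h
  rw [map_neg, trace_mul_comm' y x] at h1
  have h3 : (2 : K) * LinearMap.trace K V (x * y) = 0 := by linear_combination h1
  exact (mul_eq_zero.mp h3).resolve_left h2

end Adjoint

section MkData

variable {K V ι : Type*} [Field K] [AddCommGroup V] [Module K V] [Fintype ι]
  [FiniteDimensional K V]

/-- The data attached to a self-dual weighted flag. -/
noncomputable def mkData (B : LinearMap.BilinForm K V) (hB : B.Nondegenerate) (hs : B.IsSymm)
    (h2 : (2 : K) ≠ 0) (e : Basis ι K V) (w : ι → ℝ) (hsd : SD B e w) :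
    Data K (Module.End K V) where
  tr := LinearMap.trace K V
  S := Sym B
  L := Skw B
  Gmm := Gt e w (-1)
  G0 := Ge e w 0
  G0p := Gt e w 0
  Gm := Ge e w 1
  tr_comm := trace_mul_comm'
  nondeg := by
    classical
    intro x hx
    refine e.ext fun i => ?_
    rw [LinearMap.zero_apply]
    apply e.repr.injective
    ext j
    rw [← trace_mul_Elem, hx]; simp
  trSL := fun x hx y hy => trace_sym_skw hB hs h2 hx hy
  split := by
    intro x
    obtain ⟨a, ha, b, hb, -, -, h⟩ := split_of_adj hB hs h2 (G := ⊤)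
      (fun _ _ _ _ => Submodule.mem_top) (A := x) Submodule.mem_top
    exact ⟨a, ha, b, hb, h⟩
  splitmm := fun x hx => split_of_adj hB hs h2 (fun _ hA _ h => adj_mem_Gt hB hs hsd hA h) hx
  split0 := fun x hx => split_of_adj hB hs h2 (fun _ hA _ h => adj_mem_Ge hsd hA h) hx
  split0p := fun x hx => split_of_adj hB hs h2 (fun _ hA _ h => adj_mem_Gt hB hs hsd hA h) hx
  splitm := fun x hx => split_of_adj hB hs h2 (fun _ hA _ h => adj_mem_Ge hsd hA h) hx
  dualmm := fun x => mem_Gt_iff_trace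
  dual0 := fun x => by
    have := mem_Ge_iff_trace (e := e) (w := w) (c := 0) (A := x)
    rwa [neg_zero] at this
  dual0p := fun x => by
    have := mem_Gt_iff_trace (e := e) (w := w) (c := 0) (A := x)
    rwa [neg_zero] at this
  dualm := fun x => by
    have := mem_Ge_iff_trace (e := e) (w := w) (c := -1) (A := x)
    rwa [neg_neg] at this
  m_le := Ge_le_Gt e w (by norm_num)
  p_le := Gt_le_Ge e w 0
  z_le := Ge_le_Gt e w (by norm_num)
  brSS := by
    intro x hx y hy u v
    change B (x (y u) - y (x u)) v = - B u (x (y v) - y (x v))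
    rw [map_sub, map_sub, LinearMap.sub_apply, hx, hy, hy, hx]; ring
  brLS := by
    intro x hx y hy u v
    change B (x (y u) - y (x u)) v = B u (x (y v) - y (x v))
    rw [map_sub, map_sub, LinearMap.sub_apply, hx, hy, hy, hx]; ring
  brmm := by
    intro x hx y hy
    have h1 := Gt_mul_Ge hx hy
    have h3 := Ge_mul_Gt hy hx
    rw [show (-1 : ℝ) + 1 = 0 by norm_num] at h1
    rw [show (1 : ℝ) + -1 = 0 by norm_num] at h3
    exact Submodule.sub_mem _ h1 h3
  br0 := by
    intro x hx y hy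
    have h1 := Ge_mul hx hy
    have h3 := Ge_mul hy hx
    rw [zero_add] at h1
    rw [add_zero] at h3
    exact Submodule.sub_mem _ h1 h3

end MkData

end Crest.Agent.R172.NilCount
end

-- ▼ part R172/NilPat
section
end

-- ▼ part R172/NilLower
section

/-!
# Row 172, NIL: the lower bound of the tangent space at a generic point
-/

set_option autoImplicit false
set_option linter.unusedSectionVars false

namespace Crest.Agent.R172.NilLower

open Module

variable {K : Type*} [Field K] {V : Type*} [AddCommGroup V] [Module K V]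

/-- A connection on the orthogonal space `(V, B)`: an additive map over a derivation of the field,
compatible with the form. -/
structure Conn (B : LinearMap.BilinForm K V) where
  d : Derivation ℤ K K
  nab : V →+ V
  leib : ∀ (c : K) (x : V), nab (c • x) = d c • x + c • nab x
  compat : ∀ x y : V, d (B x y) = B (nab x) y + B x (nab y)

/-- self-adjoint operators. -/
def SelfAdj (B : LinearMap.BilinForm K V) : Submodule K (V →ₗ[K] V) where
  carrier := {A | ∀ x y, B (A x) y = B x (A y)}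
  zero_mem' := by intro x y; simp
  add_mem' := by
    intro A A' h h' x y
    simp only [LinearMap.add_apply, map_add, h x y, h' x y]
  smul_mem' := by
    intro c A h x y
    simp only [LinearMap.smul_apply, map_smul, h x y, smul_eq_mul]

/-- skew-adjoint operators. -/
def SkewAdj (B : LinearMap.BilinForm K V) : Submodule K (V →ₗ[K] V) where
  carrier := {A | ∀ x y, B (A x) y = - B x (A y)}
  zero_mem' := by intro x y; simp
  add_mem' := by
    intro A A' h h' x y
    simp only [LinearMap.add_apply, map_add, h x y, h' x y]; ring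
  smul_mem' := by
    intro c A h x y
    simp only [LinearMap.smul_apply, map_smul, h x y, smul_eq_mul]; ring



section dims

variable [FiniteDimensional K V]

/-- operators as Gram matrices. -/
noncomputable def gramMap (B : LinearMap.BilinForm K V) {ι : Type*} (e : Basis ι K V) :
    (V →ₗ[K] V) →ₗ[K] (ι → ι → K) where
  toFun A := fun i j => B (A (e i)) (e j)
  map_add' A A' := by ext i j; simp
  map_smul' c A := by ext i j; simp

theorem gramMap_injective {B : LinearMap.BilinForm K V} (hB : B.Nondegenerate) {ι : Type*}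
    (e : Basis ι K V) : Function.Injective (gramMap B e) := by
  rw [← LinearMap.ker_eq_bot, LinearMap.ker_eq_bot']
  intro A hA
  refine e.ext fun i => ?_
  rw [LinearMap.zero_apply]
  have h : ∀ j, B (A (e i)) (e j) = 0 := fun j => congrFun (congrFun hA i) j
  have h2 : B (A (e i)) = 0 := e.ext fun j => by rw [h j]; simp
  exact hB.1 _ fun y => by rw [h2]; simp

theorem gramMap_bijective {B : LinearMap.BilinForm K V} (hB : B.Nondegenerate) {ι : Type*}
    [Fintype ι] (e : Basis ι K V) : Function.Bijective (gramMap B e) := by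
  refine ⟨gramMap_injective hB e, ?_⟩
  have hfr : finrank K (V →ₗ[K] V) = finrank K (ι → ι → K) := by
    rw [Module.finrank_linearMap, Module.finrank_pi_fintype]
    simp [Module.finrank_eq_card_basis e]
  exact (LinearMap.injective_iff_surjective_of_finrank_eq_finrank hfr).mp (gramMap_injective hB e)

theorem mem_SelfAdj_iff {B : LinearMap.BilinForm K V} (hs : B.IsSymm) {ι : Type*} [Fintype ι]
    (e : Basis ι K V) (A : V →ₗ[K] V) :
    A ∈ SelfAdj B ↔ ∀ i j, gramMap B e A i j = gramMap B e A j i := by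
  constructor
  · intro h i j
    show B (A (e i)) (e j) = B (A (e j)) (e i)
    rw [h, hs.eq]
  · intro h x y
    have h1 : ∀ i j, B (A (e i)) (e j) = B (e i) (A (e j)) := by
      intro i j
      have := h i j
      change B (A (e i)) (e j) = B (A (e j)) (e i) at this
      rw [this, hs.eq]
    rw [← e.sum_repr x, ← e.sum_repr y]
    simp only [map_sum, map_smul, LinearMap.sum_apply, LinearMap.smul_apply, h1]

theorem mem_SkewAdj_iff {B : LinearMap.BilinForm K V} (hs : B.IsSymm) {ι : Type*} [Fintype ι]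
    (e : Basis ι K V) (A : V →ₗ[K] V) :
    A ∈ SkewAdj B ↔ ∀ i j, gramMap B e A i j = - gramMap B e A j i := by
  constructor
  · intro h i j
    show B (A (e i)) (e j) = - B (A (e j)) (e i)
    rw [h, hs.eq]
  · intro h x y
    have h1 : ∀ i j, B (A (e i)) (e j) = - B (e i) (A (e j)) := by
      intro i j
      have := h i j
      change B (A (e i)) (e j) = - B (A (e j)) (e i) at this
      rw [this, hs.eq]
    rw [← e.sum_repr x, ← e.sum_repr y]
    simp only [map_sum, map_smul, LinearMap.sum_apply, LinearMap.smul_apply, h1]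
    simp

/-- sign change of a matrix below the diagonal. -/
def flip (K : Type*) [Field K] (N : ℕ) : (Fin N → Fin N → K) →ₗ[K] (Fin N → Fin N → K) where
  toFun M := fun i j => if i < j then M i j else if j < i then - M i j else 0
  map_add' M M' := by
    ext i j; simp only [Pi.add_apply]; split_ifs <;> ring
  map_smul' c M := by
    ext i j; simp only [Pi.smul_apply, smul_eq_mul, RingHom.id_apply]; split_ifs <;> ring

theorem finrank_SelfAdj_le {B : LinearMap.BilinForm K V} (hB : B.Nondegenerate) (hs : B.IsSymm) :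
    finrank K (SelfAdj B) ≤ finrank K (SkewAdj B) + finrank K V := by
  classical
  set N := finrank K V with hN
  let e : Basis (Fin N) K V := Module.finBasis K V
  let Φ : (V →ₗ[K] V) ≃ₗ[K] (Fin N → Fin N → K) :=
    LinearEquiv.ofBijective (gramMap B e) (gramMap_bijective hB e)
  have hΦ : ∀ A, Φ A = gramMap B e A := fun A => rfl
  let D : SelfAdj B →ₗ[K] (Fin N → K) :=
    { toFun := fun A i => gramMap B e A.1 i i
      map_add' := by intro A A'; ext i; simp
      map_smul' := by intro c A; ext i; simp }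
  have hrn := LinearMap.finrank_range_add_finrank_ker D
  have h1 : finrank K (LinearMap.range D) ≤ N := by
    have := Submodule.finrank_le (LinearMap.range D)
    simpa using this
  let E : LinearMap.ker D →ₗ[K] (V →ₗ[K] V) :=
    (Φ.symm.toLinearMap.comp ((flip K N).comp (gramMap B e))).comp
      ((SelfAdj B).subtype.comp (LinearMap.ker D).subtype)
  have hE : ∀ A, gramMap B e (E A) = flip K N (gramMap B e A.1.1) := by
    intro A
    rw [← hΦ]
    simp [E]
  have hEmem : ∀ A, E A ∈ SkewAdj B := by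
    intro A
    rw [mem_SkewAdj_iff hs e]
    intro i j
    rw [hE]
    have hsym := (mem_SelfAdj_iff hs e A.1.1).mp A.1.2
    show (if i < j then gramMap B e A.1.1 i j else if j < i then - gramMap B e A.1.1 i j else 0)
      = - (if j < i then gramMap B e A.1.1 j i else if i < j then - gramMap B e A.1.1 j i else 0)
    rw [hsym i j]
    rcases lt_trichotomy i j with h | h | h
    · simp [h, not_lt_of_gt h]
    · simp [h]
    · simp [h, not_lt_of_gt h]
  have hEinj : ∀ A A' : LinearMap.ker D, E A = E A' → A = A' := by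
    intro A A' hAA'
    have hsym := (mem_SelfAdj_iff hs e A.1.1).mp A.1.2
    have hsym' := (mem_SelfAdj_iff hs e A'.1.1).mp A'.1.2
    have hD : D A.1 = 0 := A.2
    have hD' : D A'.1 = 0 := A'.2
    have h0 : gramMap B e A.1.1 = gramMap B e A'.1.1 := by
      ext i j
      have h3 : gramMap B e (E A) i j = gramMap B e (E A') i j := by rw [hAA']
      rw [hE, hE] at h3
      change (if i < j then gramMap B e A.1.1 i j else if j < i then - gramMap B e A.1.1 i j else 0)
        = (if i < j then gramMap B e A'.1.1 i j else if j < i then - gramMap B e A'.1.1 i j else 0)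
        at h3
      rcases lt_trichotomy i j with h | h | h
      · rw [if_pos h, if_pos h] at h3; exact h3
      · subst h
        have h4 : gramMap B e A.1.1 i i = 0 := congrFun hD i
        have h5 : gramMap B e A'.1.1 i i = 0 := congrFun hD' i
        rw [h4, h5]
      · rw [if_neg (not_lt_of_gt h), if_pos h, if_neg (not_lt_of_gt h), if_pos h] at h3
        exact neg_injective h3
    have : A.1.1 = A'.1.1 := gramMap_injective hB e h0
    exact Subtype.ext (Subtype.ext this)
  have h2 : finrank K (LinearMap.ker D) ≤ finrank K (SkewAdj B) := by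
    let E' : LinearMap.ker D →ₗ[K] SkewAdj B := E.codRestrict _ hEmem
    refine LinearMap.finrank_le_finrank_of_injective (f := E') ?_
    intro a b hab
    exact hEinj a b (congrArg Subtype.val hab)
  omega

end dims

/-- `Y` acting on a family. -/
def actL (K : Type*) [Field K] {V : Type*} [AddCommGroup V] [Module K V] {X : Type*} [Fintype X]
    (G : X → X → K) (v : X → V) : X → V := fun x => ∑ y, G x y • v y

/-- the map `y ↦ (φ ↦ ∑ φ(v_x) y_x + φ(y_x) v_x)` used for the relations. -/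
noncomputable def theta (B : LinearMap.BilinForm K V) {X : Type*} [Fintype X] (v : X → V) :
    (X → V) →ₗ[K] (V →ₗ[K] V) where
  toFun y := ∑ x, ((B (v x)).smulRight (y x) + (B (y x)).smulRight (v x))
  map_add' y y' := by
    rw [← Finset.sum_add_distrib]
    refine Finset.sum_congr rfl fun x _ => ?_
    ext u
    simp only [LinearMap.add_apply, LinearMap.smulRight_apply, Pi.add_apply, map_add, smul_add,
      add_smul]
    abel
  map_smul' c y := by
    rw [Finset.smul_sum]
    refine Finset.sum_congr rfl fun x _ => ?_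
    ext u
    simp only [LinearMap.add_apply, LinearMap.smul_apply, LinearMap.smulRight_apply, Pi.smul_apply,
      map_smul, RingHom.id_apply, smul_add, smul_eq_mul]
    rw [smul_smul, smul_smul, smul_smul, mul_comm]

theorem theta_apply (B : LinearMap.BilinForm K V) {X : Type*} [Fintype X] (v y : X → V) (u : V) :
    theta B v y u = ∑ x, (B (v x) u • y x + B (y x) u • v x) := by
  simp [theta, LinearMap.sum_apply]

theorem theta_mem (B : LinearMap.BilinForm K V) (hs : B.IsSymm) {X : Type*} [Fintype X]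
    (v y : X → V) : theta B v y ∈ SelfAdj B := by
  intro a b
  rw [theta_apply, theta_apply]
  simp only [map_sum, LinearMap.sum_apply, map_add, map_smul, LinearMap.add_apply,
    LinearMap.smul_apply, smul_eq_mul]
  refine Finset.sum_congr rfl fun x _ => ?_
  rw [hs.eq a (y x), hs.eq a (v x)]
  ring

theorem exists_skew [FiniteDimensional K V] {B : LinearMap.BilinForm K V} (hB : B.Nondegenerate)
    (hs : B.IsSymm) {X : Type*} [Fintype X] (v : X → V)
    (hv : Submodule.span K (Set.range v) = ⊤) (y : X → V) (hy : theta B v y = 0) :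
    ∃ G : X → X → K, (∀ x z, G x z = - G z x) ∧ y = actL K G v := by
  classical
  -- a right inverse of the combination map
  let L : (X → K) →ₗ[K] V := Fintype.linearCombination K v
  have hL : Function.Surjective L := by
    rw [← LinearMap.range_eq_top, ← hv]
    exact Fintype.range_linearCombination K v
  obtain ⟨s, hs'⟩ := L.exists_rightInverse_of_surjective (LinearMap.range_eq_top.mpr hL)
  have hsum : ∀ u, ∑ z, s u z • v z = u := by
    intro u
    have := congrArg (fun f => f u) hs'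
    simpa [L, Fintype.linearCombination_apply] using this
  -- representation of the coordinate functionals by vectors
  have hp : ∀ x : X, ∃ p : V, ∀ u, B u p = s u x := by
    intro x
    let f : Dual K V := (LinearMap.proj x).comp s
    refine ⟨(B.toDual hB).symm f, fun u => ?_⟩
    rw [hs.eq, LinearMap.BilinForm.apply_toDual_symm_apply]
    rfl
  choose p hp using hp
  have hth : ∀ x, ∑ t, (s (v t) x • y t + s (y t) x • v t) = 0 := by
    intro x
    have := congrArg (fun f => f (p x)) hy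
    simp only [theta_apply, LinearMap.zero_apply, hp] at this
    exact this
  refine ⟨fun x z => s (y x) z - s (y z) x - ∑ t, s (v t) x * s (y t) z, ?_, ?_⟩
  · intro x z
    have h1 := congrArg (fun u => s u z) (hth x)
    simp only [map_sum, map_add, map_smul, map_zero, Pi.zero_apply, Finset.sum_apply,
      Pi.add_apply, Pi.smul_apply, smul_eq_mul] at h1
    rw [Finset.sum_add_distrib] at h1
    have h2 : ∑ t, s (y t) x * s (v t) z = ∑ t, s (v t) z * s (y t) x :=
      Finset.sum_congr rfl fun t _ => mul_comm _ _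
    rw [h2] at h1
    linear_combination -h1
  · funext x
    show y x = ∑ z, (s (y x) z - s (y z) x - ∑ t, s (v t) x * s (y t) z) • v z
    have h1 : ∑ z, (∑ t, s (v t) x * s (y t) z) • v z = ∑ t, s (v t) x • y t := by
      simp only [Finset.sum_smul, mul_smul]
      rw [Finset.sum_comm]
      refine Finset.sum_congr rfl fun t _ => ?_
      rw [← Finset.smul_sum, hsum]
    simp only [sub_smul, Finset.sum_sub_distrib]
    rw [h1, hsum]
    have h2 := hth x
    rw [Finset.sum_add_distrib] at h2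
    rw [sub_sub, add_comm, h2, sub_zero]

/-- The space of families `G v`, `G` skew. -/
def skewFam (K : Type*) [Field K] {V : Type*} [AddCommGroup V] [Module K V] {X : Type*}
    [Fintype X] (v : X → V) : Submodule K (X → V) where
  carrier := {y | ∃ G : X → X → K, (∀ x z, G x z = - G z x) ∧ y = actL K G v}
  zero_mem' := ⟨0, by simp, by ext x; simp [actL]⟩
  add_mem' := by
    rintro _ _ ⟨G, hG, rfl⟩ ⟨G', hG', rfl⟩
    refine ⟨G + G', fun x z => by simp only [Pi.add_apply]; rw [hG x z, hG' x z]; ring, ?_⟩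
    funext x
    simp [actL, add_smul, Finset.sum_add_distrib]
  smul_mem' := by
    rintro c _ ⟨G, hG, rfl⟩
    refine ⟨c • G, fun x z => by simp only [Pi.smul_apply, smul_eq_mul]; rw [hG x z]; ring, ?_⟩
    funext x
    simp [actL, Finset.smul_sum, mul_smul]

theorem finrank_skewFam [FiniteDimensional K V] {B : LinearMap.BilinForm K V}
    (hB : B.Nondegenerate) (hs : B.IsSymm) {X : Type*} [Fintype X] (v : X → V)
    (hv : Submodule.span K (Set.range v) = ⊤) :
    Fintype.card X * finrank K V ≤ finrank K (skewFam K v) + finrank K (SelfAdj B) := by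
  have hker : LinearMap.ker (theta B v) ≤ skewFam K v := by
    intro y hy
    exact exists_skew hB hs v hv y (LinearMap.mem_ker.mp hy)
  have hran : LinearMap.range (theta B v) ≤ SelfAdj B := by
    rintro _ ⟨y, rfl⟩
    exact theta_mem B hs v y
  have h1 := LinearMap.finrank_range_add_finrank_ker (theta B v)
  have h2 := Submodule.finrank_mono hker
  have h3 := Submodule.finrank_mono hran
  have h4 : finrank K (X → V) = Fintype.card X * finrank K V := by
    rw [Module.finrank_pi_fintype]; simp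
  omega

/-- `(a, b) ↦ b - H a`. -/
noncomputable def psi {X : Type*} [Fintype X] (H : X → X → K) :
    ((X → V) × (X → V)) →ₗ[K] (X → V) where
  toFun p := p.2 - actL K H p.1
  map_add' p q := by
    funext x
    simp only [actL, Prod.fst_add, Prod.snd_add, Pi.add_apply, Pi.sub_apply, smul_add,
      Finset.sum_add_distrib]
    abel
  map_smul' c p := by
    funext x
    simp only [actL, Prod.smul_fst, Prod.smul_snd, Pi.smul_apply, Pi.sub_apply,
      RingHom.id_apply, smul_sub, Finset.smul_sum]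
    congr 1
    exact Finset.sum_congr rfl fun y _ => smul_comm _ _ _

/-- **The lower bound.** -/
theorem low [FiniteDimensional K V] [Nontrivial V] {B : LinearMap.BilinForm K V}
    (hB : B.Nondegenerate) (hs : B.IsSymm) (h2 : (2 : K) ≠ 0) {X : Type*} [Fintype X]
    (H : X → X → K) (v : X → V) (hv : Submodule.span K (Set.range v) = ⊤)
    (w : X → V) (hw : ∀ x, w x = ∑ y, H x y • v y)
    (hgen : ∀ G : X → X → K, (∀ x y, G x y = - G y x) →
      ∃ C : Conn B, ∀ x y, C.d (H x y) = G x y)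
    (T : Submodule K ((X → V) × (X → V)))
    (hT1 : ∀ C : Conn B, ((fun x => C.nab (v x), fun x => C.nab (w x)) : (X → V) × (X → V)) ∈ T)
    (hT2 : ∀ Z : V →ₗ[K] V, (∀ x y, B (Z x) y = - B x (Z y)) →
      ((fun x => Z (v x), fun x => Z (w x)) : (X → V) × (X → V)) ∈ T)
    (hT3 : ((v, w) : (X → V) × (X → V)) ∈ T) :
    Fintype.card X * finrank K V + 1 ≤ finrank K T + finrank K V := by
  classical
  have hwH : w = actL K H v := funext hw
  let f : T →ₗ[K] (X → V) := (psi H).comp T.subtype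
  have hf : ∀ t : T, f t = t.1.2 - actL K H t.1.1 := fun t => rfl
  have hrn := LinearMap.finrank_range_add_finrank_ker f
  -- the range
  have hrange : skewFam K v ≤ LinearMap.range f := by
    rintro _ ⟨G, hG, rfl⟩
    obtain ⟨C, hC⟩ := hgen G hG
    refine ⟨⟨_, hT1 C⟩, ?_⟩
    rw [hf]
    funext x
    simp only [Pi.sub_apply, actL]
    rw [hw x, map_sum]
    simp only [C.leib, hC, Finset.sum_add_distrib]
    abel
  -- the kernel
  let g : (SkewAdj B × K) →ₗ[K] ((X → V) × (X → V)) :=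
    { toFun := fun p => (fun x => p.1.1 (v x) + p.2 • v x, fun x => p.1.1 (w x) + p.2 • w x)
      map_add' := by
        rintro ⟨Z, c⟩ ⟨Z', c'⟩
        refine Prod.ext ?_ ?_
        · funext x
          simp only [Prod.mk_add_mk, Submodule.coe_add, LinearMap.add_apply, add_smul,
            Pi.add_apply]
          abel
        · funext x
          simp only [Prod.mk_add_mk, Submodule.coe_add, LinearMap.add_apply, add_smul,
            Pi.add_apply]
          abel
      map_smul' := by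
        rintro t ⟨Z, c⟩
        refine Prod.ext ?_ ?_
        · funext x
          simp only [Prod.smul_mk, Submodule.coe_smul, LinearMap.smul_apply, smul_eq_mul,
            mul_smul, RingHom.id_apply, Pi.smul_apply, smul_add]
        · funext x
          simp only [Prod.smul_mk, Submodule.coe_smul, LinearMap.smul_apply, smul_eq_mul,
            mul_smul, RingHom.id_apply, Pi.smul_apply, smul_add] }
  have hg : ∀ p : SkewAdj B × K, g p
      = (fun x => p.1.1 (v x) + p.2 • v x, fun x => p.1.1 (w x) + p.2 • w x) := fun p => rfl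
  have hgT : ∀ p, g p ∈ T := by
    rintro ⟨Z, c⟩
    have h3 := T.add_mem (hT2 Z.1 Z.2) (T.smul_mem c hT3)
    exact h3
  have hgker : ∀ p, (⟨g p, hgT p⟩ : T) ∈ LinearMap.ker f := by
    rintro ⟨Z, c⟩
    rw [LinearMap.mem_ker, hf]
    funext x
    simp only [hg, actL, Pi.sub_apply, Pi.zero_apply]
    rw [hw x, map_sum]
    simp only [map_smul, smul_add, Finset.sum_add_distrib, Finset.smul_sum]
    rw [sub_eq_zero]
    congr 1
    exact Finset.sum_congr rfl fun y _ => smul_comm _ _ _
  have hginj : ∀ p, g p = 0 → p = 0 := by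
    rintro ⟨Z, c⟩ h0
    have h1 : ∀ x, Z.1 (v x) + c • v x = 0 := fun x => congrFun (congrArg Prod.fst h0) x
    have h3 : ∀ u, Z.1 u + c • u = 0 := by
      intro u
      have hu : u ∈ Submodule.span K (Set.range v) := by rw [hv]; trivial
      refine Submodule.span_induction (p := fun u _ => Z.1 u + c • u = 0) ?_ ?_ ?_ ?_ hu
      · rintro _ ⟨x, rfl⟩; exact h1 x
      · simp
      · intro a b _ _ ha hb
        rw [map_add, smul_add, add_add_add_comm, ha, hb, add_zero]
      · intro t a _ ha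
        rw [map_smul, smul_comm, ← smul_add, ha, smul_zero]
    have h4 : ∀ a b, c * B a b = 0 := by
      intro a b
      have e1 : B (Z.1 a) b = - (c * B a b) := by
        rw [eq_neg_of_add_eq_zero_left (h3 a)]; simp
      have e2 : B a (Z.1 b) = - (c * B a b) := by
        rw [eq_neg_of_add_eq_zero_left (h3 b)]; simp
      have e3 := Z.2 a b
      rw [e1, e2, neg_neg] at e3
      have e4 : 2 * (c * B a b) = 0 := by linear_combination -e3
      exact (mul_eq_zero.mp e4).resolve_left h2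
    have hc : c = 0 := by
      by_contra hc
      obtain ⟨a, ha⟩ := exists_ne (0 : V)
      apply ha
      exact hB.1 a fun b => (mul_eq_zero.mp (h4 a b)).resolve_left hc
    subst hc
    have hZ : Z = 0 := by
      apply Subtype.ext
      refine LinearMap.ext fun u => ?_
      have := h3 u
      simpa using this
    rw [hZ]; rfl
  have hkerdim : finrank K (SkewAdj B) + 1 ≤ finrank K (LinearMap.ker f) := by
    have h5 : finrank K (SkewAdj B × K) = finrank K (SkewAdj B) + 1 := by
      rw [Module.finrank_prod, Module.finrank_self]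
    rw [← h5]
    let g1 : (SkewAdj B × K) →ₗ[K] T := g.codRestrict T hgT
    let g2 : (SkewAdj B × K) →ₗ[K] LinearMap.ker f := g1.codRestrict _ hgker
    refine LinearMap.finrank_le_finrank_of_injective (f := g2) ?_
    intro a b hab
    have h6 : g a = g b := congrArg (fun t => t.1.1) hab
    have h7 : g (a - b) = 0 := by rw [map_sub, h6, sub_self]
    exact sub_eq_zero.mp (hginj _ h7)
  have h8 := Submodule.finrank_mono hrange
  have h9 := finrank_skewFam hB hs v hv
  have h10 := finrank_SelfAdj_le hB hs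
  omega

end Crest.Agent.R172.NilLower
end

-- ▼ part R172/NilConn
section

/-!
Row 172, node NILC: connection lemma (C1), spanning inequality (C2), rank one operators (C3).
-/

set_option autoImplicit false
set_option linter.unusedSectionVars false

namespace Crest.Agent.R172.NilConn

open Module Crest.Agent.R172.Kempf Crest.Agent.R172.NilPat Crest.Agent.R172.NilLower

variable {K V ι : Type*} [Field K] [AddCommGroup V] [Module K V] [Fintype ι]

/-- **(C1)** A connection is a flag preserving connection plus a skew operator. -/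
theorem conn_split [FiniteDimensional K V] {B : LinearMap.BilinForm K V} (hB : B.Nondegenerate)
    (hs : B.IsSymm) (h2 : (2 : K) ≠ 0) (f : Basis ι K V) (C : Conn B) :
    ∃ Z : V →ₗ[K] V, (∀ x y, B (Z x) y = - B x (Z y)) ∧
      ∀ w : ι → ℝ, SD B f w → ∀ a x, x ∈ Fil f w a → C.nab x - Z x ∈ Fil f w a := by
  classical
  let A : V →ₗ[K] V := f.constr K fun i => C.nab (f i)
  have hA : ∀ i, A (f i) = C.nab (f i) := fun i => f.constr_basis K _ i
  obtain ⟨A', hA'⟩ := NilCount.exists_adj hB hs A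
  have hA'' : ∀ x y, B (A' x) y = B x (A y) := by
    intro x y
    rw [hs.eq (A' x) y, ← hA', hs.eq (A y) x]
  have hnab : ∀ x, C.nab x - A x = ∑ i, C.d (f.repr x i) • f i := by
    intro x
    conv_lhs => rw [← f.sum_repr x]
    rw [map_sum, map_sum, ← Finset.sum_sub_distrib]
    refine Finset.sum_congr rfl fun i _ => ?_
    rw [C.leib, map_smul, hA, add_sub_cancel_right]
  refine ⟨(2 : K)⁻¹ • (A - A'), ?_, ?_⟩
  · intro x y
    simp only [LinearMap.smul_apply, LinearMap.sub_apply, map_smul, map_sub, smul_eq_mul, hA',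
      hA'']
    ring
  · intro w hw a x hx
    have h1 : C.nab x - A x ∈ Fil f w a := by
      rw [hnab]
      refine Submodule.sum_mem _ fun i _ => ?_
      by_cases hi : f.repr x i = 0
      · rw [hi, map_zero, zero_smul]; exact Submodule.zero_mem _
      · exact Submodule.smul_mem _ _ (basis_mem_Fil f w (hx i hi))
    have h3 : C.nab x + A' x ∈ Fil f w a := by
      rw [hw]
      intro i hi
      have h4 : B (f i) x = 0 := (hw a x).1 hx i hi
      have h5 := C.compat (f i) x
      rw [h4, map_zero] at h5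
      rw [map_add, ← hA', hA, add_comm]
      exact h5.symm
    have h6 : C.nab x - ((2 : K)⁻¹ • (A - A')) x
        = (2 : K)⁻¹ • ((C.nab x - A x) + (C.nab x + A' x)) := by
      have h7 : C.nab x = (2 : K)⁻¹ • ((2 : K) • C.nab x) := by
        rw [smul_smul, inv_mul_cancel₀ h2, one_smul]
      conv_lhs => rw [h7]
      rw [LinearMap.smul_apply, ← smul_sub, LinearMap.sub_apply, two_smul]
      congr 1
      abel
    rw [h6]
    exact Submodule.smul_mem _ _ (Submodule.add_mem _ h1 h3)


/-- **(C2)** -/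
theorem spanning [FiniteDimensional K V] {σ : Type*} [Fintype σ] (F : Submodule K V)
    (Bs : σ → Submodule K V) (htop : ⨆ s, Bs s = ⊤) :
    finrank K V + ∑ s, finrank K (Bs s ⊓ F : Submodule K V)
      ≤ finrank K F + ∑ s, finrank K (Bs s) := by
  classical
  let φ : (∀ s, Bs s) →ₗ[K] (V ⧸ F) := ∑ s, F.mkQ ∘ₗ (Bs s).subtype ∘ₗ LinearMap.proj s
  have hφ : ∀ b, φ b = F.mkQ (∑ s, (b s : V)) := by
    intro b
    simp only [φ, LinearMap.sum_apply, LinearMap.comp_apply, LinearMap.proj_apply,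
      Submodule.subtype_apply, map_sum]
  have hsurj : LinearMap.range φ = ⊤ := by
    rw [eq_top_iff]
    intro y _
    obtain ⟨v, rfl⟩ := F.mkQ_surjective y
    have hv : v ∈ ⨆ s, Bs s := by rw [htop]; trivial
    rw [Submodule.mem_iSup_iff_exists_finsupp] at hv
    obtain ⟨g, hg, hgv⟩ := hv
    refine ⟨fun s => ⟨g s, hg s⟩, ?_⟩
    rw [hφ, ← hgv, Finsupp.sum_fintype _ _ (fun _ => rfl)]
  let j : (∀ s, (Bs s ⊓ F : Submodule K V)) →ₗ[K] (∀ s, Bs s) :=
    LinearMap.pi fun s => (Submodule.inclusion inf_le_left) ∘ₗ LinearMap.proj s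
  have hj : ∀ x s, ((j x s : Bs s) : V) = x s := fun x s => rfl
  have hjker : ∀ x, j x ∈ LinearMap.ker φ := by
    intro x
    rw [LinearMap.mem_ker, hφ]
    simp only [hj]
    rw [Submodule.mkQ_apply, Submodule.Quotient.mk_eq_zero]
    exact Submodule.sum_mem _ fun s _ => (x s).2.2
  have hjinj : Function.Injective (j.codRestrict _ hjker) := by
    intro x y hxy
    have h1 : j x = j y := congrArg Subtype.val hxy
    funext s
    apply Subtype.ext
    have h2 := congrArg (fun b : (∀ s, Bs s) => (b s : V)) h1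
    exact h2
  have h1 := LinearMap.finrank_le_finrank_of_injective hjinj
  have h2 := LinearMap.finrank_range_add_finrank_ker φ
  rw [hsurj, finrank_top] at h2
  have h3 := Submodule.finrank_quotient_add_finrank F
  rw [Module.finrank_pi_fintype] at h1 h2
  omega

/-! ### (C3) rank one operators -/

/-- `ten a b = a ⊗ b : z ↦ B(b,z) a` -/
def ten (B : LinearMap.BilinForm K V) (a b : V) : V →ₗ[K] V := (B b).smulRight a

theorem ten_apply (B : LinearMap.BilinForm K V) (a b z : V) : ten B a b z = B b z • a := rfl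

theorem ten_adj (B : LinearMap.BilinForm K V) (hs : B.IsSymm) (a b x y : V) :
    B (ten B a b x) y = B x (ten B b a y) := by
  rw [ten_apply, ten_apply, map_smul, LinearMap.smul_apply, map_smul, smul_eq_mul, smul_eq_mul,
    hs.eq x b]
  ring






/-- Leibniz rule for `ten` and the connection `D x = nab x - Z x`. -/
theorem conn_ten {B : LinearMap.BilinForm K V} (C : Conn B) {Z : V →ₗ[K] V}
    (hZ : ∀ x y, B (Z x) y = - B x (Z y)) (a b z : V) :
    C.nab (ten B a b z) - Z (ten B a b z)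
      = ten B (C.nab a - Z a) b z + ten B a (C.nab b - Z b) z + ten B a b (C.nab z - Z z) := by
  simp only [ten_apply, C.leib, C.compat, map_smul, map_sub, LinearMap.sub_apply, hZ, smul_sub,
    add_smul, sub_smul, neg_smul]
  abel



end Crest.Agent.R172.NilConn
end

-- ▼ part R172/NilCount5

/-!
# Row 172, node NILC: arms
-/

set_option autoImplicit false
set_option linter.unusedSectionVars false
set_option linter.unusedSimpArgs false
set_option linter.unusedVariables false

namespace Crest.Agent.R172.NilCount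

open Module Crest.Agent.R172.Kempf Crest.Agent.R172.NilPat
open Crest.Agent.R172.NilConn (ten ten_apply)

section Ten

variable {K V : Type*} [Field K] [AddCommGroup V] [Module K V] (B : LinearMap.BilinForm K V)

theorem ten_add_left (a a' b : V) : ten B (a + a') b = ten B a b + ten B a' b := by
  ext z; simp [ten_apply]

theorem ten_add_right (a b b' : V) : ten B a (b + b') = ten B a b + ten B a b' := by
  ext z; simp [ten_apply, add_smul]

theorem ten_smul_left (c : K) (a b : V) : ten B (c • a) b = c • ten B a b := by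
  ext z
  rw [LinearMap.smul_apply, ten_apply, ten_apply, smul_comm]

theorem ten_smul_right (c : K) (a b : V) : ten B a (c • b) = c • ten B a b := by
  ext z; simp [ten_apply, smul_smul]

theorem ten_zero_left (b : V) : ten B 0 b = 0 := by ext z; simp [ten_apply]

theorem ten_zero_right (a : V) : ten B a 0 = 0 := by ext z; simp [ten_apply]

/-- symmetrised -/
noncomputable def sten (a b : V) : V →ₗ[K] V := ten B a b + ten B b a

theorem sten_comm (a b : V) : sten B a b = sten B b a := add_comm _ _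

theorem sten_add_left (a a' b : V) : sten B (a + a') b = sten B a b + sten B a' b := by
  rw [sten, sten, sten, ten_add_left, ten_add_right]; abel

theorem sten_add_right (a b b' : V) : sten B a (b + b') = sten B a b + sten B a b' := by
  rw [sten, sten, sten, ten_add_left, ten_add_right]; abel

theorem sten_smul_left (c : K) (a b : V) : sten B (c • a) b = c • sten B a b := by
  rw [sten, sten, ten_smul_left, ten_smul_right, smul_add]

theorem sten_smul_right (c : K) (a b : V) : sten B a (c • b) = c • sten B a b := by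
  rw [sten, sten, ten_smul_left, ten_smul_right, smul_add]

theorem sten_zero_left (b : V) : sten B 0 b = 0 := by
  rw [sten, ten_zero_left, ten_zero_right, add_zero]

theorem sten_zero_right (b : V) : sten B b 0 = 0 := by
  rw [sten, ten_zero_left, ten_zero_right, add_zero]

theorem sten_mem_Sym (hs : B.IsSymm) (a b : V) : sten B a b ∈ Sym B := by
  intro x y
  simp only [sten, LinearMap.add_apply, ten_apply, map_add, map_smul, LinearMap.smul_apply,
    smul_eq_mul]
  rw [hs.eq x a, hs.eq x b]; ring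

/-- `Y ∘ sten - sten ∘ Y` for skew `Y` -/
theorem skw_sten (hs : B.IsSymm) {Y : V →ₗ[K] V} (hY : Y ∈ Skw B) (a b : V) :
    Y * sten B a b - sten B a b * Y = sten B (Y a) b + sten B a (Y b) := by
  ext z
  change Y (sten B a b z) - sten B a b (Y z) = _
  have h1 : B b (Y z) = - B (Y b) z := by rw [hY b z, neg_neg]
  have h2 : B a (Y z) = - B (Y a) z := by rw [hY a z, neg_neg]
  simp only [sten, LinearMap.add_apply, ten_apply, map_add, map_smul, h1, h2, neg_smul]
  abel

theorem skw_ten (hs : B.IsSymm) {Y : V →ₗ[K] V} (hY : Y ∈ Skw B) (a b : V) :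
    Y * ten B a b - ten B a b * Y = ten B (Y a) b + ten B a (Y b) := by
  ext z
  change Y (ten B a b z) - ten B a b (Y z) = _
  have h1 : B b (Y z) = - B (Y b) z := by rw [hY b z, neg_neg]
  simp only [LinearMap.add_apply, ten_apply, map_add, map_smul, h1, neg_smul]
  abel

end Ten

/-- A configuration of columns. -/
structure Conf {K V : Type*} [Field K] [AddCommGroup V] [Module K V]
    (B : LinearMap.BilinForm K V) (X σ : Type*) where
  arm : X → σ
  ht : X → ℕ
  M : ℕ
  htM : ∀ x, ht x < M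
  v : X → V
  w : X → V
  v0 : σ → V
  c0 : σ → K
  odd : σ → Prop
  even0 : ∀ s, ¬ odd s → v0 s = 0
  c0ne : ∀ s, odd s → c0 s ≠ 0
  vv : ∀ x y, arm x = arm y → B (v x) (v y) = 0
  vw : ∀ x y, arm x = arm y → ht x ≤ ht y → B (v x) (w y) = 0
  v00 : ∀ s, B (v0 s) (v0 s) = 0
  vv0 : ∀ x, B (v x) (v0 (arm x)) = 0

namespace Conf

variable {K V X σ : Type*} [Field K] [AddCommGroup V] [Module K V]
  {B : LinearMap.BilinForm K V} (F : Conf B X σ)

/-- the steps -/
def R (s : σ) (i : ℕ) : Submodule K V := Submodule.span K (F.v '' {x | F.arm x = s ∧ F.ht x < i})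

/-- top step with `v0` -/
def Rp (s : σ) : Submodule K V := F.R s F.M ⊔ Submodule.span K {F.v0 s}

/-- chain -/
noncomputable def ch (s : σ) (i : ℕ) : Submodule K V := if i ≤ F.M then F.R s i else F.Rp s

theorem R_mono (s : σ) {i j : ℕ} (h : i ≤ j) : F.R s i ≤ F.R s j := by
  apply Submodule.span_mono
  rintro _ ⟨x, ⟨h1, h2⟩, rfl⟩
  exact ⟨x, ⟨h1, h2.trans_le h⟩, rfl⟩

theorem R_le (s : σ) (i : ℕ) : F.R s i ≤ F.R s F.M := by
  apply Submodule.span_mono
  rintro _ ⟨x, ⟨h1, h2⟩, rfl⟩
  exact ⟨x, ⟨h1, F.htM x⟩, rfl⟩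

theorem R_zero (s : σ) : F.R s 0 = ⊥ := by
  rw [R, Submodule.span_eq_bot]
  rintro _ ⟨x, ⟨h1, h2⟩, rfl⟩
  exact absurd h2 (Nat.not_lt_zero _)

theorem v_mem (x : X) : F.v x ∈ F.R (F.arm x) (F.ht x + 1) :=
  Submodule.subset_span ⟨x, ⟨rfl, Nat.lt_succ_self _⟩, rfl⟩

theorem v0_mem (s : σ) : F.v0 s ∈ F.Rp s :=
  Submodule.mem_sup_right (Submodule.mem_span_singleton_self _)

theorem R_le_Rp (s : σ) (i : ℕ) : F.R s i ≤ F.Rp s := (F.R_le s i).trans le_sup_left

theorem ch_mono (s : σ) : Monotone (F.ch s) := by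
  intro i j hij
  unfold ch
  by_cases hj : j ≤ F.M
  · rw [if_pos hj, if_pos (hij.trans hj)]; exact F.R_mono s hij
  · rw [if_neg hj]
    by_cases hi : i ≤ F.M
    · rw [if_pos hi]; exact F.R_le_Rp s i
    · rw [if_neg hi]

theorem ch_zero (s : σ) : F.ch s 0 = ⊥ := by
  rw [ch, if_pos (Nat.zero_le _), R_zero]

theorem ch_of_le (s : σ) {i : ℕ} (h : i ≤ F.M) : F.ch s i = F.R s i := if_pos h

theorem ch_top (s : σ) : F.ch s (F.M + 1) = F.Rp s := if_neg (by omega)

theorem R_iso (s : σ) (i : ℕ) : ∀ x ∈ F.R s i, ∀ y ∈ F.R s i, B x y = 0 := by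
  intro x hx y hy
  have h1 : F.R s i ≤ LinearMap.ker (B.flip y) := by
    rw [R, Submodule.span_le]
    rintro _ ⟨z, hz, rfl⟩
    have h2 : F.R s i ≤ LinearMap.ker (B (F.v z)) := by
      rw [R, Submodule.span_le]
      rintro _ ⟨z', hz', rfl⟩
      exact F.vv z z' (hz.1.trans hz'.1.symm)
    exact h2 hy
  exact h1 hx

theorem R_v0 (s : σ) (i : ℕ) : ∀ x ∈ F.R s i, B x (F.v0 s) = 0 := by
  intro x hx
  have h1 : F.R s i ≤ LinearMap.ker (B.flip (F.v0 s)) := by
    rw [R, Submodule.span_le]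
    rintro _ ⟨z, hz, rfl⟩
    have := F.vv0 z
    rw [hz.1] at this
    exact this
  exact h1 hx

theorem Rp_iso (hs : B.IsSymm) (s : σ) : ∀ x ∈ F.Rp s, ∀ y ∈ F.Rp s, B x y = 0 := by
  intro x hx y hy
  obtain ⟨a, ha, b, hb, rfl⟩ := Submodule.mem_sup.mp hx
  obtain ⟨a', ha', b', hb', rfl⟩ := Submodule.mem_sup.mp hy
  obtain ⟨c, rfl⟩ := Submodule.mem_span_singleton.mp hb
  obtain ⟨c', rfl⟩ := Submodule.mem_span_singleton.mp hb'
  have h1 := F.R_iso s F.M a ha a' ha'
  have h2 := F.R_v0 s F.M a ha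
  have h3 := F.R_v0 s F.M a' ha'
  simp only [map_add, LinearMap.add_apply, map_smul, LinearMap.smul_apply, h1, h2, smul_zero,
    hs.eq (F.v0 s) a', h3, F.v00 s, add_zero]

/-- `w_x` is orthogonal to `R (ht x + 1)` -/
theorem R_w (x : X) : ∀ y ∈ F.R (F.arm x) (F.ht x + 1), B y (F.w x) = 0 := by
  intro y hy
  have h1 : F.R (F.arm x) (F.ht x + 1) ≤ LinearMap.ker (B.flip (F.w x)) := by
    rw [R, Submodule.span_le]
    rintro _ ⟨z, hz, rfl⟩
    exact F.vw z x hz.1 (Nat.lt_succ_iff.mp hz.2)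
  exact h1 hy

/-- orthogonal of `R` -/
def Ro (s : σ) (i : ℕ) : Submodule K V where
  carrier := {y | ∀ x ∈ F.R s i, B x y = 0}
  zero_mem' := by intro x _; simp
  add_mem' := by intro a b ha hb x hx; rw [map_add, ha x hx, hb x hx, add_zero]
  smul_mem' := by intro c a ha x hx; rw [map_smul, ha x hx, smul_zero]

theorem mem_Ro {s : σ} {i : ℕ} {y : V} : y ∈ F.Ro s i ↔ ∀ x ∈ F.R s i, B x y = 0 := Iff.rfl

theorem Ro_anti (s : σ) {i j : ℕ} (h : i ≤ j) : F.Ro s j ≤ F.Ro s i :=
  fun _ hy x hx => hy x (F.R_mono s h hx)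

theorem w_mem (x : X) : F.w x ∈ F.Ro (F.arm x) (F.ht x + 1) := F.R_w x

theorem Rp_le_Ro (hs : B.IsSymm) (s : σ) (i : ℕ) : F.Rp s ≤ F.Ro s i :=
  fun _ hy x hx => F.Rp_iso hs s x (F.R_le_Rp s i hx) _ hy

section Maps

variable [Fintype X] [DecidableEq σ]

/-- the operator of the arm `s` -/
noncomputable def Phi (s : σ) : V →ₗ[K] V :=
  (∑ x, if F.arm x = s then sten B (F.v x) (F.w x) else 0) + F.c0 s • ten B (F.v0 s) (F.v0 s)

/-- variations of the columns -/
abbrev Wt (V X σ : Type*) := (X → V) × (X → V) × (σ → V)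

/-- derivative of `Phi` -/
noncomputable def phi (s : σ) : Wt V X σ →ₗ[K] (V →ₗ[K] V) where
  toFun f := (∑ x, if F.arm x = s then sten B (f.1 x) (F.w x) + sten B (F.v x) (f.2.1 x) else 0) +
    F.c0 s • sten B (f.2.2 s) (F.v0 s)
  map_add' f f' := by
    have h : ∀ x, (if F.arm x = s then sten B ((f + f').1 x) (F.w x) +
        sten B (F.v x) ((f + f').2.1 x) else 0) =
        (if F.arm x = s then sten B (f.1 x) (F.w x) + sten B (F.v x) (f.2.1 x) else 0) +
        (if F.arm x = s then sten B (f'.1 x) (F.w x) + sten B (F.v x) (f'.2.1 x) else 0) := by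
      intro x
      by_cases hx : F.arm x = s
      · rw [if_pos hx, if_pos hx, if_pos hx]
        change sten B (f.1 x + f'.1 x) _ + sten B _ (f.2.1 x + f'.2.1 x) = _
        rw [sten_add_left, sten_add_right]; abel
      · rw [if_neg hx, if_neg hx, if_neg hx, add_zero]
    simp only [h, Finset.sum_add_distrib]
    change _ + F.c0 s • sten B (f.2.2 s + f'.2.2 s) _ = _
    rw [sten_add_left, smul_add]; abel
  map_smul' c f := by
    have h : ∀ x, (if F.arm x = s then sten B ((c • f).1 x) (F.w x) +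
        sten B (F.v x) ((c • f).2.1 x) else 0) =
        c • (if F.arm x = s then sten B (f.1 x) (F.w x) + sten B (F.v x) (f.2.1 x) else 0) := by
      intro x
      by_cases hx : F.arm x = s
      · rw [if_pos hx, if_pos hx]
        change sten B (c • f.1 x) _ + sten B _ (c • f.2.1 x) = _
        rw [sten_smul_left, sten_smul_right, smul_add]
      · rw [if_neg hx, if_neg hx, smul_zero]
    simp only [h, ← Finset.smul_sum]
    change _ + F.c0 s • sten B (c • f.2.2 s) _ = _
    rw [sten_smul_left, smul_comm (F.c0 s) c, ← smul_add]; rfl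

theorem phi_apply (s : σ) (f : Wt V X σ) : F.phi s f =
    (∑ x, if F.arm x = s then sten B (f.1 x) (F.w x) + sten B (F.v x) (f.2.1 x) else 0) +
    F.c0 s • sten B (f.2.2 s) (F.v0 s) := rfl

/-- the action of an operator on the columns of the arm `s` -/
noncomputable def act (s : σ) : (V →ₗ[K] V) →ₗ[K] Wt V X σ where
  toFun A := (fun x => if F.arm x = s then A (F.v x) else 0,
    fun x => if F.arm x = s then A (F.w x) else 0,
    fun t => if t = s then A (F.v0 s) else 0)
  map_add' A A' := by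
    refine Prod.ext (funext fun x => ?_) (Prod.ext (funext fun x => ?_) (funext fun t => ?_))
    · simp only [Prod.fst_add, Prod.snd_add, Pi.add_apply]
      split_ifs <;> simp
    · simp only [Prod.fst_add, Prod.snd_add, Pi.add_apply]
      split_ifs <;> simp
    · simp only [Prod.fst_add, Prod.snd_add, Pi.add_apply]
      split_ifs <;> simp
  map_smul' c A := by
    refine Prod.ext (funext fun x => ?_) (Prod.ext (funext fun x => ?_) (funext fun t => ?_))
    · simp only [Prod.smul_fst, Prod.smul_snd, Pi.smul_apply, RingHom.id_apply]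
      split_ifs <;> simp
    · simp only [Prod.smul_fst, Prod.smul_snd, Pi.smul_apply, RingHom.id_apply]
      split_ifs <;> simp
    · simp only [Prod.smul_fst, Prod.smul_snd, Pi.smul_apply, RingHom.id_apply]
      split_ifs <;> simp

theorem act_apply (s : σ) (A : V →ₗ[K] V) : F.act s A =
    (fun x => if F.arm x = s then A (F.v x) else 0,
      fun x => if F.arm x = s then A (F.w x) else 0,
      fun t => if t = s then A (F.v0 s) else 0) := rfl

/-- allowed variations -/
def Nn (s : σ) : Submodule K (Wt V X σ) where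
  carrier := {f | (∀ x, F.arm x = s → f.1 x ∈ F.R s (F.ht x + 1)) ∧
    (∀ x, F.arm x ≠ s → f.1 x = 0) ∧
    (∀ x, F.arm x = s → f.2.1 x ∈ F.Ro s (F.ht x + 1)) ∧
    (∀ x, F.arm x ≠ s → f.2.1 x = 0) ∧
    (F.odd s → f.2.2 s ∈ F.Rp s) ∧ (¬ F.odd s → f.2.2 s = 0) ∧
    (∀ t, t ≠ s → f.2.2 t = 0)}
  zero_mem' := ⟨fun _ _ => Submodule.zero_mem _, fun _ _ => rfl, fun _ _ => Submodule.zero_mem _,
    fun _ _ => rfl, fun _ => Submodule.zero_mem _, fun _ => rfl, fun _ _ => rfl⟩
  add_mem' := by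
    rintro f f' ⟨h1, h2, h3, h4, h5, h6, h7⟩ ⟨h1', h2', h3', h4', h5', h6', h7'⟩
    refine ⟨fun x hx => Submodule.add_mem _ (h1 x hx) (h1' x hx), fun x hx => ?_,
      fun x hx => Submodule.add_mem _ (h3 x hx) (h3' x hx), fun x hx => ?_,
      fun hx => Submodule.add_mem _ (h5 hx) (h5' hx), fun hx => ?_, fun t ht => ?_⟩
    · change f.1 x + f'.1 x = 0; rw [h2 x hx, h2' x hx, add_zero]
    · change f.2.1 x + f'.2.1 x = 0; rw [h4 x hx, h4' x hx, add_zero]
    · change f.2.2 s + f'.2.2 s = 0; rw [h6 hx, h6' hx, add_zero]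
    · change f.2.2 t + f'.2.2 t = 0; rw [h7 t ht, h7' t ht, add_zero]
  smul_mem' := by
    rintro c f ⟨h1, h2, h3, h4, h5, h6, h7⟩
    refine ⟨fun x hx => Submodule.smul_mem _ c (h1 x hx), fun x hx => ?_,
      fun x hx => Submodule.smul_mem _ c (h3 x hx), fun x hx => ?_,
      fun hx => Submodule.smul_mem _ c (h5 hx), fun hx => ?_, fun t ht => ?_⟩
    · change c • f.1 x = 0; rw [h2 x hx, smul_zero]
    · change c • f.2.1 x = 0; rw [h4 x hx, smul_zero]
    · change c • f.2.2 s = 0; rw [h6 hx, smul_zero]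
    · change c • f.2.2 t = 0; rw [h7 t ht, smul_zero]


theorem Phi_mem_Sym (hs : B.IsSymm) (s : σ) : F.Phi s ∈ Sym B := by
  refine (Sym B).add_mem ((Sym B).sum_mem fun x _ => ?_) ((Sym B).smul_mem _ ?_)
  · split_ifs
    · exact sten_mem_Sym B hs _ _
    · exact (Sym B).zero_mem
  · intro x y
    rw [NilConn.ten_adj B hs]

theorem phi_mem_Sym (hs : B.IsSymm) (s : σ) (f : Wt V X σ) : F.phi s f ∈ Sym B := by
  refine (Sym B).add_mem ((Sym B).sum_mem fun x _ => ?_) ((Sym B).smul_mem _ ?_)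
  · split_ifs
    · exact (Sym B).add_mem (sten_mem_Sym B hs _ _) (sten_mem_Sym B hs _ _)
    · exact (Sym B).zero_mem
  · exact sten_mem_Sym B hs _ _

/-- bracket with a skew operator -/
theorem phi_act (hs : B.IsSymm) (s : σ) {Y : V →ₗ[K] V} (hY : Y ∈ Skw B) :
    F.phi s (F.act s Y) = Y * F.Phi s - F.Phi s * Y := by
  rw [phi_apply, act_apply, Phi, mul_add, add_mul, Finset.mul_sum, Finset.sum_mul]
  have h1 : ∀ x, (if F.arm x = s then sten B ((fun x => if F.arm x = s then Y (F.v x) else 0) x)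
      (F.w x) + sten B (F.v x) ((fun x => if F.arm x = s then Y (F.w x) else 0) x) else 0) =
      Y * (if F.arm x = s then sten B (F.v x) (F.w x) else 0) -
      (if F.arm x = s then sten B (F.v x) (F.w x) else 0) * Y := by
    intro x
    by_cases hx : F.arm x = s
    · simp only [if_pos hx]
      exact (skw_sten B hs hY _ _).symm
    · simp only [if_neg hx, mul_zero, zero_mul, sub_zero]
  have h2 : sten B ((fun t => if t = s then Y (F.v0 s) else 0) s) (F.v0 s) =
      Y * ten B (F.v0 s) (F.v0 s) - ten B (F.v0 s) (F.v0 s) * Y := by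
    simp only [if_pos]
    rw [skw_ten B hs hY, sten]
  change _ + F.c0 s • sten B ((fun t => if t = s then Y (F.v0 s) else 0) s) (F.v0 s) = _
  rw [h2]
  simp only [h1, Finset.sum_sub_distrib, mul_smul_comm, smul_mul_assoc, smul_sub]
  abel

/-- `T` contains the values of all connections and skew operators, and the configuration. -/
structure Closed (T : Submodule K (Wt V X σ)) : Prop where
  conn : ∀ C : NilLower.Conn B, ((fun x => C.nab (F.v x), fun x => C.nab (F.w x),
    fun s => C.nab (F.v0 s)) : Wt V X σ) ∈ T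
  skew : ∀ Z : V →ₗ[K] V, (∀ x y, B (Z x) y = - B x (Z y)) →
    ((fun x => Z (F.v x), fun x => Z (F.w x), fun s => Z (F.v0 s)) : Wt V X σ) ∈ T
  self : ((F.v, F.w, F.v0) : Wt V X σ) ∈ T

end Maps

end Conf

end Crest.Agent.R172.NilCount
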