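import Crest.Agent.R172.QBlk

/-!
Row 172 (S0260): quotients of the perfect modules of `QBlk` by a submodule killed by the operators,
with the full list of the hypotheses of the span lemmas, and the lift of exact families.
-/

set_option autoImplicit false
set_option linter.unusedSectionVars false

namespace Crest.Agent.R172.QBlk

open Module LinearMap TensorProduct
open Crest.Agent.R172.St (T Nk mem_T T_stable T_closed mem_Nk_succ mem_Nk_zero Nk_le_T T_eq_Nk
  Nk_mono Nk_le_succ)
open Crest.Agent.R172.Mix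

variable {K : Type*} [Field K]

/-- one side of the hypotheses of `RJ.main` -/
structure PSide {P : Type*} [AddCommGroup P] [Module K P] (A : Fin 3 → End K P)
    (R : Submodule K P) (l : Fin 3 → ℕ) : Prop where
  top : ⨆ t, range (A t) = ⊤
  stable : ∀ t, ∀ r ∈ R, A t r ∈ R
  kills : ∃ m, ∀ w : List (Fin 3), w.length = m → ∀ r ∈ R, (w.map A).prod r = 0
  one_le : ∀ s, 1 ≤ l s
  pow : ∀ s p, (A s ^ l s) p ∈ R
  gen : ∀ S : Submodule K P, (∀ t, ∀ v ∈ S, A t v ∈ S) → (∀ s p, (A s ^ l s) p ∈ S) → R ≤ S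
  pow_not : ∀ s, ∃ p, (A s ^ (l s - 1)) p ∉ R
  two : ∀ t u, t ≠ u → ∃ x y, A t x + A u y ∈ R ∧ A t x ∉ R

/-- longer words kill, too -/
theorem PSide.kills_le {P : Type*} [AddCommGroup P] [Module K P] {A : Fin 3 → End K P}
    {R : Submodule K P} {l : Fin 3 → ℕ} (h : PSide A R l) :
    ∃ m, ∀ m', m ≤ m' → ∀ w : List (Fin 3), w.length = m' → ∀ r ∈ R, (w.map A).prod r = 0 := by
  obtain ⟨m, hm⟩ := h.kills
  refine ⟨m, fun m' hm' w hw r hr => ?_⟩
  obtain ⟨w1, w2, rfl, hw2⟩ : ∃ w1 w2 : List (Fin 3), w = w1 ++ w2 ∧ w2.length = m :=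
    ⟨w.take (w.length - m), w.drop (w.length - m), (List.take_append_drop _ _).symm, by
      rw [List.length_drop]; omega⟩
  rw [List.map_append, List.prod_append, Module.End.mul_apply, hm w2 hw2 r hr, map_zero]

theorem PSide.of_core {X : Type*} [AddCommGroup X] [Module K X] [FiniteDimensional K X]
    {a : Fin 3 → End K X} {l : Fin 3 → ℕ} (hsum : ∀ v, ∑ s, a s v = 0)
    (hl1 : ∀ s, 1 ≤ l s) (hnil : ∀ s j, ac a s ^ j = 0 ↔ l s ≤ j)
    (hfree : ∀ s, l s * finrank K (ker (ac a s)) = finrank K (Cor a))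
    (hS2 : ∑ s, (1 - 1 / (l s : ℚ)) = 2) (hpos : 0 < finrank K (Cor a)) :
    PSide (ap a) (TP a) l where
  top := ap_top a
  stable := fun t r hr => TP_stable t hr
  kills := by
    obtain ⟨n, hn⟩ := TP_kills a
    exact ⟨n, fun w hw r hr => hn r hr w hw⟩
  one_le := hl1
  pow := fun s p => pow_mem_TP ((hnil s _).2 le_rfl) p
  gen := fun S h1 h2 => Crest.Agent.R172.QBlk.gen hsum hl1 (fun s => (hnil s _).2 le_rfl) hfree hS2 S h2 h1
  pow_not := fun s => exists_pow_notMem (fun h => by
    have := (hnil s _).1 h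
    have := hl1 s
    omega)
  two := fun t u htu => two_arm hl1 hfree hS2 hpos htu

section quot

variable {P : Type*} [AddCommGroup P] [Module K P] {A : Fin 3 → End K P} {R : Submodule K P}
  {l : Fin 3 → ℕ} {Y : Submodule K P}

/-- the operators on the quotient -/
def Aq (A : Fin 3 → End K P) (Y : Submodule K P) (hY : ∀ t, ∀ y ∈ Y, A t y ∈ Y) (t : Fin 3) :
    End K (P ⧸ Y) :=
  Y.mapQ Y (A t) (fun y hy => hY t y hy)

theorem Aq_mk {hY : ∀ t, ∀ y ∈ Y, A t y ∈ Y} (t : Fin 3) (p : P) :
    Aq A Y hY t (Submodule.Quotient.mk p) = Submodule.Quotient.mk (A t p) := rfl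

theorem Aq_pow_mk {hY : ∀ t, ∀ y ∈ Y, A t y ∈ Y} (t : Fin 3) (k : ℕ) (p : P) :
    (Aq A Y hY t ^ k) (Submodule.Quotient.mk p) = Submodule.Quotient.mk ((A t ^ k) p) := by
  induction k with
  | zero => rfl
  | succ k ih => rw [pow_succ', Module.End.mul_apply, ih, Aq_mk, pow_succ', Module.End.mul_apply]

theorem Aq_words_mk {hY : ∀ t, ∀ y ∈ Y, A t y ∈ Y} (w : List (Fin 3)) (p : P) :
    (w.map (Aq A Y hY)).prod (Submodule.Quotient.mk p)
      = Submodule.Quotient.mk ((w.map A).prod p) := by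
  induction w with
  | nil => simp
  | cons s w ih =>
    rw [List.map_cons, List.prod_cons, Module.End.mul_apply, ih, Aq_mk, List.map_cons,
      List.prod_cons, Module.End.mul_apply]

theorem mk_mem_map (hYR : Y ≤ R) (p : P) :
    (Submodule.Quotient.mk p : P ⧸ Y) ∈ R.map Y.mkQ ↔ p ∈ R := by
  constructor
  · rintro ⟨r, hr, h⟩
    have h1 : p - r ∈ Y := by
      have h2 : (Submodule.Quotient.mk r : P ⧸ Y) = Submodule.Quotient.mk p := h
      exact (Submodule.Quotient.eq Y).1 h2.symm
    have := R.add_mem (hYR h1) hr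
    rwa [sub_add_cancel] at this
  · intro h
    exact ⟨p, h, rfl⟩

theorem PSide.quot (h : PSide A R l) (hYR : Y ≤ R) (hY : ∀ t, ∀ y ∈ Y, A t y ∈ Y) :
    PSide (Aq A Y hY) (R.map Y.mkQ) l where
  top := by
    rw [eq_top_iff]
    rintro v -
    induction v using Submodule.Quotient.induction_on with
    | _ p =>
      have h1 : p ∈ ⨆ t, range (A t) := by rw [h.top]; trivial
      have h2 : ⨆ t, range (A t) ≤ (⨆ t, range (Aq A Y hY t)).comap Y.mkQ := by
        refine iSup_le fun t => ?_
        rintro _ ⟨q, rfl⟩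
        exact Submodule.mem_iSup_of_mem t ⟨Submodule.Quotient.mk q, rfl⟩
      exact h2 h1
  stable := by
    intro t r hr
    induction r using Submodule.Quotient.induction_on with
    | _ p =>
      rw [mk_mem_map hYR] at hr
      rw [Aq_mk, mk_mem_map hYR]
      exact h.stable t p hr
  kills := by
    obtain ⟨m, hm⟩ := h.kills
    refine ⟨m, fun w hw r hr => ?_⟩
    induction r using Submodule.Quotient.induction_on with
    | _ p =>
      rw [mk_mem_map hYR] at hr
      rw [Aq_words_mk, hm w hw p hr]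
      rfl
  one_le := h.one_le
  pow := by
    intro s p
    induction p using Submodule.Quotient.induction_on with
    | _ p =>
      rw [Aq_pow_mk, mk_mem_map hYR]
      exact h.pow s p
  gen := by
    intro S hS hp
    rintro _ ⟨r, hr, rfl⟩
    have h1 := h.gen (S.comap Y.mkQ) (fun t v hv => hS t _ hv) (fun s p => by
      have := hp s (Submodule.Quotient.mk p)
      rw [Aq_pow_mk] at this
      exact this)
    exact h1 hr
  pow_not := by
    intro s
    obtain ⟨p, hp⟩ := h.pow_not s
    refine ⟨Submodule.Quotient.mk p, ?_⟩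
    rw [Aq_pow_mk, mk_mem_map hYR]
    exact hp
  two := by
    intro t u htu
    obtain ⟨x, y, h1, h2⟩ := h.two t u htu
    refine ⟨Submodule.Quotient.mk x, Submodule.Quotient.mk y, ?_, ?_⟩
    · rw [Aq_mk, Aq_mk]
      exact (mk_mem_map hYR _).2 h1
    · rw [Aq_mk, mk_mem_map hYR]
      exact h2

end quot

section lift

variable {P1 P2 : Type*} [AddCommGroup P1] [Module K P1] [AddCommGroup P2] [Module K P2]
  {A : Fin 3 → End K P1} {B : Fin 3 → End K P2} {Y1 : Submodule K P1} {Y2 : Submodule K P2}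

/-- sum form of perfectness -/
theorem exists_sum_of_top {P : Type*} [AddCommGroup P] [Module K P] {A : Fin 3 → End K P}
    (h : ⨆ t, range (A t) = ⊤) (p : P) : ∃ f : Fin 3 → P, p = ∑ t, A t (f t) := by
  classical
  have hp : p ∈ ⨆ s, range (A s) := by rw [h]; trivial
  induction hp using Submodule.iSup_induction' with
  | mem s x hx =>
    obtain ⟨w, rfl⟩ := hx
    refine ⟨Pi.single s w, ?_⟩
    rw [Finset.sum_eq_single s]
    · rw [Pi.single_eq_same]
    · intro t _ ht
      rw [Pi.single_eq_of_ne ht, map_zero]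
    · intro hh
      exact absurd (Finset.mem_univ _) hh
  | zero => exact ⟨0, by simp⟩
  | add x y _ _ hx hy =>
    obtain ⟨f, hf⟩ := hx
    obtain ⟨g, hg⟩ := hy
    refine ⟨fun t => f t + g t, ?_⟩
    simp only [map_add, Finset.sum_add_distrib]
    rw [← hf, ← hg]


end lift

end Crest.Agent.R172.QBlk
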