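import Crest.Agent.R172.QCore
import Crest.Agent.R172.QBlk

/-!
Row 172 (S0260), node Q-Core, part 3 (helper28), abstract: values of intertwiners on perfect
modules (corrections modulo the radicals), for generic twist; the packaged data `QC.Pair`.
-/

set_option autoImplicit false
set_option linter.unusedSectionVars false
set_option linter.unusedFintypeInType false
set_option linter.unusedDecidableInType false

namespace Crest.Agent.R172.QC

open Module
open Crest.Agent.R172.St (T Nk mem_T T_stable T_closed mem_Nk_succ mem_Nk_zero Nk_le_T T_eq_Nk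
  Nk_mono Nk_le_succ)
open Crest.Agent.R172.Mix
open Crest.Agent.R172.Core (InterAll)

section values

variable {K : Type*} [Field K] {X : Type*} [AddCommGroup X] [Module K X] {ι : Type*}
variable {P : Type*} [AddCommGroup P] [Module K P] {Y : Type*} [AddCommGroup Y] [Module K Y]







end values

section pair

variable {K : Type*} [Field K] {X : Type*} [AddCommGroup X] [Module K X]
  {S : Type*} [AddCommGroup S] [Module K S]

/-- the packaged data of the mixed tame pair: `(X, a)` orthogonal, `(S, Φ)` symplectic -/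
structure Pair (a : Fin 3 → End K X) (wa : X →ₗ[K] X →ₗ[K] K)
    (Φ : Fin 3 → End K S) (wb : S →ₗ[K] S →ₗ[K] K) (l : Fin 3 → ℕ) : Prop where
  sideA : Side a wa 1 1
  sideB : Side Φ wb (-1) (-1)
  sumA : ∀ v, ∑ s, a s v = 0
  sumB : ∀ v, ∑ s, Φ s v = 0
  posA : 0 < finrank K (Cor a)
  posB : 0 < finrank K (Cor Φ)
  l1 : ∀ s, 1 ≤ l s
  powA : ∀ s j, ac a s ^ j = 0 ↔ l s ≤ j
  powB : ∀ s j, ac Φ s ^ j = 0 ↔ l s ≤ j
  freeA : ∀ s, l s * finrank K (LinearMap.ker (ac a s)) = finrank K (Cor a)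
  freeB : ∀ s, l s * finrank K (LinearMap.ker (ac Φ s)) = finrank K (Cor Φ)
  S2 : ∑ s, (1 - 1 / (l s : ℚ)) = 2
  inter : InterAll (ac a) (ac Φ) = ⊥

variable {a : Fin 3 → End K X} {wa : X →ₗ[K] X →ₗ[K] K}
  {Φ : Fin 3 → End K S} {wb : S →ₗ[K] S →ₗ[K] K} {l : Fin 3 → ℕ}

theorem exists_pair (hA : Side a wa 1 1) (hB : Side Φ wb (-1) (-1))
    (sumA : ∀ v, ∑ s, a s v = 0) (sumB : ∀ v, ∑ s, Φ s v = 0)
    (posA : 0 < finrank K (Cor a)) (posB : 0 < finrank K (Cor Φ))
    (hT : TameData (ac a) (ac Φ)) : ∃ l, Pair a wa Φ wb l := by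
  obtain ⟨h1, l, h2, h3, h4, h5, h6, h7⟩ := hT
  exact ⟨l, hA, hB, sumA, sumB, posA, posB, h2, h3, h4, h5, h6, h7, h1⟩

namespace Pair

variable (h : Pair a wa Φ wb l)

include h

theorem nilA (s : Fin 3) : ac a s ^ l s = 0 := (h.powA s _).2 le_rfl

theorem nilB (s : Fin 3) : ac Φ s ^ l s = 0 := (h.powB s _).2 le_rfl



/-- `l s ≥ 2` -/
theorem l2 (s : Fin 3) : 2 ≤ l s := by
  by_contra hcon
  have h1 : l s = 1 := by have := h.l1 s; omega
  have h2 := h.S2
  have hle : ∀ t, (1 - 1 / (l t : ℚ)) < 1 := by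
    intro t
    have : (0 : ℚ) < l t := by exact_mod_cast h.l1 t
    have : (0 : ℚ) < 1 / (l t : ℚ) := by positivity
    linarith
  have hs : (1 - 1 / (l s : ℚ)) = 0 := by rw [h1]; norm_num
  rw [Fin.sum_univ_three] at h2
  have a0 := hle 0
  have a1 := hle 1
  have a2 := hle 2
  fin_cases s
  · simp only [Fin.zero_eta] at hs; linarith
  · simp only [Fin.mk_one] at hs; linarith
  · have hs' : (1 - 1 / (l 2 : ℚ)) = 0 := hs
    linarith

theorem Cor_symmA (x y : Pinf a) : Pform a wa x y = Pform a wa y x := by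
  rw [Pform_apply, Pform_apply, h.sideA.symm, one_mul]

theorem Cor_symmB (x y : Pinf Φ) : Pform Φ wb x y = - Pform Φ wb y x := by
  rw [Pform_apply, Pform_apply, h.sideB.symm, neg_one_mul]

theorem radA [FiniteDimensional K X] (x : Pinf a) : x ∈ TP a ↔ ∀ y, Pform a wa x y = 0 :=
  h.sideA.mem_TP_iff

theorem radB [FiniteDimensional K S] (x : Pinf Φ) : x ∈ TP Φ ↔ ∀ y, Pform Φ wb x y = 0 :=
  h.sideB.mem_TP_iff

theorem adjA (s : Fin 3) (x y : Pinf a) :
    Pform a wa (QBlk.ap a s x) y = Pform a wa x (QBlk.ap a s y) := by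
  rw [Pform_apply, Pform_apply, QBlk.ap_coe, QBlk.ap_coe, h.sideA.adj, one_mul]

theorem adjB (s : Fin 3) (x y : Pinf Φ) :
    Pform Φ wb (QBlk.ap Φ s x) y = - Pform Φ wb x (QBlk.ap Φ s y) := by
  rw [Pform_apply, Pform_apply, QBlk.ap_coe, QBlk.ap_coe, h.sideB.adj, neg_one_mul]

theorem apsumA (v : Pinf a) : ∑ s, QBlk.ap a s v = 0 := by
  apply Subtype.ext
  rw [Submodule.coe_sum]
  exact h.sumA v

theorem apsumB (v : Pinf Φ) : ∑ s, QBlk.ap Φ s v = 0 := by
  apply Subtype.ext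
  rw [Submodule.coe_sum]
  exact h.sumB v










end Pair

end pair

end Crest.Agent.R172.QC
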