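import Crest.Agent.R172.TameEnd2
import Crest.Agent.R172.TameCount4
import Crest.Agent.R172.TameCount5
import Crest.Agent.R172.TL1

-- ▼ part R172/TameEnd3
section

/-!
Row 172, ending of the tame case, part 3: three flags of type `(m, 2m, 3m)`, `m ≥ 2`, in ARBITRARY
position have a common non-scalar endomorphism.
-/

set_option autoImplicit false

namespace Crest.Agent.R172.TE

open Module LinearMap

variable {K : Type*} [Field K]
variable {V : Type*} [AddCommGroup V] [Module K V]

/-- endomorphisms preserving a flag -/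
def stab (P P' : Submodule K V) : Submodule K (End K V) where
  carrier := {B | (∀ x ∈ P, B x ∈ P) ∧ ∀ x ∈ P', B x ∈ P'}
  add_mem' := by
    rintro a b ⟨ha, ha'⟩ ⟨hb, hb'⟩
    exact ⟨fun x hx => P.add_mem (ha x hx) (hb x hx), fun x hx => P'.add_mem (ha' x hx) (hb' x hx)⟩
  zero_mem' := ⟨fun x _ => P.zero_mem, fun x _ => P'.zero_mem⟩
  smul_mem' := by
    rintro c a ⟨ha, ha'⟩
    exact ⟨fun x hx => P.smul_mem c (ha x hx), fun x hx => P'.smul_mem c (ha' x hx)⟩

variable [FiniteDimensional K V]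


end Crest.Agent.R172.TE
end

-- ▼ part R172/SpCount
section

/-!
Row 172 (S0260), ending of the mixed tame case `(3,3,3)` on the symplectic side: Higgs count.
-/

set_option autoImplicit false
set_option linter.unusedSectionVars false

namespace Crest.Agent.R172.SPC

open Module LinearMap

variable {K : Type*} [Field K]
variable {V : Type*} [AddCommGroup V] [Module K V]

/-- the operators `X` with `w (X x) y = - w x (X y)` -/
def Sp (w : LinearMap.BilinForm K V) : Submodule K (End K V) where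
  carrier := {X | ∀ x y, w (X x) y = - w x (X y)}
  add_mem' := by
    intro a b ha hb v u
    rw [LinearMap.add_apply, LinearMap.add_apply, map_add, map_add, LinearMap.add_apply, ha, hb]
    ring
  zero_mem' := by intro v u; simp
  smul_mem' := by
    intro c a ha v u
    rw [LinearMap.smul_apply, LinearMap.smul_apply, map_smul, map_smul, LinearMap.smul_apply, ha]
    simp

variable {w : LinearMap.BilinForm K V}

theorem Sp.swap (hs : ∀ x y, w x y = - w y x) {X : End K V} (h : X ∈ Sp w) (x y : V) :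
    w (X x) y = w (X y) x := by
  rw [hs (X y) x]; exact h x y

/-- the operator of `a ⊗ b + b ⊗ a` -/
noncomputable def op (w : LinearMap.BilinForm K V) (a b : V) : End K V :=
  LinearMap.smulRight (w a) b + LinearMap.smulRight (w b) a

theorem op_apply (a b v : V) : op w a b v = w a v • b + w b v • a := rfl

theorem op_mem (hs : ∀ x y, w x y = - w y x) (a b : V) : op w a b ∈ Sp w := by
  intro x y
  rw [op_apply, op_apply, map_add, map_smul, map_smul, map_add, map_smul, map_smul,
    LinearMap.add_apply, LinearMap.smul_apply, LinearMap.smul_apply, hs x a, hs x b]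
  simp only [smul_eq_mul]
  ring

theorem op_form (a b x y : V) : w (op w a b x) y = w a x * w b y + w b x * w a y := by
  rw [op_apply, map_add, map_smul, map_smul, LinearMap.add_apply, LinearMap.smul_apply,
    LinearMap.smul_apply]
  simp only [smul_eq_mul]

section FD

variable [FiniteDimensional K V]

theorem trace_op (hs : ∀ x y, w x y = - w y x) {R : End K V} (hR : R ∈ Sp w) (a b : V) :
    trace K V (R * op w a b) = 2 * w a (R b) := by
  have h1 : R * op w a b = LinearMap.smulRight (w a) (R b) + LinearMap.smulRight (w b) (R a) := by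
    ext v
    rw [Module.End.mul_apply, op_apply, map_add, map_smul, map_smul]
    rfl
  rw [h1, map_add, trace_smulRight, trace_smulRight]
  have h2 : w b (R a) = w a (R b) := by
    rw [hs b (R a), hR a b]
    ring
  rw [h2]
  ring

/-- nondegeneracy of the trace form on `sp` -/
theorem eq_zero_of_trace [CharZero K] (hs : ∀ x y, w x y = - w y x)
    (hn : ∀ x, (∀ y, w x y = 0) → x = 0) {R : End K V} (hR : R ∈ Sp w)
    (h : ∀ Y ∈ Sp w, trace K V (R * Y) = 0) : R = 0 := by
  ext b
  rw [LinearMap.zero_apply]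
  refine hn _ fun a => ?_
  have h1 := h _ (op_mem hs a b)
  rw [trace_op hs hR] at h1
  have h2 : w a (R b) = 0 := by simpa using h1
  rw [hs (R b) a, h2, neg_zero]

theorem w_surj (hn : ∀ x, (∀ y, w x y = 0) → x = 0) (f : Module.Dual K V) : ∃ a, w a = f := by
  have hinj : Function.Injective (w : V →ₗ[K] V →ₗ[K] K) := by
    rw [← LinearMap.ker_eq_bot, LinearMap.ker_eq_bot']
    intro x hx
    refine hn x fun y => ?_
    rw [hx]; rfl
  have hsurj := (LinearMap.injective_iff_surjective_of_finrank_eq_finrank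
    (f := (w : V →ₗ[K] Module.Dual K V)) (by rw [Subspace.dual_finrank_eq])).1 hinj
  exact hsurj f

theorem finrank_Sp [CharZero K] (hs : ∀ x y, w x y = - w y x)
    (hn : ∀ x, (∀ y, w x y = 0) → x = 0) {α : Type*} [Fintype α] [LinearOrder α]
    (e : Basis α K V) : Fintype.card {p : α × α // p.1 ≤ p.2} ≤ finrank K (Sp w) := by
  classical
  choose d hd using fun i : α => w_surj hn (e.coord i)
  let L : ({p : α × α // p.1 ≤ p.2} → K) →ₗ[K] Sp w :=
    { toFun := fun c => ∑ p, c p • ⟨op w (d p.1.1) (d p.1.2), op_mem hs _ _⟩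
      map_add' := by
        intro c c'
        simp only [Pi.add_apply, add_smul, Finset.sum_add_distrib]
      map_smul' := by
        intro a c
        simp only [Pi.smul_apply, smul_eq_mul, RingHom.id_apply, Finset.smul_sum, mul_smul] }
  have hL : ∀ c x y, w (((L c : Sp w) : End K V) x) y =
      ∑ p, c p * (e.coord p.1.1 x * e.coord p.1.2 y + e.coord p.1.2 x * e.coord p.1.1 y) := by
    intro c x y
    change w (((∑ p, c p • ⟨op w (d p.1.1) (d p.1.2), op_mem hs _ _⟩ : Sp w) :
      End K V) x) y = _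
    simp only [Submodule.coe_sum, Submodule.coe_smul, LinearMap.sum_apply, LinearMap.smul_apply,
      map_sum, map_smul, smul_eq_mul, op_form, hd]
  have hinj : Function.Injective L := by
    rw [← LinearMap.ker_eq_bot, LinearMap.ker_eq_bot']
    intro c hc
    funext p
    have h1 := hL c (e p.1.1) (e p.1.2)
    rw [hc] at h1
    rw [Finset.sum_eq_single p] at h1
    · simp only [Basis.coord_apply, Basis.repr_self, Finsupp.single_eq_same] at h1
      rcases eq_or_lt_of_le p.2 with h | h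
      · have h1' : (0 : K) = c p * (1 + 1) := by
          simpa [Finsupp.single_apply, h] using h1
        have h2 : (2 : K) * c p = 0 := by linear_combination -h1'
        simpa using h2
      · rw [Finsupp.single_apply, if_neg (ne_of_lt h)] at h1
        simpa using h1.symm
    · intro q _ hq
      simp only [Basis.coord_apply, Basis.repr_self, Finsupp.single_apply]
      have : ¬ (p.1.1 = q.1.1 ∧ p.1.2 = q.1.2) := by
        rintro ⟨h1, h2⟩
        exact hq (Subtype.ext (Prod.ext h1.symm h2.symm))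
      have h3 : ¬ (p.1.1 = q.1.2 ∧ p.1.2 = q.1.1) := by
        rintro ⟨h1, h2⟩
        have ha := p.2
        have hb := q.2
        rw [h1, h2] at ha
        have hab := le_antisymm ha hb
        exact this ⟨by rw [h1, hab], by rw [h2, ← hab]⟩
      by_cases ha : p.1.1 = q.1.1
      · have hb : p.1.2 ≠ q.1.2 := fun h => this ⟨ha, h⟩
        by_cases hc : p.1.1 = q.1.2
        · have hd : p.1.2 ≠ q.1.1 := fun h => h3 ⟨hc, h⟩
          simp [hb, hd]
        · simp [hb, hc]
      · by_cases hc : p.1.1 = q.1.2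
        · have hd : p.1.2 ≠ q.1.1 := fun h => h3 ⟨hc, h⟩
          simp [ha, hd]
        · simp [ha, hc]
    · intro h
      exact absurd (Finset.mem_univ _) h
  have := LinearMap.finrank_le_finrank_of_injective hinj
  rwa [Module.finrank_fintype_fun_eq_card] at this

theorem card_le_pairs (N : ℕ) :
    2 * Fintype.card {p : Fin N × Fin N // p.1 ≤ p.2} = N * (N + 1) := by
  classical
  rw [Fintype.card_subtype]
  have h2 : (Finset.univ.filter fun p : Fin N × Fin N => p.1 ≤ p.2).card =
      ∑ j : Fin N, (Finset.univ.filter fun i : Fin N => i ≤ j).card := by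
    rw [Finset.card_filter, Fintype.sum_prod_type_right]
    refine Finset.sum_congr rfl fun j _ => ?_
    rw [Finset.card_filter]
  have h3 : ∀ j : Fin N, (Finset.univ.filter fun i : Fin N => i ≤ j).card = (j : ℕ) + 1 := by
    intro j
    have : (Finset.univ.filter fun i : Fin N => i ≤ j) = Finset.Iic j := by
      ext i
      simp
    rw [this, Fin.card_Iic]
  rw [h2]
  simp only [h3]
  rw [Fin.sum_univ_eq_sum_range (fun i => i + 1) N]
  clear h2 h3
  induction N with
  | zero => simp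
  | succ n ih => rw [Finset.sum_range_succ, mul_add, ih]; ring

/-- operators of `sp` with `w (X P) P' = 0` -/
def Sv (w : LinearMap.BilinForm K V) (P P' : Submodule K V) : Submodule K (Sp w) where
  carrier := {X | ∀ x ∈ P, ∀ y ∈ P', w ((X : End K V) x) y = 0}
  add_mem' := by
    rintro a b ha hb x hx y hy
    rw [Submodule.coe_add, LinearMap.add_apply, map_add, LinearMap.add_apply, ha x hx y hy,
      hb x hx y hy, add_zero]
  zero_mem' := fun x _ y _ => by simp
  smul_mem' := by
    rintro c a ha x hx y hy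
    rw [Submodule.coe_smul, LinearMap.smul_apply, map_smul, LinearMap.smul_apply, ha x hx y hy,
      smul_zero]

/-- codimension of `Sv` -/
theorem codim_Sv (hs : ∀ x y, w x y = - w y x) {P P' : Submodule K V} {m : ℕ}
    (hV : finrank K V = 3 * m) (hP : finrank K P = m) (hP' : finrank K P' = 2 * m)
    (hle : P ≤ P') :
    2 * (finrank K (Sp w) - finrank K (Sv w P P')) ≤ 3 * m ^ 2 + m := by
  classical
  obtain ⟨b, hb1, hb2⟩ := TE.exists_adapted hV hP hP' hle
  let T := {p : Fin m × Fin m // p.1 ≤ p.2} ⊕ (Fin m × Fin m)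
  let L : Sp w →ₗ[K] (T → K) :=
    { toFun := fun X t => Sum.elim
        (fun p : {p : Fin m × Fin m // p.1 ≤ p.2} =>
          w ((X : End K V) (b (Sum.inl p.1.1))) (b (Sum.inl p.1.2)))
        (fun p : Fin m × Fin m =>
          w ((X : End K V) (b (Sum.inl p.1))) (b (Sum.inr (Sum.inl p.2)))) t
      map_add' := by
        intro a c
        funext t
        rcases t with t | t <;> simp
      map_smul' := by
        intro a c
        funext t
        rcases t with t | t <;> simp }
  have hker : LinearMap.ker L ≤ Sv w P P' := by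
    intro X hω
    rw [LinearMap.mem_ker] at hω
    have h1 : ∀ i j : Fin m, i ≤ j →
        w ((X : End K V) (b (Sum.inl i))) (b (Sum.inl j)) = 0 := fun i j hij =>
      congrFun hω (Sum.inl ⟨(i, j), hij⟩)
    have h2 : ∀ i j : Fin m,
        w ((X : End K V) (b (Sum.inl i))) (b (Sum.inr (Sum.inl j))) = 0 := fun i j =>
      congrFun hω (Sum.inr (i, j))
    have h3 : ∀ i j : Fin m,
        w ((X : End K V) (b (Sum.inl i))) (b (Sum.inl j)) = 0 := by
      intro i j
      rcases le_total i j with h | h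
      · exact h1 i j h
      · rw [Sp.swap hs X.2, h1 j i h]
    intro x hx y hy
    change w ((X : End K V) x) y = 0
    -- `y`
    have hyb : ∀ i : Fin m, w ((X : End K V) (b (Sum.inl i))) y = 0 := by
      intro i
      rw [hb2] at hy
      obtain ⟨y1, hy1, y2, hy2, rfl⟩ := Submodule.mem_sup.1 hy
      rw [map_add]
      have e1 : w ((X : End K V) (b (Sum.inl i))) y1 = 0 := by
        have hle : Submodule.span K (Set.range fun i => b (Sum.inl i)) ≤
            LinearMap.ker (w ((X : End K V) (b (Sum.inl i)))) := by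
          rw [Submodule.span_le]
          rintro _ ⟨j, rfl⟩
          exact h3 i j
        exact hle hy1
      have e2 : w ((X : End K V) (b (Sum.inl i))) y2 = 0 := by
        have hle : Submodule.span K (Set.range fun i => b (Sum.inr (Sum.inl i))) ≤
            LinearMap.ker (w ((X : End K V) (b (Sum.inl i)))) := by
          rw [Submodule.span_le]
          rintro _ ⟨j, rfl⟩
          exact h2 i j
        exact hle hy2
      rw [e1, e2, add_zero]
    have hle : P ≤ LinearMap.ker (w.flip y ∘ₗ (X : End K V)) := by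
      rw [hb1, Submodule.span_le]
      rintro _ ⟨i, rfl⟩
      exact hyb i
    exact hle hx
  have h1 := LinearMap.finrank_range_add_finrank_ker L
  have h2 : finrank K (LinearMap.range L) ≤ Fintype.card T := by
    have := Submodule.finrank_le (LinearMap.range L)
    rwa [Module.finrank_fintype_fun_eq_card] at this
  have h3 := Submodule.finrank_mono hker
  have h4 : 2 * Fintype.card T = 3 * m ^ 2 + m := by
    have h5 : Fintype.card T = Fintype.card {p : Fin m × Fin m // p.1 ≤ p.2} + m * m := by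
      rw [Fintype.card_sum, Fintype.card_prod, Fintype.card_fin]
    have h6 := card_le_pairs m
    rw [h5, mul_add, h6]
    ring
  omega

/-- relations among vectors of three subspaces -/
theorem rel0 {E : Type*} [AddCommGroup E] [Module K E] [FiniteDimensional K E]
    (D : Fin 3 → Submodule K E)
    {G : Type*} [AddCommGroup G] [Module K G] [FiniteDimensional K G]
    (Λ : Fin 3 → G →ₗ[K] E) (hΛ : ∀ s g, Λ s g ∈ D s)
    (h0 : ∀ g, ∑ s, Λ s g = 0) (hinj : ∀ g, (∀ s, Λ s g = 0) → g = 0) :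
    finrank K G + finrank K (⨆ s, D s : Submodule K E) ≤ ∑ s, finrank K (D s) := by
  classical
  let σ : ((s : Fin 3) → D s) →ₗ[K] E :=
    { toFun := fun c => ∑ s, (c s : E)
      map_add' := by
        intro a b
        simp only [Pi.add_apply, Submodule.coe_add, Finset.sum_add_distrib]
      map_smul' := by
        intro a b
        simp only [Pi.smul_apply, Submodule.coe_smul, RingHom.id_apply, Finset.smul_sum] }
  have h1 := LinearMap.finrank_range_add_finrank_ker σ
  have h2 : finrank K ((s : Fin 3) → D s) = ∑ s, finrank K (D s) :=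
    Module.finrank_pi_fintype (R := K) (M := fun s => D s)
  have h3 : finrank K G ≤ finrank K (LinearMap.ker σ) := by
    let τ : G →ₗ[K] LinearMap.ker σ :=
      { toFun := fun g => ⟨fun s => ⟨Λ s g, hΛ s g⟩, by
          rw [LinearMap.mem_ker]; exact h0 g⟩
        map_add' := by
          intro a b
          apply Subtype.ext
          funext s
          apply Subtype.ext
          simp
        map_smul' := by
          intro a b
          apply Subtype.ext
          funext s
          apply Subtype.ext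
          simp }
    refine LinearMap.finrank_le_finrank_of_injective (f := τ) ?_
    rw [← LinearMap.ker_eq_bot, LinearMap.ker_eq_bot']
    intro g hg
    refine hinj g fun s => ?_
    have := congrFun (congrArg Subtype.val hg) s
    exact congrArg Subtype.val this
  have h4 : (⨆ s, D s : Submodule K E) ≤ LinearMap.range σ := by
    refine iSup_le fun s => ?_
    intro f hf
    refine ⟨Pi.single s ⟨f, hf⟩, ?_⟩
    change ∑ t, ((Pi.single s ⟨f, hf⟩ : (s : Fin 3) → D s) t : E) = f
    rw [Finset.sum_eq_single s]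
    · rw [Pi.single_eq_same]
    · intro t _ ht
      rw [Pi.single_eq_of_ne ht]
      rfl
    · intro h
      exact absurd (Finset.mem_univ _) h
  have h5 := Submodule.finrank_mono h4
  omega

theorem finrank_prod_self {E : Type*} [AddCommGroup E] [Module K E] [FiniteDimensional K E] :
    finrank K (E × K) = finrank K E + 1 := by
  rw [Module.finrank_prod, Module.finrank_self]

/-- relations in a square system -/
theorem rel {F : Type*} [AddCommGroup F] [Module K F] [FiniteDimensional K F]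
    (A : Fin 3 → Submodule K F) (hc : ∑ s, (finrank K F - finrank K (A s)) ≤ finrank K F)
    {G : Type*} [AddCommGroup G] [Module K G] [FiniteDimensional K G]
    (Λ : Fin 3 → G →ₗ[K] Module.Dual K F) (hΛ : ∀ s g, Λ s g ∈ (A s).dualAnnihilator)
    (h0 : ∀ g, ∑ s, Λ s g = 0) (hinj : ∀ g, (∀ s, Λ s g = 0) → g = 0) :
    finrank K G ≤ finrank K (⨅ s, A s : Submodule K F) := by
  have h1 := rel0 (fun s => (A s).dualAnnihilator) Λ hΛ h0 hinj
  have h2 : ∑ s, finrank K ((A s).dualAnnihilator) =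
      ∑ s, (finrank K F - finrank K (A s)) := by
    refine Finset.sum_congr rfl fun s _ => ?_
    have := Subspace.finrank_add_finrank_dualAnnihilator_eq (A s)
    omega
  have h4 := Subspace.dualAnnihilator_iInf_eq A
  have h6 := Subspace.finrank_add_finrank_dualAnnihilator_eq (⨅ s, A s : Submodule K F)
  rw [h4] at h6
  omega

/-- three steps down make a nilpotent -/
theorem trace_zero_of_steps {P P' : Submodule K V} {N : End K V} (h0 : ∀ x, N x ∈ P')
    (h1 : ∀ x ∈ P', N x ∈ P) (h2 : ∀ x ∈ P, N x = 0) : trace K V N = 0 := by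
  have hN : IsNilpotent N := ⟨3, by
    ext x
    have : (N ^ 3) x = N (N (N x)) := by
      rw [show (3 : ℕ) = 1 + 1 + 1 from rfl, pow_add, pow_add, pow_one]
      rfl
    rw [this, h2 _ (h1 _ (h0 x))]
    rfl⟩
  exact (LinearMap.isNilpotent_trace_of_isNilpotent hN).eq_zero

/-- **Higgs count, type `(3,3,3)`, symplectic side.** -/
theorem false_333 [CharZero K] (hs : ∀ x y, w x y = - w y x)
    (hn : ∀ x, (∀ y, w x y = 0) → x = 0) (Φ : Fin 3 → End K V)
    (hsp : ∀ s x y, w (Φ s x) y = - w x (Φ s y)) (h3 : ∀ s, Φ s ^ 3 = 0)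
    (hfree : ∀ s, 3 * finrank K (ker (Φ s)) = finrank K V) (hsum : ∑ s, Φ s = 0)
    (htop : (⨆ s, range (Φ s)) = ⊤) (hV : 0 < finrank K V)
    (hanti : ∀ X : End K V, (∀ x y, w (X x) y = - w x (X y)) →
      (∀ (s : Fin 3) (j : ℕ), ∀ x ∈ range (Φ s ^ j), X x ∈ range (Φ s ^ j)) →
      ∀ s, Φ s * X = - (X * Φ s)) : False := by
  classical
  -- dimensions
  have d1 : ∀ s, finrank K (range (Φ s ^ 2)) = finrank K V / 3 := by
    intro s
    have e1 := TC.ker_eq_range (h3 s) (hfree s) (v := 1) (by omega)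
    rw [pow_one] at e1
    have e2 := hfree s
    rw [e1] at e2
    have : (3 - 1 : ℕ) = 2 := rfl
    rw [this] at e2
    omega
  have d2 : ∀ s, finrank K (range (Φ s)) = 2 * (finrank K V / 3) := by
    intro s
    have e1 := LinearMap.finrank_range_add_finrank_ker (Φ s)
    have e2 := hfree s
    omega
  have d3 : finrank K V = 3 * (finrank K V / 3) := by
    have := hfree 0
    omega
  have kr1 : ∀ s, ker (Φ s) = range (Φ s ^ 2) := by
    intro s
    have e1 := TC.ker_eq_range (h3 s) (hfree s) (v := 1) (by omega)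
    rwa [pow_one] at e1
  have kr2 : ∀ s, ker (Φ s ^ 2) = range (Φ s) := by
    intro s
    have e1 := TC.ker_eq_range (h3 s) (hfree s) (v := 2) (by omega)
    rwa [show (3 - 2 : ℕ) = 1 from rfl, pow_one] at e1
  have hle : ∀ s, range (Φ s ^ 2) ≤ range (Φ s) := by
    rintro s _ ⟨x, rfl⟩
    exact ⟨Φ s x, by rw [pow_two]; rfl⟩
  have hsp2 : ∀ s x y, w ((Φ s ^ 2) x) y = w x ((Φ s ^ 2) y) := by
    intro s x y
    rw [pow_two, Module.End.mul_apply, Module.End.mul_apply, hsp, hsp, neg_neg]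
  set m := finrank K V / 3 with hm
  let A : Fin 3 → Submodule K (Sp w) := fun s => Sv w (range (Φ s ^ 2)) (range (Φ s))
  have hcod : ∀ s, 2 * (finrank K (Sp w) - finrank K (A s)) ≤ 3 * m ^ 2 + m := fun s =>
    codim_Sv hs d3 (d1 s) (d2 s) (hle s)
  have hSp : 9 * m ^ 2 + 3 * m ≤ 2 * finrank K (Sp w) := by
    have h5 := finrank_Sp hs hn (Module.finBasisOfFinrankEq K V d3)
    have h6 := card_le_pairs (3 * m)
    have h7 : 3 * m * (3 * m + 1) = 9 * m ^ 2 + 3 * m := by ring
    omega
  have hc : ∑ s, (finrank K (Sp w) - finrank K (A s)) ≤ finrank K (Sp w) := by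
    rw [Fin.sum_univ_three]
    have a0 := hcod 0
    have a1 := hcod 1
    have a2 := hcod 2
    omega
  -- preservation
  have pres2 : ∀ s (X : Sp w), X ∈ A s → ∀ x ∈ range (Φ s ^ 2),
      (X : End K V) x ∈ range (Φ s ^ 2) := by
    intro s X hX x hx
    rw [← kr1, LinearMap.mem_ker]
    refine hn _ fun y => ?_
    rw [hsp, hX x hx _ ⟨y, rfl⟩, neg_zero]
  have pres1 : ∀ s (X : Sp w), X ∈ A s → ∀ x ∈ range (Φ s),
      (X : End K V) x ∈ range (Φ s) := by
    intro s X hX x hx
    rw [← kr2, LinearMap.mem_ker]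
    refine hn _ fun y => ?_
    rw [hsp2, Sp.swap hs X.2, hX _ ⟨y, rfl⟩ x hx]
  have presj : ∀ (X : Sp w), (∀ s, X ∈ A s) → ∀ (s : Fin 3) (j : ℕ), ∀ x ∈ range (Φ s ^ j),
      (X : End K V) x ∈ range (Φ s ^ j) := by
    intro X hX s j x hx
    rcases Nat.lt_or_ge j 3 with hj | hj
    · interval_cases j
      · rw [pow_zero]; exact ⟨(X : End K V) x, rfl⟩
      · rw [pow_one] at hx ⊢
        exact pres1 s X (hX s) x hx
      · exact pres2 s X (hX s) x hx
    · have h0 : Φ s ^ j = 0 := by rw [← Nat.sub_add_cancel hj, pow_add, h3, mul_zero]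
      obtain ⟨x', rfl⟩ := hx
      rw [h0]
      simp
  have hmemA : ∀ X : (⨅ s, A s : Submodule K (Sp w)), ∀ s, (X : Sp w) ∈ A s := fun X s =>
    (Submodule.mem_iInf _).1 X.2 s
  have hX : ∀ (X : (⨅ s, A s : Submodule K (Sp w))) s,
      Φ s * ((X : Sp w) : End K V) = - (((X : Sp w) : End K V) * Φ s) := fun X s =>
    hanti _ (X : Sp w).2 (presj _ (hmemA X)) s
  -- the operators `(X + c) Φ_s`
  let Rop : Fin 3 → ((⨅ s, A s : Submodule K (Sp w)) × K) → End K V := fun s g =>
    (((g.1 : Sp w) : End K V) + g.2 • 1) * Φ s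
  have hRmem : ∀ s g, Rop s g ∈ Sp w := by
    intro s g x y
    have e1 : ∀ x, (((g.1 : Sp w) : End K V)) (Φ s x) =
        - Φ s ((((g.1 : Sp w) : End K V)) x) := by
      intro x
      have := congrArg (fun T : End K V => T x) (hX g.1 s)
      simp only [Module.End.mul_apply, LinearMap.neg_apply] at this
      rw [this, neg_neg]
    change w ((((g.1 : Sp w) : End K V) + g.2 • 1) (Φ s x)) y =
      - w x ((((g.1 : Sp w) : End K V) + g.2 • 1) (Φ s y))
    simp only [LinearMap.add_apply, LinearMap.smul_apply, Module.End.one_apply, map_add, map_smul]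
    rw [(g.1 : Sp w).2 (Φ s x) y, hsp, hsp, e1 y, map_neg]
    simp only [smul_eq_mul]
    ring
  let RL : Fin 3 → ((⨅ s, A s : Submodule K (Sp w)) × K) →ₗ[K] End K V := fun s =>
    (LinearMap.mulRight K (Φ s)) ∘ₗ
      (((Sp w).subtype ∘ₗ (⨅ s, A s : Submodule K (Sp w)).subtype).coprod
        (LinearMap.toSpanSingleton K (End K V) 1))
  have hRL : ∀ s g, RL s g = Rop s g := fun s g => rfl
  let T : End K V →ₗ[K] Module.Dual K (Sp w) :=
    { toFun := fun R => (trace K V) ∘ₗ (LinearMap.mulLeft K R) ∘ₗ (Sp w).subtype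
      map_add' := by
        intro a b
        ext Y
        change trace K V ((a + b) * (Y : End K V)) =
          trace K V (a * (Y : End K V)) + trace K V (b * (Y : End K V))
        rw [add_mul, map_add]
      map_smul' := by
        intro a b
        ext Y
        change trace K V ((a • b) * (Y : End K V)) = a • trace K V (b * (Y : End K V))
        rw [smul_mul_assoc, map_smul] }
  have hT : ∀ R (Y : Sp w), T R Y = trace K V (R * (Y : End K V)) := fun R Y => rfl
  have key := rel (G := (↥(⨅ s, A s) × K)) A hc (fun s => T ∘ₗ RL s) ?_ ?_ ?_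
  · have e := finrank_prod_self (K := K) (E := ↥(⨅ s, A s))
    omega
  · -- annihilators
    intro s g
    rw [Submodule.mem_dualAnnihilator]
    intro Y hY
    change T (RL s g) Y = 0
    rw [hT, hRL]
    have q0 : ∀ x, (((g.1 : Sp w) : End K V) + g.2 • 1) (Φ s x) ∈ range (Φ s) := by
      intro x
      rw [LinearMap.add_apply, LinearMap.smul_apply, Module.End.one_apply]
      exact Submodule.add_mem _ (pres1 s _ (hmemA g.1 s) _ ⟨x, rfl⟩)
        (Submodule.smul_mem _ _ ⟨x, rfl⟩)
    have q1 : ∀ x ∈ range (Φ s),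
        (((g.1 : Sp w) : End K V) + g.2 • 1) (Φ s x) ∈ range (Φ s ^ 2) := by
      rintro _ ⟨x, rfl⟩
      have hx : Φ s (Φ s x) ∈ range (Φ s ^ 2) := ⟨x, by rw [pow_two]; rfl⟩
      rw [LinearMap.add_apply, LinearMap.smul_apply, Module.End.one_apply]
      exact Submodule.add_mem _ (pres2 s _ (hmemA g.1 s) _ hx) (Submodule.smul_mem _ _ hx)
    have q2 : ∀ x ∈ range (Φ s ^ 2),
        (((g.1 : Sp w) : End K V) + g.2 • 1) (Φ s x) = 0 := by
      intro x hx
      rw [← kr1, LinearMap.mem_ker] at hx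
      rw [hx, map_zero]
    refine trace_zero_of_steps (P := range (Φ s ^ 2)) (P' := range (Φ s)) ?_ ?_ ?_
    · intro x
      exact q0 _
    · intro x hx
      exact q1 _ (pres1 s Y hY x hx)
    · intro x hx
      exact q2 _ (pres2 s Y hY x hx)
  · -- sum
    intro g
    have e1 : ∑ s, RL s g = 0 := by
      have : ∀ s, RL s g = (((g.1 : Sp w) : End K V) + g.2 • 1) * Φ s := fun s => rfl
      simp only [this]
      rw [← Finset.mul_sum, hsum, mul_zero]
    change ∑ s, T (RL s g) = 0
    rw [← map_sum, e1, map_zero]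
  · -- injectivity
    intro g hg
    have e1 : ∀ s, Rop s g = 0 := by
      intro s
      refine eq_zero_of_trace hs hn (hRmem s g) fun Y hY => ?_
      have := congrArg (fun f : Module.Dual K (Sp w) => f ⟨Y, hY⟩) (hg s)
      exact this
    have e2 : (((g.1 : Sp w) : End K V) + g.2 • 1) = 0 := by
      rw [← LinearMap.ker_eq_top, eq_top_iff, ← htop]
      refine iSup_le fun s => ?_
      rintro _ ⟨x, rfl⟩
      rw [LinearMap.mem_ker]
      exact congrArg (fun T : End K V => T x) (e1 s)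
    have e3 : g.2 = 0 := by
      by_contra hc0
      have hV' : ∃ x : V, x ≠ 0 := by
        have := Module.nontrivial_of_finrank_pos (R := K) hV
        exact exists_ne 0
      obtain ⟨x, hx⟩ := hV'
      apply hx
      refine hn x fun y => ?_
      have f1 : ∀ z, ((g.1 : Sp w) : End K V) z = - (g.2 • z) := by
        intro z
        have := congrArg (fun T : End K V => T z) e2
        simp only [LinearMap.add_apply, LinearMap.smul_apply, Module.End.one_apply,
          LinearMap.zero_apply] at this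
        exact eq_neg_of_add_eq_zero_left this
      have f2 := (g.1 : Sp w).2 x y
      rw [f1, f1, map_neg, map_neg, LinearMap.neg_apply, map_smul, map_smul,
        LinearMap.smul_apply, neg_neg] at f2
      simp only [smul_eq_mul] at f2
      have f3 : (2 * g.2) * w x y = 0 := by linear_combination -f2
      rcases mul_eq_zero.1 f3 with h | h
      · exact absurd (by simpa using h) hc0
      · exact h
    have e4 : g.1 = 0 := by
      apply Subtype.ext
      apply Subtype.ext
      rw [e3, zero_smul, add_zero] at e2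
      exact e2
    exact Prod.ext e4 e3

end FD

end Crest.Agent.R172.SPC
end

-- ▼ part R172/SpEx

/-!
Row 172 (S0260), abstract END of both sides of the mixed tame case (t3), in tensor form, with an
arbitrary radical `R`.

* `exists_sp_333`: type `(3,3,3)`, symplectic: there is a nonzero `X ∈ sp` filtered at all arms.
* `tensor_mem`: a tensor in `P ⊗ P` whose operator on `P ⧸ R` is filtered at an arm is a sum of
  `φ^i p ⊗ φ^j p'`, `i + j + 1 = l`, modulo `R ⊗ P + P ⊗ R`.
* `P_end`, `Q_end`: the ends.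
-/

set_option autoImplicit false
set_option linter.unusedSectionVars false

namespace Crest.Agent.R172.SPE

open Module LinearMap
open scoped TensorProduct

section sp

variable {K : Type*} [Field K] {V : Type*} [AddCommGroup V] [Module K V]
  [FiniteDimensional K V] {w : LinearMap.BilinForm K V}

/-- a nonzero filtered element of `sp`, type `(3,3,3)` -/
theorem exists_sp_333 [CharZero K] (hs : ∀ x y, w x y = - w y x)
    (hn : ∀ x, (∀ y, w x y = 0) → x = 0) (Φ : Fin 3 → End K V)
    (hsp : ∀ s x y, w (Φ s x) y = - w x (Φ s y)) (h3 : ∀ s, Φ s ^ 3 = 0)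
    (hfree : ∀ s, 3 * finrank K (ker (Φ s)) = finrank K V) (hsum : ∑ s, Φ s = 0)
    (htop : (⨆ s, range (Φ s)) = ⊤) (hV : 0 < finrank K V) :
    ∃ X : End K V, X ≠ 0 ∧ (∀ x y, w (X x) y = - w x (X y)) ∧
      ∀ (s : Fin 3) (j : ℕ), ∀ x ∈ range (Φ s ^ j), X x ∈ range (Φ s ^ j) := by
  by_contra hcon
  refine SPC.false_333 hs hn Φ hsp h3 hfree hsum htop hV ?_
  intro X hX hXj s
  have h0 : X = 0 := by
    by_contra hX0
    exact hcon ⟨X, hX0, hX, hXj⟩
  rw [h0]
  simp

end sp

section tensor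

variable {K : Type*} [Field K] {P : Type*} [AddCommGroup P] [Module K P]
variable {E : Type*} [AddCommGroup E] [Module K E]

/-- contraction of a tensor with `w · x`, `w · y` -/
noncomputable def ct (w : P →ₗ[K] P →ₗ[K] K) (x y : P) : P ⊗[K] P →ₗ[K] K :=
  LinearMap.mul' K K ∘ₗ TensorProduct.map (w.flip x) (w.flip y)

theorem ct_tmul (w : P →ₗ[K] P →ₗ[K] K) (x y a b : P) :
    ct w x y (a ⊗ₜ[K] b) = w a x * w b y := by
  simp [ct]

theorem ct_comm (w : P →ₗ[K] P →ₗ[K] K) (x y : P) (T : P ⊗[K] P) :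
    ct w x y (TensorProduct.comm K P P T) = ct w y x T := by
  induction T using TensorProduct.induction_on with
  | zero => simp
  | tmul a b => rw [TensorProduct.comm_tmul, ct_tmul, ct_tmul, mul_comm]
  | add a b ha hb => rw [map_add, map_add, map_add, ha, hb]

variable {R : Submodule K P} {w : P →ₗ[K] P →ₗ[K] K} {wq : LinearMap.BilinForm K (P ⧸ R)}

theorem ct_map (hwq : ∀ x y, wq (R.mkQ x) (R.mkQ y) = w x y) (x y : P) (T : P ⊗[K] P) :
    ct wq (R.mkQ x) (R.mkQ y) (TensorProduct.map R.mkQ R.mkQ T) = ct w x y T := by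
  induction T using TensorProduct.induction_on with
  | zero => simp
  | tmul a b => rw [TensorProduct.map_tmul, ct_tmul, ct_tmul, hwq, hwq]
  | add a b ha hb => rw [map_add, map_add, map_add, ha, hb]

variable [FiniteDimensional K P]

/-- a tensor with vanishing contractions vanishes modulo the radical -/
theorem map_eq_zero (hn : ∀ x, (∀ y, wq y x = 0) → x = 0)
    (hwq : ∀ x y, wq (R.mkQ x) (R.mkQ y) = w x y) {T : P ⊗[K] P}
    (hT : ∀ x y, ct w x y T = 0) : TensorProduct.map R.mkQ R.mkQ T = 0 := by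
  classical
  set U := TensorProduct.map R.mkQ R.mkQ T with hU
  let b := Module.finBasis K (P ⧸ R)
  have h1 : ∀ p, ∃ x : P, wq.flip (R.mkQ x) = b.coord p := by
    intro p
    obtain ⟨x, hx⟩ := SPC.w_surj (w := wq.flip) (by
      intro x hx
      exact hn x fun y => hx y) (b.coord p)
    obtain ⟨x', rfl⟩ := R.mkQ_surjective x
    exact ⟨x', hx⟩
  choose d hd using h1
  apply (b.tensorProduct b).repr.injective
  rw [map_zero]
  ext p
  have h2 : ∀ W : (P ⧸ R) ⊗[K] (P ⧸ R), (b.tensorProduct b).repr W p =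
      ct wq (R.mkQ (d p.1)) (R.mkQ (d p.2)) W := by
    intro W
    induction W using TensorProduct.induction_on with
    | zero => simp
    | tmul a c =>
      have e1 : ∀ (p) (a : P ⧸ R), wq a (R.mkQ (d p)) = b.repr a p := by
        intro p a
        have := LinearMap.congr_fun (hd p) a
        exact this
      rw [ct_tmul, e1, e1]
      obtain ⟨i, j⟩ := p
      rw [Basis.tensorProduct_repr_tmul_apply, smul_eq_mul, mul_comm]
    | add a c ha hc => rw [map_add, Finsupp.add_apply, map_add, ha, hc]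
  rw [h2, hU, ct_map hwq, hT]
  rfl

/-- elements of the kernel are killed modulo `S` -/
theorem lift_mem_of_map_zero {q : P →ₗ[K] P →ₗ[K] E} {S : Submodule K E}
    (hq1 : ∀ r ∈ R, ∀ p, q r p ∈ S) (hq2 : ∀ r ∈ R, ∀ p, q p r ∈ S) {T : P ⊗[K] P}
    (hT : TensorProduct.map R.mkQ R.mkQ T = 0) : TensorProduct.lift q T ∈ S := by
  have hex : Function.Exact R.subtype R.mkQ := by
    intro x
    rw [Submodule.mkQ_apply, Submodule.Quotient.mk_eq_zero]
    constructor
    · intro h
      exact ⟨⟨x, h⟩, rfl⟩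
    · rintro ⟨y, rfl⟩
      exact y.2
  have h1 : T ∈ ker (TensorProduct.map R.mkQ R.mkQ) := hT
  rw [TensorProduct.map_ker hex R.mkQ_surjective hex R.mkQ_surjective] at h1
  obtain ⟨a, ⟨a', ha'⟩, b, ⟨b', hb'⟩, hab⟩ := Submodule.mem_sup.1 h1
  rw [← hab, map_add]
  refine S.add_mem ?_ ?_
  · rw [← ha']
    clear ha'
    induction a' using TensorProduct.induction_on with
    | zero => simp
    | tmul p r =>
      rw [LinearMap.lTensor_tmul, TensorProduct.lift.tmul]
      exact hq2 r r.2 p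
    | add a c ha hc => rw [map_add, map_add]; exact S.add_mem ha hc
  · rw [← hb']
    clear hb'
    induction b' using TensorProduct.induction_on with
    | zero => simp
    | tmul r p =>
      rw [LinearMap.rTensor_tmul, TensorProduct.lift.tmul]
      exact hq1 r r.2 p
    | add a c ha hc => rw [map_add, map_add]; exact S.add_mem ha hc

/-- **a tensor whose operator modulo the radical is filtered is good** -/
theorem tensor_mem (hn : ∀ x, (∀ y, wq x y = 0) → x = 0) (hn' : ∀ x, (∀ y, wq y x = 0) → x = 0)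
    (hwq : ∀ x y, wq (R.mkQ x) (R.mkQ y) = w x y) {φ : End K P} {φq : End K (P ⧸ R)} {l : ℕ}
    {ε : K} (hφq : ∀ x, φq (R.mkQ x) = R.mkQ (φ x)) (hφ : ∀ x y, wq (φq x) y = ε * wq x (φq y))
    (hl : φq ^ l = 0) (hfree : l * finrank K (ker φq) = finrank K (P ⧸ R))
    {q : P →ₗ[K] P →ₗ[K] E} {S : Submodule K E}
    (hq1 : ∀ r ∈ R, ∀ p, q r p ∈ S) (hq2 : ∀ r ∈ R, ∀ p, q p r ∈ S)
    (hq3 : ∀ i j, i + j + 1 = l → ∀ p p', q ((φ ^ i) p) ((φ ^ j) p') ∈ S)
    {X : End K (P ⧸ R)} (hX : ∀ j : ℕ, ∀ x ∈ range (φq ^ j), X x ∈ range (φq ^ j))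
    {T : P ⊗[K] P} (hT : ∀ x y, ct w x y T = wq (X (R.mkQ x)) (R.mkQ y)) :
    TensorProduct.lift q T ∈ S := by
  classical
  obtain ⟨e, b, hb⟩ := TC.exists_adapted hl hfree
  choose d hd using fun p => SPC.w_surj hn (b.coord p)
  have hpow : ∀ (j : ℕ) (x y : P ⧸ R), wq ((φq ^ j) x) y = ε ^ j * wq x ((φq ^ j) y) := by
    intro j
    induction j with
    | zero => intro x y; simp
    | succ j ih =>
      intro x y
      rw [pow_succ' φq j, Module.End.mul_apply, hφ, ih, ← Module.End.mul_apply, ← pow_succ,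
        pow_succ' φq j, pow_succ' ε j, mul_assoc]
  have hpq : ∀ (j : ℕ) (x : P), (φq ^ j) (R.mkQ x) = R.mkQ ((φ ^ j) x) := by
    intro j
    induction j with
    | zero => intro x; rfl
    | succ j ih =>
      intro x
      rw [pow_succ', pow_succ', Module.End.mul_apply, Module.End.mul_apply, ih, hφq]
  have hdr : ∀ p, d p ∈ range (φq ^ (l - 1 - (p.1 : ℕ))) := by
    intro p
    have hp := p.1.2
    have h1 := TC.ker_eq_range hl hfree (v := (p.1 : ℕ) + 1) (by omega)
    have h2 : l - ((p.1 : ℕ) + 1) = l - 1 - (p.1 : ℕ) := by omega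
    rw [h2] at h1
    rw [← h1, LinearMap.mem_ker]
    refine hn _ fun y => ?_
    rw [hpow, hd]
    have h3 : (b.coord p) ∘ₗ (φq ^ ((p.1 : ℕ) + 1)) = 0 := by
      refine b.ext fun t => ?_
      rw [LinearMap.comp_apply, LinearMap.zero_apply, hb, ← Module.End.mul_apply, ← pow_add]
      by_cases ht : (p.1 : ℕ) + 1 + (t.1 : ℕ) < l
      · have h9 : (φq ^ ((p.1 : ℕ) + 1 + (t.1 : ℕ))) (e t.2) =
            b (⟨(p.1 : ℕ) + 1 + t.1, ht⟩, t.2) := by
          rw [hb]
        rw [h9, Basis.coord_apply, Basis.repr_self, Finsupp.single_eq_of_ne]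
        intro hh
        have := congrArg (fun q : Fin l × Fin (finrank K (ker φq)) => (q.1 : ℕ)) hh
        simp only at this
        omega
      · obtain ⟨r, hr⟩ := Nat.exists_eq_add_of_le (show l ≤ (p.1 : ℕ) + 1 + (t.1 : ℕ) by omega)
        rw [hr, pow_add, hl, zero_mul]
        simp
    have h4 := LinearMap.congr_fun h3 y
    rw [LinearMap.comp_apply, LinearMap.zero_apply] at h4
    rw [h4, mul_zero]
  have hx1 : ∀ p, ∃ x : P, R.mkQ ((φ ^ (l - 1 - (p.1 : ℕ))) x) = d p := by
    intro p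
    obtain ⟨x, hx⟩ := hdr p
    obtain ⟨x', rfl⟩ := R.mkQ_surjective x
    exact ⟨x', by rw [← hx, hpq]⟩
  have hy1 : ∀ p, ∃ y : P, R.mkQ ((φ ^ (p.1 : ℕ)) y) = X (b p) := by
    intro p
    obtain ⟨y, hy⟩ := hX (p.1 : ℕ) (b p) ⟨e p.2, (hb p).symm⟩
    obtain ⟨y', rfl⟩ := R.mkQ_surjective y
    exact ⟨y', by rw [← hy, hpq]⟩
  choose xx hxx using hx1
  choose yy hyy using hy1
  let T' : P ⊗[K] P := ∑ p, ((φ ^ (l - 1 - (p.1 : ℕ))) (xx p)) ⊗ₜ[K] ((φ ^ (p.1 : ℕ)) (yy p))
  have hT' : TensorProduct.lift q T' ∈ S := by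
    change TensorProduct.lift q (∑ p, _) ∈ S
    rw [map_sum]
    refine S.sum_mem fun p _ => ?_
    rw [TensorProduct.lift.tmul]
    have hp := p.1.2
    exact hq3 _ _ (by omega) _ _
  have hct : ∀ x y, ct w x y T' = wq (X (R.mkQ x)) (R.mkQ y) := by
    intro x y
    change ct w x y (∑ p, _) = _
    rw [map_sum]
    have h1 : ∀ p, ct w x y (((φ ^ (l - 1 - (p.1 : ℕ))) (xx p)) ⊗ₜ[K] ((φ ^ (p.1 : ℕ)) (yy p)))
        = b.repr (R.mkQ x) p * wq (X (b p)) (R.mkQ y) := by
      intro p
      rw [ct_tmul, ← hwq, ← hwq, hxx, hyy, hd]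
      rfl
    rw [Finset.sum_congr rfl fun p _ => h1 p]
    have h2 : R.mkQ x = ∑ p, b.repr (R.mkQ x) p • b p := (b.sum_repr _).symm
    conv_rhs => rw [h2]
    rw [map_sum, map_sum, LinearMap.sum_apply]
    refine Finset.sum_congr rfl fun p _ => ?_
    rw [map_smul, map_smul, LinearMap.smul_apply, smul_eq_mul]
  have h5 : TensorProduct.map R.mkQ R.mkQ (T - T') = 0 := by
    refine map_eq_zero hn' hwq fun x y => ?_
    rw [map_sub, hT, hct, sub_self]
  have h6 := lift_mem_of_map_zero hq1 hq2 h5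
  rw [map_sub] at h6
  have h7 := S.add_mem h6 hT'
  rwa [sub_add_cancel] at h7

/-- existence of a tensor with a given operator and symmetry -/
theorem exists_tensor (h2 : (2 : K) ≠ 0) (hn : ∀ x, (∀ y, wq x y = 0) → x = 0)
    (hwq : ∀ x y, wq (R.mkQ x) (R.mkQ y) = w x y) {η : K} (hη : η * η = 1)
    {X : End K (P ⧸ R)} (hX : ∀ x y, wq (X x) y = η * wq (X y) x) :
    ∃ T : P ⊗[K] P, TensorProduct.comm K P P T = η • T ∧
      ∀ x y, ct w x y T = wq (X (R.mkQ x)) (R.mkQ y) := by
  classical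
  let b := Module.finBasis K (P ⧸ R)
  have hx1 : ∀ p, ∃ x : P, wq (R.mkQ x) = b.coord p := by
    intro p
    obtain ⟨x, hx⟩ := SPC.w_surj hn (b.coord p)
    obtain ⟨x', rfl⟩ := R.mkQ_surjective x
    exact ⟨x', hx⟩
  choose xx hxx using hx1
  choose yy hyy using fun p => R.mkQ_surjective (X (b p))
  let T0 : P ⊗[K] P := ∑ p, (xx p) ⊗ₜ[K] (yy p)
  have hct : ∀ x y, ct w x y T0 = wq (X (R.mkQ x)) (R.mkQ y) := by
    intro x y
    change ct w x y (∑ p, _) = _
    rw [map_sum]
    have h1 : ∀ p, ct w x y ((xx p) ⊗ₜ[K] (yy p))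
        = b.repr (R.mkQ x) p * wq (X (b p)) (R.mkQ y) := by
      intro p
      rw [ct_tmul, ← hwq, ← hwq, hxx, hyy]
      rfl
    rw [Finset.sum_congr rfl fun p _ => h1 p]
    have h2 : R.mkQ x = ∑ p, b.repr (R.mkQ x) p • b p := (b.sum_repr _).symm
    conv_rhs => rw [h2]
    rw [map_sum, map_sum, LinearMap.sum_apply]
    refine Finset.sum_congr rfl fun p _ => ?_
    rw [map_smul, map_smul, LinearMap.smul_apply, smul_eq_mul]
  have hcc : ∀ T : P ⊗[K] P, TensorProduct.comm K P P (TensorProduct.comm K P P T) = T := by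
    intro T
    induction T using TensorProduct.induction_on with
    | zero => simp
    | tmul a b => rw [TensorProduct.comm_tmul, TensorProduct.comm_tmul]
    | add a b ha hb => rw [map_add, map_add, ha, hb]
  refine ⟨(2 : K)⁻¹ • (T0 + η • TensorProduct.comm K P P T0), ?_, ?_⟩
  · rw [map_smul, map_add, map_smul, hcc]
    have e1 : TensorProduct.comm K P P T0 + η • T0 =
        η • (T0 + η • TensorProduct.comm K P P T0) := by
      rw [smul_add, smul_smul, hη, one_smul, add_comm]
    rw [e1, smul_comm]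
  · intro x y
    rw [map_smul, map_add, map_smul, ct_comm, hct, hct, smul_eq_mul, smul_eq_mul,
      hX (R.mkQ y), ← mul_assoc, hη, one_mul, ← two_mul, ← mul_assoc, inv_mul_cancel₀ h2, one_mul]

/-- **the common END** -/
theorem tensor_end (h2 : (2 : K) ≠ 0) (hn : ∀ x, (∀ y, wq x y = 0) → x = 0)
    (hn' : ∀ x, (∀ y, wq y x = 0) → x = 0)
    (hwq : ∀ x y, wq (R.mkQ x) (R.mkQ y) = w x y) {Φ : Fin 3 → End K P}
    {Φq : Fin 3 → End K (P ⧸ R)} {l : Fin 3 → ℕ} {ε : K}
    (hΦq : ∀ s x, Φq s (R.mkQ x) = R.mkQ (Φ s x))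
    (hΦ : ∀ s x y, wq (Φq s x) y = ε * wq x (Φq s y))
    (hl : ∀ s, Φq s ^ l s = 0) (hfree : ∀ s, l s * finrank K (ker (Φq s)) = finrank K (P ⧸ R))
    {q : Fin 3 → P →ₗ[K] P →ₗ[K] E} {S : Submodule K E}
    (hq1 : ∀ s, ∀ r ∈ R, ∀ p, q s r p ∈ S) (hq2 : ∀ s, ∀ r ∈ R, ∀ p, q s p r ∈ S)
    (hq3 : ∀ s i j, i + j + 1 = l s → ∀ p p', q s ((Φ s ^ i) p) ((Φ s ^ j) p') ∈ S)
    {η : K} (hη : η * η = 1) {X : End K (P ⧸ R)} (hX0 : X ≠ 0)
    (hXη : ∀ x y, wq (X x) y = η * wq (X y) x)
    (hX : ∀ (s : Fin 3) (j : ℕ), ∀ x ∈ range (Φq s ^ j), X x ∈ range (Φq s ^ j)) :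
    ∃ T : P ⊗[K] P, TensorProduct.comm K P P T = η • T ∧ (∃ x y, ct w x y T ≠ 0) ∧
      ∀ s, TensorProduct.lift (q s) T ∈ S := by
  obtain ⟨T, hT1, hT2⟩ := exists_tensor (w := w) h2 hn hwq hη hXη
  refine ⟨T, hT1, ?_, fun s => ?_⟩
  · by_contra hcon
    push Not at hcon
    apply hX0
    ext x
    rw [LinearMap.comp_apply, LinearMap.comp_apply, LinearMap.zero_apply]
    refine hn _ fun y => ?_
    obtain ⟨y', rfl⟩ := R.mkQ_surjective y
    rw [← hT2]
    exact hcon x y'
  · exact tensor_mem hn hn' hwq (hΦq s) (hΦ s) (hl s) (hfree s) (hq1 s) (hq2 s) (hq3 s)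
      (fun j => hX s j) hT2

/-- the form induced on `P ⧸ R` -/
theorem exists_wq (w : P →ₗ[K] P →ₗ[K] K) {η : K} (hs : ∀ x y, w x y = η * w y x)
    (hR : ∀ x, x ∈ R ↔ ∀ y, w x y = 0) :
    ∃ wq : LinearMap.BilinForm K (P ⧸ R), (∀ x y, wq (R.mkQ x) (R.mkQ y) = w x y) ∧
      (∀ x, (∀ y, wq x y = 0) → x = 0) ∧ (∀ x y, wq x y = η * wq y x) := by
  have h1 : ∀ x ∈ R, w x = 0 := fun x hx => LinearMap.ext fun y => (hR x).1 hx y
  have h2 : ∀ x ∈ R, w.flip x = 0 := fun x hx => LinearMap.ext fun y => by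
    rw [LinearMap.flip_apply, hs, h1 x hx]
    simp
  let w1 : (P ⧸ R) →ₗ[K] P →ₗ[K] K := R.liftQ w (fun x hx => h1 x hx)
  have hw1 : ∀ x y, w1 (R.mkQ x) y = w x y := fun x y => rfl
  let w2 : (P ⧸ R) →ₗ[K] (P ⧸ R) →ₗ[K] K := R.liftQ w1.flip (by
    intro x hx
    rw [LinearMap.mem_ker]
    ext y
    exact LinearMap.congr_fun (h2 x hx) y)
  have hw2 : ∀ x y, w2.flip (R.mkQ x) (R.mkQ y) = w x y := fun x y => rfl
  refine ⟨w2.flip, hw2, ?_, ?_⟩
  · intro x hx
    obtain ⟨x, rfl⟩ := R.mkQ_surjective x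
    rw [Submodule.mkQ_apply, Submodule.Quotient.mk_eq_zero, hR]
    intro y
    rw [← hw2]
    exact hx _
  · intro x y
    obtain ⟨x, rfl⟩ := R.mkQ_surjective x
    obtain ⟨y, rfl⟩ := R.mkQ_surjective y
    rw [hw2, hw2, hs]

/-- **P-side END**: a skew tensor, nonzero modulo the radical, good at all arms. -/
theorem P_end [CharZero K] (w : P →ₗ[K] P →ₗ[K] K) (hs : ∀ x y, w x y = w y x)
    (hR : ∀ x, x ∈ R ↔ ∀ y, w x y = 0) {Φ : Fin 3 → End K P}
    (hΦ : ∀ s x y, w (Φ s x) y = w x (Φ s y)) {Φq : Fin 3 → End K (P ⧸ R)}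
    (hΦq : ∀ s x, Φq s (R.mkQ x) = R.mkQ (Φ s x)) {l : Fin 3 → ℕ} (h1 : ∀ s, 1 ≤ l s)
    (hsum : ∑ s, (1 - 1 / (l s : ℚ)) = 2)
    (hl : ∀ s, Φq s ^ l s = 0) (hfree : ∀ s, l s * finrank K (ker (Φq s)) = finrank K (P ⧸ R))
    (hpos : 0 < finrank K (P ⧸ R)) (h333 : (∀ s, l s = 3) → 3 < finrank K (P ⧸ R))
    {q : Fin 3 → P →ₗ[K] P →ₗ[K] E} {S : Submodule K E}
    (hq1 : ∀ s, ∀ r ∈ R, ∀ p, q s r p ∈ S) (hq2 : ∀ s, ∀ r ∈ R, ∀ p, q s p r ∈ S)
    (hq3 : ∀ s i j, i + j + 1 = l s → ∀ p p', q s ((Φ s ^ i) p) ((Φ s ^ j) p') ∈ S) :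
    ∃ T : P ⊗[K] P, TensorProduct.comm K P P T = -T ∧ (∃ x y, ct w x y T ≠ 0) ∧
      ∀ s, TensorProduct.lift (q s) T ∈ S := by
  obtain ⟨wq, hwq, hn, hsq⟩ := exists_wq (R := R) w (η := 1) (fun x y => by rw [one_mul, hs]) hR
  have hsq' : ∀ x y, wq x y = wq y x := fun x y => by rw [hsq, one_mul]
  have hΦ' : ∀ s x y, wq (Φq s x) y = wq x (Φq s y) := by
    intro s x y
    obtain ⟨x, rfl⟩ := R.mkQ_surjective x
    obtain ⟨y, rfl⟩ := R.mkQ_surjective y
    rw [hΦq, hΦq, hwq, hwq, hΦ]
  have hns : Core.NS wq := ⟨hsq', hn⟩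
  obtain ⟨X, hX0, hX1, hX2⟩ := TC.exists_skew_any hns Φq hΦ' l h1 hsum hl hfree hpos h333
  obtain ⟨T, hT1, hT2, hT3⟩ := tensor_end (w := w) (η := -1) (ε := 1) (two_ne_zero) hn
    (fun x hx => hn x fun y => by rw [hsq']; exact hx y) hwq hΦq
    (fun s x y => by rw [one_mul, hΦ']) hl hfree hq1 hq2 hq3 (by norm_num) hX0
    (fun x y => by rw [hX1, hsq' x]; ring) hX2
  exact ⟨T, by rw [hT1, neg_one_smul], hT2, hT3⟩

/-- **Q-side END**, type `(3,3,3)`: a symmetric tensor, nonzero modulo the radical, good at all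
arms. -/
theorem Q_end [CharZero K] (w : P →ₗ[K] P →ₗ[K] K) (hs : ∀ x y, w x y = - w y x)
    (hR : ∀ x, x ∈ R ↔ ∀ y, w x y = 0) {Φ : Fin 3 → End K P}
    (hΦ : ∀ s x y, w (Φ s x) y = - w x (Φ s y)) {Φq : Fin 3 → End K (P ⧸ R)}
    (hΦq : ∀ s x, Φq s (R.mkQ x) = R.mkQ (Φ s x)) (hl : ∀ s, Φq s ^ 3 = 0)
    (hfree : ∀ s, 3 * finrank K (ker (Φq s)) = finrank K (P ⧸ R))
    (hsum : ∀ x, ∑ s, Φ s x = 0) (hperf : ∀ p, ∃ f : Fin 3 → P, p = ∑ s, Φ s (f s))
    (hpos : 0 < finrank K (P ⧸ R))
    {q : Fin 3 → P →ₗ[K] P →ₗ[K] E} {S : Submodule K E}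
    (hq1 : ∀ s, ∀ r ∈ R, ∀ p, q s r p ∈ S) (hq2 : ∀ s, ∀ r ∈ R, ∀ p, q s p r ∈ S)
    (hq3 : ∀ s i j, i + j + 1 = 3 → ∀ p p', q s ((Φ s ^ i) p) ((Φ s ^ j) p') ∈ S) :
    ∃ T : P ⊗[K] P, TensorProduct.comm K P P T = T ∧ (∃ x y, ct w x y T ≠ 0) ∧
      ∀ s, TensorProduct.lift (q s) T ∈ S := by
  obtain ⟨wq, hwq, hn, hsq⟩ := exists_wq (R := R) w (η := -1)
    (fun x y => by rw [hs]; ring) hR
  have hsq' : ∀ x y, wq x y = - wq y x := fun x y => by rw [hsq]; ring
  have hΦ' : ∀ s x y, wq (Φq s x) y = - wq x (Φq s y) := by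
    intro s x y
    obtain ⟨x, rfl⟩ := R.mkQ_surjective x
    obtain ⟨y, rfl⟩ := R.mkQ_surjective y
    rw [hΦq, hΦq, hwq, hwq, hΦ]
  have hsum' : ∑ s, Φq s = 0 := by
    ext x
    rw [LinearMap.comp_apply, LinearMap.comp_apply, LinearMap.sum_apply, LinearMap.zero_apply]
    rw [Finset.sum_congr rfl fun s _ => hΦq s x, ← map_sum, hsum, map_zero]
  have htop : (⨆ s, range (Φq s)) = ⊤ := by
    rw [eq_top_iff]
    intro x _
    obtain ⟨x, rfl⟩ := R.mkQ_surjective x
    obtain ⟨f, hf⟩ := hperf x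
    rw [hf, map_sum]
    refine Submodule.sum_mem _ fun s _ => ?_
    rw [← hΦq]
    exact Submodule.mem_iSup_of_mem s ⟨_, rfl⟩
  obtain ⟨X, hX0, hX1, hX2⟩ := exists_sp_333 hsq' hn Φq hΦ' hl hfree hsum' htop hpos
  obtain ⟨T, hT1, hT2, hT3⟩ := tensor_end (w := w) (η := 1) (ε := -1) (l := fun _ => 3)
    (two_ne_zero) hn
    (fun x hx => hn x fun y => by rw [hsq', hx y, neg_zero]) hwq hΦq
    (fun s x y => by rw [hΦ']; ring) hl hfree hq1 hq2 hq3 (by norm_num) hX0
    (fun x y => by rw [hX1, hsq' x]; ring) hX2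
  exact ⟨T, by rw [hT1, one_smul], hT2, hT3⟩

end tensor

end Crest.Agent.R172.SPE
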