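import Crest.Agent.R172.Qt5
import Crest.Agent.R172.SpEx

-- ▼ part R172/QEndQ
section

/-!
Row 172 (S0260), (Q1)/(t3): Q-side END, part 1.  Every flag compatible `ψ : S → S^*` is skew.
-/

set_option autoImplicit false
set_option linter.unusedSectionVars false
set_option linter.unusedFintypeInType false
set_option linter.unusedDecidableInType false
set_option maxHeartbeats 800000

namespace Crest.Agent.R172.QEndQ

open Matrix Module Crest.Agent.R172.FO Crest.Agent.R172.Qt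

variable {ι : Type*} [Fintype ι] [DecidableEq ι] {δ : Type*} [Fintype δ] [DecidableEq δ]
variable {k K : Type*} [Field k] [Field K] [Algebra k K]
variable {arm : δ → Fin 3} {J : Matrix ι ι K} {B : Matrix δ δ K}
  {N W : Submodule K (Matrix ι δ K)} {g : Matrix ι δ K}

/-- a map `S → S^⊥` extends to `so(V)`. -/
theorem ext_so (hJ : Jᵀ = J) (hJu : IsUnit J) (g : Matrix ι δ K) {T : Matrix ι ι K}
    (hT : gᵀ * J * (T * g) = 0) : ∃ X : Matrix ι ι K, Skw J X ∧ X * g = T * g := by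
  obtain ⟨G, hG⟩ := exists_pinv g
  obtain ⟨Ji, hJi⟩ := hJu.exists_right_inv
  have hJi' : Ji * J = 1 := by rw [mul_eq_one_comm] at hJi; exact hJi
  have hJit : Jiᵀ = Ji := by
    have h1 : Jiᵀ * J = 1 := by
      have := congrArg transpose hJi
      rwa [transpose_mul, hJ, transpose_one] at this
    calc Jiᵀ = Jiᵀ * (J * Ji) := by rw [hJi, Matrix.mul_one]
      _ = (Jiᵀ * J) * Ji := by rw [Matrix.mul_assoc]
      _ = Ji := by rw [h1, Matrix.one_mul]
  -- `A = T g G`, `X = A - Ji Aᵀ J`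
  refine ⟨T * g * G - Ji * (T * g * G)ᵀ * J, ?_, ?_⟩
  · unfold Skw
    rw [transpose_sub, Matrix.sub_mul, Matrix.mul_sub]
    have e1 : (Ji * (T * g * G)ᵀ * J)ᵀ * J = J * (T * g * G) := by
      rw [transpose_mul, transpose_mul, transpose_transpose, hJ, hJit]
      calc J * (T * g * G * Ji) * J = J * (T * g * G) * (Ji * J) := by
            simp only [Matrix.mul_assoc]
        _ = _ := by rw [hJi', Matrix.mul_one]
    have e2 : J * (Ji * (T * g * G)ᵀ * J) = (T * g * G)ᵀ * J := by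
      calc J * (Ji * (T * g * G)ᵀ * J) = (J * Ji) * (T * g * G)ᵀ * J := by
            simp only [Matrix.mul_assoc]
        _ = _ := by rw [hJi, Matrix.one_mul]
    rw [e1, e2]; abel
  · have h1 : (T * g)ᵀ * J * g = 0 := by
      have h0 : (gᵀ * J * (T * g))ᵀ = (T * g)ᵀ * J * g := by
        rw [transpose_mul (gᵀ * J) (T * g), transpose_mul gᵀ J, transpose_transpose, hJ,
          Matrix.mul_assoc]
      rw [← h0, hT, transpose_zero]
    rw [Matrix.sub_mul]
    have e1 : T * g * G * g = T * g := by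
      calc T * g * G * g = T * (g * G * g) := by simp only [Matrix.mul_assoc]
        _ = _ := by rw [hG]
    have e2 : Ji * (T * g * G)ᵀ * J * g = 0 := by
      calc Ji * (T * g * G)ᵀ * J * g = Ji * (Gᵀ * ((T * g)ᵀ * J * g)) := by
            rw [transpose_mul (T * g) G]; simp only [Matrix.mul_assoc]
        _ = 0 := by rw [h1, Matrix.mul_zero, Matrix.mul_zero]
    rw [e1, e2, sub_zero]

/-- `H¹(so(V)/p_S) = 0` in frame form. -/
theorem frame_dir (h : Ctx k arm J B N W g) {X : Fin 3 → Matrix ι ι K} (hX : ∀ s, Skw J (X s)) :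
    ∃ (Z : Matrix ι ι K) (Q : Fin 3 → Matrix ι ι K), Skw J Z ∧ Stb arm J N Q ∧
      ∀ s, ∃ C : Matrix δ δ K, (Z - X s - Q s) * g = g * C := by
  obtain ⟨d, hd⟩ := h.data.dir X 0 hX (by simp)
  obtain ⟨Y, hY, hYN, hYg⟩ := h.frame d
  obtain ⟨C0, hC0⟩ := hYg 0
  refine ⟨Y 0, fun s => Y s - X s, hY 0, ⟨fun s => (hY s).sub (hX s), fun F hF => ?_⟩,
    fun s => ?_⟩
  · have h1 : act arm (fun s => Y s - X s) F
        = (F.map d - act arm X F) - (F.map d - act arm Y F) := by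
      rw [act_sub_left]; abel
    rw [h1]
    exact N.sub_mem (hd.onN F hF) (hYN F hF)
  · obtain ⟨C1, hC1⟩ := hYg s
    refine ⟨C1 - C0, ?_⟩
    rw [Matrix.mul_sub, ← hC0, ← hC1]
    simp only [Matrix.sub_mul]
    abel

/-- **every flag compatible form `ψ : S → S^*` is skew.** -/
theorem flag_skew (h : Ctx k arm J B N W g) {Ψ : Matrix ι ι K} {b : Fin 3 → Matrix ι ι K}
    (hb : act arm b g ∈ N) (hΨ : ∀ s, gᵀ * J * ((Ψ - b s) * g) = 0) :
    (gᵀ * J * (Ψ * g))ᵀ = - (gᵀ * J * (Ψ * g)) := by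
  have hD := h.data
  choose X hX hXg using fun s => ext_so hD.J_symm hD.J_unit g (hΨ s)
  obtain ⟨Z, Q, hZ, hQ, hC⟩ := frame_dir h hX
  choose C hC using hC
  have ha : (Ψ - Z) * g ∈ W := h.W_mul _ h.memW
  have hν : act arm b g - act arm Q g ∈ N := N.sub_mem hb (hQ.pres g h.memN)
  have hs : ∀ s, (Ψ - Z - (b s - Q s)) * g = g * (- C s) := by
    intro s
    have h1 := hC s
    have h2 := hXg s
    rw [Matrix.mul_neg, ← h1]
    have h3 : (Z - X s - Q s) * g = Z * g - X s * g - Q s * g := by simp only [Matrix.sub_mul]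
    rw [h3, h2]
    simp only [Matrix.sub_mul]
    abel
  have hC' : (Ψ - Z) * g = (act arm b g - act arm Q g) + g * ∑ s, (- C s) * E K arm s := by
    have h1 : act arm (fun s => Ψ - Z - (b s - Q s)) g = g * ∑ s, (- C s) * E K arm s :=
      act_mul_const arm (fun s => Ψ - Z - (b s - Q s)) g hs
    rw [act_sub_left arm (fun _ => Ψ - Z) (fun s => b s - Q s), act_const,
      act_sub_left arm b Q] at h1
    rw [← h1]; abel
  have hsk := h.Qskew ha hν hC'
  have hZs := skew_gXg hD.J_symm hZ g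
  have e : gᵀ * J * (Ψ * g) = gᵀ * J * ((Ψ - Z) * g) + gᵀ * J * (Z * g) := by
    rw [← Matrix.mul_add]; congr 1
    rw [← Matrix.add_mul]; congr 1; abel
  rw [e, transpose_add, hsk, hZs, neg_add]

end Crest.Agent.R172.QEndQ
end

-- ▼ part R172/QEndQ2

/-!
Row 172 (S0260), (Q1)/(t3): Q-side END, part 2.
-/

set_option autoImplicit false
set_option linter.unusedSectionVars false
set_option linter.unusedFintypeInType false
set_option linter.unusedDecidableInType false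
set_option maxHeartbeats 800000

namespace Crest.Agent.R172.QEndQ

open Matrix Module Crest.Agent.R172.FO Crest.Agent.R172.Qt
open scoped TensorProduct

variable {ι : Type*} [Fintype ι] [DecidableEq ι] {δ : Type*} [Fintype δ] [DecidableEq δ]
variable {k K : Type*} [Field k] [Field K] [Algebra k K]
variable {arm : δ → Fin 3} {J : Matrix ι ι K} {B : Matrix δ δ K}
  {N W : Submodule K (Matrix ι δ K)} {g : Matrix ι δ K}

/-- forms on `S`, flag compatible at each arm, up to a global form vanishing on `U`. -/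
def TT (arm : δ → Fin 3) (J : Matrix ι ι K) (N : Submodule K (Matrix ι δ K)) (g : Matrix ι δ K)
    (U : Submodule K (δ → K)) : Submodule K (Fin 3 → Matrix δ δ K) where
  carrier := {D | ∃ (Ψ : Matrix ι ι K) (b : Fin 3 → Matrix ι ι K), act arm b g ∈ N ∧
    (∀ u ∈ U, ∀ u' ∈ U, u ⬝ᵥ ((gᵀ * J * (Ψ * g)) *ᵥ u') = 0) ∧
    ∀ s, D s + gᵀ * J * (Ψ * g) = gᵀ * J * (b s * g)}
  zero_mem' := ⟨0, 0, by simp [act], by simp, by simp⟩
  add_mem' := by
    rintro D D' ⟨Ψ, b, hb, hU, hD⟩ ⟨Ψ', b', hb', hU', hD'⟩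
    refine ⟨Ψ + Ψ', fun s => b s + b' s, ?_, ?_, ?_⟩
    · rw [act_add_left]; exact N.add_mem hb hb'
    · intro u hu u' hu'
      rw [Matrix.add_mul, Matrix.mul_add, Matrix.add_mulVec, dotProduct_add, hU u hu u' hu',
        hU' u hu u' hu', add_zero]
    · intro s
      rw [Pi.add_apply, Matrix.add_mul, Matrix.mul_add, Matrix.add_mul, Matrix.mul_add, ← hD,
        ← hD']
      abel
  smul_mem' := by
    rintro t D ⟨Ψ, b, hb, hU, hD⟩
    refine ⟨t • Ψ, fun s => t • b s, ?_, ?_, ?_⟩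
    · rw [act_smul_left]; exact N.smul_mem t hb
    · intro u hu u' hu'
      rw [Matrix.smul_mul, Matrix.mul_smul, Matrix.smul_mulVec, dotProduct_smul, hU u hu u' hu',
        smul_zero]
    · intro s
      rw [Pi.smul_apply, Matrix.smul_mul, Matrix.mul_smul, Matrix.smul_mul, Matrix.mul_smul,
        ← hD, smul_add]

section P

variable {P : Type*} [AddCommGroup P] [Module K P]

/-- `a ⊗ b ↦ θ a (θ b)ᵀ` -/
def mm (θ : P →ₗ[K] (δ → K)) : P →ₗ[K] P →ₗ[K] Matrix δ δ K :=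
  LinearMap.mk₂ K (fun a b => vecMulVec (θ a) (θ b))
    (fun a a' b => by rw [map_add, add_vecMulVec]) (fun c a b => by rw [map_smul, smul_vecMulVec])
    (fun a b b' => by rw [map_add, vecMulVec_add]) (fun c a b => by rw [map_smul, vecMulVec_smul])

@[simp] theorem mm_apply (θ : P →ₗ[K] (δ → K)) (a b : P) :
    mm θ a b = vecMulVec (θ a) (θ b) := rfl

/-- the form at the arm `s` -/
def qt (θ : P →ₗ[K] (δ → K)) (s : Fin 3) : P →ₗ[K] P →ₗ[K] (Fin 3 → Matrix δ δ K) :=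
  LinearMap.mk₂ K (fun a b => Pi.single s (vecMulVec (θ a) (θ b)))
    (fun a a' b => by rw [map_add, add_vecMulVec, Pi.single_add])
    (fun c a b => by rw [map_smul, smul_vecMulVec, Pi.single_smul])
    (fun a b b' => by rw [map_add, vecMulVec_add, Pi.single_add])
    (fun c a b => by rw [map_smul, vecMulVec_smul, Pi.single_smul])

@[simp] theorem qt_apply (θ : P →ₗ[K] (δ → K)) (s : Fin 3) (a b : P) :
    qt θ s a b = Pi.single s (vecMulVec (θ a) (θ b)) := rfl

theorem lift_qt (θ : P →ₗ[K] (δ → K)) (s : Fin 3) (T : P ⊗[K] P) :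
    TensorProduct.lift (qt θ s) T = Pi.single s (TensorProduct.lift (mm θ) T) := by
  induction T using TensorProduct.induction_on with
  | zero => simp
  | tmul a b => simp
  | add a b ha hb => rw [map_add, map_add, ha, hb, Pi.single_add]

theorem lift_mm_comm (θ : P →ₗ[K] (δ → K)) (T : P ⊗[K] P) :
    TensorProduct.lift (mm θ) (TensorProduct.comm K P P T)
      = (TensorProduct.lift (mm θ) T)ᵀ := by
  induction T using TensorProduct.induction_on with
  | zero => simp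
  | tmul a b => simp [transpose_vecMulVec]
  | add a b ha hb => rw [map_add, map_add, map_add, ha, hb, transpose_add]

theorem lift_mm_eq {θ : P →ₗ[K] (δ → K)} (hθ : ∀ p, ∃ v : ι → K, θ p = (gᵀ * J) *ᵥ v)
    (T : P ⊗[K] P) : ∃ Ψ : Matrix ι ι K,
      TensorProduct.lift (mm θ) T = gᵀ * J * (Ψ * g) := by
  induction T using TensorProduct.induction_on with
  | zero => exact ⟨0, by simp⟩
  | tmul a b =>
    obtain ⟨v, hv⟩ := hθ a
    obtain ⟨v', hv'⟩ := hθ b
    refine ⟨vecMulVec v (v' ᵥ* Jᵀ), ?_⟩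
    rw [TensorProduct.lift.tmul, mm_apply, hv, hv', vecMulVec_mul, mul_vecMulVec]
    congr 1
    rw [← Matrix.vecMul_transpose, transpose_mul, transpose_transpose, ← vecMul_vecMul]
  | add a b ha hb =>
    obtain ⟨Ψ, hΨ⟩ := ha
    obtain ⟨Ψ', hΨ'⟩ := hb
    exact ⟨Ψ + Ψ', by rw [map_add, hΨ, hΨ', Matrix.add_mul, Matrix.mul_add]⟩

theorem lift_mm_ct {θ : P →ₗ[K] (δ → K)} {w : P →ₗ[K] P →ₗ[K] K} {x y : P} {u u' : δ → K}
    (hx : ∀ a, w a x = u ⬝ᵥ θ a) (hy : ∀ a, w a y = u' ⬝ᵥ θ a) (T : P ⊗[K] P) :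
    u ⬝ᵥ (TensorProduct.lift (mm θ) T *ᵥ u') = SPE.ct w x y T := by
  induction T using TensorProduct.induction_on with
  | zero => simp
  | tmul a b =>
    rw [TensorProduct.lift.tmul, mm_apply, SPE.ct_tmul, hx, hy, vecMulVec_mulVec]
    simp only [dotProduct_smul, MulOpposite.smul_eq_mul_unop, MulOpposite.unop_op]
    rw [dotProduct_comm (θ b) u']
  | add a b ha hb => rw [map_add, map_add, add_mulVec, dotProduct_add, ha, hb]

/-- **Q-side END.** -/
theorem endQ (h : Ctx k arm J B N W g) (h2 : (2 : K) ≠ 0) {U : Submodule K (δ → K)}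
    {θ : P →ₗ[K] (δ → K)} (hθ : ∀ p, ∃ v : ι → K, θ p = (gᵀ * J) *ᵥ v)
    {w : P →ₗ[K] P →ₗ[K] K} (hw : ∀ y : P, ∃ u ∈ U, ∀ a, w a y = u ⬝ᵥ θ a)
    {T : P ⊗[K] P} (hT : TensorProduct.comm K P P T = T) (hne : ∃ x y, SPE.ct w x y T ≠ 0)
    (hmem : ∀ s, TensorProduct.lift (qt θ s) T ∈ TT arm J N g U) : False := by
  set M := TensorProduct.lift (mm θ) T with hM
  have hMt : Mᵀ = M := by rw [hM, ← lift_mm_comm, hT]
  have hsum : (fun _ => M : Fin 3 → Matrix δ δ K) ∈ TT arm J N g U := by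
    have h1 : (∑ s, TensorProduct.lift (qt θ s) T) ∈ TT arm J N g U :=
      Submodule.sum_mem _ fun s _ => hmem s
    have h3 : (∑ s, TensorProduct.lift (qt θ s) T) = (fun _ => M) := by
      funext s
      simp only [lift_qt, ← hM]
      rw [Finset.sum_apply, Finset.sum_pi_single]
      simp
    rwa [h3] at h1
  obtain ⟨Ψ, b, hb, hU, hD⟩ := hsum
  obtain ⟨Ψ1, hΨ1⟩ := lift_mm_eq (g := g) (J := J) hθ T
  rw [← hM] at hΨ1
  have hD' : ∀ s, gᵀ * J * (((Ψ1 + Ψ) - b s) * g) = 0 := by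
    intro s
    have h1 := hD s
    simp only at h1
    rw [Matrix.sub_mul, Matrix.mul_sub, ← h1, hΨ1, Matrix.add_mul, Matrix.mul_add, sub_self]
  have hsk := flag_skew h hb hD'
  obtain ⟨x, y, hxy⟩ := hne
  obtain ⟨u, hu, hux⟩ := hw x
  obtain ⟨u', hu', huy⟩ := hw y
  apply hxy
  rw [← lift_mm_ct hux huy T, ← hM]
  -- `u M u'`
  have e1 : gᵀ * J * ((Ψ1 + Ψ) * g) = M + gᵀ * J * (Ψ * g) := by
    rw [Matrix.add_mul, Matrix.mul_add, ← hΨ1]
  rw [e1] at hsk
  have h1 : u ⬝ᵥ ((M + gᵀ * J * (Ψ * g)) *ᵥ u') = u ⬝ᵥ (M *ᵥ u') := by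
    rw [add_mulVec, dotProduct_add, hU u hu u' hu', add_zero]
  have h3 : u' ⬝ᵥ ((M + gᵀ * J * (Ψ * g)) *ᵥ u) = u' ⬝ᵥ (M *ᵥ u) := by
    rw [add_mulVec, dotProduct_add, hU u' hu' u hu, add_zero]
  have h4 : ∀ (A : Matrix δ δ K) (a b : δ → K), a ⬝ᵥ (Aᵀ *ᵥ b) = b ⬝ᵥ (A *ᵥ a) := by
    intro A a b
    rw [mulVec_transpose, dotProduct_comm, dotProduct_mulVec]
  have h5 : u ⬝ᵥ ((M + gᵀ * J * (Ψ * g))ᵀ *ᵥ u') = - (u ⬝ᵥ (M *ᵥ u')) := by
    rw [hsk, neg_mulVec, dotProduct_neg, h1]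
  rw [h4, h3] at h5
  have h6 : u' ⬝ᵥ (M *ᵥ u) = u ⬝ᵥ (M *ᵥ u') := by
    rw [← h4 M u u', hMt]
  rw [h6] at h5
  have h7 : (2 : K) * (u ⬝ᵥ (M *ᵥ u')) = 0 := by
    rw [two_mul]; nth_rewrite 1 [h5]; ring
  exact (mul_eq_zero.1 h7).resolve_left h2

end P

end Crest.Agent.R172.QEndQ
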