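import Crest.Agent.R172.IndExt
import Mathlib.LinearAlgebra.Dual.Lemmas
import Crest.Agent.R172.IndBC
import Crest.Agent.R172.Om5
import Crest.Agent.R172.SpS8

-- ▼ part R172/GenP
section

/-!
Row 172, node IND: generic elements of subspaces, towers, base change of realised directions.
-/

set_option autoImplicit false
set_option linter.unusedSectionVars false
set_option maxHeartbeats 400000

namespace Crest.Agent.R172.GenP

open Matrix Crest.AlgebraR.SpinSaturation Crest.Agent.R172.SoGrade Crest.Agent.R172.Sp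
open Crest.Agent.R172.Gen (Jm Ix emb IsSo)
open Crest.Agent.R172.CF Crest.Agent.R172.HM8 Crest.Agent.R172.HM9 Module
open Crest.Agent.R172.Ind (GI kk mu perp Bd)
open Crest.Agent.R172.Ext

section bc

variable {K L : Type} [Field K] [Field L] [Algebra K L] {β : Type}

/-- membership in the base change of a subspace of `K^β` -/
def InBC (Z : Submodule K (β → K)) (v : β → L) : Prop :=
  ∀ φ : L →ₗ[K] K, (fun i => φ (v i)) ∈ Z

variable [Fintype β] [DecidableEq β]

/-- a projector onto a subspace -/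
theorem exists_proj (Z : Submodule K (β → K)) :
    ∃ P : Matrix β β K, (∀ j, (fun i => P i j) ∈ Z) ∧ ∀ x ∈ Z, P *ᵥ x = x := by
  obtain ⟨Q, hQ⟩ := Z.exists_isCompl
  let f : (β → K) →ₗ[K] (β → K) := Z.subtype.comp (Submodule.projectionOnto Z Q hQ)
  have hf1 : ∀ x, f x ∈ Z := fun x => (Submodule.projectionOnto Z Q hQ x).2
  have hf2 : ∀ x ∈ Z, f x = x := by
    intro x hx
    have := Submodule.projectionOnto_apply_left hQ ⟨x, hx⟩
    change ((Submodule.projectionOnto Z Q hQ x : Z) : β → K) = x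
    rw [this]
  have hm : ∀ x, (LinearMap.toMatrix' f) *ᵥ x = f x := by
    intro x
    rw [← Matrix.toLin'_apply, Matrix.toLin'_toMatrix']
  refine ⟨LinearMap.toMatrix' f, fun j => ?_, fun x hx => ?_⟩
  · have h1 : (fun i => LinearMap.toMatrix' f i j) = f (Pi.single j 1) := by
      rw [← hm]
      funext i
      rw [Matrix.mulVec_single_one]
      rfl
    rw [h1]
    exact hf1 _
  · rw [hm, hf2 x hx]

omit [DecidableEq β] in
theorem map_mulVec {γ : Type} (A : Matrix γ β K) (v : β → L) (φ : L →ₗ[K] K) :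
    (fun i => φ ((emb K L A *ᵥ v) i)) = A *ᵥ (fun i => φ (v i)) := by
  funext i
  rw [mulVec, dotProduct, map_sum, mulVec, dotProduct]
  refine Finset.sum_congr rfl fun j _ => ?_
  rw [FO3.emb_apply', ← Algebra.smul_def, map_smul, smul_eq_mul]

theorem eq_zero_of_dual {x : L} (h : ∀ φ : L →ₗ[K] K, φ x = 0) : x = 0 :=
  (Module.forall_dual_apply_eq_zero_iff K x).1 h

/-- membership by a projector -/
theorem inBC_iff {Z : Submodule K (β → K)} {P : Matrix β β K} (h1 : ∀ j, (fun i => P i j) ∈ Z)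
    (h2 : ∀ x ∈ Z, P *ᵥ x = x) (v : β → L) : InBC Z v ↔ emb K L P *ᵥ v = v := by
  constructor
  · intro h
    funext i
    rw [← sub_eq_zero]
    apply eq_zero_of_dual (K := K)
    intro φ
    have h3 := congrFun (map_mulVec P v φ) i
    rw [h2 _ (h φ)] at h3
    rw [map_sub, sub_eq_zero]
    exact h3
  · intro h φ
    have h3 := map_mulVec P v φ
    rw [h] at h3
    rw [h3]
    have h4 : P *ᵥ (fun i => φ (v i)) = ∑ j, φ (v j) • (fun i => P i j) := by
      funext i
      rw [mulVec, dotProduct, Finset.sum_apply]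
      exact Finset.sum_congr rfl fun j _ => mul_comm _ _
    rw [h4]
    exact Z.sum_mem fun j _ => Z.smul_mem _ (h1 j)

/-- expansion of an element of the base change -/
theorem InBC.expand {Z : Submodule K (β → K)} {P : Matrix β β K}
    (h1 : ∀ j, (fun i => P i j) ∈ Z) (h2 : ∀ x ∈ Z, P *ᵥ x = x) {v : β → L} (h : InBC Z v) :
    v = ∑ j, v j • (fun i => algebraMap K L (P i j)) := by
  have h3 := (inBC_iff h1 h2 v).1 h
  conv_lhs => rw [← h3]
  funext i
  rw [mulVec, dotProduct, Finset.sum_apply]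
  exact Finset.sum_congr rfl fun j _ => mul_comm _ _


variable (L) in
/-- the base change as a subspace -/
def bc {β : Type} (Z : Submodule K (β → K)) : Submodule L (β → L) where
  carrier := {v | InBC Z v}
  add_mem' := by
    intro v w hv hw φ
    have : (fun i => φ ((v + w) i)) = (fun i => φ (v i)) + fun i => φ (w i) := by
      funext i
      rw [Pi.add_apply, map_add]; rfl
    rw [this]
    exact Z.add_mem (hv φ) (hw φ)
  zero_mem' := by
    intro φ
    have : (fun i => φ ((0 : β → L) i)) = 0 := by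
      funext i
      rw [Pi.zero_apply, map_zero]; rfl
    rw [this]
    exact Z.zero_mem
  smul_mem' := by
    intro t v hv φ
    exact hv (φ.comp (LinearMap.mulLeft K t))



end bc


section real

variable {n : ℕ} {a : Fin 3 → Fin n → ℤ} (c : Cfg n a) {K L : Type} [Field K]
  [Field L] [Algebra K L] [Algebra ℂ K] [Algebra ℂ L] [IsScalarTower ℂ K L]

/-- directions `(X, G, w)` realised by a derivation: `X` on `N(g)`, `G` on `H`, `w` on `v` -/
def RealG (g : Fin 3 → Matrix (Ix n) (Ix n) L) {m : ℕ} (H : Matrix (Fin m) (Fin m) L)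
    {γ : Type} (v : γ → L) :
    Submodule L ((Fin 3 → Matrix (Ix n) (Ix n) L) × Matrix (Fin m) (Fin m) L × (γ → L)) where
  carrier := {x | ∃ D : Derivation ℂ L L,
    (∀ F ∈ c.N g, F.map D - FO.act c.arm x.1 F ∈ c.N g) ∧ H.map D = x.2.1 ∧
      ∀ i, D (v i) = x.2.2 i}
  zero_mem' := by
    refine ⟨0, fun F hF => ?_, ?_, fun i => rfl⟩
    · have h1 : F.map (0 : Derivation ℂ L L) = 0 := by ext i j; rfl
      have h2 : FO.act c.arm (0 : Fin 3 → Matrix (Ix n) (Ix n) L) F = 0 := FO.act_zero c.arm F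
      rw [h1, Prod.fst_zero, h2, sub_zero]
      exact Submodule.zero_mem _
    · ext i j; rfl
  add_mem' := by
    rintro x y ⟨D1, h2, h3, h4⟩ ⟨D2, k2, k3, k4⟩
    refine ⟨D1 + D2, fun F hF => ?_, ?_, fun i => ?_⟩
    · have e1 : F.map (D1 + D2) = F.map D1 + F.map D2 := by ext i j; rfl
      have e2 : FO.act c.arm (x + y).1 F = FO.act c.arm x.1 F + FO.act c.arm y.1 F := by
        rw [← act_add_left]; rfl
      rw [e1, e2, add_sub_add_comm]
      exact Submodule.add_mem _ (h2 F hF) (k2 F hF)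
    · rw [Prod.snd_add, Prod.fst_add, ← h3, ← k3]; ext i j; rfl
    · rw [Prod.snd_add, Prod.snd_add, Pi.add_apply, ← h4, ← k4]; rfl
  smul_mem' := by
    rintro t x ⟨D1, h2, h3, h4⟩
    refine ⟨t • D1, fun F hF => ?_, ?_, fun i => ?_⟩
    · have e1 : F.map (t • D1) = t • F.map D1 := by ext i j; rfl
      have e2 : FO.act c.arm (t • x).1 F = t • FO.act c.arm x.1 F := by
        rw [← act_smul_left]; rfl
      rw [e1, e2, ← smul_sub]
      exact Submodule.smul_mem _ _ (h2 F hF)
    · rw [Prod.smul_snd, Prod.smul_fst, ← h3]; ext i j; rfl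
    · rw [Prod.smul_snd, Prod.smul_snd, Pi.smul_apply, ← h4]; rfl

variable {c}


/-- a derivation of the big field which extends a derivation of the small field realises the same
direction -/
theorem real_of_ext {g : Fin 3 → Matrix (Ix n) (Ix n) K} {X : Fin 3 → Matrix (Ix n) (Ix n) K}
    {D0 : Derivation ℂ K K} (h1 : ∀ F ∈ c.N g, F.map D0 - FO.act c.arm X F ∈ c.N g)
    {D : Derivation ℂ L L} (hD : ∀ x, D (algebraMap K L x) = algebraMap K L (D0 x)) :
    ∀ F ∈ c.N (fun s => emb K L (g s)),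
      F.map D - FO.act c.arm (fun s => emb K L (X s)) F ∈ c.N (fun s => emb K L (g s)) := by
  have hP : c.N (fun s => emb K L (g s)) ≤ GoodF (c.N (fun s => emb K L (g s))) D
      (fun s => emb K L (X s)) := by
    refine N_induction _ ?_
    intro F hF t
    refine Submodule.smul_mem _ t ⟨emb_mem_N' hF, ?_⟩
    have e1 : (emb K L F).map D = emb K L (F.map D0) := by
      ext i j
      exact hD (F i j)
    have e3 : emb K L (F.map D0) - emb K L (FO.act c.arm X F) =
        emb K L (F.map D0 - FO.act c.arm X F) := by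
      ext i j
      rw [Matrix.sub_apply, FO3.emb_apply', FO3.emb_apply', FO3.emb_apply', Matrix.sub_apply,
        map_sub]
    rw [e1, ← emb_act, e3]
    exact emb_mem_N' (h1 F hF)
  exact fun F hF => (hP hF).2

/-- realised directions base change -/
theorem real_bc {g : Fin 3 → Matrix (Ix n) (Ix n) K} {m : ℕ} {H : Matrix (Fin m) (Fin m) K}
    {γ : Type} {v : γ → K} {X : Fin 3 → Matrix (Ix n) (Ix n) K} {G : Matrix (Fin m) (Fin m) K}
    {w : γ → K} (h : (X, G, w) ∈ RealG c g H v) :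
    ((fun s => emb K L (X s)), emb K L G, (fun i => algebraMap K L (w i))) ∈
      RealG c (fun s => emb K L (g s)) (emb K L H) (fun i => algebraMap K L (v i)) := by
  obtain ⟨D0, h1, h2, h3⟩ := h
  obtain ⟨D, hD⟩ := extend_der (L := L) D0
  refine ⟨D, real_of_ext h1 hD, ?_, fun i => ?_⟩
  · change (emb K L H).map D = emb K L G
    rw [← show H.map D0 = G from h2]
    ext i j
    exact hD (H i j)
  · change D (algebraMap K L (v i)) = algebraMap K L (w i)
    rw [hD, h3]

/-- vertical derivations base change: if all `w` of the subspace `Y` (over `K`) are realised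
vertically, so are all `w` of its base change -/
theorem vert_bc {g : Fin 3 → Matrix (Ix n) (Ix n) K} {m : ℕ} {H : Matrix (Fin m) (Fin m) K}
    {γ : Type} [Fintype γ] [DecidableEq γ] {v : γ → K} {Y : Submodule K (γ → K)}
    (h : ∀ w ∈ Y, ∃ D : Derivation ℂ K K,
      (∀ F ∈ c.N g, F.map D - FO.act c.arm 0 F ∈ c.N g) ∧ H.map D = 0 ∧ ∀ i, D (v i) = w i)
    {w : γ → L} (hw : InBC Y w) :
    ∃ D : Derivation ℂ L L, (∀ F ∈ c.N (fun s => emb K L (g s)),
      F.map D - FO.act c.arm 0 F ∈ c.N (fun s => emb K L (g s))) ∧ (emb K L H).map D = 0 ∧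
        ∀ i, D (algebraMap K L (v i)) = w i := by
  obtain ⟨P, h1, h2⟩ := exists_proj Y
  have key : ∀ j, ((0 : Fin 3 → Matrix (Ix n) (Ix n) L), (0 : Matrix (Fin m) (Fin m) L),
      (fun i => algebraMap K L (P i j))) ∈
      RealG c (fun s => emb K L (g s)) (emb K L H) (fun i => algebraMap K L (v i)) := by
    intro j
    obtain ⟨D, hD1, hD2, hD3⟩ := h _ (h1 j)
    have h5 := real_bc (c := c) (L := L) (g := g) (H := H) (v := v) (X := 0) (G := 0)
      (w := fun i => P i j) ⟨D, hD1, hD2, hD3⟩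
    have e1 : (fun s => emb K L ((0 : Fin 3 → Matrix (Ix n) (Ix n) K) s)) = 0 := by
      funext s
      ext x y
      rw [FO3.emb_apply', Pi.zero_apply, Pi.zero_apply, Matrix.zero_apply, Matrix.zero_apply,
        map_zero]
    have e2 : emb K L (0 : Matrix (Fin m) (Fin m) K) = 0 := by
      ext x y
      rw [FO3.emb_apply', Matrix.zero_apply, Matrix.zero_apply, map_zero]
    rw [e1, e2] at h5
    exact h5
  have h6 : ((0 : Fin 3 → Matrix (Ix n) (Ix n) L), (0 : Matrix (Fin m) (Fin m) L), w) =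
      ∑ j, w j • ((0 : Fin 3 → Matrix (Ix n) (Ix n) L), (0 : Matrix (Fin m) (Fin m) L),
        (fun i => algebraMap K L (P i j))) := by
    refine Prod.ext ?_ (Prod.ext ?_ ?_)
    · simp only [Prod.fst_sum, Prod.smul_fst, smul_zero, Finset.sum_const_zero]
    · simp only [Prod.fst_sum, Prod.snd_sum, Prod.smul_fst, Prod.smul_snd, smul_zero,
        Finset.sum_const_zero]
    · simp only [Prod.snd_sum, Prod.smul_snd]
      exact hw.expand h1 h2
  have h7 : ((0 : Fin 3 → Matrix (Ix n) (Ix n) L), (0 : Matrix (Fin m) (Fin m) L), w) ∈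
      RealG c (fun s => emb K L (g s)) (emb K L H) (fun i => algebraMap K L (v i)) := by
    rw [h6]
    exact Submodule.sum_mem _ fun j _ => Submodule.smul_mem _ _ (key j)
  exact h7

/-- a derivation which kills the small field realises `(0, 0)` -/
theorem vert_zero {g : Fin 3 → Matrix (Ix n) (Ix n) K} {m : ℕ} {H : Matrix (Fin m) (Fin m) K}
    {D : Derivation ℂ L L} (hD : ∀ x, D (algebraMap K L x) = 0) :
    (∀ F ∈ c.N (fun s => emb K L (g s)),
      F.map D - FO.act c.arm 0 F ∈ c.N (fun s => emb K L (g s))) ∧ (emb K L H).map D = 0 := by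
  constructor
  · have h1 := real_of_ext (c := c) (L := L) (g := g) (X := 0) (D0 := 0) (by
      intro F hF
      have e1 : F.map (0 : Derivation ℂ K K) = 0 := by ext i j; rfl
      rw [e1, FO.act_zero, sub_zero]
      exact Submodule.zero_mem _) (D := D) (by
      intro x
      rw [hD]
      exact (map_zero _).symm)
    have e1 : (fun s => emb K L ((0 : Fin 3 → Matrix (Ix n) (Ix n) K) s)) = 0 := by
      funext s
      ext x y
      rw [FO3.emb_apply', Pi.zero_apply, Pi.zero_apply, Matrix.zero_apply, Matrix.zero_apply,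
        map_zero]
    rw [e1] at h1
    exact h1
  · ext i j
    exact hD (H i j)

end real

/-! ### Matrix forms -/

section mat

/-- currying -/
def unc (K : Type) [Field K] (α β : Type) : (α × β → K) ≃ₗ[K] Matrix α β K where
  toFun f := Matrix.of fun i j => f (i, j)
  invFun F := fun y => F y.1 y.2
  map_add' _ _ := rfl
  map_smul' _ _ := rfl
  left_inv _ := rfl
  right_inv _ := rfl


variable {n : ℕ} {a : Fin 3 → Fin n → ℤ} {c : Cfg n a} {K L : Type} [Field K]
  [Field L] [Algebra K L] [Algebra ℂ K] [Algebra ℂ L] [IsScalarTower ℂ K L]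

/-- vertical derivations base change, matrix form -/
theorem vert_bc_mat {g : Fin 3 → Matrix (Ix n) (Ix n) K} {m : ℕ} {H : Matrix (Fin m) (Fin m) K}
    {α β : Type} [Fintype α] [DecidableEq α] [Fintype β] [DecidableEq β] {F0 : Matrix α β K}
    {Y : Submodule K (Matrix α β K)}
    (h : ∀ w ∈ Y, ∃ D : Derivation ℂ K K,
      (∀ F ∈ c.N g, F.map D - FO.act c.arm 0 F ∈ c.N g) ∧ H.map D = 0 ∧ F0.map D = w)
    {w : Matrix α β L} (hw : ∀ φ : L →ₗ[K] K, w.map φ ∈ Y) :
    ∃ D : Derivation ℂ L L, (∀ F ∈ c.N (fun s => emb K L (g s)),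
      F.map D - FO.act c.arm 0 F ∈ c.N (fun s => emb K L (g s))) ∧ (emb K L H).map D = 0 ∧
        (emb K L F0).map D = w := by
  obtain ⟨D, hD1, hD2, hD3⟩ := vert_bc (c := c) (L := L) (g := g) (H := H)
    (v := fun y : α × β => F0 y.1 y.2)
    (Y := Y.comap (unc K α β).toLinearMap) (by
      intro w hw
      obtain ⟨D, hD1, hD2, hD3⟩ := h _ hw
      exact ⟨D, hD1, hD2, fun i => congrFun (congrFun hD3 i.1) i.2⟩)
    (w := fun y => w y.1 y.2) (fun φ => hw φ)
  exact ⟨D, hD1, hD2, by ext i j; exact hD3 (i, j)⟩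


end mat

end Crest.Agent.R172.GenP
end

-- ▼ part R172/GenQ
section

/-!
Row 172: the generic pair `(g, p)`, `g ∈ 𝒦_iso`, `p ∈ H⁰(so(V)/p_S)`, over a tower of extensions,
in coordinates with respect to bases (algebraically independent coefficients).
-/

set_option autoImplicit false
set_option linter.unusedSectionVars false
set_option maxHeartbeats 400000

namespace Crest.Agent.R172.GenQ

open Matrix Crest.AlgebraR.SpinSaturation Crest.Agent.R172.SoGrade Crest.Agent.R172.Sp
open Crest.Agent.R172.Gen (Jm Ix emb IsSo)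
open Crest.Agent.R172.CF Crest.Agent.R172.HM8 Crest.Agent.R172.HM9 Module
open Crest.Agent.R172.Ind (GI kk mu perp Bd)
open Crest.Agent.R172.Ext Crest.Agent.R172.GenP

/-- algebraically independent elements with all vertical derivations -/
theorem gen_tuple (K : Type) [Field K] [Algebra ℂ K] (r : ℕ) :
    ∃ (L : Type) (_ : Field L) (_ : Algebra K L) (_ : Algebra ℂ L) (_ : IsScalarTower ℂ K L)
      (_ : IsAlgClosed L) (_ : CharZero L) (t : Fin r → L), AlgebraicIndependent K t ∧
      ∀ w : Fin r → L, ∃ D : Derivation ℂ L L, (∀ x, D (algebraMap K L x) = 0) ∧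
        ∀ i, D (t i) = w i := by
  have hc : CharZero K := charZero_of_injective_algebraMap (algebraMap ℂ K).injective
  obtain ⟨L, iL, iKL, icl, icz, t, ht⟩ := Gen.exists_generic K (Fin r)
  let iCL : Algebra ℂ L := ((algebraMap K L).comp (algebraMap ℂ K)).toAlgebra
  have ist : IsScalarTower ℂ K L := IsScalarTower.of_algebraMap_eq' rfl
  refine ⟨L, iL, iKL, iCL, ist, icl, icz, t, ht, ?_⟩
  intro w
  obtain ⟨D, hD1, hD2⟩ := Gen.exists_derivation (k := ℂ) ht (0 : Derivation ℂ K L) w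
  exact ⟨D, fun x => hD1 x, hD2⟩

section mat

variable {K L : Type} [Field K] [Field L] [Algebra K L] {α β : Type}

theorem emb_add2 (A B : Matrix α β K) : emb K L (A + B) = emb K L A + emb K L B := by
  ext i j; simp [Matrix.map_apply]

theorem emb_smul2 (t : K) (A : Matrix α β K) : emb K L (t • A) = algebraMap K L t • emb K L A := by
  ext i j; simp [Matrix.map_apply]

theorem emb_zero2 : emb K L (0 : Matrix α β K) = 0 := by
  ext i j; simp [Matrix.map_apply]

theorem emb_sum2 {γ : Type} (s : Finset γ) (A : γ → Matrix α β K) :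
    emb K L (∑ i ∈ s, A i) = ∑ i ∈ s, emb K L (A i) := by
  ext i j
  rw [FO3.emb_apply', Matrix.sum_apply, Matrix.sum_apply, map_sum]
  rfl

/-- elements of the base change in coordinates -/
theorem exists_coord [Fintype α] [Fintype β] [DecidableEq α] [DecidableEq β]
    {Z : Submodule K (Matrix α β K)} {r : ℕ} {κ : Fin r → Matrix α β K}
    (hκ : Submodule.span K (Set.range κ) = Z) {w : Matrix α β L}
    (hw : ∀ φ : L →ₗ[K] K, w.map φ ∈ Z) : ∃ u : Fin r → L, w = ∑ j, u j • emb K L (κ j) := by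
  have h1 : InBC (Z.comap (unc K α β).toLinearMap) (fun y : α × β => w y.1 y.2) := fun φ => hw φ
  obtain ⟨P, hP1, hP2⟩ := exists_proj (Z.comap (unc K α β).toLinearMap)
  have h2 := h1.expand hP1 hP2
  have h3 : ∀ y : α × β, ∃ a : Fin r → K, ∑ j, a j • κ j =
      Matrix.of fun i j => P (i, j) y := by
    intro y
    have h4 : (Matrix.of fun i j => P (i, j) y) ∈ Submodule.span K (Set.range κ) := by
      rw [hκ]; exact hP1 y
    exact (Submodule.mem_span_range_iff_exists_fun K).1 h4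
  choose a ha using h3
  refine ⟨fun j => ∑ y, w y.1 y.2 * algebraMap K L (a y j), ?_⟩
  ext i j
  have h5 := congrFun h2 (i, j)
  simp only [Finset.sum_apply, Pi.smul_apply, smul_eq_mul] at h5
  rw [h5, Matrix.sum_apply]
  simp only [Matrix.smul_apply, FO3.emb_apply', smul_eq_mul, Finset.sum_mul]
  rw [Finset.sum_comm]
  refine Finset.sum_congr rfl fun y _ => ?_
  have h6 := congrFun (congrFun (ha y) i) j
  rw [Matrix.sum_apply, Matrix.of_apply] at h6
  simp only [Matrix.smul_apply, smul_eq_mul] at h6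
  rw [← h6, map_sum, Finset.mul_sum]
  refine Finset.sum_congr rfl fun k _ => ?_
  rw [map_mul]
  ring

/-- the derivative of a combination with constant coefficients matrices -/
theorem sum_der [Algebra ℂ L] {r : ℕ} {D : Derivation ℂ L L} (hD : ∀ x, D (algebraMap K L x) = 0)
    (t : Fin r → L) (κ : Fin r → Matrix α β K) :
    (∑ j, t j • emb K L (κ j)).map D = ∑ j, D (t j) • emb K L (κ j) := by
  ext x y
  rw [map_apply, Matrix.sum_apply, Matrix.sum_apply, map_sum]
  refine Finset.sum_congr rfl fun j _ => ?_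
  rw [Matrix.smul_apply, Matrix.smul_apply, smul_eq_mul, smul_eq_mul, Derivation.leibniz,
    FO3.emb_apply', hD, smul_zero, zero_add, smul_eq_mul, mul_comm]

end mat

section nn

variable {n : ℕ} {a : Fin 3 → Fin n → ℤ} {c : Cfg n a} {K L : Type} [Field K]
  [Field L] [Algebra K L] [Algebra ℂ K] [Algebra ℂ L] [IsScalarTower ℂ K L]

variable (L) in
/-- base change of pairs -/
def embP (p : Matrix (Ix n) (Ix n) K × (Fin 3 → Matrix (Ix n) (Ix n) K)) :
    Matrix (Ix n) (Ix n) L × (Fin 3 → Matrix (Ix n) (Ix n) L) :=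
  (emb K L p.1, fun s => emb K L (p.2 s))


/-- upwards base change of `NN` -/
theorem nn_up {g : Fin 3 → Matrix (Ix n) (Ix n) K} {F : Matrix (Ix n) c.δ K}
    {p : Matrix (Ix n) (Ix n) K × (Fin 3 → Matrix (Ix n) (Ix n) K)}
    (hp : p ∈ Qt.NN c.arm (Jm n K) (c.N g) F) :
    embP L p ∈ Qt.NN c.arm (Jm n L) (c.N (fun s => emb K L (g s))) (emb K L F) := by
  obtain ⟨h1, h2, h3⟩ := hp
  have hJ : emb K L (Jm n K) = Jm n L := Pol.Jm_map (algebraMap K L)
  have hsk : ∀ X : Matrix (Ix n) (Ix n) K, Qt.Skw (Jm n K) X → Qt.Skw (Jm n L) (emb K L X) := by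
    intro X hX
    have h4 := congrArg (fun A : Matrix (Ix n) (Ix n) K => emb K L A) hX
    beta_reduce at h4
    rw [emb_add2, FO3.emb_mul', FO3.emb_mul', hJ, emb_zero2] at h4
    exact h4
  refine ⟨hsk _ h1, ⟨fun s => hsk _ (h2.skw s), ?_⟩, fun s => ?_⟩
  · intro G hG
    let P : Submodule L (Matrix (Ix n) c.δ L) :=
      (c.N (fun s => emb K L (g s))).comap (actL c.arm (fun s => emb K L (p.2 s)))
    have hP : c.N (fun s => emb K L (g s)) ≤ P := by
      refine N_induction P ?_
      intro F hF t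
      refine P.smul_mem t ?_
      change FO.act c.arm (fun s => emb K L (p.2 s)) (emb K L F) ∈
        c.N (fun s => emb K L (g s))
      rw [← emb_act]
      exact emb_mem_N' (h2.pres F hF)
    exact hP hG
  · obtain ⟨C, hC⟩ := h3 s
    refine ⟨emb K L C, ?_⟩
    have h4 := congrArg (fun A : Matrix (Ix n) c.δ K => emb K L A) hC
    beta_reduce at h4
    rw [FO3.emb_mul', FO3.emb_mul'] at h4
    rw [← h4]
    congr 1
    ext x y
    simp [embP, Matrix.map_apply]

/-- downwards base change of `NN` -/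
theorem nn_down {g : Fin 3 → Matrix (Ix n) (Ix n) K}
    (hg : ∀ s, (g s)ᵀ * Jm n K * g s = Jm n K) {F : Matrix (Ix n) c.δ K}
    {p : Matrix (Ix n) (Ix n) L × (Fin 3 → Matrix (Ix n) (Ix n) L)}
    (hp : p ∈ Qt.NN c.arm (Jm n L) (c.N (fun s => emb K L (g s))) (emb K L F))
    (φ : L →ₗ[K] K) :
    ((p.1.map φ, fun s => (p.2 s).map φ) :
      Matrix (Ix n) (Ix n) K × (Fin 3 → Matrix (Ix n) (Ix n) K)) ∈
      Qt.NN c.arm (Jm n K) (c.N g) F := by
  obtain ⟨h1, h2, h3⟩ := hp
  have hJ : (Jm n K).map (algebraMap K L) = Jm n L := Pol.Jm_map (algebraMap K L)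
  have hsk : ∀ X : Matrix (Ix n) (Ix n) L, Qt.Skw (Jm n L) X → Qt.Skw (Jm n K) (X.map φ) := by
    intro X hX
    have h4 := congrArg (fun A : Matrix (Ix n) (Ix n) L => A.map φ) hX
    beta_reduce at h4
    rw [Om.map_add_lin, ← hJ, Om.map_mul_right_lin, Om.map_mul_left_lin, Om.map_zero_lin] at h4
    exact h4
  refine ⟨hsk _ h1, ⟨fun s => hsk _ (h2.skw s), ?_⟩, fun s => ?_⟩
  · intro G hG
    have h4 := h2.pres (emb K L G) (emb_mem_N' hG)
    rw [← BC.bcM_N c hg] at h4
    have h5 := h4 φ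
    have h6 : (FO.act c.arm p.2 (emb K L G)).map φ =
        FO.act c.arm (fun s => (p.2 s).map φ) G := by
      ext x d
      have h7 := congrFun (congrFun
        (Om.map_mul_right_lin (K := K) (L := L) φ (p.2 (c.arm d)) G) x) d
      rw [map_apply, act_apply, act_apply]
      rw [map_apply] at h7
      exact h7
    rw [h6] at h5
    exact h5
  · obtain ⟨C, hC⟩ := h3 s
    refine ⟨C.map φ, ?_⟩
    have h4 := congrArg (fun A : Matrix (Ix n) c.δ L => A.map φ) hC
    beta_reduce at h4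
    rw [Om.map_mul_right_lin, Om.map_mul_left_lin] at h4
    rw [← h4]
    congr 1
    ext x y
    simp [Matrix.map_apply]

/-- coordinates of pairs -/
def cp (K : Type) [Field K] (n : ℕ) : (((Ix n × Ix n) ⊕ (Fin 3 × Ix n × Ix n)) → K) ≃ₗ[K]
    (Matrix (Ix n) (Ix n) K × (Fin 3 → Matrix (Ix n) (Ix n) K)) where
  toFun f := (Matrix.of fun i j => f (Sum.inl (i, j)),
    fun s => Matrix.of fun i j => f (Sum.inr (s, i, j)))
  invFun p := Sum.elim (fun y => p.1 y.1 y.2) (fun y => p.2 y.1 y.2.1 y.2.2)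
  map_add' _ _ := rfl
  map_smul' _ _ := rfl
  left_inv f := by funext y; rcases y with y | y <;> rfl
  right_inv _ := rfl

/-- elements of the base change of a space of pairs in coordinates -/
theorem exists_coordP {Z : Submodule K (Matrix (Ix n) (Ix n) K × (Fin 3 → Matrix (Ix n) (Ix n) K))}
    {r : ℕ} {π : Fin r → Matrix (Ix n) (Ix n) K × (Fin 3 → Matrix (Ix n) (Ix n) K)}
    (hπ : Submodule.span K (Set.range π) = Z)
    {p : Matrix (Ix n) (Ix n) L × (Fin 3 → Matrix (Ix n) (Ix n) L)}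
    (hp : ∀ φ : L →ₗ[K] K, ((p.1.map φ, fun s => (p.2 s).map φ) :
      Matrix (Ix n) (Ix n) K × (Fin 3 → Matrix (Ix n) (Ix n) K)) ∈ Z) :
    ∃ u : Fin r → L, p = ∑ j, u j • embP L (π j) := by
  set v : ((Ix n × Ix n) ⊕ (Fin 3 × Ix n × Ix n)) → L := (cp L n).symm p with hv
  have h1 : InBC (Z.comap (cp K n).toLinearMap) v := by
    intro φ
    exact hp φ
  obtain ⟨P, hP1, hP2⟩ := exists_proj (Z.comap (cp K n).toLinearMap)
  have h2 := h1.expand hP1 hP2
  have h3 : ∀ y, ∃ b : Fin r → K, ∑ j, b j • π j = cp K n (fun i => P i y) := by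
    intro y
    have h4 : cp K n (fun i => P i y) ∈ Submodule.span K (Set.range π) := by
      rw [hπ]; exact hP1 y
    exact (Submodule.mem_span_range_iff_exists_fun K).1 h4
  choose b hb using h3
  refine ⟨fun j => ∑ y, v y * algebraMap K L (b y j), ?_⟩
  apply (cp L n).symm.injective
  rw [← hv, map_sum]
  conv_lhs => rw [h2]
  funext x
  simp only [Finset.sum_apply, Pi.smul_apply, smul_eq_mul, map_smul, Finset.sum_mul]
  rw [Finset.sum_comm]
  refine Finset.sum_congr rfl fun y _ => ?_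
  have h6 := congrFun (congrArg (cp K n).symm (hb y)) x
  rw [LinearEquiv.symm_apply_apply, map_sum, Finset.sum_apply] at h6
  rw [← h6, map_sum, Finset.mul_sum]
  refine Finset.sum_congr rfl fun k _ => ?_
  rw [map_smul, Pi.smul_apply, smul_eq_mul, map_mul, mul_assoc]
  congr 2
  rcases x with x | x <;> rfl

end nn

section steps

variable {n : ℕ} {a : Fin 3 → Fin n → ℤ} {c : Cfg n a} (p : Pol c) {K : Type} [Field K]
  [Algebra ℂ K]

/-- base change of `N` and `W` -/
theorem bcNW {L : Type} [Field L] [Algebra K L] [Algebra ℂ L] [IsScalarTower ℂ K L]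
    {g : Fin 3 → Matrix (Ix n) (Ix n) K} {H : Matrix (Fin p.m) (Fin p.m) K}
    (hG : GI c p K g H) :
    Om.BC (c.N g) (c.N (fun s => emb K L (g s))) ∧
      Om.BC (VL (p.LH H) : Submodule K (Matrix (Ix n) c.δ K))
        (VL (p.LH (emb K L H)) : Submodule L (Matrix (Ix n) c.δ L)) :=
  ⟨Om.BC.of_forall fun G => by rw [← BC.bcM_N c hG.orth]; rfl,
    Om.BC.of_forall fun G => by rw [← BC.bcM_VL p hG.skew]; rfl⟩

theorem bcKiso {L : Type} [Field L] [Algebra K L] [Algebra ℂ L] [IsScalarTower ℂ K L]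
    {g : Fin 3 → Matrix (Ix n) (Ix n) K} {H : Matrix (Fin p.m) (Fin p.m) K}
    (hG : GI c p K g H) :
    Om.BC (Om.Kiso (Jm n K) (c.N g) (VL (p.LH H)))
      (Om.Kiso (Jm n L) (c.N (fun s => emb K L (g s))) (VL (p.LH (emb K L H)))) := by
  have h1 := bcNW (L := L) p hG
  have h2 := Om.bc_Kiso (J := Jm n K) h1.1 h1.2
  have hJ : (Jm n K).map (algebraMap K L) = Jm n L := Pol.Jm_map (algebraMap K L)
  rw [hJ] at h2
  exact h2

/-- a vertical direction `w` for `F` (with `H` fixed) -/
def VertH (c : Cfg n a) {L : Type} [Field L] [Algebra ℂ L] (g : Fin 3 → Matrix (Ix n) (Ix n) L)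
    {m : ℕ} (H : Matrix (Fin m) (Fin m) L) (F w : Matrix (Ix n) c.δ L) : Prop :=
  ∃ D : Derivation ℂ L L, (∀ G ∈ c.N g, G.map D - FO.act c.arm 0 G ∈ c.N g) ∧ H.map D = 0 ∧
    F.map D = w

/-- realisation of `(0, 0)` -/
theorem realises_of {L : Type} [Field L] [Algebra ℂ L] {g : Fin 3 → Matrix (Ix n) (Ix n) L}
    {H : Matrix (Fin p.m) (Fin p.m) L} (hH : Hᵀ = -H) {D : Derivation ℂ L L}
    (h1 : ∀ G ∈ c.N g, G.map D - FO.act c.arm 0 G ∈ c.N g) (h2 : H.map D = 0) :
    FO.Realises c.arm (c.N g) (VL (p.LH H)) (0 : Fin 3 → Matrix (Ix n) (Ix n) L)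
      (0 : Matrix c.δ c.δ L) D := by
  refine ⟨h1, fun F hF => FO3.onW p hH D ?_ hF⟩
  rw [h2, FO3.dirH, Matrix.mul_zero, Matrix.zero_mul]

/-- **STEP 1**: the generic element of `𝒦_iso` -/
theorem step1 {g : Fin 3 → Matrix (Ix n) (Ix n) K} {H : Matrix (Fin p.m) (Fin p.m) K}
    (hG : GI c p K g H) {r : ℕ} {κ : Fin r → Matrix (Ix n) c.δ K}
    (hκ : Submodule.span K (Set.range κ) = Om.Kiso (Jm n K) (c.N g) (VL (p.LH H))) :
    ∃ (L : Type) (_ : Field L) (_ : Algebra K L) (_ : Algebra ℂ L) (_ : IsScalarTower ℂ K L)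
      (_ : IsAlgClosed L) (_ : CharZero L) (t : Fin r → L), AlgebraicIndependent K t ∧
      (∑ j, t j • emb K L (κ j)) ∈
        Om.Kiso (Jm n L) (c.N (fun s => emb K L (g s))) (VL (p.LH (emb K L H))) ∧
      (∀ w ∈ Om.Kiso (Jm n L) (c.N (fun s => emb K L (g s))) (VL (p.LH (emb K L H))),
        VertH c (fun s => emb K L (g s)) (emb K L H) (∑ j, t j • emb K L (κ j)) w) := by
  obtain ⟨L, iL, iKL, iCL, ist, icl, icz, t, ht, hder⟩ := gen_tuple K r
  have hbc := bcKiso (L := L) p hG
  refine ⟨L, iL, iKL, iCL, ist, icl, icz, t, ht, ?_, ?_⟩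
  · refine Submodule.sum_mem _ fun j _ => Submodule.smul_mem _ _ (hbc.up _ ?_)
    rw [← hκ]
    exact Submodule.subset_span ⟨j, rfl⟩
  · intro w hw
    obtain ⟨u, hu⟩ := exists_coord hκ (hbc.down w hw)
    obtain ⟨D, hD1, hD2⟩ := hder u
    obtain ⟨h1, h2⟩ := vert_zero (c := c) (g := g) (H := H) hD1
    refine ⟨D, h1, h2, ?_⟩
    rw [sum_der hD1, hu]
    exact Finset.sum_congr rfl fun j _ => by rw [hD2]

/-- **STEP 2**: the generic element of `NN g0` over a further extension -/
theorem step2 {g : Fin 3 → Matrix (Ix n) (Ix n) K} {H : Matrix (Fin p.m) (Fin p.m) K}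
    (hG : GI c p K g H) {F : Matrix (Ix n) c.δ K}
    (hV : ∀ w ∈ Om.Kiso (Jm n K) (c.N g) (VL (p.LH H)), VertH c g H F w)
    {r : ℕ} {π : Fin r → Matrix (Ix n) (Ix n) K × (Fin 3 → Matrix (Ix n) (Ix n) K)}
    (hπ : Submodule.span K (Set.range π) = Qt.NN c.arm (Jm n K) (c.N g) F) :
    ∃ (L : Type) (_ : Field L) (_ : Algebra K L) (_ : Algebra ℂ L) (_ : IsScalarTower ℂ K L)
      (_ : IsAlgClosed L) (_ : CharZero L) (u : Fin r → L), AlgebraicIndependent K u ∧
      (∑ i, u i • embP L (π i)) ∈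
        Qt.NN c.arm (Jm n L) (c.N (fun s => emb K L (g s))) (emb K L F) ∧
      -- V1
      (∀ w ∈ Om.Kiso (Jm n L) (c.N (fun s => emb K L (g s))) (VL (p.LH (emb K L H))),
        ∃ d : Derivation ℂ L L, (emb K L F).map d = w ∧
          FO.Realises c.arm (c.N (fun s => emb K L (g s))) (VL (p.LH (emb K L H)))
            (0 : Fin 3 → Matrix (Ix n) (Ix n) L) (0 : Matrix c.δ c.δ L) d) ∧
      -- V2
      (∀ p' ∈ Qt.NN c.arm (Jm n L) (c.N (fun s => emb K L (g s))) (emb K L F),
        ∃ d : Derivation ℂ L L, (∀ x, d (algebraMap K L x) = 0) ∧ (emb K L F).map d = 0 ∧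
          FO.Realises c.arm (c.N (fun s => emb K L (g s))) (VL (p.LH (emb K L H)))
            (0 : Fin 3 → Matrix (Ix n) (Ix n) L) (0 : Matrix c.δ c.δ L) d ∧
          (∑ i, u i • embP L (π i)).1.map d = p'.1 ∧
          ∀ s, ((∑ i, u i • embP L (π i)).2 s).map d = p'.2 s) := by
  classical
  obtain ⟨L, iL, iKL, iCL, ist, icl, icz, u, hu, hder⟩ := gen_tuple K r
  have hbc := bcKiso (L := L) p hG
  have hskL : (emb K L H)ᵀ = -(emb K L H) := FO3.emb_skew hG.skew
  refine ⟨L, iL, iKL, iCL, ist, icl, icz, u, hu, ?_, ?_, ?_⟩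
  · refine Submodule.sum_mem _ fun j _ => Submodule.smul_mem _ _ (nn_up ?_)
    rw [← hπ]
    exact Submodule.subset_span ⟨j, rfl⟩
  · intro w hw
    obtain ⟨D, h1, h2, h3⟩ := vert_bc_mat (c := c) (L := L) (g := g) (H := H) (F0 := F)
      (Y := Om.Kiso (Jm n K) (c.N g) (VL (p.LH H))) hV (w := w) (hbc.down w hw)
    exact ⟨D, h3, realises_of p hskL h1 h2⟩
  · intro p' hp'
    obtain ⟨v, hv⟩ := exists_coordP hπ (nn_down hG.orth hp')
    obtain ⟨D, hD1, hD2⟩ := hder v
    obtain ⟨h1, h2⟩ := vert_zero (c := c) (g := g) (H := H) hD1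
    refine ⟨D, hD1, ?_, realises_of p hskL h1 h2, ?_, fun s => ?_⟩
    · ext i j
      exact hD1 (F i j)
    · have e1 : (∑ i, u i • embP L (π i)).1 = ∑ i, u i • emb K L (π i).1 := by
        rw [Prod.fst_sum]; rfl
      have e2 : p'.1 = ∑ i, v i • emb K L (π i).1 := by
        rw [hv, Prod.fst_sum]; rfl
      rw [e1, e2, sum_der hD1]
      exact Finset.sum_congr rfl fun j _ => by rw [hD2]
    · have e1 : (∑ i, u i • embP L (π i)).2 s = ∑ i, u i • emb K L ((π i).2 s) := by
        rw [Prod.snd_sum, Finset.sum_apply]; rfl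
      have e2 : p'.2 s = ∑ i, v i • emb K L ((π i).2 s) := by
        rw [hv, Prod.snd_sum, Finset.sum_apply]; rfl
      rw [e1, e2, sum_der hD1]
      exact Finset.sum_congr rfl fun j _ => by rw [hD2]

end steps

/-- a finite basis of a subspace, as a family of vectors -/
theorem exists_family {K M : Type} [Field K] [AddCommGroup M] [Module K M] [Module.Finite K M]
    (Z : Submodule K M) : ∃ (r : ℕ) (κ : Fin r → M), LinearIndependent K κ ∧
      Submodule.span K (Set.range κ) = Z := by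
  let b := Module.finBasis K Z
  refine ⟨_, fun j => (b j : M), ?_, ?_⟩
  · exact b.linearIndependent.map' Z.subtype (Submodule.ker_subtype Z)
  · have h1 : (Set.range fun j => (b j : M)) = Z.subtype '' Set.range b := by
      rw [← Set.range_comp]; rfl
    rw [h1, Submodule.span_image, b.span_eq, Submodule.map_top, Submodule.range_subtype]

end Crest.Agent.R172.GenQ
end

-- ▼ part R172/SpS9

/-!
Row 172, G1 Step 2 (`T_f` is scalar), part 9: descent from generic `(g, p)` to all `g ∈ Kiso`: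
`Om.Scal`.
-/

set_option autoImplicit false
set_option linter.unusedSectionVars false

namespace Crest.Agent.R172.SpS

open Matrix Module Crest.Agent.R172.FO Crest.Agent.R172.Qt
open Crest.Agent.R172.Om (Kiso Om IsY Scal Om_add_left Om_add_right Om_smul_left Om_smul_right'
  Om_zero_right expand bc_Kiso Om_dir skew_map_emb)

section one

variable {ι : Type*} [Fintype ι] [DecidableEq ι] {δ : Type*} [Fintype δ] [DecidableEq δ]
variable {k K : Type*} [Field k] [Field K] [Algebra k K]
variable {arm : δ → Fin 3} {J : Matrix ι ι K} {B : Matrix δ δ K}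
  {N W : Submodule K (Matrix ι δ K)} {g : Matrix ι δ K}

theorem smul_of_minors {α β : Type*} {X Y : Matrix α β K}
    (h : ∀ a b a' b', X a b * Y a' b' = X a' b' * Y a b) (h0 : Y = 0 → X = 0) :
    ∃ c : K, X = c • Y := by
  by_cases hY : Y = 0
  · exact ⟨0, by rw [h0 hY, zero_smul]⟩
  · obtain ⟨a', b', hab⟩ : ∃ a b, Y a b ≠ 0 := by
      by_contra hcon
      push Not at hcon
      exact hY (by ext i j; simpa using hcon i j)
    refine ⟨X a' b' / Y a' b', ?_⟩
    ext a b
    rw [Matrix.smul_apply, smul_eq_mul]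
    field_simp
    exact h a b a' b'

/-- if `T_f φ` is proportional to `φ` for all `φ` then `T_f` is a scalar. -/
theorem uniform_of_minors (h : Ctx k arm J B N W g) {f : Matrix ι δ K} (hf : f ∈ N ⊓ W)
    (hmin : ∀ p ∈ NN arm J N g, ∀ a b a' b',
      (gᵀ * J * (p.1 * f)) a b * (gᵀ * J * (p.1 * g)) a' b' =
        (gᵀ * J * (p.1 * f)) a' b' * (gᵀ * J * (p.1 * g)) a b) :
    ∃ c : K, ∀ p ∈ NN arm J N g, gᵀ * J * (p.1 * f) = c • (gᵀ * J * (p.1 * g)) := by
  obtain ⟨R, hR⟩ := exists_pinv g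
  obtain ⟨Tf, -, hTf⟩ := exists_step h hR hf
  obtain ⟨c, hc⟩ := LinearMap.exists_eq_smul_id_of_forall_notLinearIndependent (f := Tf) (by
    intro φ hli
    obtain ⟨p, hp⟩ := φ.2
    have h1 := hTf φ p (by rw [← hp, AF_apply])
    obtain ⟨c, hc⟩ := smul_of_minors (hmin p.1 p.2) (fun h0 => h.tf_zero hf p.2 h0)
    have h2 : Tf φ = c • φ := by
      apply Subtype.ext
      rw [h1, hc, Submodule.coe_smul, ← hp, AF_apply]
    rw [LinearIndependent.pair_iff] at hli
    have h3 := hli c (-1) (by rw [h2, neg_smul, one_smul, add_neg_cancel])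
    exact one_ne_zero (neg_eq_zero.1 h3.2))
  refine ⟨c, fun p hp => ?_⟩
  have h1 := hTf ⟨gᵀ * J * (p.1 * g), ⟨⟨p, hp⟩, rfl⟩⟩ ⟨p, hp⟩ rfl
  rw [hc] at h1
  exact h1.symm

theorem triple_apply {α β γ ε : Type*} [Fintype β] [Fintype γ] (A : Matrix α β K)
    (p : Matrix β γ K) (F : Matrix γ ε K) (a : α) (b : ε) :
    (A * (p * F)) a b = ∑ i, ∑ j, A a i * F j b * p i j := by
  rw [Matrix.mul_apply]
  refine Finset.sum_congr rfl fun i _ => ?_
  rw [Matrix.mul_apply, Finset.mul_sum]
  refine Finset.sum_congr rfl fun j _ => ?_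
  ring

/-- `Scal` from minors. -/
theorem scal_of_minors (hC : ∀ g ∈ Kiso J N W, Ctx k arm J B N W g)
    (hmin : ∀ g ∈ Kiso J N W, ∀ f ∈ Kiso J N W, ∀ d1 d2 : Derivation k K K,
      IsY k arm B N W d1 → IsY k arm B N W d2 → ∀ a b a' b',
      (Om J d1 g f) a b * (Om J d2 g g) a' b' = (Om J d2 g f) a' b' * (Om J d1 g g) a b) :
    Scal k arm J B N W := by
  intro g hg
  by_cases h0 : ∀ d : Derivation k K K, IsY k arm B N W d → Om J d g g = 0
  · refine ⟨fun _ => 0, fun f hf d hd => ?_⟩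
    obtain ⟨p, hp, hpf⟩ := Om.exists_NN (hC g hg) hd
    rw [zero_smul, hpf f hf.1]
    apply (hC g hg).tf_zero hf.1 hp
    rw [← hpf g hg.1]
    exact h0 d hd
  · push Not at h0
    obtain ⟨d0, hd0, hne⟩ := h0
    obtain ⟨a', b', hab⟩ : ∃ a b, Om J d0 g g a b ≠ 0 := by
      by_contra hcon
      push Not at hcon
      exact hne (by ext i j; simpa using hcon i j)
    refine ⟨fun f => Om J d0 g f a' b' / Om J d0 g g a' b', fun f hf d hd => ?_⟩
    ext a b
    rw [Matrix.smul_apply, smul_eq_mul]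
    field_simp
    exact hmin g hg f hf d d0 hd hd0 a b a' b'

/-- spanning family of a subspace of matrices given by a projection. -/
theorem exists_projM (Z : Submodule K (Matrix ι δ K)) :
    ∃ P : ι × δ → Matrix ι δ K, (∀ y, P y ∈ Z) ∧ ∀ F ∈ Z, F = ∑ y, F y.1 y.2 • P y := by
  obtain ⟨Q, hQ⟩ := Z.exists_isCompl
  let f : Matrix ι δ K →ₗ[K] Matrix ι δ K := Z.subtype.comp (Submodule.projectionOnto Z Q hQ)
  have hf1 : ∀ x, f x ∈ Z := fun x => (Submodule.projectionOnto Z Q hQ x).2
  have hf2 : ∀ x ∈ Z, f x = x := by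
    intro x hx
    have := Submodule.projectionOnto_apply_left hQ ⟨x, hx⟩
    change ((Submodule.projectionOnto Z Q hQ x : Z) : Matrix ι δ K) = x
    rw [this]
  refine ⟨fun y => f (Matrix.single y.1 y.2 1), fun y => hf1 _, fun F hF => ?_⟩
  conv_lhs => rw [← hf2 F hF, matrix_eq_sum_single F]
  rw [map_sum, Fintype.sum_prod_type]
  refine Finset.sum_congr rfl fun i _ => ?_
  rw [map_sum]
  refine Finset.sum_congr rfl fun j _ => ?_
  have : (Matrix.single i j (F i j) : Matrix ι δ K) = F i j • Matrix.single i j 1 := by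
    rw [smul_single, smul_eq_mul, mul_one]
  rw [this, map_smul]

theorem Om_sum_left {γ : Type*} (d : Derivation k K K) (s : Finset γ) (a : γ → K)
    (P : γ → Matrix ι δ K) (f : Matrix ι δ K) :
    Om J d (∑ y ∈ s, a y • P y) f = ∑ y ∈ s, a y • Om J d (P y) f := by
  unfold Om
  rw [Matrix.transpose_sum, Matrix.sum_mul, Matrix.sum_mul]
  refine Finset.sum_congr rfl fun y _ => ?_
  rw [transpose_smul, Matrix.smul_mul, Matrix.smul_mul]

theorem Om_sum_right {γ : Type*} (d : Derivation k K K) (s : Finset γ) (a : γ → K)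
    (P : γ → Matrix ι δ K) {f : Matrix ι δ K} (hP : ∀ y, P y ∈ Kiso J N W)
    (hf : f ∈ Kiso J N W) :
    Om J d f (∑ y ∈ s, a y • P y) = ∑ y ∈ s, a y • Om J d f (P y) := by
  classical
  induction s using Finset.induction_on with
  | empty => rw [Finset.sum_empty, Finset.sum_empty, Om_zero_right]
  | insert e t het ih =>
    rw [Finset.sum_insert het, Finset.sum_insert het, Om_add_right, ih,
      Om_smul_right' d (a e) hf (hP e)]

end one

section two

variable {ι : Type*} [Fintype ι] [DecidableEq ι] {δ : Type*} [Fintype δ] [DecidableEq δ]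
variable {k K L : Type*} [Field k] [Field K] [Field L] [Algebra k K] [Algebra k L] [Algebra K L]
variable {arm : δ → Fin 3} {J : Matrix ι ι K} {B : Matrix δ δ K}
  {N W : Submodule K (Matrix ι δ K)} {NL WL : Submodule L (Matrix ι δ L)}

theorem expandM {Z : Submodule K (Matrix ι δ K)} {ZL : Submodule L (Matrix ι δ L)}
    (hZ : Om.BC Z ZL) {P : ι × δ → Matrix ι δ K} (hP : ∀ F ∈ Z, F = ∑ y, F y.1 y.2 • P y)
    {G : Matrix ι δ L} (hG : G ∈ ZL) :
    G = ∑ y, G y.1 y.2 • (P y).map (algebraMap K L) := by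
  obtain ⟨s, φ, hs⟩ := expand (K := K) G
  have h1 : ∀ e, (G.map (φ e)).map (algebraMap K L) =
      ∑ y : ι × δ, algebraMap K L (φ e (G y.1 y.2)) • (P y).map (algebraMap K L) := by
    intro e
    conv_lhs => rw [hP _ (hZ.down G hG (φ e))]
    ext i j
    rw [map_apply, Matrix.sum_apply, Matrix.sum_apply, map_sum]
    refine Finset.sum_congr rfl fun y _ => ?_
    rw [Matrix.smul_apply, Matrix.smul_apply, map_apply, map_apply, smul_eq_mul, smul_eq_mul,
      map_mul]
  have h2 : ∀ y : ι × δ, G y.1 y.2 = ∑ e ∈ s, e * algebraMap K L (φ e (G y.1 y.2)) := by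
    intro y
    conv_lhs => rw [hs]
    rw [Matrix.sum_apply]
    refine Finset.sum_congr rfl fun e _ => ?_
    rw [Matrix.smul_apply, map_apply, map_apply, smul_eq_mul]
  conv_lhs => rw [hs]
  rw [Finset.sum_congr rfl fun e _ => by rw [h1 e, Finset.smul_sum], Finset.sum_comm]
  refine Finset.sum_congr rfl fun y _ => ?_
  conv_rhs => rw [h2 y]
  rw [Finset.sum_smul]
  refine Finset.sum_congr rfl fun e _ => ?_
  rw [smul_smul]

/-- **Descent B**: from `g₀` generic in `Kiso(L)` to all of `Kiso(K)`. -/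
theorem scal_of_generic (hN : Om.BC N NL) (hW : Om.BC W WL) (hD : Data k arm J B N W)
    (hDL : Data k arm (J.map (algebraMap K L)) (B.map (algebraMap K L)) NL WL)
    (hC : ∀ g ∈ Kiso J N W, Ctx k arm J B N W g) {g0 : Matrix ι δ L}
    (hg0 : g0 ∈ Kiso (J.map (algebraMap K L)) NL WL)
    (hC0 : Ctx k arm (J.map (algebraMap K L)) (B.map (algebraMap K L)) NL WL g0)
    (hspec : ∀ q : MvPolynomial (ι × δ) K, MvPolynomial.aeval (fun y => g0 y.1 y.2) q = 0 →
      ∀ F0 ∈ Kiso J N W, MvPolynomial.aeval (fun y => F0 y.1 y.2) q = 0)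
    (hsc : ∀ f ∈ Kiso (J.map (algebraMap K L)) NL WL, ∃ c : L,
      ∀ p ∈ NN arm (J.map (algebraMap K L)) NL g0,
        g0ᵀ * J.map (algebraMap K L) * (p.1 * f) =
          c • (g0ᵀ * J.map (algebraMap K L) * (p.1 * g0))) :
    Scal k arm J B N W := by
  classical
  have hKi := bc_Kiso (J := J) hN hW
  obtain ⟨P, hP1, hP2⟩ := exists_projM (Kiso J N W)
  have hPL : ∀ y, (P y).map (algebraMap K L) ∈ Kiso (J.map (algebraMap K L)) NL WL :=
    fun y => hKi.up _ (hP1 y)
  have hg0e := expandM hKi hP2 hg0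
  apply scal_of_minors hC
  intro g hg f hf d1 d2 hd1 hd2 a b a' b'
  -- the polynomials
  let Q1 : Derivation k K K → δ → δ → MvPolynomial (ι × δ) K := fun d a b =>
    ∑ y, MvPolynomial.C (Om J d (P y) f a b) * MvPolynomial.X y
  let Q2 : Derivation k K K → δ → δ → MvPolynomial (ι × δ) K := fun d a b =>
    ∑ y, ∑ z, MvPolynomial.C (Om J d (P y) (P z) a b) * MvPolynomial.X y * MvPolynomial.X z
  have q1K : ∀ d a b, MvPolynomial.aeval (fun y : ι × δ => g y.1 y.2) (Q1 d a b) =
      Om J d g f a b := by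
    intro d a b
    conv_rhs => rw [hP2 g hg, Om_sum_left]
    rw [map_sum, Matrix.sum_apply]
    refine Finset.sum_congr rfl fun y _ => ?_
    rw [map_mul, MvPolynomial.aeval_C, MvPolynomial.aeval_X, Matrix.smul_apply, smul_eq_mul,
      mul_comm]
    rfl
  have q2K : ∀ d a b, MvPolynomial.aeval (fun y : ι × δ => g y.1 y.2) (Q2 d a b) =
      Om J d g g a b := by
    intro d a b
    have e1 : Om J d g g = ∑ y : ι × δ, g y.1 y.2 • Om J d (P y) g := by
      conv_lhs => rw [hP2 g hg]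
      rw [Om_sum_left, ← hP2 g hg]
    have e2 : ∀ y, Om J d (P y) g = ∑ z : ι × δ, g z.1 z.2 • Om J d (P y) (P z) := by
      intro y
      conv_lhs => rw [hP2 g hg]
      rw [Om_sum_right d Finset.univ _ P hP1 (hP1 y)]
    rw [e1, map_sum, Matrix.sum_apply]
    refine Finset.sum_congr rfl fun y _ => ?_
    rw [e2, map_sum, Matrix.smul_apply, Matrix.sum_apply, Finset.smul_sum]
    refine Finset.sum_congr rfl fun z _ => ?_
    rw [map_mul, map_mul, MvPolynomial.aeval_C, MvPolynomial.aeval_X, MvPolynomial.aeval_X,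
      Matrix.smul_apply, smul_eq_mul, smul_eq_mul]
    change Om J d (P y) (P z) a b * g y.1 y.2 * g z.1 z.2 = _
    ring
  -- over `L`
  have hext : ∀ d : Derivation k K K, IsY k arm B N W d → ∃ d' : Derivation k L L,
      IsY k arm (B.map (algebraMap K L)) NL WL d' ∧
      (∀ a b, MvPolynomial.aeval (fun y : ι × δ => g0 y.1 y.2) (Q1 d a b) =
        Om (J.map (algebraMap K L)) d' g0 (f.map (algebraMap K L)) a b) ∧
      ∀ a b, MvPolynomial.aeval (fun y : ι × δ => g0 y.1 y.2) (Q2 d a b) =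
        Om (J.map (algebraMap K L)) d' g0 g0 a b := by
    rintro d ⟨Y, hY, hr⟩
    obtain ⟨d', hr'⟩ := hDL.dir 0 (Y.map (algebraMap K L)) (by intro s; simp) (skew_map_emb hY)
    refine ⟨d', ⟨_, skew_map_emb hY, hr'⟩, fun a b => ?_, fun a b => ?_⟩
    · conv_rhs => rw [hg0e, Om_sum_left]
      rw [map_sum, Matrix.sum_apply]
      refine Finset.sum_congr rfl fun y _ => ?_
      rw [map_mul, MvPolynomial.aeval_C, MvPolynomial.aeval_X, Matrix.smul_apply, smul_eq_mul,
        Om_dir hN hW hr hr' hf.1 (hP1 y), map_apply, mul_comm]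
    · have e1 : Om (J.map (algebraMap K L)) d' g0 g0 =
          ∑ y : ι × δ, g0 y.1 y.2 • Om (J.map (algebraMap K L)) d'
            ((P y).map (algebraMap K L)) g0 := by
        conv_lhs => rw [hg0e]
        rw [Om_sum_left, ← hg0e]
      have e2 : ∀ y, Om (J.map (algebraMap K L)) d' ((P y).map (algebraMap K L)) g0 =
          ∑ z : ι × δ, g0 z.1 z.2 • (Om J d (P y) (P z)).map (algebraMap K L) := by
        intro y
        conv_lhs => rw [hg0e]
        rw [Om_sum_right d' Finset.univ _ _ hPL (hPL y)]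
        refine Finset.sum_congr rfl fun z _ => ?_
        rw [Om_dir hN hW hr hr' (hP1 z).1 (hP1 y)]
      rw [e1, map_sum, Matrix.sum_apply]
      refine Finset.sum_congr rfl fun y _ => ?_
      rw [e2, map_sum, Matrix.smul_apply, Matrix.sum_apply, Finset.smul_sum]
      refine Finset.sum_congr rfl fun z _ => ?_
      rw [map_mul, map_mul, MvPolynomial.aeval_C, MvPolynomial.aeval_X, MvPolynomial.aeval_X,
        Matrix.smul_apply, map_apply, smul_eq_mul, smul_eq_mul]
      ring
  obtain ⟨d1', hd1', a1, b1⟩ := hext d1 hd1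
  obtain ⟨d2', hd2', a2, b2⟩ := hext d2 hd2
  have hfL := hKi.up f hf
  obtain ⟨c, hc⟩ := hsc _ hfL
  have hOm : ∀ d' : Derivation k L L, IsY k arm (B.map (algebraMap K L)) NL WL d' →
      Om (J.map (algebraMap K L)) d' g0 (f.map (algebraMap K L)) =
        c • Om (J.map (algebraMap K L)) d' g0 g0 := by
    intro d' hd'
    obtain ⟨p, hp, hpf⟩ := Om.exists_NN hC0 hd'
    rw [hpf _ hfL.1, hpf g0 hg0.1, hc p hp]
  have hzero : MvPolynomial.aeval (fun y : ι × δ => g0 y.1 y.2)
      (Q1 d1 a b * Q2 d2 a' b' - Q1 d2 a' b' * Q2 d1 a b) = 0 := by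
    rw [map_sub, map_mul, map_mul, a1, b2, a2, b1, hOm d1' hd1', hOm d2' hd2',
      Matrix.smul_apply, Matrix.smul_apply, smul_eq_mul, smul_eq_mul]
    ring
  have hK := hspec _ hzero g hg
  rw [map_sub, map_mul, map_mul, q1K, q2K, q1K, q2K, sub_eq_zero] at hK
  exact hK

/-- **Descent A**: from `p` generic in `NN g` to all of `NN g`. -/
theorem uniform_of_generic {g : Matrix ι δ K} (h : Ctx k arm J B N W g) {f : Matrix ι δ K}
    (hf : f ∈ N ⊓ W) {p0 : Matrix ι ι L}
    (hspec : ∀ q : MvPolynomial (ι × ι) K, MvPolynomial.aeval (fun y => p0 y.1 y.2) q = 0 →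
      ∀ p ∈ NN arm J N g, MvPolynomial.aeval (fun y => p.1 y.1 y.2) q = 0)
    (hsc : ∃ c : L, (g.map (algebraMap K L))ᵀ * J.map (algebraMap K L) *
        (p0 * f.map (algebraMap K L)) =
      c • ((g.map (algebraMap K L))ᵀ * J.map (algebraMap K L) * (p0 * g.map (algebraMap K L)))) :
    ∃ c : K, ∀ p ∈ NN arm J N g, gᵀ * J * (p.1 * f) = c • (gᵀ * J * (p.1 * g)) := by
  classical
  obtain ⟨c, hc⟩ := hsc
  apply uniform_of_minors h hf
  intro p hp a b a' b'
  let Q : Matrix ι δ K → δ → δ → MvPolynomial (ι × ι) K := fun F a b =>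
    ∑ i, ∑ j, MvPolynomial.C ((gᵀ * J) a i * F j b) * MvPolynomial.X (i, j)
  have qK : ∀ F a b, MvPolynomial.aeval (fun y : ι × ι => p.1 y.1 y.2) (Q F a b) =
      (gᵀ * J * (p.1 * F)) a b := by
    intro F a b
    rw [map_sum, triple_apply]
    refine Finset.sum_congr rfl fun i _ => ?_
    rw [map_sum]
    refine Finset.sum_congr rfl fun j _ => ?_
    rw [map_mul, MvPolynomial.aeval_C, MvPolynomial.aeval_X]
    rfl
  have qL : ∀ F a b, MvPolynomial.aeval (fun y : ι × ι => p0 y.1 y.2) (Q F a b) =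
      ((g.map (algebraMap K L))ᵀ * J.map (algebraMap K L) *
        (p0 * F.map (algebraMap K L))) a b := by
    intro F a b
    rw [map_sum, triple_apply]
    refine Finset.sum_congr rfl fun i _ => ?_
    rw [map_sum]
    refine Finset.sum_congr rfl fun j _ => ?_
    rw [map_mul, MvPolynomial.aeval_C, MvPolynomial.aeval_X, map_mul, map_apply,
      ← Matrix.transpose_map, ← Matrix.map_mul, map_apply]
  have hzero : MvPolynomial.aeval (fun y : ι × ι => p0 y.1 y.2)
      (Q f a b * Q g a' b' - Q f a' b' * Q g a b) = 0 := by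
    rw [map_sub, map_mul, map_mul, qL, qL, qL, qL, hc, Matrix.smul_apply, Matrix.smul_apply,
      smul_eq_mul, smul_eq_mul]
    ring
  have hK := hspec _ hzero p hp
  rw [map_sub, map_mul, map_mul, qK, qK, qK, qK, sub_eq_zero] at hK
  exact hK

end two

end Crest.Agent.R172.SpS
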