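import Crest.Agent.R172.Qt7
import Crest.Agent.R172.IndCnt
import Crest.Agent.R172.NilBr5
import Crest.Agent.R172.SN2
import Crest.Agent.R172.SpS9_Mg
import Crest.Agent.R172.IndGen4
import Crest.Agent.R172.IndSt2

-- ▼ part R172/Qt8
section

/-!
Row 172 (S0260), node G1.2, part 4: the final alternative for a pair `f ∈ 𝒦`, `G` isotropic and
generic, over 630's configurations: `f` isotropic, or `φ = 0`, or tame.
-/

set_option autoImplicit false
set_option linter.unusedSectionVars false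
set_option linter.unusedFintypeInType false
set_option linter.unusedDecidableInType false

namespace Crest.Agent.R172.Qt

open Matrix Module Crest.Agent.R172.FO
open Crest.Agent.R172.CF Crest.Agent.R172.CSys
open Crest.Agent.R172.Gen (Jm Ix)

variable {n : ℕ} {a : Fin 3 → Fin n → ℤ} {c : Cfg n a} {K : Type} [Field K] [Algebra ℂ K]
variable {q : SPol c}

theorem maxN {g : Fin 3 → Matrix (Ix n) (Ix n) K} (hg : ∀ s, (g s)ᵀ * Jm n K * g s = Jm n K) :
    ∀ F : Matrix (Ix n) c.δ K, (∀ F' ∈ c.N g, pair (Jm n K) (c.B K) F' F = 0) → F ∈ c.N g := by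
  have dN : finrank K (c.N g) = n * Fintype.card c.δ := c.finrank_N hg
  have oN : (Ext.om c K).orthogonal (c.N g) = c.N g :=
    Ext.orth_lag (fun F hF G hG => FO3.N_iso c hg hF hG) dN
  intro F hF
  rw [← oN, LinearMap.BilinForm.mem_orthogonal_iff]
  exact hF

theorem maxW (p : Pol c) {H : Matrix (Fin p.m) (Fin p.m) K} (hH : Hᵀ = -H) :
    ∀ F : Matrix (Ix n) c.δ K, (∀ F' ∈ (VL (p.LH H) : Submodule K (Matrix (Ix n) c.δ K)),
      pair (Jm n K) (c.B K) F' F = 0) → F ∈ (VL (p.LH H) : Submodule K (Matrix (Ix n) c.δ K)) := by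
  have dW : finrank K (VL (p.LH H) : Submodule K (Matrix (Ix n) c.δ K))
      = n * Fintype.card c.δ := by
    rw [finrank_VL, ← p.finrank_LH H]; ring
  have oW : (Ext.om c K).orthogonal (VL (p.LH H)) = VL (p.LH H) :=
    Ext.orth_lag (fun F hF G hG => by
      rw [Ext.om_apply, FO.pair, trace_mul_comm, ← Matrix.mul_assoc, ← Matrix.mul_assoc,
        trace_mul_comm, ← Matrix.mul_assoc, ← Matrix.mul_assoc]
      rw [FO3.W_iso p hH hG hF, Matrix.zero_mul, trace_zero]) dW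
  intro F hF
  rw [← oW, LinearMap.BilinForm.mem_orthogonal_iff]
  exact hF

/-- `Φ_s (G u) = G (TT u)` -/
theorem Phi_G {W : Submodule K (Matrix (Ix n) c.δ K)} {g : Fin 3 → Matrix (Ix n) (Ix n) K}
    {G : Matrix (Ix n) c.δ K} (hC : Ctx ℂ c.arm (Jm n K) (c.B K) (c.N g) W G)
    {p : Matrix (Ix n) (Ix n) K × (Fin 3 → Matrix (Ix n) (Ix n) K)}
    (hp : p ∈ NN c.arm (Jm n K) (c.N g) G) (s : Fin 3) (u : c.δ → K) :
    (((Mop c.arm (c.B K) G s ∘ₗ eta (Jm n K) G p.1) ⟨G *ᵥ u, ⟨u, rfl⟩⟩ : Sg G) : Ix n → K)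
      = G *ᵥ (TT G (act c.arm p.2 G) s u) := by
  rw [LinearMap.comp_apply, Mop_eta, TT, Matrix.toLin'_apply]
  have h1 : Gᵀ * Jm n K * act c.arm p.2 G = Gᵀ * Jm n K * (p.1 * G) := by
    have := hC.perp_Pg hp
    unfold Pg at this
    rw [Matrix.mul_sub, sub_eq_zero] at this
    exact this.symm
  have h2 : E K c.arm s * c.B K * Gᵀ * Jm n K * act c.arm p.2 G
      = E K c.arm s * c.B K * Gᵀ * Jm n K * (p.1 * G) := by
    calc E K c.arm s * c.B K * Gᵀ * Jm n K * act c.arm p.2 G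
        = E K c.arm s * c.B K * (Gᵀ * Jm n K * act c.arm p.2 G) := by
          simp only [Matrix.mul_assoc]
      _ = _ := by rw [h1]; simp only [Matrix.mul_assoc]
  rw [h2]
  unfold FO.M
  simp only [mulVec_mulVec, Matrix.mul_assoc]

theorem Phi_words {W : Submodule K (Matrix (Ix n) c.δ K)} {g : Fin 3 → Matrix (Ix n) (Ix n) K}
    {G : Matrix (Ix n) c.δ K} (hC : Ctx ℂ c.arm (Jm n K) (c.B K) (c.N g) W G)
    {p : Matrix (Ix n) (Ix n) K × (Fin 3 → Matrix (Ix n) (Ix n) K)}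
    (hp : p ∈ NN c.arm (Jm n K) (c.N g) G) (l : List (Fin 3)) (u : c.δ → K) :
    (((l.map fun s => Mop c.arm (c.B K) G s ∘ₗ eta (Jm n K) G p.1).prod
      (⟨G *ᵥ u, ⟨u, rfl⟩⟩ : Sg G) : Sg G) : Ix n → K)
      = G *ᵥ ((l.map (TT G (act c.arm p.2 G))).prod u) := by
  induction l with
  | nil => simp
  | cons s l ih =>
    rw [List.map_cons, List.prod_cons, List.map_cons, List.prod_cons, Module.End.mul_apply,
      Module.End.mul_apply]
    have h1 : (l.map fun s => Mop c.arm (c.B K) G s ∘ₗ eta (Jm n K) G p.1).prod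
        (⟨G *ᵥ u, ⟨u, rfl⟩⟩ : Sg G)
        = (⟨G *ᵥ ((l.map (TT G (act c.arm p.2 G))).prod u), ⟨_, rfl⟩⟩ : Sg G) :=
      Subtype.ext ih
    rw [h1, Phi_G hC hp]

theorem Phi_nil (R : Ranked c) {W : Submodule K (Matrix (Ix n) c.δ K)}
    {g : Fin 3 → Matrix (Ix n) (Ix n) K}
    (hg : ∀ s, (g s)ᵀ * Jm n K * g s = Jm n K)
    {G : Matrix (Ix n) c.δ K} (hC : Ctx ℂ c.arm (Jm n K) (c.B K) (c.N g) W G)
    {p : Matrix (Ix n) (Ix n) K × (Fin 3 → Matrix (Ix n) (Ix n) K)}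
    (hp : p ∈ NN c.arm (Jm n K) (c.N g) G) :
    ∃ k, ∀ s, (Mop c.arm (c.B K) G s ∘ₗ eta (Jm n K) G p.1) ^ k = 0 := by
  obtain ⟨k, hk⟩ := TT_nil R hg hC.memN (hp.2.1.pres G hC.memN)
  refine ⟨k, fun s => LinearMap.ext fun x => ?_⟩
  obtain ⟨x, u, rfl⟩ := x
  apply Subtype.ext
  have h1 := Phi_words hC hp (List.replicate k s) u
  rw [List.map_replicate, List.prod_replicate, List.map_replicate, List.prod_replicate, hk] at h1
  change _ = (0 : Ix n → K)
  refine Eq.trans h1 ?_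
  rw [LinearMap.zero_apply, mulVec_zero]

theorem Phi_sum {W : Submodule K (Matrix (Ix n) c.δ K)} {g : Fin 3 → Matrix (Ix n) (Ix n) K}
    {G : Matrix (Ix n) c.δ K} (hC : Ctx ℂ c.arm (Jm n K) (c.B K) (c.N g) W G)
    (X : Matrix (Ix n) (Ix n) K) (x : Sg G) :
    ∑ s, (Mop c.arm (c.B K) G s ∘ₗ eta (Jm n K) G X) x = 0 := by
  apply Subtype.ext
  rw [Submodule.coe_sum]
  have h1 : ∀ s, (((Mop c.arm (c.B K) G s ∘ₗ eta (Jm n K) G X) x : Sg G) : Ix n → K)
      = (FO.M c.arm (c.B K) s G G) *ᵥ (Jm n K *ᵥ (X *ᵥ (x : Ix n → K))) := by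
    intro s
    rw [LinearMap.comp_apply, Mop_eta, mulVec_mulVec _ (FO.M c.arm (c.B K) s G G)]
  rw [Finset.sum_congr rfl fun s _ => h1 s, ← Matrix.sum_mulVec, FO.sum_M,
    hC.data.W_iso G hC.memW G hC.memW, zero_mulVec]
  rfl

/-- if the core of `(S, Φ)` is zero then `φ = 0` (NIL^sp). -/
theorem eta_zero_of_T (R : Ranked c) (p0 : Pol c) {g : Fin 3 → Matrix (Ix n) (Ix n) K}
    (hg : ∀ s, (g s)ᵀ * Jm n K * g s = Jm n K) {H : Matrix (Fin p0.m) (Fin p0.m) K}
    (hH : Hᵀ = -H)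
    (hgen : ∀ G : Matrix (Fin p0.m) (Fin p0.m) K, Gᵀ = -G → ∃ D : Derivation ℂ K K, H.map D = G)
    {G : Matrix (Ix n) c.δ K}
    (hC : Ctx ℂ c.arm (Jm n K) (c.B K) (c.N g) (VL (p0.LH H)) G)
    {p : Matrix (Ix n) (Ix n) K × (Fin 3 → Matrix (Ix n) (Ix n) K)}
    (hp : p ∈ NN c.arm (Jm n K) (c.N g) G)
    (hT : St.T (fun s => Mop c.arm (c.B K) G s ∘ₗ eta (Jm n K) G p.1) = ⊤) :
    Gᵀ * Jm n K * (p.1 * G) = 0 := by
  obtain ⟨m, hm⟩ := Mix.T_eq_top_iff.1 hT
  obtain ⟨X, hX⟩ : ∃ X : Matrix c.δ c.δ K, X = Gᵀ * Jm n K * (p.1 * G) := ⟨_, rfl⟩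
  have hXA : X = Gᵀ * Jm n K * act c.arm p.2 G := by
    have := hC.perp_Pg hp
    unfold Pg at this
    rw [Matrix.mul_sub, sub_eq_zero] at this
    rw [hX]
    exact this
  rw [← hX]
  -- words
  have hTT : ∀ s, TT G (act c.arm p.2 G) s = Matrix.toLin' ((E K c.arm s * c.B K) * X) := by
    intro s
    rw [TT, hXA]
    congr 1
    simp only [Matrix.mul_assoc]
  have hw : ∀ l : List (Fin 3), (l.map (TT G (act c.arm p.2 G))).prod
      = Matrix.toLin' ((l.map fun s => (E K c.arm s * c.B K) * X).prod) := by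
    intro l
    induction l with
    | nil => simp; rfl
    | cons s l ih =>
      rw [List.map_cons, List.prod_cons, List.map_cons, List.prod_cons, ih, hTT]
      exact (Matrix.toLin'_mul _ _).symm
  have hGw : ∀ l : List (Fin 3), l.length = m →
      G * (l.map fun s => (E K c.arm s * c.B K) * X).prod = 0 := by
    intro l hl
    refine ext_mulVec fun u => ?_
    rw [← mulVec_mulVec, zero_mulVec]
    have h1 := Phi_words hC hp l u
    rw [hm l hl, hw, Matrix.toLin'_apply] at h1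
    exact h1.symm
  have hXsk : Xᵀ = -X := by rw [hX]; exact skew_gXg hC.data.J_symm hp.1 G
  refine SN.nil_sp_X R p0 hH hgen X hXsk ?_ ?_ (m + 1) ?_
  · intro d
    have h1 : X = (Gᵀ * Jm n K * p.1) * G := by rw [hX]; simp only [Matrix.mul_assoc]
    rw [h1]
    obtain ⟨Rr, hRr⟩ := p0.mem_VL_iff.1 hC.memW
    rw [hRr]
    refine p0.mem_LH.2 ⟨(Gᵀ * Jm n K * p.1 * Rr) d, ?_⟩
    funext e
    rw [hRr, ← Matrix.mul_assoc, Matrix.mul_apply, mulVec, dotProduct]
    exact Finset.sum_congr rfl fun i _ => mul_comm _ _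
  · intro d e hde hrk
    rw [hXA]
    exact R.col_perp hg hC.memN (hp.2.1.pres G hC.memN) hde hrk
  · intro l hl
    obtain ⟨l', s, rfl⟩ : ∃ l' s, l = l' ++ [s] := by
      rcases List.eq_nil_or_concat l with h | ⟨l', s, h⟩
      · rw [h] at hl; simp at hl
      · exact ⟨l', s, by rw [h]; simp⟩
    have hl' : l'.length = m := by simpa using hl
    rw [List.map_append, List.prod_append, List.map_singleton, List.prod_singleton,
      ← Matrix.mul_assoc]
    have h1 : ∀ l : List (Fin 3), (l.map fun s => X * (E K c.arm s * c.B K)).prod * X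
        = X * (l.map fun s => (E K c.arm s * c.B K) * X).prod := by
      intro l
      induction l with
      | nil => simp
      | cons s l ih =>
        rw [List.map_cons, List.prod_cons, List.map_cons, List.prod_cons, Matrix.mul_assoc, ih]
        simp only [Matrix.mul_assoc]
    rw [h1]
    have h2 : ∀ Y : Matrix c.δ c.δ K, X * Y = Gᵀ * Jm n K * p.1 * (G * Y) := by
      intro Y
      rw [hX]
      simp only [Matrix.mul_assoc]
    rw [h2, hGw l' hl', Matrix.mul_zero, Matrix.zero_mul]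

end Crest.Agent.R172.Qt
end

-- ▼ part R172/Qt9

/-!
Row 172 (S0260), node G1.2, part 5: the final alternative and P3
(`𝒦 ≠ 𝒦iso ⇒ ZZ = 𝒦iso` outside tame).
-/

set_option autoImplicit false
set_option linter.unusedSectionVars false
set_option linter.unusedFintypeInType false
set_option linter.unusedDecidableInType false

namespace Crest.Agent.R172.Qt

open Matrix Module Crest.Agent.R172.FO
open Crest.Agent.R172.CF Crest.Agent.R172.CSys
open Crest.Agent.R172.Gen (Jm Ix emb IsSo)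
open Crest.Agent.R172.Ind (GI)

variable {n : ℕ} {a : Fin 3 → Fin n → ℤ} {c : Cfg n a} {K : Type} [Field K] [Algebra ℂ K]
variable {q : SPol c}

/-- the operators `Φ_s = M_s(G,G) J X` on `S = im G` -/
def Phi (c : Cfg n a) (G : Matrix (Ix n) c.δ K) (X : Matrix (Ix n) (Ix n) K) (s : Fin 3) :
    End K (Sg G) := Mop c.arm (c.B K) G s ∘ₗ eta (Jm n K) G X

/-- **the mixed tame alternative** (core of `(S^⊥, M_s(f,f)J)` against core of `(S, M_s(G)φ)`) -/
def TameMix (c : Cfg n a) (G f : Matrix (Ix n) c.δ K) (X : Matrix (Ix n) (Ix n) K) : Prop :=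
  ∃ hf : Gᵀ * Jm n K * f = 0,
    0 < finrank K (Mix.Cor (aop c.arm (Jm n K) (c.B K) G f hf)) ∧
    0 < finrank K (Mix.Cor (Phi c G X)) ∧
    Mix.TameData (Mix.ac (aop c.arm (Jm n K) (c.B K) G f hf)) (Mix.ac (Phi c G X))

theorem aop_words {G f : Matrix (Ix n) c.δ K} (hf : Gᵀ * Jm n K * f = 0) (l : List (Fin 3))
    (v : Sp (Jm n K) G) :
    (((l.map (aop c.arm (Jm n K) (c.B K) G f hf)).prod v : Sp (Jm n K) G) : Ix n → K) =
      Core.wd (ThX.MM (pU c K) (adjU c K) (Matrix.toLin' f) (Matrix.toLin' f)) l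
        (v : Ix n → K) := by
  induction l with
  | nil => simp [Core.wd]
  | cons s l ih =>
    rw [List.map_cons, List.prod_cons, Module.End.mul_apply, ThX.wd_cons, ← ih, aop_coe,
      MM_toLin]

theorem aop_nil (R : Ranked c) {g : Fin 3 → Matrix (Ix n) (Ix n) K}
    (hg : ∀ s, (g s)ᵀ * Jm n K * g s = Jm n K) {G f : Matrix (Ix n) c.δ K} (hfN : f ∈ c.N g)
    (hf : Gᵀ * Jm n K * f = 0) : ∃ k, ∀ s, (aop c.arm (Jm n K) (c.B K) G f hf s) ^ k = 0 := by
  obtain ⟨k, hk⟩ := MM_nil R hg hfN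
  refine ⟨k, fun s => LinearMap.ext fun v => ?_⟩
  apply Subtype.ext
  have h1 := aop_words hf (List.replicate k s) v
  rw [List.map_replicate, List.prod_replicate, Core.wd, List.map_replicate,
    List.prod_replicate, hk] at h1
  exact h1

theorem aop_sum {N W : Submodule K (Matrix (Ix n) c.δ K)}
    (hD : FO.Data ℂ c.arm (Jm n K) (c.B K) N W) {G f : Matrix (Ix n) c.δ K} (hfW : f ∈ W)
    (hf : Gᵀ * Jm n K * f = 0) (v : Sp (Jm n K) G) :
    ∑ s, aop c.arm (Jm n K) (c.B K) G f hf s v = 0 := by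
  apply Subtype.ext
  rw [Submodule.coe_sum]
  refine Eq.trans (Finset.sum_congr rfl fun s _ => ?_) (MM_sum hD hfW (v : Ix n → K))
  rw [aop_coe, MM_toLin]

/-- if the core of `(S^⊥, M_s(f,f) J)` vanishes, `f` is isotropic -/
theorem iso_of_T (R : Ranked c) (hR : PosR R q) {g : Fin 3 → Matrix (Ix n) (Ix n) K}
    {H : Matrix (Fin q.toPol.m) (Fin q.toPol.m) K} (hG : GI c q.toPol K g H)
    {G f : Matrix (Ix n) c.δ K} (hf' : f ∈ c.N g ⊓ VL (q.toPol.LH H))
    (hf : Gᵀ * Jm n K * f = 0) (hT : St.T (aop c.arm (Jm n K) (c.B K) G f hf) = ⊤) :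
    fᵀ * Jm n K * f = 0 := by
  obtain ⟨m, hm⟩ := Mix.T_eq_top_iff.1 hT
  have hD := Ind.GI.data hG
  have h1 := nil_pair R hR hG.orth hG.skew (Ind.GI.hgen hG) hD (Matrix.toLin' f) ⟨f, hf', rfl⟩
    (Matrix.toLin' f) ⟨f, hf', rfl⟩ ⟨m + 1, fun l hl v => ?_⟩
  · refine (Ext.form_zero_iff f f).1 fun u u' => ?_
    exact h1 u u'
  · -- `l = l₁ ++ l₂ ++ [s]`
    obtain ⟨l1, l2, s, rfl, hl2⟩ : ∃ l1 l2 : List (Fin 3), ∃ s, l = l1 ++ (l2 ++ [s]) ∧
        l2.length = m := by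
      have e : l = l.take (l.length - (m + 1)) ++ l.drop (l.length - (m + 1)) :=
        (List.take_append_drop _ _).symm
      have hlen : (l.drop (l.length - (m + 1))).length = m + 1 := by
        rw [List.length_drop]; omega
      generalize l.take (l.length - (m + 1)) = l1 at e
      generalize l.drop (l.length - (m + 1)) = l3 at e hlen
      rcases List.eq_nil_or_concat l3 with h | ⟨l2, s, h⟩
      · rw [h] at hlen; simp at hlen
      · refine ⟨l1, l2, s, ?_, ?_⟩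
        · rw [e, h]; simp
        · rw [h] at hlen; simpa using hlen
    rw [Core.wd_append, Core.wd_append]
    have h2 : Core.wd (ThX.MM (pU c K) (adjU c K) (Matrix.toLin' f) (Matrix.toLin' f)) [s] v
        ∈ Sp (Jm n K) G := by
      rw [ThX.wd_cons, ThX.wd_nil, MM_toLin, mem_Sp, mulVec_mulVec]
      have : Gᵀ * Jm n K * (FO.M c.arm (c.B K) s f f * Jm n K) = 0 := by
        unfold FO.M
        have e : Gᵀ * Jm n K * (f * E K c.arm s * c.B K * fᵀ * Jm n K)
            = (Gᵀ * Jm n K * f) * (E K c.arm s * c.B K * fᵀ * Jm n K) := by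
          simp only [Matrix.mul_assoc]
        rw [e, hf, Matrix.zero_mul]
      rw [this, zero_mulVec]
    have h3 := aop_words hf l2 ⟨_, h2⟩
    rw [hm l2 hl2] at h3
    rw [← h3]
    simp

/-- **The final alternative of G1.2.** -/
theorem mix_final (R : Ranked c) (hR : PosR R q) {g : Fin 3 → Matrix (Ix n) (Ix n) K}
    {H : Matrix (Fin q.toPol.m) (Fin q.toPol.m) K} (hG : GI c q.toPol K g H)
    {G f : Matrix (Ix n) c.δ K}
    (hC : Ctx ℂ c.arm (Jm n K) (c.B K) (c.N g) (VL (q.toPol.LH H)) G)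
    (hc : Glue ℂ c.arm (Jm n K) (c.N g) (VL (q.toPol.LH H)) G)
    (hf : f ∈ c.N g ⊓ VL (q.toPol.LH H))
    {p : Matrix (Ix n) (Ix n) K × (Fin 3 → Matrix (Ix n) (Ix n) K)}
    (hp : p ∈ NN c.arm (Jm n K) (c.N g) G) :
    fᵀ * Jm n K * f = 0 ∨ Gᵀ * Jm n K * (p.1 * G) = 0 ∨ TameMix c G f p.1 := by
  have hfG := hC.perp f hf
  have hcl := hC.mixClaim (maxN hG.orth) (maxW q.toPol hG.skew) hc hf hp
  have hB : Mix.Brd (eta (Jm n K) G p.1) (Phi c G p.1)
      (fun s => eta (Jm n K) G p.1 ∘ₗ Mop c.arm (c.B K) G s) :=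
    { comm := fun s v => rfl
      ker := fun s v hv => by
        change Mop c.arm (c.B K) G s (eta (Jm n K) G p.1 v) = 0
        rw [hv, map_zero]
      range := fun s w => ⟨Mop c.arm (c.B K) G s w, rfl⟩ }
  obtain ⟨k1, hk1⟩ := aop_nil (G := G) R hG.orth hf.1 hfG
  obtain ⟨k2, hk2⟩ := Phi_nil R hG.orth hC hp
  rcases Mix.mix_alt hB hcl (fun s => ⟨k1, hk1 s⟩) (fun s => ⟨k2, hk2 s⟩)
    (fun v => aop_sum hC.data hf.2 hfG v) (fun v => Phi_sum hC p.1 v) with h | h | h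
  · exact Or.inl (iso_of_T R hR hG hf hfG h)
  · exact Or.inr (Or.inl (eta_zero_of_T R q.toPol hG.orth hG.skew (Ind.GI.hgen hG) hC hp h))
  · exact Or.inr (Or.inr ⟨hfG, h⟩)

/-- `Glue` for an element of `𝒦iso` with all vertical derivations. -/
theorem glue_of {g : Fin 3 → Matrix (Ix n) (Ix n) K}
    {H : Matrix (Fin q.toPol.m) (Fin q.toPol.m) K} (hG : GI c q.toPol K g H)
    {G : Matrix (Ix n) c.δ K}
    (hC : Ctx ℂ c.arm (Jm n K) (c.B K) (c.N g) (VL (q.toPol.LH H)) G)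
    (hiso : ∀ w ∈ c.N g ⊓ VL (q.toPol.LH H), wᵀ * Jm n K * w = 0 →
      w ∈ Om.Kiso (Jm n K) (c.N g) (VL (q.toPol.LH H)))
    (hV : ∀ w ∈ Om.Kiso (Jm n K) (c.N g) (VL (q.toPol.LH H)), GenQ.VertH c g H G w) :
    Glue ℂ c.arm (Jm n K) (c.N g) (VL (q.toPol.LH H)) G := by
  intro R hR hRG
  obtain ⟨D0, h0, h0H⟩ := hG.dir R hR 0 (by simp)
  have hW0 : ∀ F ∈ (VL (q.toPol.LH H) : Submodule K (Matrix (Ix n) c.δ K)),
      F.map D0 - F * (0 : Matrix c.δ c.δ K)ᵀ ∈
        (VL (q.toPol.LH H) : Submodule K (Matrix (Ix n) c.δ K)) := by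
    intro F hF
    refine FO3.onW q.toPol hG.skew D0 ?_ hF
    rw [h0H, FO3.dirH, Matrix.mul_zero, Matrix.zero_mul]
  have hw := Ind.w_iso hC hR hRG h0 (fun F hF => by
    have := hW0 F hF
    rwa [transpose_zero, Matrix.mul_zero, sub_zero] at this)
  obtain ⟨D1, h1, h1H, h1G⟩ := hV _ (hiso _ hw.1 hw.2)
  refine ⟨D0 - D1, ⟨fun F hF => ?_, fun F hF => ?_⟩, ?_⟩
  · have h2 := h1 F hF
    rw [act_zero, sub_zero] at h2
    have e : F.map (D0 - D1) - act c.arm R F = (F.map D0 - act c.arm R F) - F.map D1 := by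
      ext i j
      simp [sub_right_comm]
    change F.map (D0 - D1) - act c.arm R F ∈ _
    rw [e]
    exact (c.N g).sub_mem (h0 F hF) h2
  · have h2 := (GenQ.realises_of q.toPol hG.skew h1 h1H).onW F hF
    have h3 := hW0 F hF
    have e : F.map (D0 - D1) - F * (0 : Matrix c.δ c.δ K)ᵀ
        = (F.map D0 - F * (0 : Matrix c.δ c.δ K)ᵀ) - (F.map D1 - F * (0 : Matrix c.δ c.δ K)ᵀ) := by
      rw [transpose_zero, Matrix.mul_zero, sub_zero, sub_zero, sub_zero]
      ext i j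
      simp
    change F.map (D0 - D1) - F * (0 : Matrix c.δ c.δ K)ᵀ ∈ _
    rw [e]
    exact Submodule.sub_mem _ h3 h2
  · ext i j
    have h2 := congrFun (congrFun h1G i) j
    rw [map_apply, map_apply] at h2
    simp [h2]

end Crest.Agent.R172.Qt
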