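import Crest.Agent.R172.Mix2
import Crest.Agent.R172.Core2
import Crest.Agent.R172.Qt7
import Crest.Agent.R172.TameCount5
import Crest.Agent.R172.SpEx
import Crest.Agent.R172.QCore2
import Crest.Agent.R172.QCore3
import Crest.Agent.R172.Qt9
import Crest.Agent.R172.Fin4
import Crest.Agent.R172.QEndQ2
import Crest.Agent.R172.QHalf
import Crest.Agent.R172.QTen
import Crest.Agent.R172.QBlk
import Crest.Agent.R172.Qt12
import Crest.Agent.R172.RJ1
import Crest.Agent.R172.RJM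
import Crest.Agent.R172.CorU

-- ▼ part R172/CorForm
section

/-!
Row 172 (S0260), node Q-ENDP, abstract part: the form on the core `Pinf a / (Pinf a ∩ T a)` of a
family `a` of self-adjoint operators with respect to a (degenerate) symmetric form whose radical is
killed by all `a s`.

* `mem_T_iff` : `v ∈ T a ↔ v ⊥ Pinf a`;
* `BC` : the form on `Cor a`, `BC_NS` : it is nondegenerate;
* `ev` : `Pinf a ⊗ Pinf a → End (Pinf a)`, `exists_lift` : every endomorphism of the core is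
  induced by some `ev t`.
-/

set_option autoImplicit false
set_option linter.unusedSectionVars false

namespace Crest.Agent.R172.QEndP

open Module TensorProduct
open Crest.Agent.R172.Mix
open Crest.Agent.R172.St (T Nk mem_T T_stable mem_Nk_succ mem_Nk_zero Nk_le_T)
open Crest.Agent.R172.Core (NS)

variable {K : Type*} [Field K] {X : Type*} [AddCommGroup X] [Module K X] {ι : Type*}

/-- the hypotheses on the form -/
structure FH (b : LinearMap.BilinForm K X) (a : ι → End K X) : Prop where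
  symm : ∀ v w, b v w = b w v
  sa : ∀ s v w, b (a s v) w = b v (a s w)
  rad : ∀ v, (∀ w, b v w = 0) → ∀ s, a s v = 0

variable {b : LinearMap.BilinForm K X} {a : ι → End K X}

theorem FH.perp_of_Nk (h : FH b a) (k : ℕ) : ∀ v ∈ Nk a k, ∀ x ∈ Rg a k, b v x = 0 := by
  induction k with
  | zero =>
    intro v hv x _
    rw [mem_Nk_zero] at hv
    rw [hv, map_zero, LinearMap.zero_apply]
  | succ k ih =>
    intro v hv x hx
    rw [mem_Nk_succ] at hv
    rw [Rg_succ] at hx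
    induction hx using Submodule.iSup_induction' with
    | mem s y hy =>
      obtain ⟨z, hz, rfl⟩ := hy
      rw [← h.sa]
      exact ih _ (hv s) z hz
    | zero => rw [map_zero]
    | add x y _ _ hx hy => rw [map_add, hx, hy, add_zero]

theorem FH.Nk_of_perp (h : FH b a) (k : ℕ) : ∀ v, (∀ x ∈ Rg a k, b v x = 0) → v ∈ Nk a (k + 1) := by
  induction k with
  | zero =>
    intro v hv
    rw [mem_Nk_succ]
    intro s
    rw [mem_Nk_zero]
    exact h.rad v (fun w => hv w trivial) s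
  | succ k ih =>
    intro v hv
    rw [mem_Nk_succ]
    intro s
    refine ih _ fun y hy => ?_
    rw [h.sa]
    exact hv _ (map_mem_Rg s hy)

theorem FH.mem_T_iff [FiniteDimensional K X] (h : FH b a) {v : X} :
    v ∈ T a ↔ ∀ x ∈ Pinf a, b v x = 0 := by
  constructor
  · intro hv x hx
    obtain ⟨k, hk⟩ := mem_T.1 hv
    exact h.perp_of_Nk k v hk x (mem_Pinf.1 hx k)
  · intro hv
    obtain ⟨k, hk⟩ := exists_Pinf_eq a
    exact Nk_le_T a (k + 1) (h.Nk_of_perp k v (by rw [hk k le_rfl]; exact hv))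

/-- the form on `Pinf a` -/
def BP (b : LinearMap.BilinForm K X) (a : ι → End K X) : LinearMap.BilinForm K (Pinf a) :=
  b.restrict (Pinf a)

theorem BP_apply (v w : Pinf a) : BP b a v w = b v w := rfl

/-- the form on the core -/
def BC [FiniteDimensional K X] (h : FH b a) : LinearMap.BilinForm K (Cor a) :=
  (TP a).liftQ
    { toFun := fun p => (TP a).liftQ (BP b a p) (by
        intro q hq
        rw [LinearMap.mem_ker, BP_apply, h.symm]
        exact h.mem_T_iff.1 hq p p.2)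
      map_add' := by
        intro p p'
        ext q
        simp
      map_smul' := by
        intro c p
        ext q
        simp }
    (by
      intro p hp
      rw [LinearMap.mem_ker]
      ext q
      exact h.mem_T_iff.1 hp q q.2)

theorem BC_mk [FiniteDimensional K X] (h : FH b a) (p q : Pinf a) :
    BC h (Submodule.Quotient.mk p) (Submodule.Quotient.mk q) = b p q := rfl



/-- `ev (p ⊗ p') v = b p' v • p` -/
noncomputable def ev (b : LinearMap.BilinForm K X) (a : ι → End K X) :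
    (Pinf a ⊗[K] Pinf a) →ₗ[K] End K (Pinf a) :=
  TensorProduct.lift (LinearMap.mk₂ K (fun x y => (BP b a y).smulRight x)
    (by intro x x' y; ext v; simp)
    (by intro c x y; ext v; simp [smul_smul, mul_comm])
    (by intro x y y'; ext v; simp [add_smul])
    (by intro c x y; ext v; simp [smul_smul]))

theorem ev_tmul (x y v : Pinf a) : ev b a (x ⊗ₜ y) v = b y v • x := rfl

/-- `f : End (Pinf a)` induces `A` on the core -/
def Lifts (f : End K (Pinf a)) (A : End K (Cor a)) : Prop :=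
  ∀ p : Pinf a, (Submodule.Quotient.mk (f p) : Cor a) = A (Submodule.Quotient.mk p)


end Crest.Agent.R172.QEndP
end

-- ▼ part R172/QEndP
section

/-!
Row 172 (S0260), node Q-ENDP (notes 15379, 15555, 15859 (2)): the END of the P-side of (t3).

`P' = Pinf a`, `R' = TP a`, `M₁ = Cor a` for `a = aop` (the operators `M_s(f,f) J` on `S^⊥`).

* `f1`: `x ∈ W`, `gᵀ J x = 0`, `x = ν + g C`, `ν ∈ N` ⟹ `fᵀ J x` is symmetric (F1 on `V'`);
* `SSp`: the space `𝒮` of note 15859 (in the weakest form which is needed);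
* `endP`, `endP_arm`: if all filtered skew maps of `M₁` have lifts with `T f ∈ 𝒮`: contradiction
  unless `M₁` is of type (3,3,3) and of dimension 3.
-/

set_option autoImplicit false
set_option linter.unusedSectionVars false
set_option linter.unusedFintypeInType false
set_option linter.unusedDecidableInType false

namespace Crest.Agent.R172.QEndP

open Matrix Module TensorProduct Crest.Agent.R172.FO Crest.Agent.R172.Qt
open Crest.Agent.R172.Mix
open Crest.Agent.R172.St (T)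
open Crest.Agent.R172.Core (NS)

variable {ι : Type*} [Fintype ι] [DecidableEq ι] {δ : Type*} [Fintype δ] [DecidableEq δ]
variable {k K : Type*} [Field k] [Field K] [Algebra k K]
variable {arm : δ → Fin 3} {J : Matrix ι ι K} {B : Matrix δ δ K}
  {N W : Submodule K (Matrix ι δ K)} {g f : Matrix ι δ K}

theorem fJg (h : Ctx k arm J B N W g) (hf : f ∈ N ⊓ W) : fᵀ * J * g = 0 := by
  have h1 := congrArg transpose (h.perp f hf)
  rw [transpose_mul, transpose_mul, transpose_transpose, h.data.J_symm, transpose_zero,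
    ← Matrix.mul_assoc] at h1
  exact h1

/-- **F1 on `V'`** -/
theorem f1 (h : Ctx k arm J B N W g)
    (hNm : ∀ F, (∀ F' ∈ N, pair J B F' F = 0) → F ∈ N)
    (hWm : ∀ F, (∀ F' ∈ W, pair J B F' F = 0) → F ∈ W) (hf : f ∈ N ⊓ W)
    {x ν : Matrix ι δ K} (hx : x ∈ W) (hxS : gᵀ * J * x = 0) (hν : ν ∈ N) {C : Matrix δ δ K}
    (hxν : x = ν + g * C) : (fᵀ * J * x)ᵀ = fᵀ * J * x := by
  obtain ⟨f0, hf0, p, hp, hp0, C', rfl⟩ := h.KV hNm hWm hx hxS hν hxν
  have h1 := fJg h hf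
  have h2 : fᵀ * J * (p.1 * g) = 0 := by
    have h3 := h.tf_zero hf hp hp0
    have e : (fᵀ * J * (p.1 * g))ᵀ = -(gᵀ * J * (p.1 * f)) := by
      rw [transpose_mul, transpose_mul, transpose_mul, transpose_transpose, h.data.J_symm]
      calc gᵀ * p.1ᵀ * (J * f) = gᵀ * (p.1ᵀ * J) * f := by simp only [Matrix.mul_assoc]
        _ = _ := by
          rw [Skw.eq hp.1]
          simp only [Matrix.mul_neg, Matrix.neg_mul, Matrix.mul_assoc]
    rw [h3, neg_zero] at e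
    have := congrArg transpose e
    rwa [transpose_transpose, transpose_zero] at this
  have h4 := h.data.symm_U hf hf0
  have e5 : fᵀ * J * (f0 + p.1 * g + g * C') = fᵀ * J * f0 := by
    rw [Matrix.mul_add, Matrix.mul_add, h2, ← Matrix.mul_assoc _ g C', h1, Matrix.zero_mul,
      add_zero, add_zero]
  rw [e5, transpose_mul, transpose_mul, transpose_transpose, h.data.J_symm, ← Matrix.mul_assoc]
  exact h4

/-- the form on `S^⊥` -/
noncomputable def bS (J : Matrix ι ι K) (g : Matrix ι δ K) : LinearMap.BilinForm K (Sp J g) :=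
  (Matrix.toBilin' J).restrict (Sp J g)

theorem bS_apply (v w : Sp J g) : bS J g v w = (v : ι → K) ⬝ᵥ (J *ᵥ (w : ι → K)) := by
  change Matrix.toBilin' J _ _ = _
  rw [Matrix.toBilin'_apply']
  rfl

theorem dot_adj {A A' : Matrix ι ι K} (h : Aᵀ * J = J * A') (v w : ι → K) :
    (A *ᵥ v) ⬝ᵥ (J *ᵥ w) = v ⬝ᵥ (J *ᵥ (A' *ᵥ w)) := by
  rw [dotProduct_comm, dotProduct_mulVec, ← Matrix.transpose_transpose A, vecMul_transpose,
    mulVec_mulVec, h, ← mulVec_mulVec, dotProduct_comm]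

theorem dot_symm (hJ : Jᵀ = J) (v w : ι → K) : v ⬝ᵥ (J *ᵥ w) = w ⬝ᵥ (J *ᵥ v) := by
  rw [dotProduct_mulVec, ← hJ, vecMul_transpose, hJ, dotProduct_comm]

theorem M_symm (hD : Data k arm J B N W) (f : Matrix ι δ K) (s : Fin 3) :
    (M arm B s f f)ᵀ = M arm B s f f := by
  unfold M
  rw [transpose_mul, transpose_mul, transpose_mul, transpose_transpose, E_transpose, hD.B_symm]
  simp only [Matrix.mul_assoc]
  rw [← Matrix.mul_assoc B, ← hD.B_arm, Matrix.mul_assoc]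

theorem fJv {α : Type*} {v : ι → K} (_ : α)
    (hv : ∀ w : Sp J g, (v : ι → K) ⬝ᵥ (J *ᵥ (w : ι → K)) = 0) (hJ : Jᵀ = J)
    (hf : gᵀ * J * f = 0) : (fᵀ * J) *ᵥ v = 0 := by
  ext d
  have h1 : f *ᵥ Pi.single d 1 ∈ Sp J g := by
    rw [mem_Sp, mulVec_mulVec, hf, zero_mulVec]
  have h2 := hv ⟨_, h1⟩
  rw [dot_symm hJ] at h2
  have h3 : ((fᵀ * J) *ᵥ v) d = (f *ᵥ Pi.single d 1) ⬝ᵥ (J *ᵥ v) := by
    rw [← mulVec_mulVec, mulVec_single_one]
    rfl
  rw [h3, h2]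
  rfl

theorem FHS (h : Ctx k arm J B N W g) (hf : f ∈ N ⊓ W) :
    FH (bS J g) (aop arm J B g f (h.perp f hf)) where
  symm v w := by rw [bS_apply, bS_apply, dot_symm h.data.J_symm]
  sa s v w := by
    rw [bS_apply, bS_apply, aop_coe, aop_coe]
    refine dot_adj ?_ _ _
    rw [transpose_mul, M_symm h.data, h.data.J_symm, Matrix.mul_assoc]
  rad v hv s := by
    have h1 : (fᵀ * J) *ᵥ (v : ι → K) = 0 :=
      fJv () (fun w => by rw [← bS_apply]; exact hv w) h.data.J_symm (h.perp f hf)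
    apply Subtype.ext
    rw [aop_coe]
    have e : M arm B s f f * J = f * E K arm s * B * (fᵀ * J) := by
      unfold M
      simp only [Matrix.mul_assoc]
    rw [e, ← mulVec_mulVec, h1, mulVec_zero]
    rfl

/-- every element of `P'` is of the form `f u`, `u = ∑ E_r B fᵀ J q_r`, `q_r ∈ P'` -/
theorem exists_u (hfp : gᵀ * J * f = 0) (p : Pinf (aop arm J B g f hfp)) :
    ∃ q : Fin 3 → Pinf (aop arm J B g f hfp),
      f *ᵥ (∑ r, (E K arm r * B * fᵀ * J) *ᵥ ((q r : Sp J g) : ι → K))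
        = ((p : Sp J g) : ι → K) := by
  have h1 : (p : Sp J g) ∈ ⨆ s, (Pinf (aop arm J B g f hfp)).map (aop arm J B g f hfp s) := by
    rw [Pinf_eq_iSup]; exact p.2
  have key : ∀ x : Sp J g,
      x ∈ ⨆ s, (Pinf (aop arm J B g f hfp)).map (aop arm J B g f hfp s) →
      ∃ q : Fin 3 → Pinf (aop arm J B g f hfp),
        f *ᵥ (∑ r, (E K arm r * B * fᵀ * J) *ᵥ ((q r : Sp J g) : ι → K)) = (x : ι → K) := ?_
  · exact key _ h1
  intro x hx
  induction hx using Submodule.iSup_induction' with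
  | mem s y hy =>
    obtain ⟨z, hz, rfl⟩ := hy
    refine ⟨fun r => if r = s then ⟨z, hz⟩ else 0, ?_⟩
    rw [Finset.sum_eq_single s]
    · dsimp only
      rw [if_pos rfl, aop_coe, mulVec_mulVec]
      unfold M
      simp only [Matrix.mul_assoc]
    · intro r _ hr
      dsimp only
      rw [if_neg hr]
      change _ *ᵥ (0 : ι → K) = 0
      rw [mulVec_zero]
    · intro hs; exact absurd (Finset.mem_univ s) hs
  | zero =>
    refine ⟨fun _ => 0, ?_⟩
    rw [Finset.sum_eq_zero, mulVec_zero]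
    · rfl
    · intro r _
      change _ *ᵥ (0 : ι → K) = 0
      rw [mulVec_zero]
  | add x y _ _ hx hy =>
    obtain ⟨u, hu⟩ := hx
    obtain ⟨u', hu'⟩ := hy
    refine ⟨fun r => u r + u' r, ?_⟩
    have e : ∀ r, (E K arm r * B * fᵀ * J) *ᵥ (((u r + u' r : Pinf (aop arm J B g f hfp)) :
        Sp J g) : ι → K) = (E K arm r * B * fᵀ * J) *ᵥ ((u r : Sp J g) : ι → K)
          + (E K arm r * B * fᵀ * J) *ᵥ ((u' r : Sp J g) : ι → K) := fun r => by
      rw [← mulVec_add]; rfl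
    rw [Finset.sum_congr rfl fun r _ => e r, Finset.sum_add_distrib, mulVec_add, hu, hu']
    rfl

/-- **the space `𝒮`** -/
def SSp (arm : δ → Fin 3) (J : Matrix ι ι K) (B : Matrix δ δ K) (N W : Submodule K (Matrix ι δ K))
    (g f : Matrix ι δ K) (hfp : gᵀ * J * f = 0) : Submodule K (Matrix ι δ K) where
  carrier := {Y | ∃ w ∈ W, gᵀ * J * w = 0 ∧
    (∀ (p q : Pinf (aop arm J B g f hfp)) (r : Fin 3), ((p : Sp J g) : ι → K) ⬝ᵥ
      ((J * w * E K arm r * B * fᵀ * J) *ᵥ ((q : Sp J g) : ι → K)) = 0) ∧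
    ∃ C : Matrix δ δ K, Y - w - g * C ∈ N}
  add_mem' := by
    rintro Y Y' ⟨w, h1, h2, h3, C, h4⟩ ⟨w', h1', h2', h3', C', h4'⟩
    refine ⟨w + w', W.add_mem h1 h1', by rw [Matrix.mul_add, h2, h2', add_zero], ?_, C + C', ?_⟩
    · intro p q r
      have e : J * (w + w') * E K arm r * B * fᵀ * J
          = J * w * E K arm r * B * fᵀ * J + J * w' * E K arm r * B * fᵀ * J := by
        simp only [Matrix.mul_add, Matrix.add_mul]
      rw [e, add_mulVec, dotProduct_add, h3 p q r, h3' p q r, add_zero]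
    · have : Y + Y' - (w + w') - g * (C + C') = (Y - w - g * C) + (Y' - w' - g * C') := by
        rw [Matrix.mul_add]; abel
      rw [this]
      exact N.add_mem h4 h4'
  zero_mem' := ⟨0, W.zero_mem, by simp, by intro p q r; simp, 0, by simp⟩
  smul_mem' := by
    rintro c Y ⟨w, h1, h2, h3, C, h4⟩
    refine ⟨c • w, W.smul_mem c h1, by rw [Matrix.mul_smul, h2, smul_zero], ?_, c • C, ?_⟩
    · intro p q r
      have e : J * (c • w) * E K arm r * B * fᵀ * J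
          = c • (J * w * E K arm r * B * fᵀ * J) := by
        simp only [Matrix.mul_smul, Matrix.smul_mul]
      rw [e, smul_mulVec, dotProduct_smul, h3 p q r, smul_zero]
    · have : c • Y - c • w - g * (c • C) = c • (Y - w - g * C) := by
        rw [Matrix.mul_smul, smul_sub, smul_sub]
      rw [this]
      exact N.smul_mem c h4


/-- `S ⊗ U ≤ 𝒮` -/
theorem gC_mem_SSp (hfp : gᵀ * J * f = 0) (C : Matrix δ δ K) :
    g * C ∈ SSp arm J B N W g f hfp :=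
  ⟨0, W.zero_mem, by simp, by intro p q r; simp, C, by simp⟩


/-- `p ⊗ p' ↦ p p'ᵀ J` -/
noncomputable def mt (J : Matrix ι ι K) (g : Matrix ι δ K) (P : Submodule K (Sp J g)) :
    (P ⊗[K] P) →ₗ[K] Matrix ι ι K :=
  TensorProduct.lift (LinearMap.mk₂ K
    (fun x y => vecMulVec ((x : Sp J g) : ι → K) ((y : Sp J g) : ι → K) * J)
    (by intro x x' y; rw [← Matrix.add_mul]; congr 1; ext i j; simp [vecMulVec_apply, add_mul])
    (by intro c x y; rw [← Matrix.smul_mul]; congr 1; ext i j; simp [vecMulVec_apply, mul_assoc])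
    (by intro x y y'; rw [← Matrix.add_mul]; congr 1; ext i j; simp [vecMulVec_apply, mul_add])
    (by intro c x y; rw [← Matrix.smul_mul]; congr 1; ext i j
        simp only [vecMulVec_apply, Matrix.smul_apply, Submodule.coe_smul, Pi.smul_apply,
          smul_eq_mul]
        ring))

theorem mt_tmul (P : Submodule K (Sp J g)) (x y : P) :
    mt J g P (x ⊗ₜ y) = vecMulVec ((x : Sp J g) : ι → K) ((y : Sp J g) : ι → K) * J := rfl

theorem vmv_mulVec (x y v : ι → K) : (vecMulVec x y) *ᵥ v = (y ⬝ᵥ v) • x := by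
  ext i
  simp only [mulVec, dotProduct, vecMulVec_apply, Pi.smul_apply, smul_eq_mul, Finset.sum_mul]
  exact Finset.sum_congr rfl fun j _ => by ring

theorem mt_mulVec {a : Fin 3 → End K (Sp J g)} (t : Pinf a ⊗[K] Pinf a) (v : Pinf a) :
    mt J g (Pinf a) t *ᵥ ((v : Sp J g) : ι → K) = ((ev (bS J g) a t v : Sp J g) : ι → K) := by
  induction t using TensorProduct.induction_on with
  | zero => simp
  | tmul x y =>
    rw [mt_tmul, ev_tmul, ← mulVec_mulVec, vmv_mulVec]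
    change _ = (bS J g (y : Sp J g) (v : Sp J g)) • ((x : Sp J g) : ι → K)
    rw [bS_apply]
  | add x y hx hy =>
    rw [map_add, map_add, add_mulVec, hx, hy]
    rfl

theorem gJ_mt {a : Fin 3 → End K (Sp J g)} (t : Pinf a ⊗[K] Pinf a) :
    gᵀ * J * mt J g (Pinf a) t = 0 := by
  induction t using TensorProduct.induction_on with
  | zero => simp
  | tmul x y =>
    rw [mt_tmul, ← Matrix.mul_assoc]
    have h1 : gᵀ * J * vecMulVec ((x : Sp J g) : ι → K) ((y : Sp J g) : ι → K) = 0 := by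
      have h2 : (gᵀ * J) *ᵥ ((x : Sp J g) : ι → K) = 0 := mem_Sp.1 (x : Sp J g).2
      ext i j
      rw [Matrix.mul_apply]
      simp only [vecMulVec_apply]
      have h3 := congrFun h2 i
      simp only [mulVec, dotProduct, Pi.zero_apply] at h3
      simp only [← mul_assoc]
      rw [← Finset.sum_mul, h3, zero_mul]
      rfl
    rw [h1, Matrix.zero_mul]
  | add x y hx hy => rw [map_add, Matrix.mul_add, hx, hy, add_zero]

/-- a lift with `T f ∈ 𝒮` is self-adjoint -/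
theorem symm_of_SSp (h : Ctx k arm J B N W g)
    (hNm : ∀ F, (∀ F' ∈ N, pair J B F' F = 0) → F ∈ N)
    (hWm : ∀ F, (∀ F' ∈ W, pair J B F' F = 0) → F ∈ W) (hf : f ∈ N ⊓ W)
    {A : End K (Cor (aop arm J B g f (h.perp f hf)))}
    {t : Pinf (aop arm J B g f (h.perp f hf)) ⊗[K] Pinf (aop arm J B g f (h.perp f hf))}
    (hA : Lifts (ev (bS J g) _ t) A)
    (ht : mt J g _ t * f ∈ SSp arm J B N W g f (h.perp f hf)) (v w : Cor _) :
    BC (FHS h hf) (A v) w = BC (FHS h hf) v (A w) := by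
  obtain ⟨w0, hw0, hw1, hw2, C, hC⟩ := ht
  have hx : mt J g _ t * f - w0 ∈ W := W.sub_mem (h.data.W_left _ hf.2 _) hw0
  have hxS : gᵀ * J * (mt J g _ t * f - w0) = 0 := by
    rw [Matrix.mul_sub, hw1, sub_zero, ← Matrix.mul_assoc, gJ_mt, Matrix.zero_mul]
  have hsym := f1 h hNm hWm hf hx hxS hC (C := C) (by abel)
  induction v using Submodule.Quotient.induction_on with
  | _ p =>
    induction w using Submodule.Quotient.induction_on with
    | _ q =>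
      obtain ⟨x, hx⟩ := exists_u _ p
      obtain ⟨x', hx'⟩ := exists_u _ q
      have key : ∀ (p q : Pinf (aop arm J B g f (h.perp f hf)))
          (x x' : Fin 3 → Pinf (aop arm J B g f (h.perp f hf))),
          f *ᵥ (∑ r, (E K arm r * B * fᵀ * J) *ᵥ ((x r : Sp J g) : ι → K))
            = ((p : Sp J g) : ι → K) →
          f *ᵥ (∑ r, (E K arm r * B * fᵀ * J) *ᵥ ((x' r : Sp J g) : ι → K))
            = ((q : Sp J g) : ι → K) →
          (∑ r, (E K arm r * B * fᵀ * J) *ᵥ ((x r : Sp J g) : ι → K)) ⬝ᵥ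
            ((fᵀ * J * (mt J g _ t * f - w0)) *ᵥ
              (∑ r, (E K arm r * B * fᵀ * J) *ᵥ ((x' r : Sp J g) : ι → K)))
            = bS J g p (ev (bS J g) _ t q) := by
        intro p q x x' hu hu'
        generalize hU : (∑ r, (E K arm r * B * fᵀ * J) *ᵥ ((x r : Sp J g) : ι → K)) = u at hu ⊢
        have hw3 : ((p : Sp J g) : ι → K) ⬝ᵥ (J *ᵥ (w0 *ᵥ
            (∑ r, (E K arm r * B * fᵀ * J) *ᵥ ((x' r : Sp J g) : ι → K)))) = 0 := by
          rw [mulVec_sum, mulVec_sum, dotProduct_sum]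
          refine Finset.sum_eq_zero fun r _ => ?_
          have h5 := hw2 p (x' r) r
          rw [mulVec_mulVec, mulVec_mulVec]
          have e : J * w0 * (E K arm r * B * fᵀ * J) = J * w0 * E K arm r * B * fᵀ * J := by
            simp only [Matrix.mul_assoc]
          rw [e]
          exact h5
        have e1 : ∀ u' : δ → K, u ⬝ᵥ ((fᵀ * J * (mt J g _ t * f - w0)) *ᵥ u')
            = (f *ᵥ u) ⬝ᵥ (J *ᵥ ((mt J g _ t * f - w0) *ᵥ u')) := by
          intro u'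
          rw [Matrix.mul_assoc, ← mulVec_mulVec, ← mulVec_mulVec, dotProduct_mulVec u,
            vecMul_transpose]
        rw [e1, hu, sub_mulVec, mulVec_sub, dotProduct_sub, hw3, sub_zero,
          ← mulVec_mulVec, hu', mt_mulVec, bS_apply]
      have e2 := key p q x x' hx hx'
      have e3 := key q p x' x hx' hx
      have e4 : ∀ u u' : δ → K, u ⬝ᵥ ((fᵀ * J * (mt J g _ t * f - w0)) *ᵥ u')
          = u' ⬝ᵥ ((fᵀ * J * (mt J g _ t * f - w0)) *ᵥ u) := by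
        intro u u'
        conv_lhs => rw [← hsym]
        rw [dotProduct_mulVec, vecMul_transpose, dotProduct_comm]
      rw [e4, e3] at e2
      have e4 := e2.symm
      rw [← hA p, ← hA q, BC_mk, BC_mk, (FHS h hf).symm]
      exact e4.symm


/-- the restriction of `a s` to `P'` -/
def ap {X : Type*} [AddCommGroup X] [Module K X] (a : Fin 3 → End K X) (s : Fin 3) :
    End K (Pinf a) :=
  (a s).restrict fun _ hv => Pinf_stable s hv

theorem ap_coe {X : Type*} [AddCommGroup X] [Module K X] (a : Fin 3 → End K X) (s : Fin 3)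
    (p : Pinf a) : ((ap a s p : Pinf a) : X) = a s p := rfl



end Crest.Agent.R172.QEndP
end

-- ▼ part R172/QEndP2
section

/-!
Row 172 (S0260), node Q-ENDP, part 2: the END of the P-side of (t3) in the interface of the span
lemmas (`RJ1.main`, `Span2`): `q_r(p, p') = (p p'ᵀ J) f E_r`, `Q = SSp`.
-/

set_option autoImplicit false
set_option linter.unusedSectionVars false
set_option linter.unusedFintypeInType false
set_option linter.unusedDecidableInType false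

namespace Crest.Agent.R172.QEndP

open Matrix Module TensorProduct Crest.Agent.R172.FO Crest.Agent.R172.Qt
open Crest.Agent.R172.Mix
open Crest.Agent.R172.St (T)

section abs

variable {K : Type*} [Field K] {X : Type*} [AddCommGroup X] [Module K X] {ι : Type*}
variable {b : LinearMap.BilinForm K X} {a : ι → End K X}

theorem ev_TP [FiniteDimensional K X] (h : FH b a) (t : Pinf a ⊗[K] Pinf a) {r : Pinf a}
    (hr : r ∈ TP a) : ev b a t r = 0 := by
  induction t using TensorProduct.induction_on with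
  | zero => simp
  | tmul x y =>
    have h1 : BP b a y r = 0 := by
      rw [BP_apply, h.symm]
      exact h.mem_T_iff.1 hr y y.2
    rw [ev_tmul, ← BP_apply, h1, zero_smul]
  | add x y hx hy => rw [map_add, LinearMap.add_apply, hx, hy, add_zero]

theorem exists_lifts [FiniteDimensional K X] (h : FH b a) (t : Pinf a ⊗[K] Pinf a) :
    ∃ A : End K (Cor a), Lifts (ev b a t) A :=
  ⟨(TP a).liftQ ((TP a).mkQ ∘ₗ ev b a t) (fun r hr => by
    rw [LinearMap.mem_ker, LinearMap.comp_apply, ev_TP h t hr, map_zero]), fun _ => rfl⟩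

theorem ct_ev (x y : Pinf a) (t : Pinf a ⊗[K] Pinf a) :
    SPE.ct (BP b a) x y t = BP b a (ev b a t y) x := by
  induction t using TensorProduct.induction_on with
  | zero => simp
  | tmul p q =>
    rw [SPE.ct_tmul, ev_tmul, map_smul, LinearMap.smul_apply, smul_eq_mul, mul_comm, BP_apply]
  | add p q hp hq => rw [map_add, map_add, hp, hq, LinearMap.add_apply, map_add,
      LinearMap.add_apply]

/-- abstract form of the END: an alternating tensor, in `S` at all arms, whose operator is not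
symmetric -/
theorem P_end_abs [FiniteDimensional K X] [CharZero K] {a : Fin 3 → End K X} (h : FH b a)
    {l : Fin 3 → ℕ} (h1 : ∀ s, 1 ≤ l s) (hsum : ∑ s, (1 - 1 / (l s : ℚ)) = 2)
    (hl : ∀ s, ac a s ^ l s = 0)
    (hfree : ∀ s, l s * finrank K (LinearMap.ker (ac a s)) = finrank K (Cor a))
    (hpos : 0 < finrank K (Cor a)) (h333 : (∀ s, l s = 3) → 3 < finrank K (Cor a))
    {E : Type*} [AddCommGroup E] [Module K E] (q : Fin 3 → (Pinf a ⊗[K] Pinf a) →ₗ[K] E)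
    (S : Submodule K E)
    (hq1 : ∀ s, ∀ r ∈ TP a, ∀ p : Pinf a, q s (r ⊗ₜ p) ∈ S)
    (hq2 : ∀ s, ∀ r ∈ TP a, ∀ p : Pinf a, q s (p ⊗ₜ r) ∈ S)
    (hq3 : ∀ s i j, i + j + 1 = l s → ∀ p p' : Pinf a,
      q s (((ap a s ^ i) p) ⊗ₜ ((ap a s ^ j) p')) ∈ S) :
    ∃ t : Pinf a ⊗[K] Pinf a, (∀ s, q s t ∈ S) ∧
      ¬ ∀ x y : Pinf a, BP b a (ev b a t x) y = BP b a x (ev b a t y) := by
  obtain ⟨t, ht1, ⟨x, y, hxy⟩, ht3⟩ := SPE.P_end (P := Pinf a) (R := TP a) (BP b a)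
    (fun x y => by rw [BP_apply, BP_apply, h.symm])
    (fun x => by
      rw [mem_TP, h.mem_T_iff]
      exact ⟨fun hx y => hx y y.2, fun hx z hz => hx ⟨z, hz⟩⟩)
    (Φ := ap a)
    (fun s x y => by rw [BP_apply, BP_apply, ap_coe, ap_coe, h.sa])
    (Φq := ac a) (fun s x => rfl) h1 hsum hl hfree hpos h333
    (q := fun s => (TensorProduct.mk K _ _).compr₂ (q s)) (S := S)
    (fun s r hr p => hq1 s r hr p) (fun s r hr p => hq2 s r hr p)
    (fun s i j hij p p' => hq3 s i j hij p p')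
  refine ⟨t, fun s => ?_, fun h5 => ?_⟩
  · have h3 := ht3 s
    rw [TensorProduct.lift_mk_compr₂] at h3
    exact h3
  have h6 := SPE.ct_comm (BP b a) x y t
  rw [ht1, map_neg, ct_ev, ct_ev] at h6
  have h8 : BP b a (ev b a t y) x = BP b a (ev b a t x) y := by
    rw [h5, BP_apply, BP_apply, h.symm]
  have h7 : (2 : K) * BP b a (ev b a t y) x = 0 := by
    linear_combination -h6 + h8
  apply hxy
  rw [ct_ev, (mul_eq_zero.1 h7).resolve_left two_ne_zero]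

end abs

variable {ι : Type*} [Fintype ι] [DecidableEq ι] {δ : Type*} [Fintype δ] [DecidableEq δ]
variable {k K : Type*} [Field k] [Field K] [Algebra k K]
variable {arm : δ → Fin 3} {J : Matrix ι ι K} {B : Matrix δ δ K}
  {N W : Submodule K (Matrix ι δ K)} {g f : Matrix ι δ K}

/-- tensors `t` with `t f ∈ 𝒮` are symmetric modulo the radical -/
theorem symm_ev (h : Ctx k arm J B N W g)
    (hNm : ∀ F, (∀ F' ∈ N, pair J B F' F = 0) → F ∈ N)
    (hWm : ∀ F, (∀ F' ∈ W, pair J B F' F = 0) → F ∈ W) (hf : f ∈ N ⊓ W)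
    {t : Pinf (aop arm J B g f (h.perp f hf)) ⊗[K] Pinf (aop arm J B g f (h.perp f hf))}
    (ht : mt J g _ t * f ∈ SSp arm J B N W g f (h.perp f hf))
    (p q : Pinf (aop arm J B g f (h.perp f hf))) :
    BP (bS J g) _ (ev (bS J g) _ t p) q = BP (bS J g) _ p (ev (bS J g) _ t q) := by
  obtain ⟨A, hA⟩ := exists_lifts (FHS h hf) t
  have h1 := symm_of_SSp h hNm hWm hf hA ht (Submodule.Quotient.mk p) (Submodule.Quotient.mk q)
  rw [← hA p, ← hA q, BC_mk, BC_mk] at h1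
  exact h1

/-- `t ↦ t f E_s` -/
noncomputable def Lm (arm : δ → Fin 3) (J : Matrix ι ι K) (g f : Matrix ι δ K)
    (P : Submodule K (Sp J g)) (s : Fin 3) : (P ⊗[K] P) →ₗ[K] Matrix ι δ K where
  toFun t := mt J g P t * f * E K arm s
  map_add' t t' := by rw [map_add, Matrix.add_mul, Matrix.add_mul]
  map_smul' c t := by rw [map_smul, Matrix.smul_mul, Matrix.smul_mul]; rfl


/-- **END of the P-side of (t3), the interface of the span lemmas.** -/
theorem endP_span [CharZero K] (h : Ctx k arm J B N W g)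
    (hNm : ∀ F, (∀ F' ∈ N, pair J B F' F = 0) → F ∈ N)
    (hWm : ∀ F, (∀ F' ∈ W, pair J B F' F = 0) → F ∈ W) (hf : f ∈ N ⊓ W)
    (l : Fin 3 → ℕ) (h1 : ∀ s, 1 ≤ l s) (hsum : ∑ s, (1 - 1 / (l s : ℚ)) = 2)
    (hl : ∀ s, ac (aop arm J B g f (h.perp f hf)) s ^ l s = 0)
    (hfree : ∀ s, l s * finrank K (LinearMap.ker (ac (aop arm J B g f (h.perp f hf)) s))
      = finrank K (Cor (aop arm J B g f (h.perp f hf))))
    (hpos : 0 < finrank K (Cor (aop arm J B g f (h.perp f hf))))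
    (h333 : (∀ s, l s = 3) → 3 < finrank K (Cor (aop arm J B g f (h.perp f hf))))
    (hq1 : ∀ s, ∀ r ∈ TP (aop arm J B g f (h.perp f hf)), ∀ p,
      mt J g (Pinf (aop arm J B g f (h.perp f hf))) (r ⊗ₜ p) * f * E K arm s
        ∈ SSp arm J B N W g f (h.perp f hf))
    (hq2 : ∀ s, ∀ r ∈ TP (aop arm J B g f (h.perp f hf)), ∀ p,
      mt J g (Pinf (aop arm J B g f (h.perp f hf))) (p ⊗ₜ r) * f * E K arm s
        ∈ SSp arm J B N W g f (h.perp f hf))
    (hq3 : ∀ s i j, i + j + 1 = l s → ∀ p p',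
      mt J g (Pinf (aop arm J B g f (h.perp f hf)))
        (((ap (aop arm J B g f (h.perp f hf)) s ^ i) p) ⊗ₜ
          ((ap (aop arm J B g f (h.perp f hf)) s ^ j) p')) * f * E K arm s
        ∈ SSp arm J B N W g f (h.perp f hf)) : False := by
  obtain ⟨t, ht3, h5⟩ := P_end_abs (FHS h hf) h1 hsum hl hfree hpos h333
    (Lm arm J g f (Pinf (aop arm J B g f (h.perp f hf))))
    (SSp arm J B N W g f (h.perp f hf)) hq1 hq2 hq3
  have ht4 : mt J g (Pinf (aop arm J B g f (h.perp f hf))) t * f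
      ∈ SSp arm J B N W g f (h.perp f hf) := by
    have e1 : mt J g (Pinf (aop arm J B g f (h.perp f hf))) t * f
        = ∑ s, mt J g (Pinf (aop arm J B g f (h.perp f hf))) t * f * E K arm s := by
      rw [← Matrix.mul_sum, sum_E, Matrix.mul_one]
    rw [e1]
    exact Submodule.sum_mem _ fun s _ => ht3 s
  exact h5 (symm_ev h hNm hWm hf ht4)

end Crest.Agent.R172.QEndP
end

-- ▼ part R172/QCore4
section

/-!
Row 172 (S0260), node Q-Core, part 4 (helper28): `TameMix c G f X` unpacked as `QC.Pair`.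
-/

set_option autoImplicit false
set_option linter.unusedSectionVars false
set_option linter.unusedFintypeInType false
set_option linter.unusedDecidableInType false

namespace Crest.Agent.R172.QC

open Matrix Module Crest.Agent.R172.FO Crest.Agent.R172.Qt
open Crest.Agent.R172.CF
open Crest.Agent.R172.Gen (Jm Ix)
open Crest.Agent.R172.Mix

variable {n : ℕ} {a : Fin 3 → Fin n → ℤ} {c : Cfg n a} {K : Type} [Field K] [Algebra ℂ K]

/-- **`TameMix` as a `Pair`** -/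
theorem tameMix_pair {W : Submodule K (Matrix (Ix n) c.δ K)}
    {g : Fin 3 → Matrix (Ix n) (Ix n) K} {G f : Matrix (Ix n) c.δ K}
    (hC : Ctx ℂ c.arm (Jm n K) (c.B K) (c.N g) W G) (hf : f ∈ c.N g ⊓ W)
    {X : Matrix (Ix n) (Ix n) K} (hX : Skw (Jm n K) X) (h : TameMix c G f X) :
    ∃ hf0 : Gᵀ * Jm n K * f = 0, ∃ l : Fin 3 → ℕ,
      Pair (aop c.arm (Jm n K) (c.B K) G f hf0) (omP (Jm n K) G) (Phi c G X)
        (eta (Jm n K) G X) l := by
  obtain ⟨hf0, h1, h2, h3⟩ := h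
  refine ⟨hf0, ?_⟩
  refine exists_pair (sideP hC.data.J_symm hC.data.B_symm hC.data.B_arm hf0)
    (sideQ hC.data.J_symm hC.data.B_symm hC.data.B_arm hX) ?_ ?_ h1 h2 h3
  · exact fun v => aop_sum hC.data hf.2 hf0 v
  · exact fun v => Phi_sum hC X v

end Crest.Agent.R172.QC
end

-- ▼ part R172/Fin7
section

/-!
Row 172 (S0260): (t3) with `T_f φ = 0` (eigenvector of `T_f` on `T_Q`): `NoTameQ1'` and `InQ1`.
-/

set_option autoImplicit false
set_option linter.unusedSectionVars false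
set_option linter.unusedFintypeInType false
set_option linter.unusedDecidableInType false
set_option maxHeartbeats 400000

namespace Crest.Agent.R172.Fin7

open Matrix Module Crest.Agent.R172.FO
open Crest.AlgebraR.SpinSaturation Crest.Agent.R172.SoGrade Crest.Agent.R172.Sp
open Crest.Agent.R172.CF Crest.Agent.R172.CSys
open Crest.Agent.R172.Gen (Jm Ix emb IsSo)
open Crest.Agent.R172.GenP
open Crest.Agent.R172.GenQ
open Crest.Agent.R172.SpS
open Crest.Agent.R172.Qt (NN Ctx TameMix)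
open Crest.Agent.R172.Om (Kiso Scal)
open Crest.Agent.R172.Ind (GI Inst)

section eig

variable {ι δ : Type*} [Fintype ι] [DecidableEq ι] [Fintype δ] [DecidableEq δ]
variable {k K : Type*} [Field k] [Field K] [Algebra k K]
variable {arm : δ → Fin 3} {J : Matrix ι ι K} {B : Matrix δ δ K}
  {N W : Submodule K (Matrix ι δ K)} {g : Matrix ι δ K}

/-- the form of `p ∈ NN` against `f` -/
def formL (J : Matrix ι ι K) (g f : Matrix ι δ K) (S : Submodule K
    (Matrix ι ι K × (Fin 3 → Matrix ι ι K))) : S →ₗ[K] Matrix δ δ K where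
  toFun p := gᵀ * J * (p.1.1 * f)
  map_add' p q := by
    simp only [Submodule.coe_add, Prod.fst_add, Matrix.add_mul, Matrix.mul_add]
  map_smul' t p := by
    simp only [SetLike.val_smul, Prod.smul_fst, Matrix.smul_mul, Matrix.mul_smul, RingHom.id_apply]

/-- **an eigenvector of `T_f` on `T_Q`.** -/
theorem exists_eig [IsAlgClosed K] (h : Ctx k arm J B N W g) {f : Matrix ι δ K} (hf : f ∈ N ⊓ W)
    {p0 : Matrix ι ι K × (Fin 3 → Matrix ι ι K)} (hp0 : p0 ∈ NN arm J N g)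
    (hne : gᵀ * J * (p0.1 * g) ≠ 0) :
    ∃ p ∈ NN arm J N g, ∃ lam : K, gᵀ * J * (p.1 * g) ≠ 0 ∧
      gᵀ * J * (p.1 * f) = lam • (gᵀ * J * (p.1 * g)) := by
  classical
  set Ω := formL J g g (NN arm J N g) with hΩ
  set Ωf := formL J g f (NN arm J N g) with hΩf
  have hle : LinearMap.range Ωf ≤ LinearMap.range Ω := by
    rintro _ ⟨p, rfl⟩
    obtain ⟨p', hp', h1⟩ := h.tf hf p.2
    exact ⟨⟨p', hp'⟩, h1.symm⟩
  have hker : LinearMap.ker Ω ≤ LinearMap.ker Ωf := by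
    intro p hp
    exact LinearMap.mem_ker.2 (h.tf_zero hf p.2 (LinearMap.mem_ker.1 hp))
  -- the operator on the quotient by the kernel
  let Qm := (NN arm J N g) ⧸ LinearMap.ker Ω
  let e : Qm ≃ₗ[K] LinearMap.range Ω := Ω.quotKerEquivRange
  let Tf0 : Qm →ₗ[K] Matrix δ δ K := (LinearMap.ker Ω).liftQ Ωf hker
  have hT : ∀ x : Qm, Tf0 x ∈ LinearMap.range Ω := by
    intro x
    obtain ⟨p, rfl⟩ := Submodule.mkQ_surjective _ x
    exact hle ⟨p, rfl⟩
  let T : Module.End K Qm := e.symm.toLinearMap ∘ₗ (Tf0.codRestrict (LinearMap.range Ω) hT)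
  have hnt : Nontrivial Qm := by
    refine ⟨⟨(LinearMap.ker Ω).mkQ ⟨p0, hp0⟩, 0, fun h0 => hne ?_⟩⟩
    rw [Submodule.mkQ_apply, Submodule.Quotient.mk_eq_zero] at h0
    exact LinearMap.mem_ker.1 h0
  obtain ⟨lam, hlam⟩ := Module.End.exists_eigenvalue T
  obtain ⟨x, hx, hx0⟩ := hlam.exists_hasEigenvector
  obtain ⟨p, rfl⟩ := Submodule.mkQ_surjective _ x
  have h1 : Ω p ≠ 0 := by
    intro h0
    apply hx0
    rw [Submodule.mkQ_apply, Submodule.Quotient.mk_eq_zero]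
    exact LinearMap.mem_ker.2 h0
  have h2 : T ((LinearMap.ker Ω).mkQ p) = lam • (LinearMap.ker Ω).mkQ p :=
    Module.End.mem_eigenspace_iff.1 hx
  have h3 : (Tf0.codRestrict (LinearMap.range Ω) hT) ((LinearMap.ker Ω).mkQ p)
      = e (lam • (LinearMap.ker Ω).mkQ p) := by
    rw [← h2]
    exact (e.apply_symm_apply _).symm
  have h4 := congrArg Subtype.val h3
  rw [LinearMap.codRestrict_apply, map_smul] at h4
  exact ⟨p.1, p.2, lam, h1, h4⟩

end eig

variable {n : ℕ} {a : Fin 3 → Fin n → ℤ} {c : Cfg n a} {q : SPol c}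

/-- **(t3)** no mixed tame pair, `dim 𝒦iso = 1`: `G` generic in `𝒦iso`, `f ∈ 𝒦` not isotropic,
`p ∈ NN G` with `T_f φ = 0`, `φ ≠ 0` -/
def NoTameQ1' (c : Cfg n a) (q : SPol c) (R : Ranked c) : Prop :=
  ∀ (L : Type) [Field L] [Algebra ℂ L] [IsAlgClosed L]
    (g : Fin 3 → Matrix (Ix n) (Ix n) L) (H : Matrix (Fin q.toPol.m) (Fin q.toPol.m) L),
    Inst c q R L g H →
    finrank L ↥(Kiso (Jm n L) (c.N g) (VL (q.toPol.LH H))) = 1 →
    ∀ G ∈ Kiso (Jm n L) (c.N g) (VL (q.toPol.LH H)),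
    (∀ w ∈ Kiso (Jm n L) (c.N g) (VL (q.toPol.LH H)), VertH c g H G w) →
    ∀ f ∈ c.N g ⊓ VL (q.toPol.LH H), fᵀ * Jm n L * f ≠ 0 →
    ∀ p ∈ NN c.arm (Jm n L) (c.N g) G, Gᵀ * Jm n L * (p.1 * f) = 0 →
      Gᵀ * Jm n L * (p.1 * G) ≠ 0 →
      ¬ TameMix c G f p.1

/-- **(P3)** for one instance with `dim 𝒦iso = 1`. -/
theorem P3' {R : Ranked c} (hNT : NoTameQ1' c q R) {K : Type} [Field K] [Algebra ℂ K]
    {g : Fin 3 → Matrix (Ix n) (Ix n) K} {H : Matrix (Fin q.toPol.m) (Fin q.toPol.m) K}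
    (hI : Inst c q R K g H)
    (h1K : finrank K ↥(Kiso (Jm n K) (c.N g) (VL (q.toPol.LH H))) = 1)
    (hne : Kiso (Jm n K) (c.N g) (VL (q.toPol.LH H)) ≠ c.N g ⊓ VL (q.toPol.LH H)) :
    Ext.ZI c q.toPol g H = Kiso (Jm n K) (c.N g) (VL (q.toPol.LH H)) := by
  classical
  have hG := hI.gi
  -- a non-isotropic element
  obtain ⟨f, hf, hfn⟩ : ∃ f ∈ c.N g ⊓ VL (q.toPol.LH H),
      f ∉ Kiso (Jm n K) (c.N g) (VL (q.toPol.LH H)) := by
    by_contra hcon
    push Not at hcon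
    exact hne (le_antisymm (fun F hF => hF.1) hcon)
  obtain ⟨r, κ, -, hκ⟩ := exists_family (Kiso (Jm n K) (c.N g) (VL (q.toPol.LH H)))
  obtain ⟨L, iL, iKL, iCL, ist, icl, icz, t, ht, hFL, hVc⟩ := Fin4.step1c q.toPol hG hκ
  have hV : ∀ w ∈ Kiso (Jm n L) (c.N (fun s => emb K L (g s)))
      (VL (q.toPol.LH (emb K L H))), VertH c (fun s => emb K L (g s)) (emb K L H)
        (∑ j, t j • emb K L (κ j)) w := fun w hw => by
    obtain ⟨D, h1, h2, h3, -⟩ := hVc w hw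
    exact ⟨D, h1, h2, h3⟩
  have hIL := hI.bc L
  have hbc := bcNW (L := L) q.toPol hG
  have hbK := bcKiso (L := L) q.toPol hG
  have hfL : emb K L f ∈ c.N (fun s => emb K L (g s)) ⊓ VL (q.toPol.LH (emb K L H)) :=
    ⟨hbc.1.up f hf.1, hbc.2.up f hf.2⟩
  have h1L : finrank L ↥(Kiso (Jm n L) (c.N (fun s => emb K L (g s)))
      (VL (q.toPol.LH (emb K L H)))) = 1 := by
    rw [Fin4.finrank_bc hbK]; exact h1K
  -- `emb f` is not isotropic
  have hfniso : (emb K L f)ᵀ * Jm n L * emb K L f ≠ 0 := by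
    intro h0
    apply hfn
    refine hI.isoK hf ?_
    have hJ : (Jm n K).map (algebraMap K L) = Jm n L := Pol.Jm_map (algebraMap K L)
    have h1 : (fᵀ * Jm n K * f).map (algebraMap K L) = 0 := by
      rw [Matrix.map_mul, Matrix.map_mul, Matrix.transpose_map, hJ]
      exact h0
    ext i j
    have h2 := congrFun (congrFun h1 i) j
    rw [map_apply, Matrix.zero_apply] at h2
    exact (FaithfulSMul.algebraMap_injective K L) (by rw [h2, Matrix.zero_apply, map_zero])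
  set G : Matrix (Ix n) c.δ L := ∑ j, t j • emb K L (κ j) with hGdef
  set f' : Matrix (Ix n) c.δ L := emb K L f with hf'def
  have hCL := hIL.ctx hFL
  have hglue := Qt.glue_of hIL.gi hCL (fun w hw hw0 => hIL.isoK hw hw0) hV
  have hNN : ∀ p ∈ NN c.arm (Jm n L) (c.N (fun s => emb K L (g s))) G,
      Gᵀ * Jm n L * (p.1 * G) = 0 := by
    intro p hp
    by_contra hp0
    obtain ⟨p', hp', lam, h1, h2⟩ := exists_eig hCL hfL hp hp0
    -- the new `f`
    have hf0 : f' - lam • G ∈ c.N (fun s => emb K L (g s)) ⊓ VL (q.toPol.LH (emb K L H)) :=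
      Submodule.sub_mem _ hfL (Submodule.smul_mem _ _ hFL.1)
    have hGf : Gᵀ * Jm n L * f' = 0 := hCL.perp f' hfL
    have hGG : Gᵀ * Jm n L * G = 0 := hCL.iso
    have hfG : f'ᵀ * Jm n L * G = 0 := by
      have h3 := congrArg Matrix.transpose hGf
      rw [Matrix.transpose_mul, Matrix.transpose_mul, Matrix.transpose_transpose,
        hCL.data.J_symm, Matrix.transpose_zero, ← Matrix.mul_assoc] at h3
      exact h3
    have hiso0 : (f' - lam • G)ᵀ * Jm n L * (f' - lam • G) ≠ 0 := by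
      have h3 : (f' - lam • G)ᵀ * Jm n L * (f' - lam • G) = f'ᵀ * Jm n L * f' := by
        rw [Matrix.transpose_sub, Matrix.transpose_smul, Matrix.sub_mul, Matrix.sub_mul,
          Matrix.mul_sub, Matrix.mul_sub, Matrix.mul_smul, Matrix.smul_mul, Matrix.smul_mul,
          Matrix.smul_mul, Matrix.mul_smul, hGf, hGG, hfG]
        simp
      rw [h3]
      exact hfniso
    have hz : Gᵀ * Jm n L * (p'.1 * (f' - lam • G)) = 0 := by
      rw [Matrix.mul_sub, Matrix.mul_smul, Matrix.mul_sub, Matrix.mul_smul, h2, sub_self]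
    rcases Qt.mix_final R hI.posR hIL.gi hCL hglue hf0 hp' with h | h | h
    · exact absurd h hiso0
    · exact absurd h h1
    · exact absurd h (hNT L _ _ hIL h1L _ hFL hV _ hf0 hiso0 p' hp' hz h1)
  have hOm0 : ∀ d : Derivation ℂ L L,
      Om.IsY ℂ c.arm (c.B L) (c.N (fun s => emb K L (g s))) (VL (q.toPol.LH (emb K L H))) d →
      Om.Om (Jm n L) d G G = 0 := by
    intro d hd
    obtain ⟨p, hp, hpf⟩ := Om.exists_NN hCL hd
    rw [hpf _ hFL.1]
    exact hNN p hp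
  -- descent
  refine le_antisymm Om.ZZ_le_Kiso fun F hF => ⟨hF, fun G' hG' d hd => ?_⟩
  obtain ⟨p, hp, hpf⟩ := Om.exists_NN (hI.ctx hG') hd
  have h1 : Om.Om (Jm n K) d G' G' = 0 := Qt.om_zero_descent hG hκ ht hOm0 hd hG'
  rw [hpf G' hG'.1] at h1
  rw [hpf F hF.1]
  exact (hI.ctx hG').tf_zero hF.1 hp h1

/-- **(Q1) from (t3)** -/
theorem inQ1_of' (hNT : ∀ (n : ℕ) (a : Fin 3 → Fin n → ℤ) (c : Cfg n a) (q : SPol c)
    (R : Ranked c), NoTameQ1' c q R) : Ind.InQ1 := by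
  intro n a c q R K _ _ _ g H hI h1 hne h0
  have h2 := P3' (hNT n a c q R) hI h1 hne
  rw [← h2, h0, finrank_bot] at h1
  omega


end Crest.Agent.R172.Fin7
end

-- ▼ part R172/QAsm659
section

/-!
Row 172 (S0260), node Q-Asm: the two ends put together.
-/

set_option autoImplicit false
set_option linter.unusedSectionVars false
set_option linter.unusedFintypeInType false
set_option linter.unusedDecidableInType false
set_option maxHeartbeats 800000

namespace Crest.Agent.R172.QAsm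

open Matrix Module Crest.Agent.R172.FO Crest.Agent.R172.Qt Crest.Agent.R172.Mix
open Crest.Agent.R172.QC
open scoped TensorProduct

section gen

variable {ι : Type*} [Fintype ι] [DecidableEq ι] {δ : Type*} [Fintype δ] [DecidableEq δ]
variable {k K : Type*} [Field k] [Field K] [Algebra k K]
variable {arm : δ → Fin 3} {J : Matrix ι ι K} {B : Matrix δ δ K}
  {N W : Submodule K (Matrix ι δ K)} {g f : Matrix ι δ K}

/-- `Φ_s = M_s(g,g) J X` on `S` -/
abbrev PhS (arm : δ → Fin 3) (J : Matrix ι ι K) (B : Matrix δ δ K) (g : Matrix ι δ K)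
    (X : Matrix ι ι K) (s : Fin 3) : End K (Sg g) := Mop arm B g s ∘ₗ eta J g X

/-- `θ p = gᵀ J X p` on `P_S` -/
def th (arm : δ → Fin 3) (J : Matrix ι ι K) (B : Matrix δ δ K) (g : Matrix ι δ K)
    (X : Matrix ι ι K) : Pinf (PhS arm J B g X) →ₗ[K] (δ → K) :=
  (gᵀ * J * X).mulVecLin ∘ₗ (Sg g).subtype ∘ₗ (Pinf (PhS arm J B g X)).subtype

theorem th_apply (X : Matrix ι ι K) (p : Pinf (PhS arm J B g X)) :
    th arm J B g X p = (gᵀ * J * X) *ᵥ ((p : Sg g) : ι → K) := rfl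

/-- `U = {u | g u ∈ P_S}` -/
def UU (arm : δ → Fin 3) (J : Matrix ι ι K) (B : Matrix δ δ K) (g : Matrix ι δ K)
    (X : Matrix ι ι K) : Submodule K (δ → K) :=
  ((Pinf (PhS arm J B g X)).map (Sg g).subtype).comap g.mulVecLin

theorem mem_UU {X : Matrix ι ι K} {u : δ → K} :
    u ∈ UU arm J B g X ↔ ∃ p : Pinf (PhS arm J B g X), ((p : Sg g) : ι → K) = g *ᵥ u := by
  constructor
  · rintro ⟨y, hy, hy'⟩
    exact ⟨⟨y, hy⟩, hy'⟩
  · rintro ⟨p, hp⟩
    exact ⟨p, p.2, hp⟩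

/-- the output of the Q-side bridge -/
structure BrQ (arm : δ → Fin 3) (J : Matrix ι ι K) (B : Matrix δ δ K)
    (N : Submodule K (Matrix ι δ K)) (g : Matrix ι δ K) (X : Matrix ι ι K) (l : Fin 3 → ℕ) :
    Prop where
  q1 : ∀ s, ∀ r ∈ TP (PhS arm J B g X), ∀ p,
    (Pi.single s (vecMulVec (th arm J B g X r) (th arm J B g X p)) : Fin 3 → Matrix δ δ K)
      ∈ QEndQ.TT arm J N g (UU arm J B g X)
  q2 : ∀ s, ∀ r ∈ TP (PhS arm J B g X), ∀ p,
    (Pi.single s (vecMulVec (th arm J B g X p) (th arm J B g X r)) : Fin 3 → Matrix δ δ K)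
      ∈ QEndQ.TT arm J N g (UU arm J B g X)
  q3 : ∀ s i j, i + j + 1 = l s → ∀ p p' : Pinf (PhS arm J B g X),
    (Pi.single s (vecMulVec (th arm J B g X ((QBlk.ap (PhS arm J B g X) s ^ i) p))
      (th arm J B g X ((QBlk.ap (PhS arm J B g X) s ^ j) p'))) : Fin 3 → Matrix δ δ K)
      ∈ QEndQ.TT arm J N g (UU arm J B g X)

/-- the output of the P-side bridge -/
structure BrP (arm : δ → Fin 3) (J : Matrix ι ι K) (B : Matrix δ δ K)
    (N W : Submodule K (Matrix ι δ K)) (g f : Matrix ι δ K) (hf : gᵀ * J * f = 0)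
    (l : Fin 3 → ℕ) : Prop where
  q1 : ∀ s, ∀ r ∈ TP (aop arm J B g f hf), ∀ p,
      QEndP.mt J g (Pinf (aop arm J B g f hf)) (r ⊗ₜ p) * f * E K arm s
        ∈ QEndP.SSp arm J B N W g f hf
  q2 : ∀ s, ∀ r ∈ TP (aop arm J B g f hf), ∀ p,
      QEndP.mt J g (Pinf (aop arm J B g f hf)) (p ⊗ₜ r) * f * E K arm s
        ∈ QEndP.SSp arm J B N W g f hf
  q3 : ∀ s i j, i + j + 1 = l s → ∀ p p',
      QEndP.mt J g (Pinf (aop arm J B g f hf))
        (((QEndP.ap (aop arm J B g f hf) s ^ i) p) ⊗ₜ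
          ((QEndP.ap (aop arm J B g f hf) s ^ j) p')) * f * E K arm s
        ∈ QEndP.SSp arm J B N W g f hf

/-- Q-side end, abstract module form -/
theorem false_Q_abs [CharZero K] (h : Ctx k arm J B N W g) {X' S : Type*} [AddCommGroup X']
    [Module K X'] [AddCommGroup S] [Module K S] [FiniteDimensional K S]
    {a : Fin 3 → End K X'} {wa : X' →ₗ[K] X' →ₗ[K] K} {Φ : Fin 3 → End K S}
    {wb : S →ₗ[K] S →ₗ[K] K} {l : Fin 3 → ℕ} (hp : Pair a wa Φ wb l) (hl : ∀ s, l s = 3)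
    {U : Submodule K (δ → K)} (θ : Pinf Φ →ₗ[K] (δ → K))
    (hθ : ∀ p, ∃ v : ι → K, θ p = (gᵀ * J) *ᵥ v)
    (hw : ∀ y : Pinf Φ, ∃ u ∈ U, ∀ a : Pinf Φ, wb a y = u ⬝ᵥ θ a)
    (q1 : ∀ s, ∀ r ∈ TP Φ, ∀ p,
      (Pi.single s (vecMulVec (θ r) (θ p)) : Fin 3 → Matrix δ δ K) ∈ QEndQ.TT arm J N g U)
    (q2 : ∀ s, ∀ r ∈ TP Φ, ∀ p,
      (Pi.single s (vecMulVec (θ p) (θ r)) : Fin 3 → Matrix δ δ K) ∈ QEndQ.TT arm J N g U)
    (q3 : ∀ s i j, i + j + 1 = l s → ∀ p p' : Pinf Φ,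
      (Pi.single s (vecMulVec (θ ((QBlk.ap Φ s ^ i) p)) (θ ((QBlk.ap Φ s ^ j) p'))) :
        Fin 3 → Matrix δ δ K) ∈ QEndQ.TT arm J N g U) : False := by
  have hq : (∀ t, ∀ r ∈ TP Φ, ∀ p, QEndQ.qt θ t r p ∈ QEndQ.TT arm J N g U ∧
        QEndQ.qt θ t p r ∈ QEndQ.TT arm J N g U) ∧
      (∀ s i j, i + j + 1 = l s → ∀ p p' : Pinf Φ,
        QEndQ.qt θ s ((QBlk.ap Φ s ^ i) p) ((QBlk.ap Φ s ^ j) p') ∈ QEndQ.TT arm J N g U) := by
    refine ⟨fun t r hr p => ⟨?_, ?_⟩, fun s i j hij p p' => ?_⟩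
    · rw [QEndQ.qt_apply]; exact q1 t r hr p
    · rw [QEndQ.qt_apply]; exact q2 t r hr p
    · rw [QEndQ.qt_apply]; exact q3 s i j hij p p'
  obtain ⟨T, hT1, hT2, hT3⟩ := Half.Q_end hp.halfB hl hq
  exact QEndQ.endQ h two_ne_zero hθ (w := Pform Φ wb) (fun y => by
    obtain ⟨u, hu, h1⟩ := hw y
    exact ⟨u, hu, fun a => by rw [Pform_apply]; exact h1 a⟩) hT1 hT2 hT3

/-- **Q-side end.** -/
theorem false_Q [CharZero K] (h : Ctx k arm J B N W g) {hf0 : gᵀ * J * f = 0}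
    {X : Matrix ι ι K} {l : Fin 3 → ℕ}
    (hp : Pair (aop arm J B g f hf0) (omP J g) (PhS arm J B g X) (eta J g X) l)
    (hl : ∀ s, l s = 3) (hQ : BrQ arm J B N g X l) : False := by
  have hθ : ∀ p : Pinf (PhS arm J B g X), ∃ v : ι → K, th arm J B g X p = (gᵀ * J) *ᵥ v :=
    fun p => ⟨X *ᵥ ((p : Sg g) : ι → K), by rw [th_apply, mulVec_mulVec]⟩
  have hw : ∀ y : Pinf (PhS arm J B g X), ∃ u ∈ UU arm J B g X, ∀ a : Pinf (PhS arm J B g X),
      eta J g X a y = u ⬝ᵥ th arm J B g X a := by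
    intro y
    obtain ⟨u, hu⟩ := (y : Sg g).2
    have hu' : g *ᵥ u = ((y : Sg g) : ι → K) := hu
    refine ⟨u, mem_UU.2 ⟨y, hu'.symm⟩, fun a => ?_⟩
    rw [eta_apply, th_apply, ← hu']
    have e1 : (g *ᵥ u) ⬝ᵥ ((J * X) *ᵥ ((a : Sg g) : ι → K))
        = u ⬝ᵥ (gᵀ *ᵥ ((J * X) *ᵥ ((a : Sg g) : ι → K))) := by
      rw [← vecMul_transpose, ← dotProduct_mulVec]
    rw [e1, mulVec_mulVec, ← Matrix.mul_assoc]
  exact false_Q_abs h hp hl (th arm J B g X) hθ hw hQ.q1 hQ.q2 hQ.q3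

/-- **P-side end.** -/
theorem false_P [CharZero K] (h : Ctx k arm J B N W g)
    (hNm : ∀ F, (∀ F' ∈ N, pair J B F' F = 0) → F ∈ N)
    (hWm : ∀ F, (∀ F' ∈ W, pair J B F' F = 0) → F ∈ W) (hf : f ∈ N ⊓ W)
    {X : Matrix ι ι K} {l : Fin 3 → ℕ}
    (hp : Pair (aop arm J B g f (h.perp f hf)) (omP J g) (PhS arm J B g X) (eta J g X) l)
    (hl : ¬ ∀ s, l s = 3) (hP : BrP arm J B N W g f (h.perp f hf) l) : False :=
  QEndP.endP_span h hNm hWm hf l hp.l1 hp.S2 hp.nilA hp.freeA hp.posA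
    (fun h3 => absurd h3 hl) hP.q1 hP.q2 hP.q3

/-- **both ends.** -/
theorem false_of_bridges [CharZero K] (h : Ctx k arm J B N W g)
    (hNm : ∀ F, (∀ F' ∈ N, pair J B F' F = 0) → F ∈ N)
    (hWm : ∀ F, (∀ F' ∈ W, pair J B F' F = 0) → F ∈ W) (hf : f ∈ N ⊓ W)
    {X : Matrix ι ι K} {l : Fin 3 → ℕ}
    (hp : Pair (aop arm J B g f (h.perp f hf)) (omP J g) (PhS arm J B g X) (eta J g X) l)
    (hP : (¬ ∀ s, l s = 3) → BrP arm J B N W g f (h.perp f hf) l)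
    (hQ : (∀ s, l s = 3) → BrQ arm J B N g X l) : False := by
  by_cases hl : ∀ s, l s = 3
  · exact false_Q h hp hl (hQ hl)
  · exact false_P h hNm hWm hf hp hl (hP hl)

end gen

open Crest.AlgebraR.SpinSaturation Crest.Agent.R172.SoGrade Crest.Agent.R172.Sp
open Crest.Agent.R172.CF Crest.Agent.R172.CSys
open Crest.Agent.R172.Gen (Jm Ix emb IsSo)
open Crest.Agent.R172.GenP
open Crest.Agent.R172.GenQ
open Crest.Agent.R172.Om (Kiso Scal)
open Crest.Agent.R172.Ind (GI Inst)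

variable {n : ℕ} {a : Fin 3 → Fin n → ℤ} {c : Cfg n a} {q : SPol c}

/-- the two bridges, as one statement on `Ctx` (over `ℂ`) -/
def Bridge : Prop :=
  ∀ (ι δ : Type) [Fintype ι] [DecidableEq ι] [Fintype δ] [DecidableEq δ]
    (K : Type) [Field K] [Algebra ℂ K] [IsAlgClosed K] (arm : δ → Fin 3) (J : Matrix ι ι K)
    (B : Matrix δ δ K) (N W : Submodule K (Matrix ι δ K)) (g f : Matrix ι δ K)
    (h : Ctx ℂ arm J B N W g) (hf : f ∈ N ⊓ W),
    (∀ F, (∀ F' ∈ N, pair J B F' F = 0) → F ∈ N) →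
    (∀ F, (∀ F' ∈ W, pair J B F' F = 0) → F ∈ W) →
    Glue ℂ arm J N W g →
    ∀ p ∈ NN arm J N g, gᵀ * J * (p.1 * f) = 0 → ∀ l : Fin 3 → ℕ,
      Pair (aop arm J B g f (h.perp f hf)) (omP J g) (PhS arm J B g p.1) (eta J g p.1) l →
      ((¬ ∀ s, l s = 3) → BrP arm J B N W g f (h.perp f hf) l) ∧
        ((∀ s, l s = 3) → BrQ arm J B N g p.1 l)

/-- **(t3)** from the bridges. -/
theorem noTameQ1' (hbr : Bridge) (R : Ranked c) : Fin7.NoTameQ1' c q R := by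
  intro L _ _ _ g H hI h1K G hG hV f hf hfn p hp hp0 hpG hT
  have hC := hI.ctx hG
  have : CharZero L := charZero_of_injective_algebraMap (algebraMap ℂ L).injective
  have hglue := Qt.glue_of hI.gi hC (fun w hw hw0 => hI.isoK hw hw0) hV
  have hNm := maxN hI.gi.orth (c := c)
  have hWm := maxW q.toPol hI.gi.skew (H := H)
  obtain ⟨hf0, l, hpair⟩ := tameMix_pair hC hf hp.1 hT
  have h1 := hbr (Ix n) c.δ L c.arm (Jm n L) (c.B L) (c.N g) (VL (q.toPol.LH H)) G f hC hf hNm hWm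
    hglue p hp hp0 l hpair
  exact false_of_bridges hC hNm hWm hf hpair h1.1 h1.2

end Crest.Agent.R172.QAsm
end

-- ▼ part R172/QCore5
section

/-!
Row 172 (S0260), node Q-Core, part 5 (helper28): `P1 = P' / (P' ∩ S)` with a linear section
`i1 : P1 → (ι → K)`, `P2 = P_S`, the structure `QBr.Side`, and `Half`.
-/

set_option autoImplicit false
set_option linter.unusedSectionVars false
set_option linter.unusedFintypeInType false
set_option linter.unusedDecidableInType false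

namespace Crest.Agent.R172.QC

open Module
open Crest.Agent.R172.St (T)
open Crest.Agent.R172.Mix
open Crest.Agent.R172.PushQ (Push)

section abs

universe u
variable {K : Type*} [Field K] {X : Type u} [AddCommGroup X] [Module K X]

/-- the part of `Pinf a` in `Z` -/
def YZ (a : Fin 3 → End K X) (Z : Submodule K X) : Submodule K (Pinf a) :=
  Z.comap (Pinf a).subtype


theorem YZ_kill {a : Fin 3 → End K X} {Z : Submodule K X} (hZ : ∀ s, ∀ z ∈ Z, a s z = 0)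
    (t : Fin 3) {p : Pinf a} (hp : p ∈ YZ a Z) : QBlk.ap a t p = 0 :=
  Subtype.ext (hZ t _ hp)

theorem YZ_le {a : Fin 3 → End K X} {Z : Submodule K X} (hZ : ∀ s, ∀ z ∈ Z, a s z = 0)
    {p : Pinf a} (hp : p ∈ YZ a Z) : p ∈ TP a := by
  rw [mem_TP]
  refine St.Nk_le_T _ 1 ?_
  rw [St.mem_Nk_succ]
  intro s
  rw [St.mem_Nk_zero]
  exact hZ s _ hp

/-- the operators on `Pinf a ⧸ YZ a Z` -/
def AZ {a : Fin 3 → End K X} {Z : Submodule K X} (hZ : ∀ s, ∀ z ∈ Z, a s z = 0) (t : Fin 3) :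
    End K (Pinf a ⧸ YZ a Z) :=
  (YZ a Z).mapQ (YZ a Z) (QBlk.ap a t) (fun p hp => by
    rw [Submodule.mem_comap, YZ_kill hZ t hp]
    exact Submodule.zero_mem _)

theorem pushZ {a : Fin 3 → End K X} {Z : Submodule K X} (hZ : ∀ s, ∀ z ∈ Z, a s z = 0) :
    Push (QBlk.ap a) (TP a) (AZ hZ) ((TP a).map (YZ a Z).mkQ) (YZ a Z).mkQ where
  surj := Submodule.mkQ_surjective _
  comm s p := rfl
  ker p hp := YZ_le hZ ((Submodule.Quotient.mk_eq_zero _).1 hp)
  eq := rfl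

/-- **quotient of `Pinf a` by the part in `Z`**, with a linear section `i` -/
theorem exists_quot [FiniteDimensional K X] {a : Fin 3 → End K X} {wa : X →ₗ[K] X →ₗ[K] K}
    {e e₂ : K} {l : Fin 3 → ℕ} {d : ℕ} (h : Half (QBlk.ap a) (TP a) (Pform a wa) e e₂ l d)
    {Z : Submodule K X} (hZ : ∀ s, ∀ z ∈ Z, a s z = 0) (hw : ∀ z ∈ Z, ∀ x, wa z x = 0)
    (hw' : ∀ z ∈ Z, ∀ x, wa x z = 0) :
    ∃ (P1 : Type u) (_ : AddCommGroup P1) (_ : Module K P1) (A : Fin 3 → End K P1)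
      (R1 : Submodule K P1) (w : P1 →ₗ[K] P1 →ₗ[K] K) (i : P1 →ₗ[K] X),
      FiniteDimensional K P1 ∧ Half A R1 w e e₂ l d ∧ (∀ x y, w x y = wa (i x) (i y)) ∧
      (∀ t p, ∃ z ∈ Z, a t (i p) = i (A t p) + z) ∧ (∀ p, i p ∈ Pinf a) ∧
      (∀ p, i p ∈ Z → p = 0) ∧ (∀ p ∈ Pinf a, ∃ q, ∃ z ∈ Z, p = i q + z) ∧
      (∀ p, p ∈ R1 ↔ i p ∈ T a) := by
  have hp := pushZ (a := a) hZ
  obtain ⟨σ, hσ⟩ := (YZ a Z).mkQ.exists_rightInverse_of_surjective
    (LinearMap.range_eq_top.2 (Submodule.mkQ_surjective _))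
  have hσ' : ∀ v, (YZ a Z).mkQ (σ v) = v := fun v => LinearMap.congr_fun hσ v
  have hσp : ∀ p : Pinf a, ∃ z ∈ Z, (p : X) = (σ ((YZ a Z).mkQ p) : Pinf a) + z := by
    intro p
    have h1 : (YZ a Z).mkQ (p - σ ((YZ a Z).mkQ p)) = 0 := by
      rw [map_sub, hσ', sub_self]
    refine ⟨(p : X) - (σ ((YZ a Z).mkQ p) : Pinf a), ?_, by abel⟩
    have h2 : p - σ ((YZ a Z).mkQ p) ∈ YZ a Z := (Submodule.Quotient.mk_eq_zero _).1 h1
    exact h2
  let i : (Pinf a ⧸ YZ a Z) →ₗ[K] X := (Pinf a).subtype ∘ₗ σ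
  have hi : ∀ v, i v = (σ v : Pinf a) := fun v => rfl
  refine ⟨Pinf a ⧸ YZ a Z, inferInstance, inferInstance, AZ hZ, (TP a).map (YZ a Z).mkQ,
    wa.compl₁₂ i i, i, inferInstance, h.push hp ?_, fun x y => rfl, ?_, ?_, ?_, ?_, ?_⟩
  · intro x y
    obtain ⟨z, hz, hxz⟩ := hσp x
    obtain ⟨z', hz', hyz⟩ := hσp y
    rw [LinearMap.compl₁₂_apply, hi, hi, Pform_apply, hxz, hyz, map_add, map_add,
      LinearMap.add_apply, LinearMap.add_apply, hw z hz, hw z hz, hw' z' hz']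
    simp
  · intro t v
    obtain ⟨z, hz, hvz⟩ := hσp (QBlk.ap a t (σ v))
    refine ⟨z, hz, ?_⟩
    have h2 : (YZ a Z).mkQ (QBlk.ap a t (σ v)) = AZ hZ t v := by
      have := hp.comm t (σ v)
      rw [hσ'] at this
      exact this
    rw [h2] at hvz
    rw [hi, hi, ← hvz]
    rfl
  · intro v
    exact (σ v).2
  · intro v hv
    have h1 : (YZ a Z).mkQ (σ v) = 0 := (Submodule.Quotient.mk_eq_zero _).2 hv
    rw [hσ'] at h1
    exact h1
  · intro p hpp
    obtain ⟨z, hz, hpz⟩ := hσp ⟨p, hpp⟩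
    exact ⟨_, z, hz, hpz⟩
  · intro v
    rw [hi, ← mem_TP, ← hp.mem_iff (p := σ v), hσ']

end abs

section conc

open Matrix Crest.Agent.R172.FO Crest.Agent.R172.Qt

universe u
variable {ι δ K : Type u} [Fintype ι] [DecidableEq ι] [Fintype δ] [DecidableEq δ] [Field K]
variable {arm : δ → Fin 3} {J : Matrix ι ι K} {B : Matrix δ δ K}
  {g f : Matrix ι δ K}

theorem fJg' (hJ : Jᵀ = J) (hf : gᵀ * J * f = 0) : fᵀ * J * g = 0 := by
  have h1 := congrArg transpose hf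
  rw [transpose_mul, transpose_mul, transpose_transpose, hJ, transpose_zero,
    ← Matrix.mul_assoc] at h1
  exact h1

/-- **the data of the P-side**: `QBr.Side` and `Half` for `P1 = P'/(P' ∩ S)`, `P2 = P_S`. -/
theorem exists_sideP (hJ : Jᵀ = J) (hJu : IsUnit J) (hB : Bᵀ = B)
    (hBs : ∀ s, E K arm s * B = B * E K arm s) (hg : gᵀ * J * g = 0) (hf : gᵀ * J * f = 0)
    {X : Matrix ι ι K} (hX : Skw J X) {l : Fin 3 → ℕ}
    (h : Pair (aop arm J B g f hf) (omP J g) (fun s => Mop arm B g s ∘ₗ eta J g X)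
      (eta J g X) l) :
    ∃ (P1 : Type u) (_ : AddCommGroup P1) (_ : Module K P1) (A : Fin 3 → End K P1)
      (R1 : Submodule K P1) (w : P1 →ₗ[K] P1 →ₗ[K] K) (i1 : P1 →ₗ[K] (ι → K))
      (P2 : Type u) (_ : AddCommGroup P2) (_ : Module K P2) (Bo : Fin 3 → End K P2)
      (R2 : Submodule K P2) (g2 : P2 →ₗ[K] P2 →ₗ[K] K) (i2 : P2 →ₗ[K] (ι → K)),
      FiniteDimensional K P1 ∧ FiniteDimensional K P2 ∧
      QBr.Side arm J B g f X A Bo i1 i2 ∧
      Half A R1 w 1 1 l (finrank K (Cor (aop arm J B g f hf))) ∧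
      Half Bo R2 g2 (-1) (-1) l (finrank K (Cor (fun s => Mop arm B g s ∘ₗ eta J g X))) ∧
      (∀ x y, w x y = i1 x ⬝ᵥ J *ᵥ i1 y) ∧
      (∀ x y, g2 x y = i2 y ⬝ᵥ (J * X) *ᵥ i2 x) ∧
      (∀ p, (∃ u, i1 p = g *ᵥ u) → p = 0) ∧
      (∀ v : Sp J g, v ∈ Pinf (aop arm J B g f hf) → ∃ q u, (v : ι → K) = i1 q + g *ᵥ u) ∧
      (∀ p, ∃ v : Sp J g, v ∈ Pinf (aop arm J B g f hf) ∧ i1 p = (v : ι → K)) ∧
      (∀ p, p ∈ R1 ↔ ∃ v : Sp J g, v ∈ Pinf (aop arm J B g f hf) ⊓ T (aop arm J B g f hf) ∧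
        i1 p = (v : ι → K)) ∧
      (∀ p, ∃ v : Sg g, v ∈ Pinf (fun s => Mop arm B g s ∘ₗ eta J g X) ∧ i2 p = (v : ι → K)) ∧
      (∀ v : Sg g, v ∈ Pinf (fun s => Mop arm B g s ∘ₗ eta J g X) → ∃ p, i2 p = (v : ι → K)) ∧
      (∀ p, p ∈ R2 ↔ ∃ v : Sg g, v ∈ Pinf (fun s => Mop arm B g s ∘ₗ eta J g X) ⊓
        T (fun s => Mop arm B g s ∘ₗ eta J g X) ∧ i2 p = (v : ι → K)) := by
  have hgf := fJg' hJ hf
  -- `S` inside `S^⊥`
  have hZ : ∀ s, ∀ z ∈ (Sg g).comap (Sp J g).subtype, aop arm J B g f hf s z = 0 := by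
    rintro s z ⟨u, hu⟩
    apply Subtype.ext
    rw [aop_coe]
    change (M arm B s f f * J) *ᵥ ((Sp J g).subtype z) = 0
    rw [← hu]
    have e : M arm B s f f * J * g = 0 := by
      unfold M
      calc f * E K arm s * B * fᵀ * J * g = f * E K arm s * B * (fᵀ * J * g) := by
            simp only [Matrix.mul_assoc]
        _ = 0 := by rw [hgf, Matrix.mul_zero]
    rw [mulVecLin_apply, mulVec_mulVec, e, zero_mulVec]
  have hw : ∀ z ∈ (Sg g).comap (Sp J g).subtype, ∀ x, omP J g z x = 0 := by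
    rintro z ⟨u, hu⟩ x
    rw [omP_apply]
    change ((Sp J g).subtype z) ⬝ᵥ J *ᵥ (x : ι → K) = 0
    rw [← hu, mulVecLin_apply, mulVec_dot, mulVec_mulVec, mem_Sp.1 x.2, dotProduct_zero]
  have hw' : ∀ z ∈ (Sg g).comap (Sp J g).subtype, ∀ x, omP J g x z = 0 := by
    intro z hz x
    rw [h.sideA.symm, hw z hz, mul_zero]
  obtain ⟨P1, i1a, i1b, A, R1, w, i, hfd, hH, hwi, hAi, hiP, hi0, his, hiR⟩ :=
    exists_quot h.halfA hZ hw hw'
  refine ⟨P1, i1a, i1b, A, R1, w, (Sp J g).subtype ∘ₗ i,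
    Pinf (fun s => Mop arm B g s ∘ₗ eta J g X), inferInstance, inferInstance,
    QBlk.ap (fun s => Mop arm B g s ∘ₗ eta J g X), TP (fun s => Mop arm B g s ∘ₗ eta J g X),
    Pform (fun s => Mop arm B g s ∘ₗ eta J g X) (eta J g X),
    (Sg g).subtype ∘ₗ (Pinf (fun s => Mop arm B g s ∘ₗ eta J g X)).subtype, hfd, inferInstance,
    ?_, hH, h.halfB, hwi, fun x y => rfl, ?_, ?_, ?_, ?_, ?_, ?_, ?_⟩
  · refine ⟨hJ, hB, hBs, hJu, hg, hf, hX, fun p => mem_Sp.1 (i p).2, ?_, ?_, ?_⟩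
    · intro t p
      obtain ⟨z, ⟨u, hu⟩, hz⟩ := hAi t p
      refine ⟨u, ?_⟩
      have h1 := congrArg (Sp J g).subtype hz
      rw [map_add, ← hu] at h1
      exact h1
    · intro p
      obtain ⟨u, hu⟩ := ((p : Pinf (fun s => Mop arm B g s ∘ₗ eta J g X)) : Sg g).2
      exact ⟨u, hu.symm⟩
    · intro t p
      exact Mop_eta t X ((p : Pinf (fun s => Mop arm B g s ∘ₗ eta J g X)) : Sg g)
  · rintro p ⟨u, hu⟩
    exact hi0 p ⟨u, hu.symm⟩
  · intro v hv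
    obtain ⟨q, z, ⟨u, hu⟩, hz⟩ := his v hv
    refine ⟨q, u, ?_⟩
    have h1 := congrArg (Sp J g).subtype hz
    rw [map_add, ← hu] at h1
    exact h1
  · intro p
    exact ⟨i p, hiP p, rfl⟩
  · intro p
    rw [hiR]
    constructor
    · intro hT
      exact ⟨i p, ⟨hiP p, hT⟩, rfl⟩
    · rintro ⟨v, hv, hpv⟩
      have : i p = v := Subtype.ext hpv
      rw [this]
      exact hv.2
  · intro p
    exact ⟨p, p.2, rfl⟩
  · intro v hv
    exact ⟨⟨v, hv⟩, rfl⟩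
  · intro p
    rw [mem_TP]
    constructor
    · intro hT
      exact ⟨p, ⟨p.2, hT⟩, rfl⟩
    · rintro ⟨v, hv, hpv⟩
      have : ((p : Pinf (fun s => Mop arm B g s ∘ₗ eta J g X)) : Sg g) = v := Subtype.ext hpv
      rw [this]
      exact hv.2

end conc

end Crest.Agent.R172.QC
end

-- ▼ part R172/QBr
section

/-!
Row 172 (S0260), t3, P-side bridge: the data of a gluing family (`Qt.Fam`) give the corrections and
the bilinear relation of the abstract end `RJ.main`.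
-/

set_option autoImplicit false
set_option linter.unusedSectionVars false
set_option linter.unusedFintypeInType false
set_option linter.unusedDecidableInType false
set_option linter.unusedSimpArgs false
set_option maxHeartbeats 800000

namespace Crest.Agent.R172.QBr

open Matrix Module TensorProduct Crest.Agent.R172.FO Crest.Agent.R172.Qt

variable {ι : Type*} [Fintype ι] [DecidableEq ι] {δ : Type*} [Fintype δ] [DecidableEq δ]
variable {K : Type*} [Field K]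
variable {P1 P2 : Type*} [AddCommGroup P1] [Module K P1] [AddCommGroup P2] [Module K P2]

/-- `g2 p2 s = (X i2 s)ᵀ J i2 p2` -/
noncomputable def g2 (J X : Matrix ι ι K) (i2 : P2 →ₗ[K] (ι → K)) : P2 →ₗ[K] P2 →ₗ[K] K :=
  LinearMap.mk₂ K (fun p2 s => (X *ᵥ i2 s) ⬝ᵥ J *ᵥ i2 p2)
    (fun a b p => by simp only [map_add, mulVec_add, dotProduct_add])
    (fun t a p => by simp only [map_smul, mulVec_smul, dotProduct_smul])
    (fun a p p' => by simp only [map_add, mulVec_add, add_dotProduct])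
    (fun t a p => by simp only [map_smul, mulVec_smul, smul_dotProduct])

theorem g2_apply (J X : Matrix ι ι K) (i2 : P2 →ₗ[K] (ι → K)) (p2 s : P2) :
    g2 J X i2 p2 s = (X *ᵥ i2 s) ⬝ᵥ J *ᵥ i2 p2 := rfl

/-- `ev1 g (p2 ⊗ p1) p = g p2 p • p1` -/
noncomputable abbrev ev1 (G : P2 →ₗ[K] P2 →ₗ[K] K) : P2 ⊗[K] P1 →ₗ[K] (P2 →ₗ[K] P1) :=
  RJ.ev G

theorem ev1_tmul (G : P2 →ₗ[K] P2 →ₗ[K] K) (p2 : P2) (p1 : P1) (p : P2) :
    ev1 G (p2 ⊗ₜ[K] p1) p = G p2 p • p1 := RJ.ev_tmul G p2 p1 p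

/-- `ev2 (p2 ⊗ p1) p = (p1ᵀ J p) • p2` -/
noncomputable def ev2 (J : Matrix ι ι K) (i1 : P1 →ₗ[K] (ι → K)) :
    P2 ⊗[K] P1 →ₗ[K] (P1 →ₗ[K] P2) :=
  TensorProduct.lift (LinearMap.mk₂ K
    (fun p2 p1 =>
      { toFun := fun p => (i1 p1 ⬝ᵥ J *ᵥ i1 p) • p2
        map_add' := fun p p' => by rw [map_add, mulVec_add, dotProduct_add, add_smul]
        map_smul' := fun t p => by
          rw [map_smul, mulVec_smul, dotProduct_smul, smul_eq_mul, mul_smul]; rfl })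
    (fun a b p => by ext q; simp)
    (fun t a p => by
      ext q
      simp only [LinearMap.coe_mk, AddHom.coe_mk, LinearMap.smul_apply]
      rw [smul_comm])
    (fun a p p' => by ext q; simp [add_dotProduct, add_smul])
    (fun t a p => by
      ext q
      simp only [LinearMap.coe_mk, AddHom.coe_mk, LinearMap.smul_apply, map_smul,
        smul_dotProduct, smul_eq_mul, mul_smul]))

theorem ev2_tmul (J : Matrix ι ι K) (i1 : P1 →ₗ[K] (ι → K)) (p2 : P2) (p1 p : P1) :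
    ev2 J i1 (p2 ⊗ₜ[K] p1) p = (i1 p1 ⬝ᵥ J *ᵥ i1 p) • p2 := by
  simp [ev2]

theorem vec_of {J : Matrix ι ι K} {g : Matrix ι δ K} {γ : Type*} [Fintype γ]
    {T T' : Matrix γ ι K}
    (hT : ∀ v : Matrix ι ι K, gᵀ * J * v = 0 → T * v = T' * v) {v : ι → K}
    (hv : (gᵀ * J) *ᵥ v = 0) : T *ᵥ v = T' *ᵥ v := by
  rcases isEmpty_or_nonempty ι with hι | ⟨⟨j⟩⟩
  · funext i
    simp [mulVec, dotProduct]
  · have h1 := hT (Matrix.of fun i (_ : ι) => v i) (by
      ext a b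
      exact congrFun hv a)
    funext i
    exact congrFun (congrFun h1 i) j

variable {arm : δ → Fin 3} {J : Matrix ι ι K} {B : Matrix δ δ K} {g f : Matrix ι δ K}
  {X : Matrix ι ι K} {A : Fin 3 → End K P1} {Bo : Fin 3 → End K P2}
  {i1 : P1 →ₗ[K] (ι → K)} {i2 : P2 →ₗ[K] (ι → K)}

/-- radical tensors -/
def Rad (R1 : Submodule K P1) (R2 : Submodule K P2) : Submodule K (P2 ⊗[K] P1) :=
  RJ.RT R2 ⊔ RJ.TR R1

theorem rad_le {R1 : Submodule K P1} {R2 : Submodule K P2} {G : Submodule K (P2 ⊗[K] P1)}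
    (h1 : ∀ r ∈ R2, ∀ p : P1, r ⊗ₜ[K] p ∈ G) (h2 : ∀ r ∈ R1, ∀ p : P2, p ⊗ₜ[K] r ∈ G) :
    Rad R1 R2 ≤ G := by
  refine sup_le (Submodule.span_le.2 ?_) (Submodule.span_le.2 ?_)
  · rintro _ ⟨r, hr, p, rfl⟩
    exact h1 r hr p
  · rintro _ ⟨p, r, hr, rfl⟩
    exact h2 r hr p

/-- the vector form of `Fam.interφ` at arm `s` -/
def Inter (arm : δ → Fin 3) (J : Matrix ι ι K) (B : Matrix δ δ K) (g f : Matrix ι δ K)
    (X : Matrix ι ι K) (c : K) (R Z : Matrix ι ι K) (s : Fin 3) : Prop :=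
  ∀ v : ι → K, (gᵀ * J) *ᵥ v = 0 →
    (gᵀ * J) *ᵥ (c • X *ᵥ ((M arm B s g g * J) *ᵥ (c • X *ᵥ (R *ᵥ v) + Z *ᵥ v)))
      = (gᵀ * J) *ᵥ (c • X *ᵥ (R *ᵥ ((M arm B s f f * J) *ᵥ v))
        + Z *ᵥ ((M arm B s f f * J) *ᵥ v))

theorem inter_of {c : K} {R Z : Matrix ι ι K} {s : Fin 3}
    (h : ∀ v : Matrix ι ι K, gᵀ * J * v = 0 →
      gᵀ * J * ((c • X) * (M arm B s g g * J * ((c • X) * (R * v) + Z * v)))
        = gᵀ * J * ((c • X) * (R * (M arm B s f f * J * v)) + Z * (M arm B s f f * J * v))) :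
    Inter arm J B g f X c R Z s := by
  intro v hv
  have h1 := vec_of (J := J) (g := g)
    (T := gᵀ * J * ((c • X) * (M arm B s g g * J * ((c • X) * R + Z))))
    (T' := gᵀ * J * ((c • X) * (R * (M arm B s f f * J)) + Z * (M arm B s f f * J)))
    (fun v hv => by
      have h2 := h v hv
      have e1 : gᵀ * J * ((c • X) * (M arm B s g g * J * ((c • X) * R + Z))) * v
          = gᵀ * J * ((c • X) * (M arm B s g g * J * ((c • X) * (R * v) + Z * v))) := by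
        simp only [Matrix.mul_assoc, Matrix.add_mul, Matrix.mul_add]
      have e2 : gᵀ * J * ((c • X) * (R * (M arm B s f f * J)) + Z * (M arm B s f f * J)) * v
          = gᵀ * J * ((c • X) * (R * (M arm B s f f * J * v)) + Z * (M arm B s f f * J * v)) := by
        simp only [Matrix.mul_assoc, Matrix.add_mul, Matrix.mul_add]
      rw [e1, e2, h2]) hv
  simp only [← mulVec_mulVec, add_mulVec, mulVec_add, smul_mulVec, mulVec_smul, smul_add] at h1 ⊢
  exact h1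

namespace Side

variable (h : Side arm J B g f X A Bo i1 i2)

include h

theorem g2_adj (t : Fin 3) (p p' : P2) :
    g2 J X i2 (Bo t p) p' = - g2 J X i2 p (Bo t p') := by
  rw [g2_apply, g2_apply, h.B2, h.B2, h.skw_adj h.X_skw (v := (M arm B t g g * J) *ᵥ _), neg_neg,
    h.M_adj]

theorem S_dot {v : ι → K} (u : δ → K) (hv : (gᵀ * J) *ᵥ v = 0) : (g *ᵥ u) ⬝ᵥ J *ᵥ v = 0 := by
  have : g *ᵥ u ⬝ᵥ J *ᵥ v = u ⬝ᵥ (gᵀ * J) *ᵥ v := by
    rw [← vecMul_transpose, ← dotProduct_mulVec, mulVec_mulVec]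
  rw [this, hv, dotProduct_zero]

theorem dot_S {v : ι → K} (u : δ → K) (hv : (gᵀ * J) *ᵥ v = 0) : v ⬝ᵥ J *ᵥ (g *ᵥ u) = 0 := by
  rw [h.J_comm, h.S_dot u hv]

theorem A_dot (t : Fin 3) (p : P1) {v : ι → K} (hv : (gᵀ * J) *ᵥ v = 0) :
    i1 (A t p) ⬝ᵥ J *ᵥ v = ((M arm B t f f * J) *ᵥ i1 p) ⬝ᵥ J *ᵥ v := by
  obtain ⟨u, hu⟩ := h.A1 t p
  rw [hu, add_dotProduct, h.S_dot u hv, add_zero]

theorem A_adj (t : Fin 3) (p p' : P1) :
    i1 (A t p) ⬝ᵥ J *ᵥ i1 p' = i1 p ⬝ᵥ J *ᵥ i1 (A t p') := by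
  rw [h.A_dot t p (h.J1 p'), h.M_adj, h.J_comm, ← h.A_dot t p' (h.J1 p), h.J_comm]

/-- `ev` of a defect -/
theorem ev1_defect (c : K) (t : Fin 3) (x : P2 ⊗[K] P1) (a : P2) :
    ev1 (g2 J X i2) ((A t).lTensor P2 x - c • (Bo t).rTensor P1 x) a
      = A t (ev1 (g2 J X i2) x a) + c • ev1 (g2 J X i2) x (Bo t a) := by
  induction x using TensorProduct.induction_on with
  | zero => simp
  | tmul p2 p1 =>
    rw [LinearMap.lTensor_tmul, LinearMap.rTensor_tmul, map_sub, map_smul, LinearMap.sub_apply,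
      LinearMap.smul_apply, ev1_tmul, ev1_tmul, ev1_tmul, ev1_tmul, map_smul, h.g2_adj, neg_smul,
      smul_neg, sub_neg_eq_add]
  | add x y hx hy =>
    have e : (A t).lTensor P2 (x + y) - c • (Bo t).rTensor P1 (x + y)
        = ((A t).lTensor P2 x - c • (Bo t).rTensor P1 x)
          + ((A t).lTensor P2 y - c • (Bo t).rTensor P1 y) := by
      rw [map_add, map_add, smul_add]; abel
    rw [e, map_add, LinearMap.add_apply, hx, hy, map_add, LinearMap.add_apply, LinearMap.add_apply,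
      map_add, smul_add]
    abel

theorem ev2_defect (c : K) (t : Fin 3) (x : P2 ⊗[K] P1) (p : P1) :
    ev2 J i1 ((A t).lTensor P2 x - c • (Bo t).rTensor P1 x) p
      = ev2 J i1 x (A t p) - c • Bo t (ev2 J i1 x p) := by
  induction x using TensorProduct.induction_on with
  | zero => simp
  | tmul p2 p1 =>
    rw [LinearMap.lTensor_tmul, LinearMap.rTensor_tmul, map_sub, map_smul, LinearMap.sub_apply,
      LinearMap.smul_apply, ev2_tmul, ev2_tmul, ev2_tmul, ev2_tmul, map_smul, h.A_adj]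
  | add x y hx hy =>
    have e : (A t).lTensor P2 (x + y) - c • (Bo t).rTensor P1 (x + y)
        = ((A t).lTensor P2 x - c • (Bo t).rTensor P1 x)
          + ((A t).lTensor P2 y - c • (Bo t).rTensor P1 y) := by
      rw [map_add, map_add, smul_add]; abel
    rw [e, map_add, LinearMap.add_apply, hx, hy, map_add, LinearMap.add_apply, LinearMap.add_apply,
      map_add, smul_add]
    abel

/-- `(X a)ᵀ J R v = ev(x)(a)ᵀ J v` -/
theorem X_ten (x : P2 ⊗[K] P1) (a : P2) {v : ι → K} (hv : (gᵀ * J) *ᵥ v = 0) :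
    (X *ᵥ i2 a) ⬝ᵥ J *ᵥ (ten J i1 i2 x *ᵥ v) = i1 (ev1 (g2 J X i2) x a) ⬝ᵥ J *ᵥ v := by
  induction x using TensorProduct.induction_on with
  | zero => simp
  | tmul p2 p1 =>
    rw [h.ten_tmul_mulVec _ _ hv, ev1_tmul, map_smul, mulVec_smul, dotProduct_smul,
      smul_dotProduct, g2_apply, smul_eq_mul, smul_eq_mul, mul_comm]
  | add x y hx hy =>
    simp only [map_add, add_mulVec, mulVec_add, dotProduct_add, add_dotProduct,
      LinearMap.add_apply] at hx hy ⊢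
    rw [hx, hy]

theorem ten_i1 (x : P2 ⊗[K] P1) (p : P1) : ten J i1 i2 x *ᵥ i1 p = i2 (ev2 J i1 x p) := by
  induction x using TensorProduct.induction_on with
  | zero => simp
  | tmul p2 p1 => rw [h.ten_tmul_mulVec _ _ (h.J1 p), ev2_tmul, map_smul]
  | add x y hx hy => rw [map_add, add_mulVec, hx, hy, map_add, LinearMap.add_apply, map_add]

/-- **the relation for `Z|P2` modulo `S`** -/
theorem rel1 {c : K} {x : P2 ⊗[K] P1} {Z : Matrix ι ι K} (hZ : Skw J Z) {s : Fin 3}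
    (hφ : Inter arm J B g f X c (ten J i1 i2 x) Z s) (a : P2) :
    ∃ u, (c ^ 2) • i1 (ev1 (g2 J X i2) x (Bo s a)) + c • (Z *ᵥ i2 (Bo s a))
      + c • ((M arm B s f f * J) *ᵥ i1 (ev1 (g2 J X i2) x a))
      + (M arm B s f f * J) *ᵥ (Z *ᵥ i2 a) = g *ᵥ u := by
  refine h.mem_S fun v hv => ?_
  obtain ⟨u, hu⟩ := h.J2 a
  have h1 := congrArg (fun y => u ⬝ᵥ y) (hφ v hv)
  have e0 : ∀ w : ι → K, u ⬝ᵥ (gᵀ * J) *ᵥ w = i2 a ⬝ᵥ J *ᵥ w := by
    intro w
    rw [hu, ← mulVec_mulVec, dotProduct_mulVec, vecMul_transpose]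
  simp only [e0] at h1
  have hX : ∀ a w, i2 a ⬝ᵥ J *ᵥ (X *ᵥ w) = - ((X *ᵥ i2 a) ⬝ᵥ J *ᵥ w) := fun a w => by
    rw [h.skw_adj h.X_skw, neg_neg]
  have hZ' : ∀ a w, i2 a ⬝ᵥ J *ᵥ (Z *ᵥ w) = - ((Z *ᵥ i2 a) ⬝ᵥ J *ᵥ w) := fun a w => by
    rw [h.skw_adj hZ, neg_neg]
  set R := ten J i1 i2 x with hR
  -- left hand side
  have l1 : i2 a ⬝ᵥ J *ᵥ (c • X *ᵥ ((M arm B s g g * J) *ᵥ (c • X *ᵥ (R *ᵥ v) + Z *ᵥ v)))
      = (c ^ 2) * (i1 (ev1 (g2 J X i2) x (Bo s a)) ⬝ᵥ J *ᵥ v)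
        + c * ((Z *ᵥ i2 (Bo s a)) ⬝ᵥ J *ᵥ v) := by
    rw [mulVec_smul, dotProduct_smul, hX, ← h.M_adj, ← h.B2, mulVec_add, dotProduct_add,
      mulVec_smul, dotProduct_smul, hX, hZ', hR, h.X_ten x _ hv]
    simp only [smul_eq_mul]
    ring
  have l2 : i2 a ⬝ᵥ J *ᵥ (c • X *ᵥ (R *ᵥ ((M arm B s f f * J) *ᵥ v))
        + Z *ᵥ ((M arm B s f f * J) *ᵥ v))
      = - (c * (((M arm B s f f * J) *ᵥ i1 (ev1 (g2 J X i2) x a)) ⬝ᵥ J *ᵥ v))
        - ((M arm B s f f * J) *ᵥ (Z *ᵥ i2 a)) ⬝ᵥ J *ᵥ v := by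
    rw [mulVec_add, dotProduct_add, mulVec_smul, dotProduct_smul, hX, hZ', hR,
      h.X_ten x _ (h.Mf_perp s v), h.M_adj, h.M_adj]
    simp only [smul_eq_mul]
    ring
  rw [l1, l2] at h1
  simp only [add_dotProduct, smul_dotProduct, smul_eq_mul]
  linear_combination h1

/-- values in a stable subspace -/
theorem val {c : K} (hc : c ≠ 0) (Q0 : Submodule K (ι → K))
    (hst : ∀ s, ∀ w ∈ Q0, (M arm B s f f * J) *ᵥ w ∈ Q0)
    (hcx : c⁻¹ ∉ {c : K | ∃ x : P2 →ₗ[K] ((ι → K) ⧸ Q0), x ≠ 0 ∧ ∀ s, x ∘ₗ Bo s =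
      -(c • ((Q0.mapQ Q0 (M arm B s f f * J).mulVecLin (fun w hw => hst s w hw)) ∘ₗ x))})
    (β : P2 →ₗ[K] (ι → K))
    (hβ : ∀ s a, (M arm B s f f * J) *ᵥ β a + c • β (Bo s a) ∈ Q0) (a : P2) : β a ∈ Q0 := by
  by_contra hne
  refine hcx ⟨Q0.mkQ ∘ₗ β, fun h0 => hne ?_, fun s => ?_⟩
  · have := LinearMap.congr_fun h0 a
    rwa [LinearMap.comp_apply, LinearMap.zero_apply, Submodule.mkQ_apply,
      Submodule.Quotient.mk_eq_zero] at this
  · ext a
    have h1 := hβ s a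
    have h2 : Q0.mkQ ((M arm B s f f * J) *ᵥ β a) + c • Q0.mkQ (β (Bo s a)) = 0 := by
      rw [← map_smul, ← map_add, Submodule.mkQ_apply, Submodule.Quotient.mk_eq_zero]
      exact h1
    have h3 : Q0.mkQ (β (Bo s a)) = - (c⁻¹ • Q0.mkQ ((M arm B s f f * J) *ᵥ β a)) := by
      have h4 : c • Q0.mkQ (β (Bo s a)) = - Q0.mkQ ((M arm B s f f * J) *ᵥ β a) :=
        eq_neg_of_add_eq_zero_right h2
      calc Q0.mkQ (β (Bo s a)) = c⁻¹ • (c • Q0.mkQ (β (Bo s a))) := by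
            rw [smul_smul, inv_mul_cancel₀ hc, one_smul]
        _ = _ := by rw [h4, smul_neg]
    exact h3


/-- the stable subspace `S + i1 R1` -/
def Q1 (g : Matrix ι δ K) (i1 : P1 →ₗ[K] (ι → K)) (R1 : Submodule K P1) :
    Submodule K (ι → K) := LinearMap.range g.mulVecLin ⊔ R1.map i1

omit h in
theorem S_mem_Q1 (R1 : Submodule K P1) (u : δ → K) : g *ᵥ u ∈ Q1 g i1 R1 :=
  Submodule.mem_sup_left ⟨u, rfl⟩

omit h in
theorem R1_mem_Q1 {R1 : Submodule K P1} {r : P1} (hr : r ∈ R1) : i1 r ∈ Q1 g i1 R1 :=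
  Submodule.mem_sup_right ⟨r, hr, rfl⟩

theorem Q1_stable {R1 : Submodule K P1} (hR : ∀ t, ∀ r ∈ R1, A t r ∈ R1) (s : Fin 3) :
    ∀ w ∈ Q1 g i1 R1, (M arm B s f f * J) *ᵥ w ∈ Q1 g i1 R1 := by
  have : Q1 g i1 R1 ≤ (Q1 g i1 R1).comap (M arm B s f f * J).mulVecLin := by
    refine sup_le ?_ ?_
    · rintro _ ⟨u, rfl⟩
      rw [Submodule.mem_comap, mulVecLin_apply, mulVecLin_apply, h.Mf_g]
      exact Submodule.zero_mem _
    · rintro _ ⟨r, hr, rfl⟩
      obtain ⟨u, hu⟩ := h.A1 s r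
      rw [Submodule.mem_comap, mulVecLin_apply, hu]
      exact Submodule.add_mem _ (R1_mem_Q1 (hR s r hr)) (S_mem_Q1 R1 u)
  exact fun w hw => this hw


/-- the exceptional parameters for `P2 → V ⧸ (S + i1 R1)` -/
def Exc (h : Side arm J B g f X A Bo i1 i2) (Q0 : Submodule K (ι → K))
    (hst : ∀ s, ∀ w ∈ Q0, (M arm B s f f * J) *ᵥ w ∈ Q0) : Set K :=
  {c : K | ∃ x : P2 →ₗ[K] ((ι → K) ⧸ Q0), x ≠ 0 ∧ ∀ s, x ∘ₗ Bo s =
      -(c • ((Q0.mapQ Q0 (M arm B s f f * J).mulVecLin (fun w hw => hst s w hw)) ∘ₗ x))}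

/-- **`Z|P2` has values in `S + i1 R1`** -/
theorem val1 {c : K} (hc : c ≠ 0) {R1 : Submodule K P1} {R2 : Submodule K P2}
    (hR : ∀ t, ∀ r ∈ R1, A t r ∈ R1) (hgR : ∀ r ∈ R2, ∀ p, g2 J X i2 r p = 0)
    (hcx : c⁻¹ ∉ h.Exc (Q1 g i1 R1) (h.Q1_stable hR)) {x : Fin 3 → P2 ⊗[K] P1}
    (harm : ∀ t, (A t).lTensor P2 (x t) - c • (Bo t).rTensor P1 (x t) ∈ Rad R1 R2)
    {Z : Matrix ι ι K} (hZ : Skw J Z)
    (hφ : ∀ s, Inter arm J B g f X c (ten J i1 i2 (x s)) Z s) (a : P2) :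
    Z *ᵥ i2 a ∈ Q1 g i1 R1 := by
  refine h.val hc (Q1 g i1 R1) (h.Q1_stable hR) hcx (Z.mulVecLin ∘ₗ i2) (fun s a => ?_) a
  obtain ⟨u, hu⟩ := h.rel1 hZ (hφ s) a
  obtain ⟨u', hu'⟩ := h.A1 s (ev1 (g2 J X i2) (x s) a)
  have h1 : ev1 (g2 J X i2) ((A s).lTensor P2 (x s) - c • (Bo s).rTensor P1 (x s)) a ∈ R1 := by
    have hle : Rad R1 R2 ≤ R1.comap (LinearMap.applyₗ a ∘ₗ ev1 (g2 J X i2)) := by
      refine rad_le (fun r hr p => ?_) (fun r hr p => ?_)
      · rw [Submodule.mem_comap, LinearMap.comp_apply, LinearMap.applyₗ_apply_apply, ev1_tmul,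
          hgR r hr, zero_smul]
        exact R1.zero_mem
      · rw [Submodule.mem_comap, LinearMap.comp_apply, LinearMap.applyₗ_apply_apply, ev1_tmul]
        exact R1.smul_mem _ hr
    exact hle (harm s)
  rw [h.ev1_defect] at h1
  have h2 : (M arm B s f f * J) *ᵥ (Z.mulVecLin ∘ₗ i2) a + c • (Z.mulVecLin ∘ₗ i2) (Bo s a)
      = g *ᵥ u - c • g *ᵥ u'
        - c • i1 (A s (ev1 (g2 J X i2) (x s) a) + c • ev1 (g2 J X i2) (x s) (Bo s a)) := by
    rw [LinearMap.comp_apply, LinearMap.comp_apply, mulVecLin_apply, mulVecLin_apply, ← hu,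
      hu', map_add, map_smul]
    simp only [smul_add, smul_smul, pow_two]
    abel
  rw [h2]
  exact Submodule.sub_mem _ (Submodule.sub_mem _ (S_mem_Q1 R1 u)
    (Submodule.smul_mem _ _ (S_mem_Q1 R1 u'))) (Submodule.smul_mem _ _ (R1_mem_Q1 h1))

omit h in
/-- choice of `b` -/
theorem exists_b {c : K} (hc : c ≠ 0) {R1 : Submodule K P1} {Z : Matrix ι ι K}
    (hZ : ∀ a, Z *ᵥ i2 a ∈ Q1 g i1 R1) :
    ∃ b : P2 →ₗ[K] P1, (∀ p, b p ∈ R1) ∧ ∀ p, ∃ u, Z *ᵥ i2 p = -(c • i1 (b p)) + g *ᵥ u := by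
  let ρ : (R1 × (δ → K)) →ₗ[K] (Q1 g i1 R1) :=
    LinearMap.codRestrict _ ((i1 ∘ₗ R1.subtype).coprod g.mulVecLin) (fun z =>
      Submodule.add_mem _ (R1_mem_Q1 z.1.2) (S_mem_Q1 R1 z.2))
  have hρ : Function.Surjective ρ := by
    rintro ⟨w, hw⟩
    obtain ⟨w1, ⟨u, hu⟩, w2, ⟨r, hr, hr2⟩, rfl⟩ := Submodule.mem_sup.1 hw
    refine ⟨(⟨r, hr⟩, u), ?_⟩
    apply Subtype.ext
    change i1 r + g *ᵥ u = w1 + w2
    rw [← hu, ← hr2, mulVecLin_apply, add_comm]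
  obtain ⟨hh, hhh⟩ := Module.projective_lifting_property ρ
    (LinearMap.codRestrict (Q1 g i1 R1) (Z.mulVecLin ∘ₗ i2) hZ) hρ
  refine ⟨-(c⁻¹ • (R1.subtype ∘ₗ LinearMap.fst K R1 (δ → K) ∘ₗ hh)), fun p => ?_, fun p => ?_⟩
  · exact R1.neg_mem (R1.smul_mem _ (hh p).1.2)
  · refine ⟨(hh p).2, ?_⟩
    have h1 := congrArg Subtype.val (LinearMap.congr_fun hhh p)
    have h2 : i1 ((hh p).1 : P1) + g *ᵥ (hh p).2 = Z *ᵥ i2 p := h1
    rw [← h2]
    congr 1
    change i1 ((hh p).1 : P1) = -(c • i1 (-(c⁻¹ • ((hh p).1 : P1))))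
    rw [map_neg, map_smul, smul_neg, neg_neg, smul_smul, mul_inv_cancel₀ hc, one_smul]

/-- the relation for `b`, modulo `Zs = {p | i1 p ∈ S}` -/
theorem cor_of {c : K} (hc : c ≠ 0) {x : P2 ⊗[K] P1} {Z : Matrix ι ι K} (hZ : Skw J Z) {s : Fin 3}
    (hφ : Inter arm J B g f X c (ten J i1 i2 x) Z s) {b : P2 →ₗ[K] P1}
    (hb : ∀ p, ∃ u, Z *ᵥ i2 p = -(c • i1 (b p)) + g *ᵥ u) (a : P2) :
    ∃ u, i1 ((A s (b a) + c • b (Bo s a)) - (A s (ev1 (g2 J X i2) x a)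
      + c • ev1 (g2 J X i2) x (Bo s a))) = g *ᵥ u := by
  obtain ⟨u, hu⟩ := h.rel1 hZ hφ a
  obtain ⟨u1, hu1⟩ := h.A1 s (ev1 (g2 J X i2) x a)
  obtain ⟨u2, hu2⟩ := h.A1 s (b a)
  obtain ⟨u3, hu3⟩ := hb a
  obtain ⟨u4, hu4⟩ := hb (Bo s a)
  have h3 : (M arm B s f f * J) *ᵥ (Z *ᵥ i2 a) = -(c • i1 (A s (b a))) - c • g *ᵥ u2 := by
    rw [hu3, mulVec_add, mulVec_neg, mulVec_smul, h.Mf_g, hu2, add_zero, smul_add, neg_add,
      sub_eq_add_neg]
  rw [h3, hu1, hu4] at hu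
  -- multiply by `- c⁻¹`
  refine ⟨-(c⁻¹ • u) - u2 + u1 + u4, ?_⟩
  have h5 : c • i1 ((A s (b a) + c • b (Bo s a)) - (A s (ev1 (g2 J X i2) x a)
      + c • ev1 (g2 J X i2) x (Bo s a))) = c • (g *ᵥ (-(c⁻¹ • u) - u2 + u1 + u4)) := by
    rw [mulVec_add, mulVec_add, mulVec_sub, mulVec_neg, mulVec_smul, smul_add, smul_add, smul_sub,
      smul_neg, smul_smul c c⁻¹, mul_inv_cancel₀ hc, one_smul, ← hu]
    simp only [map_sub, map_add, map_smul, smul_add, smul_sub, smul_neg, smul_smul, pow_two]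
    abel
  have h6 := congrArg (fun y => c⁻¹ • y) h5
  simpa only [smul_smul, inv_mul_cancel₀ hc, one_smul] using h6


omit h in
/-- `θ = gᵀ J X i2` -/
noncomputable def th (J : Matrix ι ι K) (g : Matrix ι δ K) (X : Matrix ι ι K)
    (i2 : P2 →ₗ[K] (ι → K)) : P2 →ₗ[K] (δ → K) := (gᵀ * J * X).mulVecLin ∘ₗ i2

omit h in
/-- the operator `gᵀ J X g E_s B` on `δ → K` -/
noncomputable def ad (arm : δ → Fin 3) (J : Matrix ι ι K) (B : Matrix δ δ K) (g : Matrix ι δ K)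
    (X : Matrix ι ι K) (s : Fin 3) : End K (δ → K) := (gᵀ * J * X * g * E K arm s * B).mulVecLin

omit h in
theorem ad_g (s : Fin 3) (w : ι → K) : ad arm J B g X s ((gᵀ * J) *ᵥ w)
    = (gᵀ * J) *ᵥ (X *ᵥ ((M arm B s g g * J) *ᵥ w)) := by
  unfold ad M
  rw [mulVecLin_apply]
  simp only [mulVec_mulVec, Matrix.mul_assoc]

theorem ad_th (s : Fin 3) (r : P2) : ad arm J B g X s (th J g X i2 r) = th J g X i2 (Bo s r) := by
  have h1 : ∀ w, (gᵀ * J * X) *ᵥ w = (gᵀ * J) *ᵥ (X *ᵥ w) := fun w => by rw [mulVec_mulVec]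
  unfold th
  rw [LinearMap.comp_apply, LinearMap.comp_apply, mulVecLin_apply, mulVecLin_apply, h1, ad_g, h.B2,
    h1]

theorem R2_stable {R2 : Submodule K P2} (hR : ∀ t, ∀ r ∈ R2, Bo t r ∈ R2) (s : Fin 3) :
    ∀ w ∈ R2.map (th J g X i2), ad arm J B g X s w ∈ R2.map (th J g X i2) := by
  rintro _ ⟨r, hr, rfl⟩
  rw [h.ad_th]
  exact ⟨_, hR s r hr, rfl⟩

/-- the exceptional parameters for `P1 → S^* ⧸ θ R2` -/
def Exc2 (h : Side arm J B g f X A Bo i1 i2) {R2 : Submodule K P2}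
    (hR : ∀ t, ∀ r ∈ R2, Bo t r ∈ R2) : Set K :=
  {c : K | ∃ x : P1 →ₗ[K] ((δ → K) ⧸ R2.map (th J g X i2)), x ≠ 0 ∧ ∀ s, x ∘ₗ A s =
      c • (((R2.map (th J g X i2)).mapQ (R2.map (th J g X i2)) (ad arm J B g X s)
        (fun w hw => h.R2_stable hR s w hw)) ∘ₗ x)}

theorem rel2 {c : K} {x : P2 ⊗[K] P1} {Z : Matrix ι ι K} (hZg : gᵀ * J * (Z * g) = 0) {s : Fin 3}
    (hφ : Inter arm J B g f X c (ten J i1 i2 x) Z s) (p : P1) :
    (gᵀ * J) *ᵥ (Z *ᵥ i1 (A s p)) - c • ad arm J B g X s ((gᵀ * J) *ᵥ (Z *ᵥ i1 p))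
      = - (c • th J g X i2 (ev2 J i1 ((A s).lTensor P2 x - c • (Bo s).rTensor P1 x) p)) := by
  have h1 := hφ (i1 p) (h.J1 p)
  obtain ⟨u, hu⟩ := h.A1 s p
  have hZu : (gᵀ * J) *ᵥ (Z *ᵥ (g *ᵥ u)) = 0 := by
    rw [mulVec_mulVec, mulVec_mulVec, Matrix.mul_assoc (gᵀ * J) Z g, hZg, zero_mulVec]
  have e0 : ∀ r, (gᵀ * J) *ᵥ (X *ᵥ i2 r) = th J g X i2 r := by
    intro r
    unfold th
    rw [LinearMap.comp_apply, mulVecLin_apply, mulVec_mulVec]
  have l1 : ∀ y : P2, (gᵀ * J) *ᵥ (c • X *ᵥ ((M arm B s g g * J) *ᵥ (c • X *ᵥ i2 y + Z *ᵥ i1 p)))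
      = c • (c • th J g X i2 (Bo s y) + ad arm J B g X s ((gᵀ * J) *ᵥ (Z *ᵥ i1 p))) := by
    intro y
    rw [mulVec_smul, ← ad_g, mulVec_add, mulVec_smul, e0, map_add, map_smul, h.ad_th]
  have l2 : ∀ y : P2, (gᵀ * J) *ᵥ (c • X *ᵥ i2 y + (Z *ᵥ i1 (A s p) + Z *ᵥ (g *ᵥ u)))
      = c • th J g X i2 y + (gᵀ * J) *ᵥ (Z *ᵥ i1 (A s p)) := by
    intro y
    rw [mulVec_add, mulVec_smul, e0, mulVec_add, hZu, add_zero]
  rw [hu, mulVec_add (ten J i1 i2 x), h.ten_g_mulVec, add_zero, h.ten_i1, h.ten_i1,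
    mulVec_add Z, l1, l2] at h1
  rw [h.ev2_defect, map_sub, map_smul]
  have h2 : (gᵀ * J) *ᵥ (Z *ᵥ i1 (A s p))
      = c • (c • th J g X i2 (Bo s (ev2 J i1 x p)) + ad arm J B g X s ((gᵀ * J) *ᵥ (Z *ᵥ i1 p)))
        - c • th J g X i2 (ev2 J i1 x (A s p)) := by
    rw [h1]; abel
  rw [h2, smul_sub, smul_add]
  abel

/-- **values of `Z|P1`** -/
theorem val2 {c : K} {R1 : Submodule K P1} {R2 : Submodule K P2}
    (hR : ∀ t, ∀ r ∈ R2, Bo t r ∈ R2) (horth : ∀ r ∈ R1, ∀ p, i1 r ⬝ᵥ J *ᵥ i1 p = 0)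
    (hcx : c ∉ h.Exc2 hR) {x : Fin 3 → P2 ⊗[K] P1}
    (harm : ∀ t, (A t).lTensor P2 (x t) - c • (Bo t).rTensor P1 (x t) ∈ Rad R1 R2)
    {Z : Matrix ι ι K} (hZg : gᵀ * J * (Z * g) = 0)
    (hφ : ∀ s, Inter arm J B g f X c (ten J i1 i2 (x s)) Z s) (p : P1) :
    ∃ r ∈ R2, (gᵀ * J) *ᵥ (Z *ᵥ i1 p) = (gᵀ * J) *ᵥ (X *ᵥ i2 r) := by
  by_contra hne
  refine hcx ⟨(R2.map (th J g X i2)).mkQ ∘ₗ ((gᵀ * J).mulVecLin ∘ₗ Z.mulVecLin ∘ₗ i1),
    fun h0 => hne ?_, fun s => ?_⟩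
  · have h1 := LinearMap.congr_fun h0 p
    rw [LinearMap.comp_apply, LinearMap.zero_apply, Submodule.mkQ_apply,
      Submodule.Quotient.mk_eq_zero] at h1
    obtain ⟨r, hr, h2⟩ := h1
    refine ⟨r, hr, ?_⟩
    have h3 : (gᵀ * J * X) *ᵥ i2 r = (gᵀ * J) *ᵥ (Z *ᵥ i1 p) := h2
    rw [← h3, mulVec_mulVec]
  · ext1 p
    have h1 := h.rel2 hZg (hφ s) p
    have h2 : ev2 J i1 ((A s).lTensor P2 (x s) - c • (Bo s).rTensor P1 (x s)) p ∈ R2 := by
      have hle : Rad R1 R2 ≤ R2.comap (LinearMap.applyₗ p ∘ₗ ev2 J i1) := by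
        refine rad_le (fun r hr p' => ?_) (fun r hr p' => ?_)
        · rw [Submodule.mem_comap, LinearMap.comp_apply, LinearMap.applyₗ_apply_apply, ev2_tmul]
          exact R2.smul_mem _ hr
        · rw [Submodule.mem_comap, LinearMap.comp_apply, LinearMap.applyₗ_apply_apply, ev2_tmul,
            horth r hr, zero_smul]
          exact R2.zero_mem
      exact hle (harm s)
    have h3 : (R2.map (th J g X i2)).mkQ ((gᵀ * J) *ᵥ (Z *ᵥ i1 (A s p)))
        = c • (R2.map (th J g X i2)).mkQ (ad arm J B g X s ((gᵀ * J) *ᵥ (Z *ᵥ i1 p))) := by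
      rw [← map_smul, ← sub_eq_zero, ← map_sub, h1, Submodule.mkQ_apply,
        Submodule.Quotient.mk_eq_zero]
      exact Submodule.neg_mem _ (Submodule.smul_mem _ _ ⟨_, h2, rfl⟩)
    exact h3


/-! ### the product in tensor form -/







end Side

end Crest.Agent.R172.QBr
end

-- ▼ part R172/QSS
section

/-!
Row 172 (S0260): the product of two gluing families on the P-side of (t3) lies in `SSp`.
-/

set_option autoImplicit false
set_option linter.unusedSectionVars false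
set_option linter.unusedFintypeInType false
set_option linter.unusedDecidableInType false

namespace Crest.Agent.R172.QEndP

open Matrix Module TensorProduct Crest.Agent.R172.FO Crest.Agent.R172.Qt
open Crest.Agent.R172.Mix

variable {ι : Type*} [Fintype ι] [DecidableEq ι] {δ : Type*} [Fintype δ] [DecidableEq δ]
variable {k K : Type*} [Field k] [Field K] [Algebra k K]
variable {arm : δ → Fin 3} {J : Matrix ι ι K} {B : Matrix δ δ K}
  {N W : Submodule K (Matrix ι δ K)} {g f : Matrix ι δ K}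

theorem colMat_mul {α β : Type*} [Fintype β] (A : Matrix α β K) (v : β → K) (γ : Type*) :
    A * (Matrix.of fun i (_ : γ) => v i) = Matrix.of fun i (_ : γ) => (A *ᵥ v) i := by
  ext i j
  simp [Matrix.mul_apply, Matrix.mulVec, dotProduct]

/-- the correction `v0 g` of `prodP` in vector form -/
theorem corr_v0_vec (h : Ctx k arm J B N W g) (hf : f ∈ N ⊓ W) (v0 : Matrix ι ι K) (s : Fin 3)
    {v : ι → K} (hv : (gᵀ * J) *ᵥ v = 0) : (v0 * g * E K arm s * B * fᵀ * J) *ᵥ v = 0 := by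
  have h1 := h.corr_v0 hf v0 s (v := Matrix.of fun i (_ : Unit) => v i) (by
    rw [colMat_mul, hv]; rfl)
  rw [colMat_mul] at h1
  ext i
  exact congrFun (congrFun h1 i) ()

/-- the correction `Z2 e` of `prodP` in vector form -/
theorem corr_e_vec (h : Ctx k arm J B N W g)
    {p p1 pm p3 p4 : Matrix ι ι K × (Fin 3 → Matrix ι ι K)}
    {R : Fin 3 → Matrix ι ι K} {Z : Matrix ι ι K} {Q : Fin 3 → Matrix ι ι K}
    {e kk : Matrix ι δ K} (hp : Skw J p.1)
    (hF : Fam arm J B N W g f p R Z Q e p1 pm p3 p4 kk)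
    {Z2 : Matrix ι ι K} (hZ2 : Skw J Z2) {v : ι → K} {c : δ → K}
    (hv : (gᵀ * J) *ᵥ (Z2 *ᵥ v) = (gᵀ * J) *ᵥ (p.1 *ᵥ (g *ᵥ c)))
    (s : Fin 3) {v' : ι → K} (hv' : (gᵀ * J) *ᵥ v' = 0) :
    v ⬝ᵥ ((J * (Z2 * e) * E K arm s * B * fᵀ * J) *ᵥ v')
      = (Z *ᵥ (g *ᵥ c)) ⬝ᵥ (J *ᵥ ((M arm B s f f * J) *ᵥ v')) := by
  rcases isEmpty_or_nonempty ι with hι | ⟨⟨i0⟩⟩
  · simp [dotProduct]
  have h1 := hF.corr_e h.data.J_symm hp hZ2 (v := Matrix.of fun i (_ : Unit) => v i)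
    (C := Matrix.of fun i (_ : Unit) => c i) (by
      rw [colMat_mul, colMat_mul, colMat_mul, colMat_mul, colMat_mul, hv]) s
    (v' := Matrix.of fun i (_ : ι) => v' i) (by
      rw [colMat_mul, hv']; rfl)
  rw [colMat_mul (Z2 * e * E K arm s * B * fᵀ * J), colMat_mul g, colMat_mul Z,
    colMat_mul (M arm B s f f * J)] at h1
  have h2 := congrFun (congrFun h1 ()) i0
  have e1 : ∀ (x : ι → K) (y : ι → K),
      ((Matrix.of fun i (_ : Unit) => x i)ᵀ * J * (Matrix.of fun i (_ : ι) => y i)) () i0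
        = x ⬝ᵥ (J *ᵥ y) := by
    intro x y
    rw [Matrix.mul_assoc, colMat_mul]
    simp [Matrix.mul_apply, dotProduct]
  rw [e1, e1] at h2
  have e2 : (J * (Z2 * e) * E K arm s * B * fᵀ * J) *ᵥ v'
      = J *ᵥ ((Z2 * e * E K arm s * B * fᵀ * J) *ᵥ v') := by
    rw [mulVec_mulVec]; simp only [Matrix.mul_assoc]
  rw [e2]
  exact h2

/-- **the corrections of the product formula lie in `SSp`** -/
theorem corr_mem_SSp (h : Ctx k arm J B N W g) (hf : f ∈ N ⊓ W)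
    {p p1 pm p3 p4 : Matrix ι ι K × (Fin 3 → Matrix ι ι K)}
    {R : Fin 3 → Matrix ι ι K} {Z Z2 : Matrix ι ι K} {Q : Fin 3 → Matrix ι ι K}
    {e kk : Matrix ι δ K} (hp : Skw J p.1)
    (hF : Fam arm J B N W g f p R Z Q e p1 pm p3 p4 kk)
    (hZ2 : Skw J Z2) (hZ2g : gᵀ * J * (Z2 * g) = 0)
    {c c2 : K} (hc : c ≠ 0) (hc2 : c2 ≠ 0) {X0 u u2 : Matrix ι ι K} (hpX : p.1 = c • X0)
    (hu : Z = c • u) (hu2 : Z2 = c2 • u2)
    (hb : ∀ v : Pinf (aop arm J B g f (h.perp f hf)), ∃ b : δ → K,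
      (gᵀ * J) *ᵥ (u2 *ᵥ ((v : Sp J g) : ι → K)) = (gᵀ * J) *ᵥ (X0 *ᵥ (g *ᵥ b)) ∧
      ∀ (w : Pinf (aop arm J B g f (h.perp f hf))) (s : Fin 3),
        (u *ᵥ (g *ᵥ b)) ⬝ᵥ (J *ᵥ ((M arm B s f f * J) *ᵥ ((w : Sp J g) : ι → K))) = 0)
    {v0 : Matrix ι ι K} (hv0 : gᵀ * J * (v0 * g) = 0) {n : Matrix ι δ K} (hn : n ∈ N)
    {C : Matrix δ δ K} {Y : Matrix ι δ K} (hY : Y = v0 * g - u2 * e + n + g * C) :
    Y ∈ SSp arm J B N W g f (h.perp f hf) := by
  obtain ⟨Ce, hCe⟩ := hF.eS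
  have hZ2g : gᵀ * J * (u2 * e) = 0 := by
    rw [hu2, Matrix.smul_mul, Matrix.mul_smul] at hZ2g
    have h2 : gᵀ * J * (u2 * g) = 0 := (smul_eq_zero.1 hZ2g).resolve_left hc2
    rw [hCe, ← Matrix.mul_assoc u2, ← Matrix.mul_assoc, h2, Matrix.zero_mul]
  refine ⟨v0 * g - u2 * e, W.sub_mem (h.data.W_left _ h.memW _) (h.data.W_left _ hF.eW _),
    by rw [Matrix.mul_sub, hv0, hZ2g, sub_zero], ?_, C, ?_⟩
  · intro v w s
    obtain ⟨b, hb1, hb2⟩ := hb v
    have e1 : J * (v0 * g - u2 * e) * E K arm s * B * fᵀ * J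
        = J * (v0 * g * E K arm s * B * fᵀ * J) - J * (u2 * e) * E K arm s * B * fᵀ * J := by
      simp only [Matrix.mul_sub, Matrix.sub_mul, Matrix.mul_assoc]
    have e3 := corr_e_vec h hp hF hZ2 (v := ((v : Sp J g) : ι → K))
      (c := (c⁻¹ * c2) • b) (by
        rw [hu2, hpX, mulVec_smul g, smul_mulVec, smul_mulVec, mulVec_smul, hb1]
        rw [mulVec_smul X0, mulVec_smul, mulVec_smul, smul_smul, ← mul_assoc,
          mul_inv_cancel₀ hc, one_mul]) s (v' := ((w : Sp J g) : ι → K)) (w : Sp J g).2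
    have e4 : (Z *ᵥ (g *ᵥ ((c⁻¹ * c2) • b))) ⬝ᵥ
        (J *ᵥ ((M arm B s f f * J) *ᵥ ((w : Sp J g) : ι → K))) = 0 := by
      rw [hu, mulVec_smul, mulVec_smul, smul_mulVec, smul_smul, smul_dotProduct, hb2 w s,
        smul_zero]
    rw [e4] at e3
    have e5 : J * (Z2 * e) * E K arm s * B * fᵀ * J
        = c2 • (J * (u2 * e) * E K arm s * B * fᵀ * J) := by
      rw [hu2]; simp only [Matrix.smul_mul, Matrix.mul_smul]
    rw [e5, smul_mulVec, dotProduct_smul, smul_eq_mul] at e3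
    rw [e1, sub_mulVec, dotProduct_sub, ← mulVec_mulVec,
      corr_v0_vec h hf v0 s (w : Sp J g).2, mulVec_zero, dotProduct_zero,
      (mul_eq_zero.1 e3).resolve_left hc2, sub_zero]
  · rw [hY]
    have : v0 * g - u2 * e + n + g * C - (v0 * g - u2 * e) - g * C = n := by abel
    rw [this]
    exact hn

/-- **the product of two families lies in `SSp`** -/
theorem prodP_mem_SSp (h : Ctx k arm J B N W g) {f2 : Matrix ι δ K} (hf : f ∈ N ⊓ W)
    {p p1 pm p3 p4 p2 q1 qm q3 q4 : Matrix ι ι K × (Fin 3 → Matrix ι ι K)}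
    {R R2 : Fin 3 → Matrix ι ι K} {Z Z2 : Matrix ι ι K} {Q Q2 : Fin 3 → Matrix ι ι K}
    {e kk e2 kk2 : Matrix ι δ K} (hp : Skw J p.1)
    (hF : Fam arm J B N W g f p R Z Q e p1 pm p3 p4 kk)
    (hF2 : Fam arm J B N W g f2 p2 R2 Z2 Q2 e2 q1 qm q3 q4 kk2)
    (hR : ∀ s, Skw J (R s)) (hRg : ∀ s, R s * g = 0)
    (hRS : ∀ s, ∀ v : Matrix ι ι K, gᵀ * J * v = 0 → ∃ C : Matrix δ ι K, R s * v = g * C)
    (hR2 : ∀ s, Skw J (R2 s)) (hR2g : ∀ s, R2 s * g = 0)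
    (hR2S : ∀ s, ∀ v : Matrix ι ι K, gᵀ * J * v = 0 → ∃ C : Matrix δ ι K, R2 s * v = g * C)
    (hR2f : ∀ s, ∃ C C' : Matrix δ ι K, R2 s = f * C + g * C')
    {c c2 : K} (hc : c ≠ 0) (hc2 : c2 ≠ 0) {X0 u u2 : Matrix ι ι K} (hpX : p.1 = c • X0)
    (hp2X : p2.1 = c2 • X0) (hu : Z = c • u) (hu2 : Z2 = c2 • u2)
    (hb : ∀ v : Pinf (aop arm J B g f (h.perp f hf)), ∃ b : δ → K,
      (gᵀ * J) *ᵥ (u2 *ᵥ ((v : Sp J g) : ι → K)) = (gᵀ * J) *ᵥ (X0 *ᵥ (g *ᵥ b)) ∧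
      ∀ (w : Pinf (aop arm J B g f (h.perp f hf))) (s : Fin 3),
        (u *ᵥ (g *ᵥ b)) ⬝ᵥ (J *ᵥ ((M arm B s f f * J) *ᵥ ((w : Sp J g) : ι → K))) = 0) :
    act arm (fun s => R2 s * X0 * R s + R2 s * u - u2 * R s) f
      ∈ SSp arm J B N W g f (h.perp f hf) := by
  obtain ⟨v0, hv0, n, hn, C, hprod⟩ :=
    h.prodP hf hF hF2 hR hRg hRS hR2 hR2g hR2S hR2f hc hc2 hpX hp2X hu hu2
  exact corr_mem_SSp h hf hp hF hF2.skw hF2.Zg hc hc2 hpX hu hu2 hb hv0 hn hprod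

end Crest.Agent.R172.QEndP
end

-- ▼ part R172/QHrelP
section

/-!
Row 172 (S0260), t3, P-side: the product formula in tensor form (`hrel` of `RJM.main`).
-/

set_option autoImplicit false
set_option linter.unusedSectionVars false
set_option linter.unusedFintypeInType false
set_option linter.unusedDecidableInType false
set_option maxHeartbeats 800000

namespace Crest.Agent.R172.QBr

open Matrix Module TensorProduct Crest.Agent.R172.FO Crest.Agent.R172.Qt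

variable {ι : Type*} [Fintype ι] [DecidableEq ι] {δ : Type*} [Fintype δ] [DecidableEq δ]
variable {k K : Type*} [Field k] [Field K] [Algebra k K]
variable {P1 P2 : Type*} [AddCommGroup P1] [Module K P1] [AddCommGroup P2] [Module K P2]

/-- `q_t(a, a') = (a a'ᵀ J) f E_t` -/
noncomputable def qf (arm : δ → Fin 3) (J : Matrix ι ι K) (f : Matrix ι δ K)
    (i1 : P1 →ₗ[K] (ι → K)) (t : Fin 3) : P1 →ₗ[K] P1 →ₗ[K] Matrix ι δ K :=
  LinearMap.mk₂ K (fun a a' => vecMulVec (i1 a) (i1 a') * J * f * E K arm t)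
    (fun a b p => by simp only [map_add, add_vecMulVec, Matrix.add_mul])
    (fun c a p => by simp only [map_smul, smul_vecMulVec, Matrix.smul_mul])
    (fun a p p' => by simp only [map_add, vecMulVec_add, Matrix.add_mul])
    (fun c a p => by simp only [map_smul, vecMulVec_smul, Matrix.smul_mul])

theorem qf_apply (arm : δ → Fin 3) (J : Matrix ι ι K) (f : Matrix ι δ K)
    (i1 : P1 →ₗ[K] (ι → K)) (t : Fin 3) (a a' : P1) :
    qf arm J f i1 t a a' = vecMulVec (i1 a) (i1 a') * J * f * E K arm t := rfl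

/-- `φ(a, a') = aᵀ J X a'` on `P2` -/
noncomputable def g2H (J X : Matrix ι ι K) (i2 : P2 →ₗ[K] (ι → K)) : P2 →ₗ[K] P2 →ₗ[K] K :=
  LinearMap.mk₂ K (fun a a' => i2 a ⬝ᵥ J *ᵥ (X *ᵥ i2 a'))
    (fun a b p => by simp only [map_add, add_dotProduct])
    (fun c a p => by simp only [map_smul, smul_dotProduct])
    (fun a p p' => by simp only [map_add, mulVec_add, dotProduct_add])
    (fun c a p => by simp only [map_smul, mulVec_smul, dotProduct_smul])

theorem g2H_apply (J X : Matrix ι ι K) (i2 : P2 →ₗ[K] (ι → K)) (a a' : P2) :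
    g2H J X i2 a a' = i2 a ⬝ᵥ J *ᵥ (X *ᵥ i2 a') := rfl

theorem vmv_add_left' (a b : ι → K) (v : ι → K) :
    vecMulVec (a + b) v = vecMulVec a v + vecMulVec b v := add_vecMulVec a b v

theorem mul_vmv {γ : Type*} (F : Matrix ι ι K) (a : ι → K) (b : γ → K) :
    F * vecMulVec a b = vecMulVec (F *ᵥ a) b := by
  ext i j
  simp [Matrix.mul_apply, vecMulVec_apply, Matrix.mulVec, dotProduct, Finset.sum_mul, mul_assoc]

theorem gmul_vmv {γ : Type*} (g : Matrix ι δ K) (u : δ → K) (b : γ → K) :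
    vecMulVec (g *ᵥ u) b = g * vecMulVec u b := by
  ext i j
  simp [Matrix.mul_apply, vecMulVec_apply, Matrix.mulVec, dotProduct, Finset.sum_mul, mul_assoc]

variable {arm : δ → Fin 3} {J : Matrix ι ι K} {B : Matrix δ δ K} {g f : Matrix ι δ K}
  {X : Matrix ι ι K} {A : Fin 3 → End K P1} {Bo : Fin 3 → End K P2}
  {i1 : P1 →ₗ[K] (ι → K)} {i2 : P2 →ₗ[K] (ι → K)}

namespace Side

variable (h : Side arm J B g f X A Bo i1 i2)

include h

/-- `(i2 a)ᵀ J f = 0` -/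
theorem i2_Jf (a : P2) : (i2 a) ᵥ* (J * f) = 0 := by
  obtain ⟨u, hu⟩ := h.J2 a
  rw [hu, ← vecMul_transpose, vecMul_vecMul, ← Matrix.mul_assoc, h.gf, vecMul_zero]

theorem g_Jf (u : δ → K) : (g *ᵥ u) ᵥ* (J * f) = 0 := by
  rw [← vecMul_transpose, vecMul_vecMul, ← Matrix.mul_assoc, h.gf, vecMul_zero]

theorem ten_tmul_f (a : P2) (p : P1) : ten J i1 i2 (a ⊗ₜ[K] p) * f
    = vecMulVec (i2 a) (i1 p) * J * f := by
  rw [ten_tmul, Matrix.sub_mul]
  have : vecMulVec (i1 p) (i2 a) * J * f = 0 := by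
    rw [Matrix.mul_assoc, vmv_mul, h.i2_Jf]
    ext i j
    simp [vecMulVec_apply]
  rw [this, sub_zero]

/-- `Z2 R f E_t = -c2 q_t(b' ⊗ 1)(x) + g C` -/
theorem partA {Z2 : Matrix ι ι K} {c2 : K} {b' : P2 →ₗ[K] P1}
    (hb' : ∀ q, ∃ u, Z2 *ᵥ (i2 q) = -(c2 • i1 (b' q)) + g *ᵥ u) (t : Fin 3)
    (x : P2 ⊗[K] P1) : ∃ C : Matrix δ δ K,
      Z2 * ten J i1 i2 x * f * E K arm t
        = -(c2 • TensorProduct.lift ((qf arm J f i1 t) ∘ₗ b') x) + g * C := by
  induction x using TensorProduct.induction_on with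
  | zero => exact ⟨0, by simp⟩
  | tmul a p =>
    obtain ⟨u, hu⟩ := hb' a
    refine ⟨vecMulVec u (i1 p) * J * f * E K arm t, ?_⟩
    rw [Matrix.mul_assoc Z2, h.ten_tmul_f, TensorProduct.lift.tmul, LinearMap.comp_apply, qf_apply]
    have e1 : Z2 * (vecMulVec (i2 a) (i1 p) * J * f) * E K arm t
        = Z2 * vecMulVec (i2 a) (i1 p) * J * f * E K arm t := by simp only [Matrix.mul_assoc]
    rw [e1, mul_vmv, hu, vmv_add_left', gmul_vmv, neg_vecMulVec, smul_vecMulVec]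
    simp only [Matrix.add_mul, Matrix.neg_mul, Matrix.smul_mul, Matrix.mul_assoc]
  | add x y hx hy =>
    obtain ⟨C, hC⟩ := hx
    obtain ⟨C', hC'⟩ := hy
    refine ⟨C + C', ?_⟩
    rw [map_add, map_add, Matrix.mul_add, Matrix.add_mul, Matrix.add_mul, hC, hC', Matrix.mul_add,
      smul_add]
    abel

/-- `R Z f E_t = -c q_t^flip(b ⊗ 1)(x) + g C` -/
theorem partB {Z : Matrix ι ι K} (hZ : Skw J Z) {c : K} {b : P2 →ₗ[K] P1}
    (hb : ∀ q, ∃ u, Z *ᵥ (i2 q) = -(c • i1 (b q)) + g *ᵥ u) (t : Fin 3)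
    (x : P2 ⊗[K] P1) : ∃ C : Matrix δ δ K,
      ten J i1 i2 x * Z * f * E K arm t
        = -(c • TensorProduct.lift ((qf arm J f i1 t).flip ∘ₗ b) x) + g * C := by
  induction x using TensorProduct.induction_on with
  | zero => exact ⟨0, by simp⟩
  | tmul a p =>
    obtain ⟨u, hu⟩ := hb a
    obtain ⟨ua, hua⟩ := h.J2 a
    refine ⟨vecMulVec ua (i1 p) * J * Z * f * E K arm t, ?_⟩
    rw [TensorProduct.lift.tmul, LinearMap.comp_apply, LinearMap.flip_apply, qf_apply, ten_tmul]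
    -- `(i2 a)ᵀ J Z f = c (i1 (b a))ᵀ J f`
    have e0 : (i2 a) ᵥ* (J * Z * f) = c • ((i1 (b a)) ᵥ* (J * f)) := by
      have e1 : J * Z = - (Zᵀ * J) := by rw [hZ.eq, neg_neg]
      rw [e1, Matrix.neg_mul, vecMul_neg, Matrix.mul_assoc, ← vecMul_vecMul, vecMul_transpose, hu,
        add_vecMul, h.g_Jf, add_zero, neg_vecMul, smul_vecMul, neg_neg]
    have e2 : vecMulVec (i1 p) (i2 a) * J * Z * f
        = c • (vecMulVec (i1 p) (i1 (b a)) * J * f) := by
      have : vecMulVec (i1 p) (i2 a) * J * Z * f = vecMulVec (i1 p) (i2 a) * (J * Z * f) := by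
        simp only [Matrix.mul_assoc]
      rw [this, vmv_mul, e0, vecMulVec_smul, ← vmv_mul]
      simp only [Matrix.mul_assoc]
    have e3 : vecMulVec (i2 a) (i1 p) * J * Z * f * E K arm t
        = g * (vecMulVec ua (i1 p) * J * Z * f * E K arm t) := by
      rw [hua, gmul_vmv]; simp only [Matrix.mul_assoc]
    rw [Matrix.sub_mul, Matrix.sub_mul, Matrix.sub_mul, e2, e3, Matrix.smul_mul]
    abel
  | add x y hx hy =>
    obtain ⟨C, hC⟩ := hx
    obtain ⟨C', hC'⟩ := hy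
    refine ⟨C + C', ?_⟩
    rw [map_add, map_add, Matrix.add_mul, Matrix.add_mul, Matrix.add_mul, hC, hC', Matrix.mul_add,
      smul_add]
    abel

/-- value of `ten y` modulo `S` -/
theorem ten_val (y : P2 ⊗[K] P1) (a : P2) :
    ∃ u, ten J i1 i2 y *ᵥ (X *ᵥ i2 a) = -(i1 (RJM.ev (g2H J X i2) y a)) + g *ᵥ u := by
  induction y using TensorProduct.induction_on with
  | zero => exact ⟨0, by simp⟩
  | tmul a' p' =>
    obtain ⟨u, hu⟩ := h.J2 a'
    refine ⟨(i1 p' ⬝ᵥ J *ᵥ (X *ᵥ i2 a)) • u, ?_⟩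
    rw [ten_tmul, sub_mulVec, ← mulVec_mulVec, ← mulVec_mulVec, vmv_mulVec, vmv_mulVec,
      RJM.ev_tmul, g2H_apply, map_smul, mulVec_smul, ← hu]
    abel
  | add x y hx hy =>
    obtain ⟨u, hu⟩ := hx
    obtain ⟨u', hu'⟩ := hy
    refine ⟨u + u', ?_⟩
    rw [map_add, add_mulVec, hu, hu', map_add, LinearMap.add_apply, map_add, mulVec_add]
    abel

/-- `R2 X R f E_t = - q_t(ev x' ⊗ 1)(x) + g C` -/
theorem partC (t : Fin 3) (x y : P2 ⊗[K] P1) : ∃ C : Matrix δ δ K,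
      ten J i1 i2 y * X * ten J i1 i2 x * f * E K arm t
        = -(TensorProduct.lift ((qf arm J f i1 t) ∘ₗ (RJM.ev (g2H J X i2) y)) x) + g * C := by
  induction x using TensorProduct.induction_on with
  | zero => exact ⟨0, by simp⟩
  | tmul a p =>
    obtain ⟨u, hu⟩ := h.ten_val y a
    refine ⟨vecMulVec u (i1 p) * J * f * E K arm t, ?_⟩
    rw [TensorProduct.lift.tmul, LinearMap.comp_apply, qf_apply]
    have e1 : ten J i1 i2 y * X * ten J i1 i2 (a ⊗ₜ[K] p) * f * E K arm t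
        = ten J i1 i2 y * (X * vecMulVec (i2 a) (i1 p)) * J * f * E K arm t := by
      have : ten J i1 i2 y * X * ten J i1 i2 (a ⊗ₜ[K] p) * f * E K arm t
          = ten J i1 i2 y * X * (ten J i1 i2 (a ⊗ₜ[K] p) * f) * E K arm t := by
        simp only [Matrix.mul_assoc]
      rw [this, h.ten_tmul_f]
      simp only [Matrix.mul_assoc]
    rw [e1, mul_vmv, mul_vmv, hu, vmv_add_left', gmul_vmv, neg_vecMulVec]
    simp only [Matrix.add_mul, Matrix.neg_mul, Matrix.mul_assoc]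
  | add x y hx hy =>
    obtain ⟨C, hC⟩ := hx
    obtain ⟨C', hC'⟩ := hy
    refine ⟨C + C', ?_⟩
    rw [map_add, map_add, Matrix.mul_add, Matrix.add_mul, Matrix.add_mul, hC, hC', Matrix.mul_add]
    abel

/-- **the product in tensor form** (no `Fam` needed) -/
theorem prod_tensor {Z Z2 : Matrix ι ι K} (hZ : Skw J Z) {c c2 : K} (hc : c ≠ 0) (hc2 : c2 ≠ 0)
    {b b' : P2 →ₗ[K] P1}
    (hb : ∀ q, ∃ u, Z *ᵥ (i2 q) = -(c • i1 (b q)) + g *ᵥ u)
    (hb' : ∀ q, ∃ u, Z2 *ᵥ (i2 q) = -(c2 • i1 (b' q)) + g *ᵥ u)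
    {u u2 : Matrix ι ι K} (hu : Z = c • u) (hu2 : Z2 = c2 • u2)
    (x x' : Fin 3 → P2 ⊗[K] P1) : ∃ C : Matrix δ δ K,
    ∑ t, ((1 : K) • TensorProduct.lift ((qf arm J f i1 t) ∘ₗ b') (x t)
        + (-1 : K) • TensorProduct.lift ((qf arm J f i1 t).flip ∘ₗ b) (x' t)
        + (-1 : K) • TensorProduct.lift ((qf arm J f i1 t) ∘ₗ (RJM.ev (g2H J X i2) (x' t))) (x t))
      = act arm (fun s => ten J i1 i2 (x' s) * X * ten J i1 i2 (x s)
          + ten J i1 i2 (x' s) * u - u2 * ten J i1 i2 (x s)) f + g * C := by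
  choose CA hCA using fun t => h.partA hb' t (x t)
  choose CB hCB using fun t => h.partB hZ hb t (x' t)
  choose CC hCC using fun t => h.partC t (x t) (x' t)
  refine ⟨∑ t, (c2⁻¹ • CA t - c⁻¹ • CB t - CC t), ?_⟩
  unfold act
  rw [Matrix.mul_sum, ← Finset.sum_add_distrib]
  refine Finset.sum_congr rfl fun t _ => ?_
  have hA : u2 * ten J i1 i2 (x t) * f * E K arm t
      = -(TensorProduct.lift ((qf arm J f i1 t) ∘ₗ b') (x t)) + c2⁻¹ • (g * CA t) := by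
    have h1 := hCA t
    rw [hu2, Matrix.smul_mul, Matrix.smul_mul, Matrix.smul_mul] at h1
    have h2 := congrArg (fun M => c2⁻¹ • M) h1
    simp only [smul_add, smul_neg, smul_smul, inv_mul_cancel₀ hc2, one_smul] at h2
    exact h2
  have hB : ten J i1 i2 (x' t) * u * f * E K arm t
      = -(TensorProduct.lift ((qf arm J f i1 t).flip ∘ₗ b) (x' t)) + c⁻¹ • (g * CB t) := by
    have h1 := hCB t
    rw [hu, Matrix.mul_smul, Matrix.smul_mul, Matrix.smul_mul] at h1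
    have h2 := congrArg (fun M => c⁻¹ • M) h1
    simp only [smul_add, smul_neg, smul_smul, inv_mul_cancel₀ hc, one_smul] at h2
    exact h2
  rw [Matrix.sub_mul, Matrix.sub_mul, Matrix.add_mul, Matrix.add_mul, hA, hB, hCC t,
    Matrix.mul_sub, Matrix.mul_sub, Matrix.mul_smul, Matrix.mul_smul, one_smul, neg_smul,
    neg_smul, one_smul, one_smul]
  abel

end Side

end Crest.Agent.R172.QBr
end

-- ▼ part R172/QBrP28

/-!
Row 172 (S0260), part Q, P-side (helper28): second copy of the P-side bridge, on the quotient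
`P1 = P'/(P' ∩ S)` (`QC.exists_sideP`), `P2 = P_S`.
-/

set_option autoImplicit false
set_option linter.unusedSectionVars false
set_option linter.unusedFintypeInType false
set_option linter.unusedDecidableInType false
set_option maxHeartbeats 800000

namespace Crest.Agent.R172.QC

open Matrix Module TensorProduct Crest.Agent.R172.FO Crest.Agent.R172.Qt
open Crest.Agent.R172.St (T)
open Crest.Agent.R172.Mix
open Crest.Agent.R172.QBr (ten g2 ev1 Rad Inter qf)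
open Crest.Agent.R172.QEndP (SSp mt)

/-! ### `RJM.main` for two halves -/

section rjm

variable {K : Type*} [Field K] {P1 P2 : Type*} [AddCommGroup P1] [Module K P1]
  [AddCommGroup P2] [Module K P2]
variable {A : Fin 3 → End K P1} {R1 : Submodule K P1} {w : P1 →ₗ[K] P1 →ₗ[K] K}
  {e e₂ : K} {l : Fin 3 → ℕ} {d : ℕ}
variable {B : Fin 3 → End K P2} {R2 : Submodule K P2} {g : P2 →ₗ[K] P2 →ₗ[K] K}
  {e' e₂' : K} {d' : ℕ}

/-- change the form by a nonzero factor -/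
theorem Half.congr (h : Half A R1 w e e₂ l d) {w' : P1 →ₗ[K] P1 →ₗ[K] K} {c : K} (hc : c ≠ 0)
    (hw : ∀ x y, w' x y = c * w x y) : Half A R1 w' e e₂ l d where
  side := h.side
  sum := h.sum
  symm x y := by rw [hw, hw, h.symm]; ring
  sq := h.sq
  adj s x y := by rw [hw, hw, h.adj]; ring
  sq₂ := h.sq₂
  rad x := by
    rw [h.rad]
    refine forall_congr' fun y => ?_
    rw [hw]
    constructor
    · intro h0; rw [h0, mul_zero]
    · intro h0; exact (mul_eq_zero.1 h0).resolve_left hc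
  q := h.q
  fin := h.fin
  S2 := h.S2
  pos := h.pos

/-- **`RJM.main` for two halves** -/
theorem Half.rjm (h1 : Half A R1 w e e₂ l d) (h2 : Half B R2 g e' e₂' l d')
    {E : Type*} [AddCommGroup E] [Module K E]
    {Λ : Set K} (hΛ : Λ.Infinite) (h0 : (0 : K) ∉ Λ)
    (q : Fin 3 → P1 →ₗ[K] P1 →ₗ[K] E) (Q : Submodule K E) {a1 a2 a3 : K}
    (ha1 : a1 ≠ 0) (ha2 : a2 ≠ 0) (ha3 : a3 ≠ 0)
    (hex : ∀ c ∈ Λ, ∀ x, RJM.Ex A B R1 R2 c x → ∃ b, RJM.Cor A B R1 g e₂' c x b)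
    (hrel : ∀ c ∈ Λ, ∀ c' ∈ Λ, ∀ x b x' b', RJM.Ex A B R1 R2 c x → RJM.Cor A B R1 g e₂' c x b →
      RJM.Ex A B R1 R2 c' x' → RJM.Cor A B R1 g e₂' c' x' b' →
      ∑ t, (a1 • TensorProduct.lift ((q t) ∘ₗ b') (x t)
        + a2 • TensorProduct.lift ((q t).flip ∘ₗ b) (x' t)
        + a3 • TensorProduct.lift ((q t) ∘ₗ (RJM.ev g (x' t))) (x t)) ∈ Q) :
    (∀ t, ∀ r ∈ R1, ∀ p, q t r p ∈ Q ∧ q t p r ∈ Q) ∧
      (∀ s i j, i + j + 1 = l s → ∀ p p', q s ((A s ^ i) p) ((A s ^ j) p') ∈ Q) := by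
  obtain ⟨m1, hm1⟩ := h1.side.kills_le
  obtain ⟨m2, hm2⟩ := h2.side.kills_le
  exact RJM.main h1.side.top h2.side.top h1.side.stable h2.side.stable (m := max m1 m2)
    (hm1 _ (le_max_left _ _)) (hm2 _ (le_max_right _ _)) h1.side.one_le h1.side.pow h2.side.pow
    h1.side.gen h2.side.gen h2.e₂_ne h2.rad_left h2.rad_right h2.adj h2.gtop hΛ h0 q Q ha1 ha2 ha3
    hex hrel

end rjm

section conc

variable {ι : Type*} [Fintype ι] [DecidableEq ι] {δ : Type*} [Fintype δ] [DecidableEq δ]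
variable {k K : Type*} [Field k] [Field K] [Algebra k K]
variable {P1 P2 : Type*} [AddCommGroup P1] [Module K P1] [FiniteDimensional K P1]
  [AddCommGroup P2] [Module K P2] [FiniteDimensional K P2]
variable {arm : δ → Fin 3} {J : Matrix ι ι K} {B : Matrix δ δ K}
  {N W : Submodule K (Matrix ι δ K)} {g f : Matrix ι δ K}
  {A : Fin 3 → End K P1} {Bo : Fin 3 → End K P2}
  {i1 : P1 →ₗ[K] (ι → K)} {i2 : P2 →ₗ[K] (ι → K)} {R1 : Submodule K P1} {R2 : Submodule K P2}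

theorem g2_eq {X : Matrix ι ι K} (hJ : Jᵀ = J) : g2 J X i2 = QBr.g2H J X i2 := by
  apply LinearMap.ext; intro a
  apply LinearMap.ext; intro b
  rw [QBr.g2_apply, QBr.g2H_apply, dot_mulVec_symm, hJ]

/-- `c • p ∈ NN` with its gluing family -/
theorem fam_of (h : Ctx k arm J B N W g)
    (hNm : ∀ F, (∀ F' ∈ N, pair J B F' F = 0) → F ∈ N)
    (hWm : ∀ F, (∀ F' ∈ W, pair J B F' F = 0) → F ∈ W)
    (hc : Glue k arm J N W g) (hf : f ∈ N ⊓ W)
    {p : Matrix ι ι K × (Fin 3 → Matrix ι ι K)} (hp : p ∈ NN arm J N g)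
    (hp0 : gᵀ * J * (p.1 * f) = 0) (hS : QBr.Side arm J B g f p.1 A Bo i1 i2) {c : K}
    {x : Fin 3 → P2 ⊗[K] P1} (hx : RJM.Ex A Bo R1 R2 c x) :
    ∃ (Z : Matrix ι ι K) (Q : Fin 3 → Matrix ι ι K) (e : Matrix ι δ K)
      (p1 pm p3 p4 : Matrix ι ι K × (Fin 3 → Matrix ι ι K)) (kk : Matrix ι δ K),
      Fam arm J B N W g f (c • p) (fun s => ten J i1 i2 (x s)) Z Q e p1 pm p3 p4 kk := by
  refine h.fam hNm hWm hc hf ((NN arm J N g).smul_mem c hp) ?_
    (fun s => QBr.ten_skw h.data.J_symm _) (fun s => hS.ten_g _) (fun s v hv => hS.ten_S _ v hv)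
    (fun v hv => hS.hsum hx.sum v hv)
  rw [Prod.smul_fst, Matrix.smul_mul, Matrix.mul_smul, hp0, smul_zero]

/-- the correction of an exact family, from its gluing family -/
theorem hex28 {X : Matrix ι ι K} (hS : QBr.Side arm J B g f X A Bo i1 i2)
    (hi0 : ∀ p, (∃ u, i1 p = g *ᵥ u) → p = 0)
    (hR1 : ∀ t, ∀ r ∈ R1, A t r ∈ R1) (hgR : ∀ r ∈ R2, ∀ p, g2 J X i2 r p = 0)
    {c : K} (hc : c ≠ 0) (hcx : c⁻¹ ∉ hS.Exc (QBr.Side.Q1 g i1 R1) (hS.Q1_stable hR1))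
    {x : Fin 3 → P2 ⊗[K] P1} (hx : RJM.Ex A Bo R1 R2 c x)
    {Z : Matrix ι ι K} (hZ : Skw J Z)
    (hφ : ∀ s, Inter arm J B g f X c (ten J i1 i2 (x s)) Z s) :
    ∃ b, RJM.Cor A Bo R1 (g2 J X i2) (-1) c x b ∧
      ∀ p, ∃ u, Z *ᵥ i2 p = -(c • i1 (b p)) + g *ᵥ u := by
  have h1 := hS.val1 hc hR1 hgR hcx (fun t => hx.arm t) hZ hφ
  obtain ⟨b, hb1, hb2⟩ := QBr.Side.exists_b hc h1
  refine ⟨b, ⟨hb1, fun t p => ?_⟩, hb2⟩
  have h2 := hi0 _ (hS.cor_of hc hZ (hφ t) hb2 p)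
  rw [sub_eq_zero] at h2
  rw [neg_one_mul, neg_smul, neg_smul, sub_neg_eq_add, sub_neg_eq_add]
  exact h2

/-- columns of `ten` in `im f + im g` -/
theorem ten_fg {X : Matrix ι ι K} (hS : QBr.Side arm J B g f X A Bo i1 i2)
    (hif : ∀ p, ∃ u u', i1 p = f *ᵥ u + g *ᵥ u') (x : P2 ⊗[K] P1) :
    ∃ C C' : Matrix δ ι K, ten J i1 i2 x = f * C + g * C' := by
  have hcol : ∀ (F : Matrix ι δ K) (u : δ → K) (z : ι → K),
      vecMulVec (F *ᵥ u) z = F * vecMulVec u z := by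
    intro F u z
    ext i j
    simp [Matrix.mul_apply, vecMulVec_apply, mulVec, dotProduct, Finset.sum_mul, mul_assoc]
  induction x using TensorProduct.induction_on with
  | zero => exact ⟨0, 0, by simp⟩
  | tmul a b =>
    obtain ⟨u, hu⟩ := hS.J2 a
    obtain ⟨v, v', hv⟩ := hif b
    refine ⟨-(vecMulVec v (i2 a) * J), vecMulVec u (i1 b) * J - vecMulVec v' (i2 a) * J, ?_⟩
    rw [QBr.ten_tmul, hv, add_vecMulVec, hcol, hcol, ← hv, Matrix.mul_sub, Matrix.mul_neg,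
      ← Matrix.mul_assoc, ← Matrix.mul_assoc, ← Matrix.mul_assoc]
    conv_lhs => rw [show vecMulVec (i2 a) (i1 b) = g * vecMulVec u (i1 b) by rw [hu, hcol]]
    rw [Matrix.add_mul]
    abel
  | add x y hx hy =>
    obtain ⟨C, C', h1⟩ := hx
    obtain ⟨D, D', h2⟩ := hy
    exact ⟨C + D, C' + D', by rw [map_add, h1, h2, Matrix.mul_add, Matrix.mul_add]; abel⟩

theorem inter28 {p p1 pm p3 p4 : Matrix ι ι K × (Fin 3 → Matrix ι ι K)} {c : K}
    {x : Fin 3 → P2 ⊗[K] P1} {Z : Matrix ι ι K} {Q : Fin 3 → Matrix ι ι K} {e kk : Matrix ι δ K}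
    (hF : Fam arm J B N W g f (c • p) (fun s => ten J i1 i2 (x s)) Z Q e p1 pm p3 p4 kk)
    (s : Fin 3) : Inter arm J B g f p.1 c (ten J i1 i2 (x s)) Z s :=
  QBr.inter_of (fun v hv => hF.interφ s v hv)

/-- **the second derivative** -/
theorem hrel28 (h : Ctx k arm J B N W g)
    (hNm : ∀ F, (∀ F' ∈ N, pair J B F' F = 0) → F ∈ N)
    (hWm : ∀ F, (∀ F' ∈ W, pair J B F' F = 0) → F ∈ W)
    (hcG : Glue k arm J N W g) (hf : f ∈ N ⊓ W)
    {p : Matrix ι ι K × (Fin 3 → Matrix ι ι K)} (hp : p ∈ NN arm J N g)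
    (hp0 : gᵀ * J * (p.1 * f) = 0) (hS : QBr.Side arm J B g f p.1 A Bo i1 i2)
    (hi0 : ∀ p, (∃ u, i1 p = g *ᵥ u) → p = 0)
    (hif : ∀ p, ∃ u u', i1 p = f *ᵥ u + g *ᵥ u')
    (hsurj : ∀ v : Pinf (aop arm J B g f (h.perp f hf)), ∃ q u,
      ((v : Sp J g) : ι → K) = i1 q + g *ᵥ u)
    (hR1 : ∀ t, ∀ r ∈ R1, A t r ∈ R1) (hR2 : ∀ t, ∀ r ∈ R2, Bo t r ∈ R2)
    (hgR : ∀ r ∈ R2, ∀ y, g2 J p.1 i2 r y = 0)
    (horth : ∀ r ∈ R1, ∀ y, i1 r ⬝ᵥ J *ᵥ i1 y = 0)
    (hperf : ∀ y : P2, ∃ z : Fin 3 → P2, y = ∑ t, Bo t (z t))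
    (hkill : ∃ m, ∀ w : List (Fin 3), m ≤ w.length → ∀ r ∈ R1, (w.map A).prod r = 0)
    {c c' : K} (hc : c ≠ 0) (hc' : c' ≠ 0)
    (hcx : c⁻¹ ∉ hS.Exc (QBr.Side.Q1 g i1 R1) (hS.Q1_stable hR1))
    (hcx' : c'⁻¹ ∉ hS.Exc (QBr.Side.Q1 g i1 R1) (hS.Q1_stable hR1))
    (hcy' : c' ∉ hS.Exc2 hR2)
    {x x' : Fin 3 → P2 ⊗[K] P1} {b b' : P2 →ₗ[K] P1}
    (hx : RJM.Ex A Bo R1 R2 c x) (hb : RJM.Cor A Bo R1 (g2 J p.1 i2) (-1) c x b)
    (hx' : RJM.Ex A Bo R1 R2 c' x') (hb' : RJM.Cor A Bo R1 (g2 J p.1 i2) (-1) c' x' b') :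
    ∑ t, ((1 : K) • TensorProduct.lift ((qf arm J f i1 t) ∘ₗ b') (x t)
        + (-1 : K) • TensorProduct.lift ((qf arm J f i1 t).flip ∘ₗ b) (x' t)
        + (-1 : K) • TensorProduct.lift ((qf arm J f i1 t) ∘ₗ (RJM.ev (g2 J p.1 i2) (x' t)))
          (x t)) ∈ SSp arm J B N W g f (h.perp f hf) := by
  have hJ := h.data.J_symm
  obtain ⟨Z, Q, e, p1, pm, p3, p4, kk, hF⟩ := fam_of h hNm hWm hcG hf hp hp0 hS hx
  obtain ⟨Z2, Q2, e2, q1, qm, q3, q4, kk2, hF2⟩ := fam_of h hNm hWm hcG hf hp hp0 hS hx'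
  obtain ⟨b0, hb0, hz⟩ := hex28 hS hi0 hR1 hgR hc hcx hx hF.skw (fun s => inter28 hF s)
  obtain ⟨b0', hb0', hz'⟩ := hex28 hS hi0 hR1 hgR hc' hcx' hx' hF2.skw (fun s => inter28 hF2 s)
  have eb : b = b0 := CorU.cor_unique (by simpa using hc) hb hb0 hperf hR1 hkill
  have eb' : b' = b0' := CorU.cor_unique (by simpa using hc') hb' hb0' hperf hR1 hkill
  subst eb
  subst eb'
  have hu : Z = c • (c⁻¹ • Z) := by rw [smul_smul, mul_inv_cancel₀ hc, one_smul]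
  have hu2 : Z2 = c' • (c'⁻¹ • Z2) := by rw [smul_smul, mul_inv_cancel₀ hc', one_smul]
  obtain ⟨C, hC⟩ := hS.prod_tensor hF.skw hc hc' hz hz' hu hu2 x x'
  rw [g2_eq hJ, hC]
  refine Submodule.add_mem _ ?_ (QEndP.gC_mem_SSp _ C)
  refine QEndP.prodP_mem_SSp h hf (c := c) (c2 := c') ?_ hF hF2
    (fun s => QBr.ten_skw hJ _) (fun s => hS.ten_g _) (fun s v hv => hS.ten_S _ v hv)
    (fun s => QBr.ten_skw hJ _) (fun s => hS.ten_g _) (fun s v hv => hS.ten_S _ v hv)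
    (fun s => ten_fg hS hif _) hc hc' rfl rfl hu hu2 ?_
  · exact hp.1.smul c
  · intro v
    obtain ⟨q, u0, hv⟩ := hsurj v
    obtain ⟨r, hr, hrv⟩ := hS.val2 hR2 horth hcy' (fun t => hx'.arm t) hF2.Zg
      (fun s => inter28 hF2 s) q
    obtain ⟨u1, hu1⟩ := hS.J2 r
    refine ⟨c'⁻¹ • u1, ?_, ?_⟩
    · have hZg : (gᵀ * J) *ᵥ (Z2 *ᵥ (g *ᵥ u0)) = 0 := by
        rw [mulVec_mulVec, mulVec_mulVec, Matrix.mul_assoc (gᵀ * J) Z2 g, hF2.Zg, zero_mulVec]
      rw [hv, smul_mulVec, mulVec_smul, mulVec_add, mulVec_add, hZg, add_zero, hrv, mulVec_smul,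
        mulVec_smul, mulVec_smul, ← hu1]
    · intro w s
      obtain ⟨qw, u3, hw⟩ := hsurj w
      obtain ⟨u4, hu4⟩ := hS.A1 s qw
      obtain ⟨u5, hu5⟩ := hz r
      have e1 : (M arm B s f f * J) *ᵥ ((w : Sp J g) : ι → K) = i1 (A s qw) + g *ᵥ u4 := by
        rw [hw, mulVec_add, hS.Mf_g, add_zero, hu4]
      have hJ1 := hS.J1 (A s qw)
      have hbr := hb.mem r
      rw [mulVec_smul, mulVec_smul, smul_mulVec, ← hu1, hu5, e1, smul_dotProduct, smul_dotProduct,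
        mulVec_add, dotProduct_add, add_dotProduct, add_dotProduct, neg_dotProduct,
        neg_dotProduct, smul_dotProduct, smul_dotProduct, horth _ hbr, hS.S_dot u5 hJ1,
        hS.dot_S u4 (hS.J1 _), hS.S_dot u5 (hS.S_perp u4)]
      simp

theorem mt_congr (hgf : gᵀ * J * f = 0) {v v1 w w1 : ι → K} {u u' : δ → K}
    (hv : v = v1 + g *ᵥ u) (hw : w = w1 + g *ᵥ u') (s : Fin 3) :
    ∃ C : Matrix δ δ K, vecMulVec v w * J * f * E K arm s
      = vecMulVec v1 w1 * J * f * E K arm s + g * C := by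
  refine ⟨vecMulVec u w * J * f * E K arm s, ?_⟩
  have h1 : vecMulVec (g *ᵥ u) w = g * vecMulVec u w := by
    ext i j
    simp [Matrix.mul_apply, vecMulVec_apply, mulVec, dotProduct, Finset.sum_mul, mul_assoc]
  have h2 : vecMulVec v1 (g *ᵥ u') * J * f = 0 := by
    rw [Matrix.mul_assoc, QBr.vmv_mul]
    have h3 : (g *ᵥ u') ᵥ* (J * f) = 0 := by
      rw [← mulVec_transpose, mulVec_mulVec]
      have h4 : (J * f)ᵀ * g = (gᵀ * J * f)ᵀ := by
        rw [transpose_mul (gᵀ * J) f, transpose_mul gᵀ J, transpose_transpose, transpose_mul,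
          Matrix.mul_assoc]
      rw [h4, hgf, transpose_zero, zero_mulVec]
    rw [h3]
    ext i j
    simp [vecMulVec_apply]
  have h5 : vecMulVec v w = vecMulVec v1 w1 + vecMulVec v1 (g *ᵥ u') + g * vecMulVec u w := by
    rw [← h1]
    conv_lhs => rw [hv, add_vecMulVec, hw, vecMulVec_add]
    rw [← hw]
  rw [h5]
  simp only [Matrix.add_mul, h2, add_zero, Matrix.mul_assoc]

end conc

section final

universe u
variable {ι δ K : Type u} [Fintype ι] [DecidableEq ι] [Fintype δ] [DecidableEq δ] [Field K]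
variable {k : Type*} [Field k] [Algebra k K]
variable {arm : δ → Fin 3} {J : Matrix ι ι K} {B : Matrix δ δ K}
  {N W : Submodule K (Matrix ι δ K)} {g f : Matrix ι δ K}

/-- **the P-side bridge** -/
theorem bridgeP28 [CharZero K] (h : Ctx k arm J B N W g)
    (hNm : ∀ F, (∀ F' ∈ N, pair J B F' F = 0) → F ∈ N)
    (hWm : ∀ F, (∀ F' ∈ W, pair J B F' F = 0) → F ∈ W)
    (hcG : Glue k arm J N W g) (hf : f ∈ N ⊓ W)
    {p : Matrix ι ι K × (Fin 3 → Matrix ι ι K)} (hp : p ∈ NN arm J N g)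
    (hp0 : gᵀ * J * (p.1 * f) = 0) {l : Fin 3 → ℕ}
    (hP : Pair (aop arm J B g f (h.perp f hf)) (omP J g)
      (fun s => Mop arm B g s ∘ₗ eta J g p.1) (eta J g p.1) l) :
    (∀ s, ∀ r ∈ TP (aop arm J B g f (h.perp f hf)), ∀ p,
      mt J g (Pinf (aop arm J B g f (h.perp f hf))) (r ⊗ₜ p) * f * E K arm s
        ∈ SSp arm J B N W g f (h.perp f hf)) ∧
    (∀ s, ∀ r ∈ TP (aop arm J B g f (h.perp f hf)), ∀ p,
      mt J g (Pinf (aop arm J B g f (h.perp f hf))) (p ⊗ₜ r) * f * E K arm s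
        ∈ SSp arm J B N W g f (h.perp f hf)) ∧
    (∀ s i j, i + j + 1 = l s → ∀ p p',
      mt J g (Pinf (aop arm J B g f (h.perp f hf)))
        (((QEndP.ap (aop arm J B g f (h.perp f hf)) s ^ i) p) ⊗ₜ
          ((QEndP.ap (aop arm J B g f (h.perp f hf)) s ^ j) p')) * f * E K arm s
        ∈ SSp arm J B N W g f (h.perp f hf)) := by
  have hD := h.data
  have hgf := h.perp f hf
  obtain ⟨P1, i1a, i1b, A, R1, w, i1, P2, i2a, i2b, Bo, R2, g2', i2, hfd1, hfd2, hS, H1, H2,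
    hw, hg2', hi0, hsurj, hvalP, hR1i, -, -, -⟩ :=
    exists_sideP hD.J_symm hD.J_unit hD.B_symm hD.B_arm h.iso (h.perp f hf) hp.1 hP
  have hsurj' : ∀ v : Pinf (aop arm J B g f (h.perp f hf)), ∃ q u,
      ((v : Sp J g) : ι → K) = i1 q + g *ᵥ u := fun v => hsurj v v.2
  have hg2 : ∀ x y, g2 J p.1 i2 x y = (-1) * g2' x y := by
    intro x y
    rw [hg2', QBr.g2_apply, mulVec_dot, mulVec_mulVec, hp.1.eq, neg_mulVec, dotProduct_neg,
      neg_one_mul]
  have H2' := H2.congr (w' := g2 J p.1 i2) (neg_ne_zero.2 one_ne_zero) hg2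
  have hif : ∀ p, ∃ u u', i1 p = f *ᵥ u + g *ᵥ u' := by
    intro p
    obtain ⟨v, hv, hpv⟩ := hvalP p
    obtain ⟨q, hq⟩ := QEndP.exists_u (h.perp f hf) ⟨v, hv⟩
    refine ⟨∑ r, (E K arm r * B * fᵀ * J) *ᵥ ((q r : Sp J g) : ι → K), 0, ?_⟩
    rw [mulVec_zero, add_zero, hpv]
    exact hq.symm
  have horth : ∀ r ∈ R1, ∀ y, i1 r ⬝ᵥ J *ᵥ i1 y = 0 := by
    intro r hr y
    rw [← hw]
    exact H1.rad_left r hr y
  have hperf : ∀ y : P2, ∃ z : Fin 3 → P2, y = ∑ t, Bo t (z t) :=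
    QBlk.exists_sum_of_top H2.side.top
  have hkill : ∃ m, ∀ w : List (Fin 3), m ≤ w.length → ∀ r ∈ R1, (w.map A).prod r = 0 := by
    obtain ⟨m, hm⟩ := H1.side.kills_le
    exact ⟨m, fun w hw r hr => hm _ hw w rfl r hr⟩
  let Λ : Set K := {c | c ≠ 0 ∧ c⁻¹ ∉ hS.Exc (QBr.Side.Q1 g i1 R1) (hS.Q1_stable H1.side.stable) ∧
    c ∉ hS.Exc2 H2.side.stable}
  have hfin1 : (hS.Exc (QBr.Side.Q1 g i1 R1) (hS.Q1_stable H1.side.stable)).Finite :=
    QBlk.twist_finite_neg _ H2.side.top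
  have hfin2 : (hS.Exc2 H2.side.stable).Finite := QBlk.twist_finite _ H1.side.top
  have hΛ : Λ.Infinite := by
    have hcompl : Λᶜ.Finite := by
      refine ((Set.finite_singleton (0 : K)).union ((hfin1.preimage
        (f := fun c : K => c⁻¹) (inv_injective.injOn)).union hfin2)).subset ?_
      intro c hc
      by_contra hcon
      apply hc
      simp only [Set.mem_union, Set.mem_singleton_iff, Set.mem_preimage, not_or] at hcon
      exact ⟨hcon.1, hcon.2.1, hcon.2.2⟩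
    exact Set.infinite_of_finite_compl hcompl
  have h0 : (0 : K) ∉ Λ := fun h => h.1 rfl
  have key := H1.rjm H2' hΛ h0 (qf arm J f i1) (SSp arm J B N W g f (h.perp f hf))
    (a1 := 1) (a2 := -1) (a3 := -1) one_ne_zero (neg_ne_zero.2 one_ne_zero)
    (neg_ne_zero.2 one_ne_zero)
    (fun c hc x hx => by
      obtain ⟨Z, Q, e, p1, pm, p3, p4, kk, hF⟩ := fam_of h hNm hWm hcG hf hp hp0 hS hx
      obtain ⟨b0, hb0, -⟩ := hex28 hS hi0 H1.side.stable H2'.rad_left hc.1 hc.2.1 hx hF.skw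
        (fun s => inter28 hF s)
      exact ⟨b0, hb0⟩)
    (fun c hc c' hc' x b x' b' hx hb hx' hb' =>
      hrel28 h hNm hWm hcG hf hp hp0 hS hi0 hif hsurj' H1.side.stable H2.side.stable
        H2'.rad_left horth hperf hkill hc.1 hc'.1 hc.2.1 hc'.2.1 hc'.2.2 hx hb hx' hb')
  -- transfer to `Pinf`
  have htr : ∀ (v w : Pinf (aop arm J B g f (h.perp f hf))) (q q' : P1) (u u' : δ → K) (s : Fin 3),
      ((v : Sp J g) : ι → K) = i1 q + g *ᵥ u → ((w : Sp J g) : ι → K) = i1 q' + g *ᵥ u' →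
      qf arm J f i1 s q q' ∈ SSp arm J B N W g f (h.perp f hf) →
      mt J g (Pinf (aop arm J B g f (h.perp f hf))) (v ⊗ₜ w) * f * E K arm s
        ∈ SSp arm J B N W g f (h.perp f hf) := by
    intro v w q q' u u' s hv hw hq
    rw [QEndP.mt_tmul]
    obtain ⟨C, hC⟩ := mt_congr (arm := arm) hgf hv hw s
    rw [hC]
    exact Submodule.add_mem _ hq (QEndP.gC_mem_SSp _ C)
  have hrad : ∀ r ∈ TP (aop arm J B g f (h.perp f hf)), ∃ q ∈ R1, ∃ u,
      ((r : Sp J g) : ι → K) = i1 q + g *ᵥ u := by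
    intro r hr
    obtain ⟨q, u, hq⟩ := hsurj' r
    refine ⟨q, ?_, u, hq⟩
    rw [hR1i]
    obtain ⟨v, hv, hqv⟩ := hvalP q
    refine ⟨v, ⟨hv, ?_⟩, hqv⟩
    have h1 : (r : Sp J g) - v ∈ T (aop arm J B g f (h.perp f hf)) := by
      refine St.Nk_le_T _ 1 ?_
      rw [St.mem_Nk_succ]
      intro s
      rw [St.mem_Nk_zero]
      apply Subtype.ext
      rw [aop_coe, Submodule.coe_sub, hq, hqv, add_sub_cancel_left, hS.Mf_g]
      rfl
    have h2 : (r : Sp J g) ∈ T (aop arm J B g f (h.perp f hf)) := hr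
    have h3 := Submodule.sub_mem _ h2 h1
    rwa [sub_sub_cancel] at h3
  have hpow : ∀ (s : Fin 3) (n : ℕ) (v : Pinf (aop arm J B g f (h.perp f hf))) (q : P1)
      (u : δ → K), ((v : Sp J g) : ι → K) = i1 q + g *ᵥ u → ∃ u',
      ((((QEndP.ap (aop arm J B g f (h.perp f hf)) s ^ n) v : Pinf _) : Sp J g) : ι → K)
        = i1 ((A s ^ n) q) + g *ᵥ u' := by
    intro s n
    induction n with
    | zero => intro v q u hv; exact ⟨u, hv⟩
    | succ n ih =>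
      intro v q u hv
      obtain ⟨u', hu'⟩ := ih v q u hv
      obtain ⟨u4, hu4⟩ := hS.A1 s ((A s ^ n) q)
      refine ⟨u4, ?_⟩
      rw [pow_succ', pow_succ', Module.End.mul_apply, Module.End.mul_apply, QEndP.ap_coe, aop_coe,
        hu', mulVec_add, hS.Mf_g, add_zero, hu4]
  refine ⟨fun s r hr v => ?_, fun s r hr v => ?_, fun s i j hij v w => ?_⟩
  · obtain ⟨q, hq, u, hr'⟩ := hrad r hr
    obtain ⟨q', u', hv⟩ := hsurj' v
    exact htr _ _ _ _ _ _ s hr' hv (key.1 s q hq q').1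
  · obtain ⟨q, hq, u, hr'⟩ := hrad r hr
    obtain ⟨q', u', hv⟩ := hsurj' v
    exact htr _ _ _ _ _ _ s hv hr' (key.1 s q hq q').2
  · obtain ⟨q, u, hv⟩ := hsurj' v
    obtain ⟨q', u', hw⟩ := hsurj' w
    obtain ⟨u1, h1⟩ := hpow s i v q u hv
    obtain ⟨u2, h2⟩ := hpow s j w q' u' hw
    exact htr _ _ _ _ _ _ s h1 h2 (key.2 s i j hij q q')


end final

end Crest.Agent.R172.QC
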