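import Mathlib

-- ▼ part R172/Span2
section

/-! # Row 172: the span of the first and of the second derivatives (abstract form).

`key`   : the functional form of "the `c`-exact families span everything" (with a correction).
`main`  : the products of second derivatives span everything (Lemma 2 of note 15596). -/

open TensorProduct

namespace Crest.Agent.R172.Span2

/-! ## Laurent bookkeeping -/

section Laurent

variable {K : Type*} [Field K]

/-- on `Λ` the function is a polynomial in `c`. -/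
def Pos (Λ : Set K) (φ : K → K) : Prop := ∃ f : Polynomial K, ∀ c ∈ Λ, φ c = f.eval c

/-- on `Λ` the function is `c⁻¹` times a polynomial in `c⁻¹`. -/
def Neg (Λ : Set K) (φ : K → K) : Prop :=
  ∃ f : Polynomial K, ∀ c ∈ Λ, φ c = c⁻¹ * f.eval c⁻¹

variable {Λ : Set K} {φ ψ : K → K}

lemma Pos.congr (h : Pos Λ φ) (e : ∀ c ∈ Λ, ψ c = φ c) : Pos Λ ψ := by
  obtain ⟨f, hf⟩ := h
  exact ⟨f, fun c hc => by rw [e c hc, hf c hc]⟩

lemma Neg.congr (h : Neg Λ φ) (e : ∀ c ∈ Λ, ψ c = φ c) : Neg Λ ψ := by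
  obtain ⟨f, hf⟩ := h
  exact ⟨f, fun c hc => by rw [e c hc, hf c hc]⟩

lemma Pos.const (a : K) : Pos Λ (fun _ => a) := ⟨Polynomial.C a, fun c _ => by simp⟩

lemma Pos.add (h : Pos Λ φ) (h' : Pos Λ ψ) : Pos Λ (fun c => φ c + ψ c) := by
  obtain ⟨f, hf⟩ := h
  obtain ⟨f', hf'⟩ := h'
  exact ⟨f + f', fun c hc => by simp [hf c hc, hf' c hc]⟩

lemma Pos.mul_self (h : Pos Λ φ) : Pos Λ (fun c => c * φ c) := by
  obtain ⟨f, hf⟩ := h
  exact ⟨Polynomial.X * f, fun c hc => by simp [hf c hc]⟩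

lemma Pos.pow_mul (h : Pos Λ φ) (n : ℕ) : Pos Λ (fun c => c ^ n * φ c) := by
  obtain ⟨f, hf⟩ := h
  exact ⟨Polynomial.X ^ n * f, fun c hc => by simp [hf c hc]⟩

lemma Neg.zero : Neg Λ (fun _ => (0 : K)) := ⟨0, fun c _ => by simp⟩

lemma Neg.add (h : Neg Λ φ) (h' : Neg Λ ψ) : Neg Λ (fun c => φ c + ψ c) := by
  obtain ⟨f, hf⟩ := h
  obtain ⟨f', hf'⟩ := h'
  exact ⟨f + f', fun c hc => by simp [hf c hc, hf' c hc, mul_add]⟩

lemma Neg.neg (h : Neg Λ φ) : Neg Λ (fun c => - φ c) := by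
  obtain ⟨f, hf⟩ := h
  exact ⟨-f, fun c hc => by simp [hf c hc]⟩

lemma Neg.sub (h : Neg Λ φ) (h' : Neg Λ ψ) : Neg Λ (fun c => φ c - ψ c) := by
  simpa [sub_eq_add_neg] using h.add h'.neg

lemma Neg.inv_mul (h : Neg Λ φ) : Neg Λ (fun c => c⁻¹ * φ c) := by
  obtain ⟨f, hf⟩ := h
  exact ⟨Polynomial.X * f, fun c hc => by simp [hf c hc]⟩

lemma Neg.inv_const (a : K) : Neg Λ (fun c => c⁻¹ * a) :=
  ⟨Polynomial.C a, fun c _ => by simp⟩

lemma Neg.const_mul (a : K) (h : Neg Λ φ) : Neg Λ (fun c => a * φ c) := by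
  obtain ⟨f, hf⟩ := h
  exact ⟨Polynomial.C a * f, fun c hc => by simp [hf c hc]; ring⟩

lemma poly_zero (hΛ : Λ.Infinite) {f : Polynomial K} (h : ∀ c ∈ Λ, f.eval c = 0) : f = 0 :=
  Polynomial.eq_zero_of_infinite_isRoot f (hΛ.mono fun c hc => h c hc)

/-- a function which is at the same time a polynomial in `c` and `c⁻¹` times a polynomial in
`c⁻¹` vanishes. -/
lemma sep (hΛ : Λ.Infinite) (h0 : (0 : K) ∉ Λ) (h : Pos Λ φ) (h' : Neg Λ φ) :
    ∀ c ∈ Λ, φ c = 0 := by
  obtain ⟨f, hf⟩ := h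
  obtain ⟨g, hg⟩ := h'
  set n := g.natDegree with hn
  set r : Polynomial K := ∑ k ∈ Finset.range (n + 1),
    Polynomial.C (g.coeff k) * Polynomial.X ^ (n - k) with hr
  have e : Polynomial.X ^ (n + 1) * f - r = 0 := by
    apply poly_zero hΛ
    intro c hc
    have hc0 : c ≠ 0 := fun h => h0 (h ▸ hc)
    have e1 := (hf c hc).symm.trans (hg c hc)
    have e3 : g.eval c⁻¹ = ∑ i ∈ Finset.range (n + 1), g.coeff i * c⁻¹ ^ i :=
      Polynomial.eval_eq_sum_range _
    rw [Polynomial.eval_sub, Polynomial.eval_mul, e1, e3, hr,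
      Polynomial.eval_finsetSum, Polynomial.eval_pow, Polynomial.eval_X, Finset.mul_sum,
      Finset.mul_sum, ← Finset.sum_sub_distrib]
    apply Finset.sum_eq_zero
    intro k hk
    have hk' : k ≤ n := Nat.lt_succ_iff.1 (Finset.mem_range.1 hk)
    obtain ⟨j, hj⟩ := Nat.exists_eq_add_of_le hk'
    have : n - k = j := by omega
    rw [this]
    simp only [Polynomial.eval_mul, Polynomial.eval_C, Polynomial.eval_pow, Polynomial.eval_X]
    rw [hj]
    have h1 : c ^ (k + 1) * c⁻¹ ^ (k + 1) = 1 := by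
      rw [← mul_pow, mul_inv_cancel₀ hc0, one_pow]
    linear_combination (g.coeff k * c ^ j) * h1
  have e2 : Polynomial.X ^ (n + 1) * f = r := sub_eq_zero.1 e
  have hf0 : f = 0 := by
    ext k
    have h1 : (Polynomial.X ^ (n + 1) * f).coeff (k + (n + 1)) = f.coeff k :=
      Polynomial.coeff_X_pow_mul f (n + 1) k
    rw [e2, hr, Polynomial.finsetSum_coeff] at h1
    rw [← h1, Polynomial.coeff_zero]
    apply Finset.sum_eq_zero
    intro j hj
    rw [Polynomial.coeff_C_mul, Polynomial.coeff_X_pow, if_neg (by omega), mul_zero]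
  intro c hc
  rw [hf c hc, hf0, Polynomial.eval_zero]

/-- `a + c φ(c) = 0` with `φ` polynomial: both vanish. -/
lemma sep_const (hΛ : Λ.Infinite) (h0 : (0 : K) ∉ Λ) {a : K} (h : Pos Λ φ)
    (e : ∀ c ∈ Λ, a = c * φ c) : a = 0 ∧ ∀ c ∈ Λ, φ c = 0 := by
  obtain ⟨f, hf⟩ := h
  have e1 : Polynomial.C a - Polynomial.X * f = 0 := by
    apply poly_zero hΛ
    intro c hc
    simp only [Polynomial.eval_sub, Polynomial.eval_mul, Polynomial.eval_C, Polynomial.eval_X]
    rw [← hf c hc, ← e c hc, sub_self]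
  have ha : a = 0 := by
    have := congrArg (fun p => Polynomial.coeff p 0) e1
    simpa using this
  refine ⟨ha, fun c hc => ?_⟩
  have hc0 : c ≠ 0 := fun h => h0 (h ▸ hc)
  have := e c hc
  rw [ha] at this
  exact (mul_eq_zero.1 this.symm).resolve_left hc0

/-- `∑_{j<l} a_j c^j = φ(c) - c^l ψ(c)`, `φ` negative, `ψ` positive: everything vanishes. -/
lemma sep_sum (hΛ : Λ.Infinite) (h0 : (0 : K) ∉ Λ) (l : ℕ) (a : ℕ → K) (hφ : Neg Λ φ)
    (hψ : Pos Λ ψ) (e : ∀ c ∈ Λ, ∑ j ∈ Finset.range l, c ^ j * a j = φ c - c ^ l * ψ c) :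
    (∀ j < l, a j = 0) ∧ ∀ c ∈ Λ, ψ c = 0 := by
  obtain ⟨f, hf⟩ := hψ
  set p : Polynomial K := ∑ j ∈ Finset.range l, Polynomial.C (a j) * Polynomial.X ^ j +
    Polynomial.X ^ l * f with hp
  have hev : ∀ c ∈ Λ, p.eval c = φ c := by
    intro c hc
    rw [hp, Polynomial.eval_add, Polynomial.eval_finsetSum]
    simp only [Polynomial.eval_mul, Polynomial.eval_C, Polynomial.eval_pow, Polynomial.eval_X]
    rw [← hf c hc]
    have := e c hc
    have e3 : ∑ j ∈ Finset.range l, a j * c ^ j = ∑ j ∈ Finset.range l, c ^ j * a j :=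
      Finset.sum_congr rfl fun j _ => mul_comm _ _
    rw [e3, this]
    ring
  have hφ0 := sep hΛ h0 (φ := φ) ⟨p, fun c hc => (hev c hc).symm⟩ hφ
  have hp0 : p = 0 := poly_zero hΛ fun c hc => by rw [hev c hc, hφ0 c hc]
  have hcoef : ∀ j < l, a j = 0 := by
    intro j hj
    have h1 := congrArg (fun p => Polynomial.coeff p j) hp0
    simp only [hp, Polynomial.coeff_add, Polynomial.finsetSum_coeff, Polynomial.coeff_C_mul,
      Polynomial.coeff_X_pow, Polynomial.coeff_zero] at h1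
    rw [Polynomial.coeff_X_pow_mul', if_neg (by omega), add_zero] at h1
    rw [Finset.sum_eq_single j] at h1
    · simpa using h1
    · intro b _ hb
      rw [if_neg (fun h => hb h.symm), mul_zero]
    · intro h
      exact absurd (Finset.mem_range.2 hj) h
  refine ⟨hcoef, fun c hc => ?_⟩
  have hc0 : c ≠ 0 := fun h => h0 (h ▸ hc)
  have h1 := e c hc
  rw [Finset.sum_eq_zero (fun j hj => by rw [hcoef j (Finset.mem_range.1 hj), mul_zero]),
    hφ0 c hc, zero_sub, zero_eq_neg] at h1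
  exact (mul_eq_zero.1 h1).resolve_left (pow_ne_zero _ hc0)

end Laurent

/-! ## Algebra -/

section Alg

variable {K : Type*} [Field K] {P1 P2 E τ : Type*} [AddCommGroup P1] [Module K P1]
  [AddCommGroup P2] [Module K P2] [AddCommGroup E] [Module K E]

/-- the defect of one arm. -/
noncomputable def D (A : τ → Module.End K P1) (B : τ → Module.End K P2) (c : K) (t : τ) :
    P2 ⊗[K] P1 →ₗ[K] P2 ⊗[K] P1 :=
  (A t).lTensor P2 - c • (B t).rTensor P1

@[simp] lemma D_tmul (A : τ → Module.End K P1) (B : τ → Module.End K P2) (c : K) (t : τ)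
    (p2 : P2) (p1 : P1) :
    D A B c t (p2 ⊗ₜ p1) = p2 ⊗ₜ (A t p1) - c • ((B t p2) ⊗ₜ p1) := by
  simp [D]

/-- the radical tensors `R2 ⊗ P1 + P2 ⊗ R1`. -/
def Rad (R1 : Submodule K P1) (R2 : Submodule K P2) : Submodule K (P2 ⊗[K] P1) :=
  Submodule.span K {z | ∃ p2 p1, (p2 ∈ R2 ∨ p1 ∈ R1) ∧ z = p2 ⊗ₜ[K] p1}

/-- `c`-exact families. -/
structure Ex [Fintype τ] (A : τ → Module.End K P1) (B : τ → Module.End K P2)
    (R1 : Submodule K P1) (R2 : Submodule K P2) (c : K) (x : τ → P2 ⊗[K] P1) : Prop where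
  sum : ∑ t, D A B c t (x t) = 0
  rad : ∀ t, D A B c t (x t) ∈ Rad R1 R2

/-- the contraction `p2 ⊗ p1 ↦ (p ↦ g p2 p • p1)`. -/
noncomputable def ev (g : P2 →ₗ[K] P2 →ₗ[K] K) : P2 ⊗[K] P1 →ₗ[K] P2 →ₗ[K] P1 :=
  TensorProduct.lift (LinearMap.smulRightₗ ∘ₗ g)

@[simp] lemma ev_tmul (g : P2 →ₗ[K] P2 →ₗ[K] K) (p2 : P2) (p1 : P1) (p : P2) :
    ev g (p2 ⊗ₜ p1) p = g p2 p • p1 := by
  simp [ev]

/-- the correction of a family. -/
structure Cor (A : τ → Module.End K P1) (B : τ → Module.End K P2)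
    (R1 : Submodule K P1) (g : P2 →ₗ[K] P2 →ₗ[K] K) (c : K) (x : τ → P2 ⊗[K] P1)
    (β : P2 →ₗ[K] P1) : Prop where
  mem : ∀ p, β p ∈ R1
  eq : ∀ t p, A t (β p) - c • β (B t p) = A t (ev g (x t) p) - c • ev g (x t) (B t p)

/-- the descending chain of a stable submodule. -/
def Dn (A : τ → Module.End K P1) (R : Submodule K P1) : ℕ → Submodule K P1
  | 0 => R
  | n + 1 => ⨆ t, (Dn A R n).map (A t)

lemma Dn_anti {A : τ → Module.End K P1} {R : Submodule K P1} (sR : ∀ t, R.map (A t) ≤ R) :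
    ∀ n, Dn A R (n + 1) ≤ Dn A R n
  | 0 => iSup_le sR
  | n + 1 => iSup_mono fun _ => Submodule.map_mono (Dn_anti sR n)

lemma Dn_le {A : τ → Module.End K P1} {R : Submodule K P1} (sR : ∀ t, R.map (A t) ≤ R) :
    ∀ n, Dn A R n ≤ R
  | 0 => le_rfl
  | n + 1 => (Dn_anti sR n).trans (Dn_le sR n)

lemma apply_mem_Dn {A : τ → Module.End K P1} {R : Submodule K P1} {n : ℕ} {r : P1}
    (hr : r ∈ Dn A R n) (t : τ) : A t r ∈ Dn A R (n + 1) :=
  Submodule.mem_iSup_of_mem t (Submodule.mem_map_of_mem hr)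

/-- words of length `m` kill `R`. -/
lemma Dn_eq_bot {A : τ → Module.End K P1} {R : Submodule K P1} {m : ℕ}
    (h : ∀ w : List τ, w.length = m → ∀ r ∈ R, (w.map A).prod r = 0) : Dn A R m = ⊥ := by
  have h1 : ∀ n, Dn A R n ≤
      Submodule.span K {z | ∃ w : List τ, w.length = n ∧ ∃ r ∈ R, z = (w.map A).prod r} := by
    intro n
    induction n with
    | zero =>
      intro r hr
      exact Submodule.subset_span ⟨[], rfl, r, hr, by simp⟩
    | succ n ih =>
      refine iSup_le fun t => ?_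
      refine (Submodule.map_mono ih).trans ?_
      rw [Submodule.map_span, Submodule.span_le]
      rintro _ ⟨z, ⟨w, hw, r, hr, rfl⟩, rfl⟩
      exact Submodule.subset_span ⟨t :: w, by simp [hw], r, hr, by simp⟩
  rw [eq_bot_iff]
  refine (h1 m).trans ?_
  rw [Submodule.span_le]
  rintro _ ⟨w, hw, r, hr, rfl⟩
  exact (Submodule.mem_bot K).2 (h w hw r hr)

lemma factor {V V' : Type*} [AddCommGroup V] [Module K V] [AddCommGroup V'] [Module K V']
    (DD : V →ₗ[K] V') (W : Submodule K V') (ℓ : V →ₗ[K] K) (h : ∀ v, DD v ∈ W → ℓ v = 0) :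
    ∃ lam : V' →ₗ[K] K, (∀ v, lam (DD v) = ℓ v) ∧ ∀ w ∈ W, lam w = 0 := by
  have h1 : ℓ ∈ LinearMap.range (W.mkQ ∘ₗ DD).dualMap := by
    rw [LinearMap.range_dualMap_eq_dualAnnihilator_ker, Submodule.mem_dualAnnihilator]
    intro v hv
    apply h
    rw [LinearMap.mem_ker, LinearMap.comp_apply, Submodule.mkQ_apply,
      Submodule.Quotient.mk_eq_zero] at hv
    exact hv
  obtain ⟨m, hm⟩ := h1
  refine ⟨m ∘ₗ W.mkQ, fun v => ?_, fun w hw => ?_⟩
  · rw [← hm]; rfl
  · rw [LinearMap.comp_apply, Submodule.mkQ_apply, (Submodule.Quotient.mk_eq_zero W).2 hw,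
      map_zero]

lemma factor2 [Fintype τ] (A : τ → Module.End K P1) (B : τ → Module.End K P2)
    (R1 : Submodule K P1) (R2 : Submodule K P2) (c : K) (η θ : τ → P2 →ₗ[K] P1 →ₗ[K] K)
    (h : ∀ x, Ex A B R1 R2 c x →
      ∑ t, (TensorProduct.lift (η t) (x t) + TensorProduct.lift (θ t) (D A B c t (x t))) = 0) :
    ∃ ζ : τ → P2 →ₗ[K] P1 →ₗ[K] K,
      (∀ t p2 p1, η t p2 p1 + (θ t p2 (A t p1) - c * θ t (B t p2) p1) =
        ζ t p2 (A t p1) - c * ζ t (B t p2) p1) ∧
      (∀ t t' p2 p1, (p2 ∈ R2 ∨ p1 ∈ R1) → ζ t p2 p1 = ζ t' p2 p1) := by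
  classical
  let DD : (τ → P2 ⊗[K] P1) →ₗ[K] (τ → P2 ⊗[K] P1) :=
    LinearMap.pi (fun t => D A B c t ∘ₗ LinearMap.proj t)
  let W : Submodule K (τ → P2 ⊗[K] P1) :=
    { carrier := {u | (∀ t, u t ∈ Rad R1 R2) ∧ ∑ t, u t = 0}
      add_mem' := fun {a b} ha hb => ⟨fun t => (Rad R1 R2).add_mem (ha.1 t) (hb.1 t), by
        simp only [Pi.add_apply, Finset.sum_add_distrib, ha.2, hb.2, add_zero]⟩
      zero_mem' := ⟨fun t => (Rad R1 R2).zero_mem, by simp⟩
      smul_mem' := fun k a ha => ⟨fun t => (Rad R1 R2).smul_mem k (ha.1 t), by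
        simp only [Pi.smul_apply, ← Finset.smul_sum, ha.2, smul_zero]⟩ }
  let ℓ : (τ → P2 ⊗[K] P1) →ₗ[K] K :=
    ∑ t, ((TensorProduct.lift (η t)) ∘ₗ LinearMap.proj t +
      (TensorProduct.lift (θ t)) ∘ₗ D A B c t ∘ₗ LinearMap.proj t)
  obtain ⟨lam, hl1, hl2⟩ := factor DD W ℓ (by
    intro v hv
    have := h v ⟨hv.2, hv.1⟩
    simpa [ℓ, LinearMap.sum_apply] using this)
  refine ⟨fun t => TensorProduct.curry (lam ∘ₗ LinearMap.single K (fun _ => P2 ⊗[K] P1) t),
    fun t p2 p1 => ?_, fun t t' p2 p1 hp => ?_⟩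
  · have e1 := hl1 (Pi.single t (p2 ⊗ₜ[K] p1))
    have e2 : DD (Pi.single t (p2 ⊗ₜ[K] p1)) = Pi.single t (D A B c t (p2 ⊗ₜ[K] p1)) := by
      funext s
      by_cases hs : s = t
      · subst hs
        simp [DD]
      · simp [DD, Pi.single_eq_of_ne hs]
    have e3 : ℓ (Pi.single t (p2 ⊗ₜ[K] p1)) = η t p2 p1 +
        (θ t p2 (A t p1) - c * θ t (B t p2) p1) := by
      simp only [ℓ, LinearMap.sum_apply]
      rw [Finset.sum_eq_single t]
      · simp
      · intro s _ hs
        simp [Pi.single_eq_of_ne hs]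
      · intro h
        exact absurd (Finset.mem_univ t) h
    rw [← e3, ← e1, e2, D_tmul]
    have e4 : ∀ z : P2 ⊗[K] P1, lam (Pi.single t z) =
        (lam ∘ₗ LinearMap.single K (fun _ => P2 ⊗[K] P1) t) z := fun z => rfl
    rw [e4, map_sub, map_smul]
    simp [TensorProduct.curry_apply]
  · have hz : p2 ⊗ₜ[K] p1 ∈ Rad R1 R2 := Submodule.subset_span ⟨p2, p1, hp, rfl⟩
    have e1 : (Pi.single t (p2 ⊗ₜ[K] p1) - Pi.single t' (p2 ⊗ₜ[K] p1) :
        τ → P2 ⊗[K] P1) ∈ W := by
      refine ⟨fun s => ?_, ?_⟩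
      · rw [Pi.sub_apply]
        refine (Rad R1 R2).sub_mem ?_ ?_
        · by_cases hs : s = t
          · subst hs
            rwa [Pi.single_eq_same]
          · rw [Pi.single_eq_of_ne hs]
            exact (Rad R1 R2).zero_mem
        · by_cases hs : s = t'
          · subst hs
            rwa [Pi.single_eq_same]
          · rw [Pi.single_eq_of_ne hs]
            exact (Rad R1 R2).zero_mem
      · simp only [Pi.sub_apply, Finset.sum_sub_distrib, Finset.sum_pi_single', Finset.mem_univ,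
          if_true, sub_self]
    have e2 := hl2 _ e1
    rw [map_sub, sub_eq_zero] at e2
    exact e2

theorem key [Fintype τ] {A : τ → Module.End K P1} {B : τ → Module.End K P2}
    (hA : ⨆ t, LinearMap.range (A t) = ⊤) (hB : ⨆ t, LinearMap.range (B t) = ⊤)
    {R1 : Submodule K P1} {R2 : Submodule K P2}
    (sR1 : ∀ t, R1.map (A t) ≤ R1) (sR2 : ∀ t, R2.map (B t) ≤ R2)
    {m : ℕ} (n1 : Dn A R1 m = ⊥) (n2 : Dn B R2 m = ⊥) {l : τ → ℕ}
    (l1 : ∀ s p, (A s ^ l s) p ∈ R1) (l2 : ∀ s p, (B s ^ l s) p ∈ R2)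
    (gen2 : ∀ X : Submodule K P2, (∀ t, X.map (B t) ≤ X) → (∀ s p, (B s ^ l s) p ∈ X) →
      R2 ≤ X)
    {Λ : Set K} (hΛ : Λ.Infinite) (h0 : (0 : K) ∉ Λ)
    (η : τ → P2 →ₗ[K] P1 →ₗ[K] K) (θ : K → τ → P2 →ₗ[K] P1 →ₗ[K] K)
    (θ0 : ∀ c ∈ Λ, ∀ t, ∀ r ∈ R2, ∀ p, θ c t r p = 0)
    (θn : ∀ t p2 p1, Neg Λ (fun c => θ c t p2 p1))
    (h : ∀ c ∈ Λ, ∀ x, Ex A B R1 R2 c x →
      ∑ t, (TensorProduct.lift (η t) (x t) +
        TensorProduct.lift (θ c t) (D A B c t (x t))) = 0) :
    (∀ t, ∀ r ∈ R2, ∀ p, η t r p = 0) ∧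
    (∀ s i j, i + j + 1 = l s → ∀ p2 p1, η s ((B s ^ j) p2) ((A s ^ i) p1) = 0) := by
  have hfac : ∀ c, ∃ ζ : τ → P2 →ₗ[K] P1 →ₗ[K] K, c ∈ Λ →
      (∀ t p2 p1, η t p2 p1 + (θ c t p2 (A t p1) - c * θ c t (B t p2) p1) =
        ζ t p2 (A t p1) - c * ζ t (B t p2) p1) ∧
      (∀ t t' p2 p1, (p2 ∈ R2 ∨ p1 ∈ R1) → ζ t p2 p1 = ζ t' p2 p1) := by
    intro c
    by_cases hc : c ∈ Λ
    · obtain ⟨ζ, hζ⟩ := factor2 A B R1 R2 c η (θ c) (h c hc)
      exact ⟨ζ, fun _ => hζ⟩
    · exact ⟨0, fun h => absurd h hc⟩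
  choose ζ hζ using hfac
  have pA : ∀ p : P1, p ∈ ⨆ t, LinearMap.range (A t) := fun p => by rw [hA]; trivial
  have pB : ∀ p : P2, p ∈ ⨆ t, LinearMap.range (B t) := fun p => by rw [hB]; trivial
  -- positivity on `R2 ⊗ P1`
  have hpos : ∀ n k, n + k = m → ∀ r ∈ Dn B R2 k, ∀ t p1, Pos Λ (fun c => ζ c t r p1) := by
    intro n
    induction n with
    | zero =>
      intro k hk r hr t p1
      rw [zero_add] at hk
      rw [hk, n2] at hr
      have : r = 0 := hr
      refine (Pos.const 0).congr fun c _ => ?_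
      rw [this]; simp
    | succ n ih =>
      intro k hk r hr t p1
      refine Submodule.iSup_induction (fun t => LinearMap.range (A t))
        (motive := fun p1 => Pos Λ (fun c => ζ c t r p1)) (pA p1) ?_ ?_ ?_
      · rintro s _ ⟨p, rfl⟩
        have h1 := ih (k + 1) (by omega) (B s r) (apply_mem_Dn hr s) s p
        refine ((Pos.const (η s r p)).add h1.mul_self).congr fun c hc => ?_
        have hr2 : r ∈ R2 := Dn_le sR2 k hr
        have hBr : B s r ∈ R2 := Dn_le sR2 (k + 1) (apply_mem_Dn hr s)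
        have e1 := (hζ c hc).1 s r p
        rw [θ0 c hc s r hr2, θ0 c hc s _ hBr] at e1
        rw [(hζ c hc).2 t s r _ (Or.inl hr2)]
        linear_combination -e1
      · refine (Pos.const 0).congr fun c _ => ?_
        simp
      · intro x y hx hy
        refine (hx.add hy).congr fun c _ => ?_
        simp
  have hpos' : ∀ r ∈ R2, ∀ t p1, Pos Λ (fun c => ζ c t r p1) :=
    fun r hr => hpos m 0 rfl r hr
  -- negativity on `P2 ⊗ R1`
  have hneg : ∀ n k, n + k = m → ∀ r ∈ Dn A R1 k, ∀ t p2, Neg Λ (fun c => ζ c t p2 r) := by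
    intro n
    induction n with
    | zero =>
      intro k hk r hr t p2
      rw [zero_add] at hk
      rw [hk, n1] at hr
      have : r = 0 := hr
      refine Neg.zero.congr fun c _ => ?_
      rw [this]; simp
    | succ n ih =>
      intro k hk r hr t p2
      refine Submodule.iSup_induction (fun t => LinearMap.range (B t))
        (motive := fun p2 => Neg Λ (fun c => ζ c t p2 r)) (pB p2) ?_ ?_ ?_
      · rintro s _ ⟨p, rfl⟩
        have h1 := ih (k + 1) (by omega) (A s r) (apply_mem_Dn hr s) s p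
        refine (((h1.sub (θn s p (A s r))).inv_mul.sub (Neg.inv_const (η s p r))).add
          (θn s (B s p) r)).congr fun c hc => ?_
        have hr1 : r ∈ R1 := Dn_le sR1 k hr
        have hc0 : c ≠ 0 := fun h => h0 (h ▸ hc)
        have e1 := (hζ c hc).1 s p r
        have e2 : c⁻¹ * c = 1 := inv_mul_cancel₀ hc0
        rw [(hζ c hc).2 t s _ r (Or.inr hr1)]
        linear_combination (c⁻¹) * e1 + (- ζ c s (B s p) r + θ c s (B s p) r) * e2
      · refine Neg.zero.congr fun c _ => ?_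
        simp
      · intro x y hx hy
        refine (hx.add hy).congr fun c _ => ?_
        simp
  have hneg' : ∀ r ∈ R1, ∀ t p2, Neg Λ (fun c => ζ c t p2 r) :=
    fun r hr => hneg m 0 rfl r hr
  -- telescoping
  have htel : ∀ c ∈ Λ, ∀ s n p2 p1,
      ∑ j ∈ Finset.range n, c ^ j * η s ((B s ^ j) p2) ((A s ^ (n - 1 - j)) p1) =
        (ζ c s p2 ((A s ^ n) p1) - θ c s p2 ((A s ^ n) p1)) -
        c ^ n * (ζ c s ((B s ^ n) p2) p1 - θ c s ((B s ^ n) p2) p1) := by
    intro c hc s n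
    induction n with
    | zero => intro p2 p1; simp
    | succ n ih =>
      intro p2 p1
      rw [Finset.sum_range_succ]
      have e1 : ∑ j ∈ Finset.range n,
          c ^ j * η s ((B s ^ j) p2) ((A s ^ (n + 1 - 1 - j)) p1) =
          ∑ j ∈ Finset.range n,
          c ^ j * η s ((B s ^ j) p2) ((A s ^ (n - 1 - j)) (A s p1)) := by
        refine Finset.sum_congr rfl fun j hj => ?_
        have hj' := Finset.mem_range.1 hj
        have e : n + 1 - 1 - j = (n - 1 - j) + 1 := by omega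
        rw [e, pow_succ]
        rfl
      rw [e1, ih p2 (A s p1)]
      have e2 := (hζ c hc).1 s ((B s ^ n) p2) p1
      have e3 : n + 1 - 1 - n = 0 := by omega
      have e4 : (A s ^ n) (A s p1) = (A s ^ (n + 1)) p1 := by rw [pow_succ]; rfl
      have e5 : B s ((B s ^ n) p2) = (B s ^ (n + 1)) p2 := by rw [pow_succ']; rfl
      rw [e3, pow_zero, e4]
      rw [e5] at e2
      simp only [Module.End.one_apply]
      linear_combination (c ^ n) * e2
  have hsep : ∀ s p2 p1, (∀ j < l s, η s ((B s ^ j) p2) ((A s ^ (l s - 1 - j)) p1) = 0) ∧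
      ∀ c ∈ Λ, ζ c s ((B s ^ l s) p2) p1 = 0 := by
    intro s p2 p1
    refine sep_sum hΛ h0 (l s) (fun j => η s ((B s ^ j) p2) ((A s ^ (l s - 1 - j)) p1))
      ((hneg' _ (l1 s p1) s p2).sub (θn s p2 ((A s ^ l s) p1)))
      (hpos' _ (l2 s p2) s p1) fun c hc => ?_
    rw [htel c hc s (l s) p2 p1, θ0 c hc s _ (l2 s p2), sub_zero]
  -- the submodule killed by all `ζ`
  let X : Submodule K P2 :=
    { carrier := {r | r ∈ R2 ∧ ∀ c ∈ Λ, ∀ t p1, ζ c t r p1 = 0}
      add_mem' := fun {a b} ha hb => ⟨R2.add_mem ha.1 hb.1, fun c hc t p1 => by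
        rw [map_add, LinearMap.add_apply, ha.2 c hc, hb.2 c hc, add_zero]⟩
      zero_mem' := ⟨R2.zero_mem, fun c hc t p1 => by simp⟩
      smul_mem' := fun k a ha => ⟨R2.smul_mem k ha.1, fun c hc t p1 => by
        rw [map_smul, LinearMap.smul_apply, ha.2 c hc, smul_zero]⟩ }
  have hX : ∀ r ∈ X, ∀ t p1, η t r p1 = 0 ∧ ∀ c ∈ Λ, ζ c t (B t r) p1 = 0 := by
    intro r hr t p1
    have hBr : B t r ∈ R2 := sR2 t (Submodule.mem_map_of_mem hr.1)
    have h1 : Pos Λ (fun c => - ζ c t (B t r) p1) := by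
      obtain ⟨f, hf⟩ := hpos' _ hBr t p1
      exact ⟨-f, fun c hc => by simp [hf c hc]⟩
    obtain ⟨h2, h3⟩ := sep_const hΛ h0 (a := η t r p1) h1 fun c hc => by
      have e1 := (hζ c hc).1 t r p1
      rw [θ0 c hc t r hr.1, θ0 c hc t _ hBr, hr.2 c hc] at e1
      linear_combination e1
    exact ⟨h2, fun c hc => neg_eq_zero.1 (h3 c hc)⟩
  have hRX : R2 ≤ X := by
    refine gen2 X (fun t => ?_) fun s p => ⟨l2 s p, fun c hc t p1 => ?_⟩
    · rintro _ ⟨r, hr, rfl⟩
      have hBr : B t r ∈ R2 := sR2 t (Submodule.mem_map_of_mem hr.1)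
      refine ⟨hBr, fun c hc t' p1 => ?_⟩
      rw [(hζ c hc).2 t' t _ _ (Or.inl hBr)]
      exact (hX r hr t p1).2 c hc
    · rw [(hζ c hc).2 t s _ _ (Or.inl (l2 s p))]
      exact (hsep s p p1).2 c hc
  refine ⟨fun t r hr p => (hX r (hRX hr) t p).1, fun s i j hij p2 p1 => ?_⟩
  have := (hsep s p2 p1).1 j (by omega)
  have e : l s - 1 - j = i := by omega
  rwa [e] at this

/-! ### functionals of the correction -/

/-- a functional of the correction which is a Laurent functional of the defects. -/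
def Good [Fintype τ] (A : τ → Module.End K P1) (B : τ → Module.End K P2)
    (R1 : Submodule K P1) (R2 : Submodule K P2) (g : P2 →ₗ[K] P2 →ₗ[K] K) (Λ : Set K)
    (Θ : (P2 →ₗ[K] P1) → K) : Prop :=
  ∃ θ : K → τ → P2 →ₗ[K] P1 →ₗ[K] K,
    (∀ c ∈ Λ, ∀ t, ∀ r ∈ R2, ∀ p, θ c t r p = 0) ∧
    (∀ t p2 p1, Neg Λ (fun c => θ c t p2 p1)) ∧
    ∀ c ∈ Λ, ∀ x β, Cor A B R1 g c x β →
      Θ β = ∑ t, TensorProduct.lift (θ c t) (D A B c t (x t))

lemma lift_add_apply (a b : P2 →ₗ[K] P1 →ₗ[K] E) (z : P2 ⊗[K] P1) :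
    TensorProduct.lift (a + b) z = TensorProduct.lift a z + TensorProduct.lift b z := by
  induction z using TensorProduct.induction_on with
  | zero => simp
  | tmul x y => simp
  | add x y hx hy => rw [map_add, hx, hy, map_add, map_add]; abel

lemma lift_sub_apply (a b : P2 →ₗ[K] P1 →ₗ[K] E) (z : P2 ⊗[K] P1) :
    TensorProduct.lift (a - b) z = TensorProduct.lift a z - TensorProduct.lift b z := by
  induction z using TensorProduct.induction_on with
  | zero => simp
  | tmul x y => simp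
  | add x y hx hy => rw [map_add, hx, hy, map_add, map_add]; abel

lemma lift_smul_apply (k : K) (a : P2 →ₗ[K] P1 →ₗ[K] K) (z : P2 ⊗[K] P1) :
    TensorProduct.lift (k • a) z = k * TensorProduct.lift a z := by
  induction z using TensorProduct.induction_on with
  | zero => simp
  | tmul x y => simp
  | add x y hx hy => rw [map_add, hx, hy, map_add, mul_add]

lemma lift_zero_apply (z : P2 ⊗[K] P1) :
    TensorProduct.lift (0 : P2 →ₗ[K] P1 →ₗ[K] E) z = 0 := by
  induction z using TensorProduct.induction_on with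
  | zero => simp
  | tmul x y => simp
  | add x y hx hy => rw [map_add, hx, hy, add_zero]

lemma ev_D (A : τ → Module.End K P1) (B : τ → Module.End K P2)
    {g : P2 →ₗ[K] P2 →ₗ[K] K} (hgB : ∀ t p p', g (B t p) p' = g p (B t p')) (c : K) (t : τ)
    (z : P2 ⊗[K] P1) (p : P2) :
    ev g (D A B c t z) p = A t (ev g z p) - c • ev g z (B t p) := by
  induction z using TensorProduct.induction_on with
  | zero => simp
  | tmul x y => simp [hgB, smul_smul]
  | add x y hx hy =>
    rw [map_add, map_add, LinearMap.add_apply, hx, hy, map_add, LinearMap.add_apply,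
      LinearMap.add_apply, map_add, smul_add]
    abel

section Good

variable [Fintype τ] {A : τ → Module.End K P1} {B : τ → Module.End K P2}
  {R1 : Submodule K P1} {R2 : Submodule K P2} {g : P2 →ₗ[K] P2 →ₗ[K] K} {Λ : Set K}

lemma Good.congr {Θ Θ' : (P2 →ₗ[K] P1) → K} (h : Good A B R1 R2 g Λ Θ)
    (e : ∀ c ∈ Λ, ∀ x β, Cor A B R1 g c x β → Θ' β = Θ β) : Good A B R1 R2 g Λ Θ' := by
  obtain ⟨θ, h1, h2, h3⟩ := h
  exact ⟨θ, h1, h2, fun c hc x β hβ => (e c hc x β hβ).trans (h3 c hc x β hβ)⟩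

lemma Good.zero : Good A B R1 R2 g Λ (fun _ => 0) :=
  ⟨fun _ _ => 0, fun c _ t r _ p => by simp, fun t p2 p1 => Neg.zero.congr fun c _ => by simp,
    fun c _ x β _ => by simp [lift_zero_apply]⟩

lemma Good.add {Θ Θ' : (P2 →ₗ[K] P1) → K} (h : Good A B R1 R2 g Λ Θ)
    (h' : Good A B R1 R2 g Λ Θ') : Good A B R1 R2 g Λ (fun β => Θ β + Θ' β) := by
  obtain ⟨θ, h1, h2, h3⟩ := h
  obtain ⟨θ', h1', h2', h3'⟩ := h'
  refine ⟨fun c t => θ c t + θ' c t, fun c hc t r hr p => ?_, fun t p2 p1 => ?_,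
    fun c hc x β hβ => ?_⟩
  · simp [h1 c hc t r hr p, h1' c hc t r hr p]
  · exact ((h2 t p2 p1).add (h2' t p2 p1)).congr fun c _ => by simp
  · show Θ β + Θ' β = _
    rw [h3 c hc x β hβ, h3' c hc x β hβ, ← Finset.sum_add_distrib]
    exact Finset.sum_congr rfl fun t _ => (lift_add_apply _ _ _).symm

lemma Good.point (hB : ⨆ t, LinearMap.range (B t) = ⊤)
    (hg1 : ∀ r ∈ R2, ∀ p, g r p = 0)
    (hgB : ∀ t p p', g (B t p) p' = g p (B t p')) (h0 : (0 : K) ∉ Λ) :
    ∀ n, ∀ ξ : P1 →ₗ[K] K, (∀ r ∈ Dn A R1 n, ξ r = 0) → ∀ p : P2,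
      Good A B R1 R2 g Λ (fun β => ξ (β p)) := by
  classical
  have pB : ∀ p : P2, p ∈ ⨆ t, LinearMap.range (B t) := fun p => by rw [hB]; trivial
  intro n
  induction n with
  | zero =>
    intro ξ hξ p
    exact Good.zero.congr fun c hc x β hβ => hξ _ (hβ.mem p)
  | succ n ih =>
    intro ξ hξ p
    refine Submodule.iSup_induction (fun t => LinearMap.range (B t))
      (motive := fun p => Good A B R1 R2 g Λ (fun β => ξ (β p))) (pB p) ?_ ?_ ?_
    · rintro s _ ⟨p, rfl⟩
      obtain ⟨θ, h1, h2, h3⟩ := ih (ξ ∘ₗ A s)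
        (fun r hr => hξ _ (apply_mem_Dn hr s)) p
      refine ⟨fun c t => c⁻¹ • θ c t - (if t = s then c⁻¹ • (g.flip p).smulRight ξ else 0),
        fun c hc t r hr p' => ?_, fun t p2 p1 => ?_, fun c hc x β hβ => ?_⟩
      · by_cases ht : t = s
        · simp [ht, h1 c hc s r hr p', hg1 r hr p]
        · simp [ht, h1 c hc t r hr p']
      · by_cases ht : t = s
        · refine ((h2 t p2 p1).inv_mul.sub
            (Neg.inv_const (g p2 p * ξ p1))).congr fun c _ => ?_
          simp [ht]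
        · refine (h2 t p2 p1).inv_mul.congr fun c _ => ?_
          simp [ht]
      · have hc0 : c ≠ 0 := fun h => h0 (h ▸ hc)
        have e1 := hβ.eq s p
        rw [← ev_D A B hgB] at e1
        have e2 := congrArg ξ e1
        rw [map_sub, map_smul, smul_eq_mul] at e2
        have e3 := h3 c hc x β hβ
        simp only [LinearMap.comp_apply] at e3
        have e4 : ξ (ev g (D A B c s (x s)) p) =
            TensorProduct.lift ((g.flip p).smulRight ξ) (D A B c s (x s)) := by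
          generalize D A B c s (x s) = z
          induction z using TensorProduct.induction_on with
          | zero => simp
          | tmul x y => simp
          | add x y hx hy => rw [map_add, LinearMap.add_apply, map_add, hx, hy, map_add]
        have e5 : ∑ t, TensorProduct.lift (c⁻¹ • θ c t -
            (if t = s then c⁻¹ • (g.flip p).smulRight ξ else 0)) (D A B c t (x t)) =
            c⁻¹ * (∑ t, TensorProduct.lift (θ c t) (D A B c t (x t))) -
            c⁻¹ * TensorProduct.lift ((g.flip p).smulRight ξ) (D A B c s (x s)) := by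
          rw [Finset.mul_sum]
          simp only [lift_sub_apply, lift_smul_apply, Finset.sum_sub_distrib]
          congr 1
          rw [Finset.sum_eq_single s]
          · rw [if_pos rfl, lift_smul_apply]
          · intro t _ ht
            rw [if_neg ht, lift_zero_apply]
          · intro h
            exact absurd (Finset.mem_univ s) h
        simp only
        rw [e5, ← e3, ← e4]
        have e6 : c⁻¹ * c = 1 := inv_mul_cancel₀ hc0
        linear_combination (-c⁻¹) * e2 - ξ (β (B s p)) * e6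
    · exact Good.zero.congr fun c _ x β _ => by simp
    · intro x y hx hy
      exact (hx.add hy).congr fun c _ x β _ => by simp

lemma Good.sum {ι : Type*} (S : Finset ι) {Θ : ι → (P2 →ₗ[K] P1) → K}
    (h : ∀ i ∈ S, Good A B R1 R2 g Λ (Θ i)) :
    Good A B R1 R2 g Λ (fun β => ∑ i ∈ S, Θ i β) := by
  classical
  induction S using Finset.induction_on with
  | empty => exact Good.zero.congr fun c _ x β _ => by simp
  | insert a S ha ih =>
    have h1 := h a (Finset.mem_insert_self a S)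
    have h2 := ih fun i hi => h i (Finset.mem_insert_of_mem hi)
    exact (h1.add h2).congr fun c _ x β _ => by rw [Finset.sum_insert ha]

end Good

/-! ### the data -/

/-- the standing hypotheses. -/
structure Hyp (A : τ → Module.End K P1) (B : τ → Module.End K P2) (R1 : Submodule K P1)
    (R2 : Submodule K P2) (m : ℕ) (l : τ → ℕ) (g : P2 →ₗ[K] P2 →ₗ[K] K) (Λ : Set K) :
    Prop where
  hA : ⨆ t, LinearMap.range (A t) = ⊤
  hB : ⨆ t, LinearMap.range (B t) = ⊤
  sR1 : ∀ t, R1.map (A t) ≤ R1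
  sR2 : ∀ t, R2.map (B t) ≤ R2
  n1 : Dn A R1 m = ⊥
  n2 : Dn B R2 m = ⊥
  lpos : ∀ s, 0 < l s
  l1 : ∀ s p, (A s ^ l s) p ∈ R1
  l2 : ∀ s p, (B s ^ l s) p ∈ R2
  gen1 : ∀ X : Submodule K P1, (∀ t, X.map (A t) ≤ X) → (∀ s p, (A s ^ l s) p ∈ X) → R1 ≤ X
  gen2 : ∀ X : Submodule K P2, (∀ t, X.map (B t) ≤ X) → (∀ s p, (B s ^ l s) p ∈ X) → R2 ≤ X
  symm : ∀ p p', g p p' = g p' p
  rad : ∀ r ∈ R2, ∀ p, g r p = 0
  adj : ∀ t p p', g (B t p) p' = g p (B t p')
  ne : ∀ s, ∃ p p', g ((B s ^ (l s - 1)) p) p' ≠ 0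
  inf : Λ.Infinite
  zero : (0 : K) ∉ Λ

section Main

variable [Fintype τ] {A : τ → Module.End K P1} {B : τ → Module.End K P2}
  {R1 : Submodule K P1} {R2 : Submodule K P2} {m : ℕ} {l : τ → ℕ}
  {g : P2 →ₗ[K] P2 →ₗ[K] K} {Λ : Set K}

/-- the span of the exact families (functional form, no correction). -/
theorem Hyp.key0 (H : Hyp A B R1 R2 m l g Λ) (η : τ → P2 →ₗ[K] P1 →ₗ[K] K)
    (h : ∀ c ∈ Λ, ∀ x, Ex A B R1 R2 c x → ∑ t, TensorProduct.lift (η t) (x t) = 0) :
    (∀ t, ∀ r ∈ R2, ∀ p, η t r p = 0) ∧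
    (∀ s i j, i + j + 1 = l s → ∀ p2 p1, η s ((B s ^ j) p2) ((A s ^ i) p1) = 0) :=
  key H.hA H.hB H.sR1 H.sR2 H.n1 H.n2 H.l1 H.l2 H.gen2 H.inf H.zero η (fun _ _ => 0)
    (fun c _ t r _ p => by simp) (fun t p2 p1 => Neg.zero.congr fun c _ => by simp)
    (fun c hc x hx => by simpa [lift_zero_apply] using h c hc x hx)

omit [Fintype τ] in
lemma swap (H : Hyp A B R1 R2 m l g Λ) (f : P1 →ₗ[K] P1 →ₗ[K] K) (x x' : P2 ⊗[K] P1) :
    TensorProduct.lift (f ∘ₗ ev g x) x' = TensorProduct.lift (f.flip ∘ₗ ev g x') x := by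
  induction x using TensorProduct.induction_on with
  | zero => simp [lift_zero_apply]
  | tmul p2 p1 =>
    induction x' using TensorProduct.induction_on with
    | zero => simp [lift_zero_apply]
    | tmul q2 q1 => simp [H.symm q2 p2]
    | add a b ha hb =>
      rw [map_add, ha, hb, map_add, LinearMap.comp_add, lift_add_apply]
  | add a b ha hb =>
    rw [map_add, LinearMap.comp_add, lift_add_apply, ha, hb, map_add]

/-- step 1: the radical values of the corrections. -/
theorem Hyp.step1 (H : Hyp A B R1 R2 m l g Λ) (f : τ → P1 →ₗ[K] P1 →ₗ[K] K)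
    (hex : ∀ c ∈ Λ, ∀ x, Ex A B R1 R2 c x → ∃ β, Cor A B R1 g c x β)
    {x' : τ → P2 ⊗[K] P1} {β' : P2 →ₗ[K] P1}
    (hrel : ∀ c ∈ Λ, ∀ x β, Ex A B R1 R2 c x → Cor A B R1 g c x β →
      ∑ t, (TensorProduct.lift ((f t) ∘ₗ (β' - ev g (x' t))) (x t) +
        TensorProduct.lift ((f t).flip ∘ₗ β) (x' t)) = 0) :
    ∀ t, ∀ r ∈ R2, ∀ p, f t (β' r) p = 0 := by
  have hgood : Good A B R1 R2 g Λ
      (fun β => ∑ t, TensorProduct.lift ((f t).flip ∘ₗ β) (x' t)) := by
    refine Good.sum _ fun t _ => ?_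
    generalize x' t = z
    induction z using TensorProduct.induction_on with
    | zero => exact Good.zero.congr fun c _ x β _ => by simp
    | tmul p2 p1 =>
      refine (Good.point (R1 := R1) H.hB H.rad H.adj H.zero m (f t p1) (fun r hr => ?_)
        p2).congr fun c _ x β _ => by simp
      rw [H.n1] at hr
      have : r = 0 := hr
      rw [this, map_zero]
    | add a b ha hb => exact (ha.add hb).congr fun c _ x β _ => by simp
  obtain ⟨θ, h1, h2, h3⟩ := hgood
  have hk := (key H.hA H.hB H.sR1 H.sR2 H.n1 H.n2 H.l1 H.l2 H.gen2 H.inf H.zero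
    (fun t => (f t) ∘ₗ (β' - ev g (x' t))) θ h1 h2 (fun c hc x hx => by
      obtain ⟨β, hβ⟩ := hex c hc x hx
      have e1 := hrel c hc x β hx hβ
      rw [Finset.sum_add_distrib] at e1 ⊢
      rw [← h3 c hc x β hβ]
      exact e1)).1
  intro t r hr p
  have e1 := hk t r hr p
  have e2 : ev g (x' t) r = 0 := by
    generalize x' t = z
    induction z using TensorProduct.induction_on with
    | zero => simp
    | tmul p2 p1 => simp [H.symm p2 r, H.rad r hr p2]
    | add a b ha hb => rw [map_add, LinearMap.add_apply, ha, hb, add_zero]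
  simpa [e2] using e1

/-- step 2: Nakayama. -/
theorem Hyp.step2 (H : Hyp A B R1 R2 m l g Λ)
    (hex : ∀ c ∈ Λ, ∀ x, Ex A B R1 R2 c x → ∃ β, Cor A B R1 g c x β)
    (Y : Submodule K P1)
    (hY : ∀ c ∈ Λ, ∀ x β, Ex A B R1 R2 c x → Cor A B R1 g c x β → ∀ r ∈ R2, β r ∈ Y) :
    R1 ≤ Y := by
  classical
  set Z : Submodule K P1 := Submodule.span K
    {z | ∃ c ∈ Λ, ∃ x β, Ex A B R1 R2 c x ∧ Cor A B R1 g c x β ∧ ∃ r ∈ R2, z = β r} with hZ
  have hZY : Z ≤ Y := by
    rw [hZ, Submodule.span_le]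
    rintro _ ⟨c, hc, x, β, hx, hβ, r, hr, rfl⟩
    exact hY c hc x β hx hβ r hr
  have ev0 : ∀ z : P2 ⊗[K] P1, ∀ r ∈ R2, ev g z r = 0 := by
    intro z r hr
    induction z using TensorProduct.induction_on with
    | zero => simp
    | tmul p2 p1 => simp [H.symm p2 r, H.rad r hr p2]
    | add a b ha hb => rw [map_add, LinearMap.add_apply, ha, hb, add_zero]
  have hZs : ∀ t, Z.map (A t) ≤ Z := by
    intro t
    rw [hZ, Submodule.map_span, Submodule.span_le]
    rintro _ ⟨_, ⟨c, hc, x, β, hx, hβ, r, hr, rfl⟩, rfl⟩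
    have hBr : B t r ∈ R2 := H.sR2 t (Submodule.mem_map_of_mem hr)
    have e1 := hβ.eq t r
    rw [ev0 _ r hr, ev0 _ _ hBr, map_zero, smul_zero, sub_zero, sub_eq_zero] at e1
    rw [e1]
    exact Submodule.smul_mem _ c (Submodule.subset_span ⟨c, hc, x, β, hx, hβ, _, hBr, rfl⟩)
  have hgen : ∀ s p, (A s ^ l s) p ∈ Z ⊔ Dn A R1 1 := by
    intro s p
    by_contra hcon
    obtain ⟨ξ, hξ, hker⟩ := Submodule.exists_le_ker_of_notMem hcon
    have kZ : ∀ z ∈ Z, ξ z = 0 := fun z hz => hker (Submodule.mem_sup_left hz)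
    have kD : ∀ z ∈ Dn A R1 1, ξ z = 0 := fun z hz => hker (Submodule.mem_sup_right hz)
    obtain ⟨p2, p2', hne⟩ := H.ne s
    have hk := (H.key0 (fun t => if t = s then (g.flip p2').smulRight (ξ ∘ₗ (A s ^ l s)) else 0)
      (fun c hc x hx => by
        obtain ⟨β, hβ⟩ := hex c hc x hx
        rw [Finset.sum_eq_single s]
        · rw [if_pos rfl]
          have e4 : TensorProduct.lift ((g.flip p2').smulRight (ξ ∘ₗ (A s ^ l s))) (x s) =
              ξ ((A s ^ l s) (ev g (x s) p2')) := by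
            generalize x s = z
            induction z using TensorProduct.induction_on with
            | zero => simp
            | tmul x y => simp
            | add x y hx hy =>
              rw [map_add, hx, hy, map_add, LinearMap.add_apply, map_add, map_add]
          rw [e4]
          have e5 : ∀ n q, (A s ^ n) (β q - ev g (x s) q) =
              c ^ n • (β ((B s ^ n) q) - ev g (x s) ((B s ^ n) q)) := by
            intro n
            induction n with
            | zero => intro q; simp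
            | succ n ih =>
              intro q
              have e6 : A s (β q - ev g (x s) q) =
                  c • (β (B s q) - ev g (x s) (B s q)) := by
                have := hβ.eq s q
                rw [map_sub, smul_sub]
                rw [sub_eq_iff_eq_add] at this ⊢
                rw [this]
                abel
              have e7 : (A s ^ (n + 1)) (β q - ev g (x s) q) =
                  (A s ^ n) (A s (β q - ev g (x s) q)) := by rw [pow_succ]; rfl
              have e8 : (B s ^ n) (B s q) = (B s ^ (n + 1)) q := by rw [pow_succ]; rfl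
              rw [e7, e6, map_smul, ih, smul_smul, e8, ← pow_succ']
          have e9 := e5 (l s) p2'
          rw [ev0 _ _ (H.l2 s p2'), sub_zero, map_sub] at e9
          have e10 := congrArg ξ e9
          have hl : l s = (l s - 1) + 1 := (Nat.succ_pred_eq_of_pos (H.lpos s)).symm
          have e11 : (A s ^ l s) (β p2') ∈ Dn A R1 1 := by
            rw [hl, pow_succ']
            have h1 : ∀ n, (A s ^ n) (β p2') ∈ R1 := by
              intro n
              induction n with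
              | zero => simpa using hβ.mem p2'
              | succ n ih =>
                rw [pow_succ']
                exact H.sR1 s (Submodule.mem_map_of_mem ih)
            exact apply_mem_Dn (A := A) (R := R1) (n := 0) (h1 (l s - 1)) s
          have e12 : ξ (β ((B s ^ l s) p2')) = 0 :=
            kZ _ (Submodule.subset_span ⟨c, hc, x, β, hx, hβ, _, H.l2 s p2', rfl⟩)
          rw [map_sub, map_smul, e12, smul_zero, kD _ e11, zero_sub, neg_eq_zero] at e10
          exact e10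
        · intro t _ ht
          rw [if_neg ht, lift_zero_apply]
        · intro h
          exact absurd (Finset.mem_univ s) h)).2 s 0 (l s - 1) (by have := H.lpos s; omega) p2 p
    rw [if_pos rfl] at hk
    simp only [LinearMap.smulRight_apply, LinearMap.flip_apply, LinearMap.smul_apply,
      smul_eq_mul, LinearMap.comp_apply, pow_zero, Module.End.one_apply] at hk
    rcases mul_eq_zero.1 hk with h | h
    · exact hne h
    · exact hξ h
  have hsup : ∀ n, R1 ≤ Z ⊔ Dn A R1 n := by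
    have hD : ∀ n, Dn A R1 n ≤ Z ⊔ Dn A R1 (n + 1) := by
      intro n
      induction n with
      | zero =>
        refine H.gen1 _ (fun t => ?_) hgen
        rw [Submodule.map_sup]
        refine sup_le_sup (hZs t) ?_
        refine (le_iSup (fun t => (Dn A R1 1).map (A t)) t).trans ?_
        exact Dn_anti H.sR1 1
      | succ n ih =>
        refine iSup_le fun t => ?_
        refine (Submodule.map_mono ih).trans ?_
        rw [Submodule.map_sup]
        exact sup_le_sup (hZs t) (le_iSup (fun t => (Dn A R1 (n + 1)).map (A t)) t)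
    intro n
    induction n with
    | zero => exact le_sup_right
    | succ n ih => exact ih.trans (sup_le le_sup_left (hD n))
  have := hsup m
  rw [H.n1, sup_bot_eq] at this
  exact this.trans hZY

/-- the relation of the second derivatives, functional form. -/
def Rel (A : τ → Module.End K P1) (B : τ → Module.End K P2) (R1 : Submodule K P1)
    (R2 : Submodule K P2) (g : P2 →ₗ[K] P2 →ₗ[K] K) (Λ : Set K)
    (f : τ → P1 →ₗ[K] P1 →ₗ[K] K) : Prop :=
  ∀ c ∈ Λ, ∀ c' ∈ Λ, ∀ x β x' β', Ex A B R1 R2 c x → Cor A B R1 g c x β →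
    Ex A B R1 R2 c' x' → Cor A B R1 g c' x' β' →
      ∑ t, (TensorProduct.lift ((f t) ∘ₗ (β' - ev g (x' t))) (x t) +
        TensorProduct.lift ((f t).flip ∘ₗ β) (x' t)) = 0

lemma Rel.flip (H : Hyp A B R1 R2 m l g Λ) {f : τ → P1 →ₗ[K] P1 →ₗ[K] K}
    (h : Rel A B R1 R2 g Λ f) : Rel A B R1 R2 g Λ (fun t => (f t).flip) := by
  intro c hc c' hc' x β x' β' hx hβ hx' hβ'
  have e := h c' hc' c hc x' β' x β hx' hβ' hx hβ
  rw [← e]
  refine Finset.sum_congr rfl fun t _ => ?_
  rw [LinearMap.comp_sub, lift_sub_apply, LinearMap.comp_sub, lift_sub_apply,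
    swap H (f t) (x t) (x' t)]
  have : (f t).flip.flip = f t := by ext; rfl
  rw [this]
  abel

theorem Hyp.left (H : Hyp A B R1 R2 m l g Λ) {f : τ → P1 →ₗ[K] P1 →ₗ[K] K}
    (hex : ∀ c ∈ Λ, ∀ x, Ex A B R1 R2 c x → ∃ β, Cor A B R1 g c x β)
    (h : Rel A B R1 R2 g Λ f) : ∀ t, ∀ r ∈ R1, ∀ p, f t r p = 0 := by
  intro t r hr p
  have := H.step2 hex (LinearMap.ker ((f t).flip p)) (fun c' hc' x' β' hx' hβ' r hr => by
    rw [LinearMap.mem_ker, LinearMap.flip_apply]
    exact H.step1 f hex (x' := x') (β' := β')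
      (fun c hc x β hx hβ => h c hc c' hc' x β x' β' hx hβ hx' hβ') t r hr p) hr
  simpa using this

theorem Hyp.right (H : Hyp A B R1 R2 m l g Λ) {f : τ → P1 →ₗ[K] P1 →ₗ[K] K}
    (hex : ∀ c ∈ Λ, ∀ x, Ex A B R1 R2 c x → ∃ β, Cor A B R1 g c x β)
    (h : Rel A B R1 R2 g Λ f) : ∀ t, ∀ r ∈ R1, ∀ p, f t p r = 0 :=
  fun t r hr p => H.left hex (h.flip H) t r hr p

theorem Hyp.prod (H : Hyp A B R1 R2 m l g Λ) {f : τ → P1 →ₗ[K] P1 →ₗ[K] K}
    (hex : ∀ c ∈ Λ, ∀ x, Ex A B R1 R2 c x → ∃ β, Cor A B R1 g c x β)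
    (h : Rel A B R1 R2 g Λ f) : ∀ s i j, i + j + 1 = l s → ∀ p p',
      f s ((A s ^ i) p) ((A s ^ j) p') = 0 := by
  classical
  have hl := H.left hex h
  have hr := H.right hex h
  have h1 : ∀ c ∈ Λ, ∀ c' ∈ Λ, ∀ x x', Ex A B R1 R2 c x → Ex A B R1 R2 c' x' →
      ∑ t, TensorProduct.lift ((f t) ∘ₗ (ev g (x' t))) (x t) = 0 := by
    intro c hc c' hc' x x' hx hx'
    obtain ⟨β, hβ⟩ := hex c hc x hx
    obtain ⟨β', hβ'⟩ := hex c' hc' x' hx'
    have e := h c hc c' hc' x β x' β' hx hβ hx' hβ'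
    rw [← neg_eq_zero, ← Finset.sum_neg_distrib, ← e]
    refine Finset.sum_congr rfl fun t _ => ?_
    have e1 : (f t) ∘ₗ β' = 0 := by
      ext p q
      exact hl t _ (hβ'.mem p) q
    have e2 : (f t).flip ∘ₗ β = 0 := by
      ext p q
      exact hr t _ (hβ.mem p) q
    rw [LinearMap.comp_sub, lift_sub_apply, e1, e2, lift_zero_apply, lift_zero_apply]
    abel
  intro s i j hij p p'
  obtain ⟨p2, p2', hne⟩ := H.ne s
  -- first in `x`
  have h2 : ∀ c' ∈ Λ, ∀ x', Ex A B R1 R2 c' x' →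
      f s (ev g (x' s) ((B s ^ i) p2')) ((A s ^ j) p') = 0 := by
    intro c' hc' x' hx'
    exact (H.key0 (fun t => (f t) ∘ₗ (ev g (x' t)))
      (fun c hc x hx => h1 c hc c' hc' x x' hx hx')).2 s j i (by omega) p2' p'
  have h3 := (H.key0 (fun t => if t = s then
      (g.flip ((B s ^ i) p2')).smulRight ((f s).flip ((A s ^ j) p')) else 0)
    (fun c hc x hx => by
      rw [Finset.sum_eq_single s]
      · rw [if_pos rfl, ← h2 c hc x hx]
        generalize x s = z
        induction z using TensorProduct.induction_on with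
        | zero => simp
        | tmul x y => simp
        | add x y hx hy =>
          rw [map_add, hx, hy, map_add, LinearMap.add_apply, map_add, LinearMap.add_apply]
      · intro t _ ht
        rw [if_neg ht, lift_zero_apply]
      · intro h
        exact absurd (Finset.mem_univ s) h)).2 s i j hij p2 p
  rw [if_pos rfl] at h3
  simp only [LinearMap.smulRight_apply, LinearMap.flip_apply, LinearMap.smul_apply,
      smul_eq_mul] at h3
  have e1 : g ((B s ^ j) p2) ((B s ^ i) p2') = g ((B s ^ (l s - 1)) p2) p2' := by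
    have e2 : ∀ n q q', g ((B s ^ n) q) q' = g q ((B s ^ n) q') := by
      intro n
      induction n with
      | zero => intro q q'; simp
      | succ n ih =>
        intro q q'
        have e3 : (B s ^ (n + 1)) q = B s ((B s ^ n) q) := by rw [pow_succ']; rfl
        have e4 : (B s ^ (n + 1)) q' = (B s ^ n) (B s q') := by rw [pow_succ]; rfl
        rw [e3, H.adj, ih, e4]
    rw [← e2]
    have e5 : (B s ^ i) ((B s ^ j) p2) = (B s ^ (l s - 1)) p2 := by
      have : l s - 1 = i + j := by omega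
      rw [this, pow_add]
      rfl
    rw [e5]
  rw [e1] at h3
  exact (mul_eq_zero.1 h3).resolve_left hne

end Main

/-- **Main theorem.** The second derivatives span everything. -/
theorem main [Fintype τ] {A : τ → Module.End K P1} {B : τ → Module.End K P2}
    {R1 : Submodule K P1} {R2 : Submodule K P2} {m : ℕ} {l : τ → ℕ}
    {g : P2 →ₗ[K] P2 →ₗ[K] K} {Λ : Set K} (H : Hyp A B R1 R2 m l g Λ)
    (q : τ → P1 →ₗ[K] P1 →ₗ[K] E) (Q : Submodule K E)
    (hex : ∀ c ∈ Λ, ∀ x, Ex A B R1 R2 c x → ∃ β, Cor A B R1 g c x β)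
    (hrel : ∀ c ∈ Λ, ∀ c' ∈ Λ, ∀ x β x' β', Ex A B R1 R2 c x → Cor A B R1 g c x β →
      Ex A B R1 R2 c' x' → Cor A B R1 g c' x' β' →
      ∑ t, (TensorProduct.lift ((q t) ∘ₗ (β' - ev g (x' t))) (x t) +
        TensorProduct.lift ((q t).flip ∘ₗ β) (x' t)) ∈ Q) :
    (∀ t, ∀ r ∈ R1, ∀ p, q t r p ∈ Q ∧ q t p r ∈ Q) ∧
    (∀ s i j, i + j + 1 = l s → ∀ p p', q s ((A s ^ i) p) ((A s ^ j) p') ∈ Q) := by
  have hf : ∀ φ : E →ₗ[K] K, Q ≤ LinearMap.ker φ →
      Rel A B R1 R2 g Λ (fun t => (q t).compr₂ φ) := by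
    intro φ hφ c hc c' hc' x β x' β' hx hβ hx' hβ'
    have e := hφ (hrel c hc c' hc' x β x' β' hx hβ hx' hβ')
    rw [LinearMap.mem_ker, map_sum] at e
    rw [← e]
    refine Finset.sum_congr rfl fun t _ => ?_
    rw [map_add]
    congr 1
    · generalize x t = z
      induction z using TensorProduct.induction_on with
      | zero => simp
      | tmul a b => simp
      | add a b ha hb => rw [map_add, ha, hb, map_add, map_add]
    · generalize x' t = z
      induction z using TensorProduct.induction_on with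
      | zero => simp
      | tmul a b => simp
      | add a b ha hb => rw [map_add, ha, hb, map_add, map_add]
  have hmem : ∀ v : E, (∀ φ : E →ₗ[K] K, Q ≤ LinearMap.ker φ → φ v = 0) → v ∈ Q := by
    intro v hv
    by_contra hcon
    obtain ⟨φ, h1, h2⟩ := Submodule.exists_le_ker_of_notMem hcon
    exact h1 (hv φ h2)
  refine ⟨fun t r hr p => ⟨hmem _ fun φ hφ => ?_, hmem _ fun φ hφ => ?_⟩,
    fun s i j hij p p' => hmem _ fun φ hφ => ?_⟩
  · exact H.left hex (hf φ hφ) t r hr p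
  · exact H.right hex (hf φ hφ) t r hr p
  · exact H.prod hex (hf φ hφ) s i j hij p p'

end Alg

end Crest.Agent.R172.Span2
end

-- ▼ part R172/RJM

/-! # Row 172: the abstract end with arbitrary radical, sign version.

The statement is literally helper514's frozen `RJ.main` (note 16051). -/

open TensorProduct Module

namespace Crest.Agent.R172.RJM

variable {K : Type*} [Field K] {P1 P2 E τ : Type*} [AddCommGroup P1] [Module K P1]
  [AddCommGroup P2] [Module K P2] [AddCommGroup E] [Module K E] [Fintype τ]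

/-- `R ⊗ P1` -/
def RT (R : Submodule K P2) : Submodule K (P2 ⊗[K] P1) :=
  Submodule.span K {z | ∃ r ∈ R, ∃ p : P1, z = r ⊗ₜ[K] p}

/-- `P2 ⊗ R` -/
def TR (R : Submodule K P1) : Submodule K (P2 ⊗[K] P1) :=
  Submodule.span K {z | ∃ p : P2, ∃ r ∈ R, z = p ⊗ₜ[K] r}

/-- the operator `1 ⊗ A_t - c B_t ⊗ 1` -/
noncomputable def DD (A : τ → End K P1) (B : τ → End K P2) (c : K) (t : τ) :
    P2 ⊗[K] P1 →ₗ[K] P2 ⊗[K] P1 :=
  (A t).lTensor P2 - c • (B t).rTensor P1

/-- exact families at `c` -/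
structure Ex (A : τ → End K P1) (B : τ → End K P2) (R1 : Submodule K P1) (R2 : Submodule K P2)
    (c : K) (x : τ → P2 ⊗[K] P1) : Prop where
  sum : ∑ t, DD A B c t (x t) = 0
  arm : ∀ t, DD A B c t (x t) ∈ (RT R2 ⊔ TR R1 : Submodule K (P2 ⊗[K] P1))

/-- the transpose `p2 ⊗ p1 ↦ (p ↦ g p2 p • p1)` -/
noncomputable def ev (g : P2 →ₗ[K] P2 →ₗ[K] K) : P2 ⊗[K] P1 →ₗ[K] (P2 →ₗ[K] P1) :=
  TensorProduct.lift (LinearMap.mk₂ K (fun p2 p1 => (g p2).smulRight p1)
    (fun a b p => by ext q; simp [add_smul]) (fun a b p => by ext q; simp [mul_smul])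
    (fun a p p' => by ext q; simp) (fun a b p => by
      ext q
      simp only [LinearMap.smulRight_apply, LinearMap.smul_apply]
      rw [smul_comm]))

/-- `b` is the correction of `x` at `c` -/
structure Cor (A : τ → End K P1) (B : τ → End K P2) (R1 : Submodule K P1)
    (g : P2 →ₗ[K] P2 →ₗ[K] K) (eps c : K) (x : τ → P2 ⊗[K] P1) (b : P2 →ₗ[K] P1) : Prop where
  mem : ∀ p, b p ∈ R1
  eq : ∀ t p, A t (b p) - (eps * c) • b (B t p)
    = A t (ev g (x t) p) - (eps * c) • ev g (x t) (B t p)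

omit [Fintype τ] in
@[simp] theorem ev_tmul (g : P2 →ₗ[K] P2 →ₗ[K] K) (p2 : P2) (p1 : P1) (p : P2) :
    ev g (p2 ⊗ₜ[K] p1) p = g p2 p • p1 := by
  simp [ev]

omit [Fintype τ] in
lemma Rad_le (R1 : Submodule K P1) (R2 : Submodule K P2) :
    Span2.Rad R1 R2 ≤ RT R2 ⊔ TR R1 := by
  rw [Span2.Rad, Submodule.span_le]
  rintro _ ⟨p2, p1, h | h, rfl⟩
  · exact Submodule.mem_sup_left (Submodule.subset_span ⟨p2, h, p1, rfl⟩)
  · exact Submodule.mem_sup_right (Submodule.subset_span ⟨p2, p1, h, rfl⟩)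

lemma Ex_of {A : τ → End K P1} {B : τ → End K P2} {R1 : Submodule K P1} {R2 : Submodule K P2}
    {c : K} {x : τ → P2 ⊗[K] P1} (h : Span2.Ex A B R1 R2 c x) : Ex A B R1 R2 c x :=
  ⟨h.sum, fun t => Rad_le R1 R2 (h.rad t)⟩

omit [Fintype τ] in
lemma ev_DD (A : τ → End K P1) (B : τ → End K P2)
    {g : P2 →ₗ[K] P2 →ₗ[K] K} {eps : K} (gB : ∀ t p p', g (B t p) p' = eps * g p (B t p'))
    (c : K) (t : τ) (z : P2 ⊗[K] P1) (p : P2) :
    ev g (DD A B c t z) p = A t (ev g z p) - (eps * c) • ev g z (B t p) := by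
  induction z using TensorProduct.induction_on with
  | zero => simp
  | tmul x y =>
    simp only [DD, LinearMap.sub_apply, LinearMap.smul_apply, LinearMap.lTensor_tmul,
      LinearMap.rTensor_tmul, map_sub, map_smul, ev_tmul, gB, smul_smul]
    congr 2
    ring
  | add x y hx hy =>
    rw [map_add, map_add, LinearMap.add_apply, hx, hy, map_add, LinearMap.add_apply,
      LinearMap.add_apply, map_add, smul_add]
    abel

omit [Fintype τ] in
lemma ev_zero_of {g : P2 →ₗ[K] P2 →ₗ[K] K} {r : P2} (h : ∀ p, g p r = 0) (z : P2 ⊗[K] P1) :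
    ev g z r = 0 := by
  induction z using TensorProduct.induction_on with
  | zero => simp
  | tmul p2 p1 => simp [h p2]
  | add a b ha hb => rw [map_add, LinearMap.add_apply, ha, hb, add_zero]

/-- a functional of the correction which is a Laurent functional of the defects. -/
def Good (A : τ → End K P1) (B : τ → End K P2)
    (R1 : Submodule K P1) (R2 : Submodule K P2) (g : P2 →ₗ[K] P2 →ₗ[K] K) (eps : K) (Λ : Set K)
    (Θ : (P2 →ₗ[K] P1) → K) : Prop :=
  ∃ θ : K → τ → P2 →ₗ[K] P1 →ₗ[K] K,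
    (∀ c ∈ Λ, ∀ t, ∀ r ∈ R2, ∀ p, θ c t r p = 0) ∧
    (∀ t p2 p1, Span2.Neg Λ (fun c => θ c t p2 p1)) ∧
    ∀ c ∈ Λ, ∀ x β, Cor A B R1 g eps c x β →
      Θ β = ∑ t, TensorProduct.lift (θ c t) (DD A B c t (x t))

section Good

variable {A : τ → End K P1} {B : τ → End K P2}
  {R1 : Submodule K P1} {R2 : Submodule K P2} {g : P2 →ₗ[K] P2 →ₗ[K] K} {eps : K} {Λ : Set K}

lemma Good.congr {Θ Θ' : (P2 →ₗ[K] P1) → K} (h : Good A B R1 R2 g eps Λ Θ)
    (e : ∀ c ∈ Λ, ∀ x β, Cor A B R1 g eps c x β → Θ' β = Θ β) :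
    Good A B R1 R2 g eps Λ Θ' := by
  obtain ⟨θ, h1, h2, h3⟩ := h
  exact ⟨θ, h1, h2, fun c hc x β hβ => (e c hc x β hβ).trans (h3 c hc x β hβ)⟩

lemma Good.zero : Good A B R1 R2 g eps Λ (fun _ => 0) :=
  ⟨fun _ _ => 0, fun c _ t r _ p => by simp,
    fun t p2 p1 => Span2.Neg.zero.congr fun c _ => by simp,
    fun c _ x β _ => by simp [Span2.lift_zero_apply]⟩

lemma Good.add {Θ Θ' : (P2 →ₗ[K] P1) → K} (h : Good A B R1 R2 g eps Λ Θ)
    (h' : Good A B R1 R2 g eps Λ Θ') : Good A B R1 R2 g eps Λ (fun β => Θ β + Θ' β) := by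
  obtain ⟨θ, h1, h2, h3⟩ := h
  obtain ⟨θ', h1', h2', h3'⟩ := h'
  refine ⟨fun c t => θ c t + θ' c t, fun c hc t r hr p => ?_, fun t p2 p1 => ?_,
    fun c hc x β hβ => ?_⟩
  · simp [h1 c hc t r hr p, h1' c hc t r hr p]
  · exact ((h2 t p2 p1).add (h2' t p2 p1)).congr fun c _ => by simp
  · show Θ β + Θ' β = _
    rw [h3 c hc x β hβ, h3' c hc x β hβ, ← Finset.sum_add_distrib]
    exact Finset.sum_congr rfl fun t _ => (Span2.lift_add_apply _ _ _).symm

lemma Good.smul {Θ : (P2 →ₗ[K] P1) → K} (h : Good A B R1 R2 g eps Λ Θ) (a : K) :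
    Good A B R1 R2 g eps Λ (fun β => a * Θ β) := by
  obtain ⟨θ, h1, h2, h3⟩ := h
  refine ⟨fun c t => a • θ c t, fun c hc t r hr p => ?_, fun t p2 p1 => ?_,
    fun c hc x β hβ => ?_⟩
  · simp [h1 c hc t r hr p]
  · exact ((h2 t p2 p1).const_mul a).congr fun c _ => by simp
  · show a * Θ β = _
    rw [h3 c hc x β hβ, Finset.mul_sum]
    exact Finset.sum_congr rfl fun t _ => (Span2.lift_smul_apply _ _ _).symm

lemma Good.point (hB : ⨆ t, LinearMap.range (B t) = ⊤)
    (hg1 : ∀ r ∈ R2, ∀ p, g r p = 0) (heps : eps ≠ 0)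
    (hgB : ∀ t p p', g (B t p) p' = eps * g p (B t p')) (h0 : (0 : K) ∉ Λ) :
    ∀ n, ∀ ξ : P1 →ₗ[K] K, (∀ r ∈ Span2.Dn A R1 n, ξ r = 0) → ∀ p : P2,
      Good A B R1 R2 g eps Λ (fun β => ξ (β p)) := by
  classical
  have pB : ∀ p : P2, p ∈ ⨆ t, LinearMap.range (B t) := fun p => by rw [hB]; trivial
  intro n
  induction n with
  | zero =>
    intro ξ hξ p
    exact Good.zero.congr fun c hc x β hβ => hξ _ (hβ.mem p)
  | succ n ih =>
    intro ξ hξ p
    refine Submodule.iSup_induction (fun t => LinearMap.range (B t))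
      (motive := fun p => Good A B R1 R2 g eps Λ (fun β => ξ (β p))) (pB p) ?_ ?_ ?_
    · rintro s _ ⟨p, rfl⟩
      obtain ⟨θ, h1, h2, h3⟩ := (ih (ξ ∘ₗ A s)
        (fun r hr => hξ _ (Span2.apply_mem_Dn hr s)) p).smul eps⁻¹
      refine ⟨fun c t => c⁻¹ • θ c t -
          (if t = s then c⁻¹ • eps⁻¹ • (g.flip p).smulRight ξ else 0),
        fun c hc t r hr p' => ?_, fun t p2 p1 => ?_, fun c hc x β hβ => ?_⟩
      · by_cases ht : t = s
        · simp [ht, h1 c hc s r hr p', hg1 r hr p]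
        · simp [ht, h1 c hc t r hr p']
      · by_cases ht : t = s
        · refine ((h2 t p2 p1).inv_mul.sub
            (Span2.Neg.inv_const (eps⁻¹ * (g p2 p * ξ p1)))).congr fun c _ => ?_
          simp [ht]
        · refine (h2 t p2 p1).inv_mul.congr fun c _ => ?_
          simp [ht]
      · have hc0 : c ≠ 0 := fun h => h0 (h ▸ hc)
        have e1 := hβ.eq s p
        rw [← ev_DD A B hgB] at e1
        have e2 := congrArg ξ e1
        rw [map_sub, map_smul, smul_eq_mul] at e2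
        have e3 := h3 c hc x β hβ
        simp only [LinearMap.comp_apply] at e3
        have e4 : ξ (ev g (DD A B c s (x s)) p) =
            TensorProduct.lift ((g.flip p).smulRight ξ) (DD A B c s (x s)) := by
          generalize DD A B c s (x s) = z
          induction z using TensorProduct.induction_on with
          | zero => simp
          | tmul x y => simp
          | add x y hx hy => rw [map_add, LinearMap.add_apply, map_add, hx, hy, map_add]
        have e5 : ∑ t, TensorProduct.lift (c⁻¹ • θ c t -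
            (if t = s then c⁻¹ • eps⁻¹ • (g.flip p).smulRight ξ else 0))
              (DD A B c t (x t)) =
            c⁻¹ * (∑ t, TensorProduct.lift (θ c t) (DD A B c t (x t))) -
            c⁻¹ * (eps⁻¹ * TensorProduct.lift ((g.flip p).smulRight ξ)
              (DD A B c s (x s))) := by
          rw [Finset.mul_sum]
          simp only [Span2.lift_sub_apply, Span2.lift_smul_apply, Finset.sum_sub_distrib]
          congr 1
          rw [Finset.sum_eq_single s]
          · rw [if_pos rfl, Span2.lift_smul_apply, Span2.lift_smul_apply]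
          · intro t _ ht
            rw [if_neg ht, Span2.lift_zero_apply]
          · intro h
            exact absurd (Finset.mem_univ s) h
        simp only
        rw [e5, ← e3, ← e4]
        have e6 : c⁻¹ * c = 1 := inv_mul_cancel₀ hc0
        have e7 : eps⁻¹ * eps = 1 := inv_mul_cancel₀ heps
        linear_combination (-c⁻¹ * eps⁻¹) * e2 - ξ (β (B s p)) * e6 * (eps⁻¹ * eps) -
          ξ (β (B s p)) * e7
    · exact Good.zero.congr fun c _ x β _ => by simp
    · intro x y hx hy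
      exact (hx.add hy).congr fun c _ x β _ => by simp

lemma Good.sum {ι : Type*} (S : Finset ι) {Θ : ι → (P2 →ₗ[K] P1) → K}
    (h : ∀ i ∈ S, Good A B R1 R2 g eps Λ (Θ i)) :
    Good A B R1 R2 g eps Λ (fun β => ∑ i ∈ S, Θ i β) := by
  classical
  induction S using Finset.induction_on with
  | empty => exact Good.zero.congr fun c _ x β _ => by simp
  | insert a S ha ih =>
    have h1 := h a (Finset.mem_insert_self a S)
    have h2 := ih fun i hi => h i (Finset.mem_insert_of_mem hi)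
    exact (h1.add h2).congr fun c _ x β _ => by rw [Finset.sum_insert ha]

end Good

/-- the standing hypotheses. -/
structure Hyp (A : τ → End K P1) (B : τ → End K P2) (R1 : Submodule K P1)
    (R2 : Submodule K P2) (m : ℕ) (l : τ → ℕ) (g : P2 →ₗ[K] P2 →ₗ[K] K) (eps : K)
    (Λ : Set K) : Prop where
  hA : ⨆ t, LinearMap.range (A t) = ⊤
  hB : ⨆ t, LinearMap.range (B t) = ⊤
  sR1 : ∀ t, R1.map (A t) ≤ R1
  sR2 : ∀ t, R2.map (B t) ≤ R2
  n1 : Span2.Dn A R1 m = ⊥
  n2 : Span2.Dn B R2 m = ⊥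
  lpos : ∀ s, 0 < l s
  l1 : ∀ s p, (A s ^ l s) p ∈ R1
  l2 : ∀ s p, (B s ^ l s) p ∈ R2
  gen1 : ∀ X : Submodule K P1, (∀ t, X.map (A t) ≤ X) → (∀ s p, (A s ^ l s) p ∈ X) → R1 ≤ X
  gen2 : ∀ X : Submodule K P2, (∀ t, X.map (B t) ≤ X) → (∀ s p, (B s ^ l s) p ∈ X) → R2 ≤ X
  eps0 : eps ≠ 0
  rad1 : ∀ r ∈ R2, ∀ p, g r p = 0
  rad2 : ∀ r ∈ R2, ∀ p, g p r = 0
  adj : ∀ t p p', g (B t p) p' = eps * g p (B t p')
  ne : ∀ s, ∃ p p', g ((B s ^ (l s - 1)) p) p' ≠ 0
  inf : Λ.Infinite
  zero : (0 : K) ∉ Λ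

section Main

variable {A : τ → End K P1} {B : τ → End K P2}
  {R1 : Submodule K P1} {R2 : Submodule K P2} {m : ℕ} {l : τ → ℕ}
  {g : P2 →ₗ[K] P2 →ₗ[K] K} {eps : K} {Λ : Set K}

theorem Hyp.key0 (H : Hyp A B R1 R2 m l g eps Λ) (η : τ → P2 →ₗ[K] P1 →ₗ[K] K)
    (h : ∀ c ∈ Λ, ∀ x, Ex A B R1 R2 c x → ∑ t, TensorProduct.lift (η t) (x t) = 0) :
    (∀ t, ∀ r ∈ R2, ∀ p, η t r p = 0) ∧
    (∀ s i j, i + j + 1 = l s → ∀ p2 p1, η s ((B s ^ j) p2) ((A s ^ i) p1) = 0) :=
  Span2.key H.hA H.hB H.sR1 H.sR2 H.n1 H.n2 H.l1 H.l2 H.gen2 H.inf H.zero η (fun _ _ => 0)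
    (fun c _ t r _ p => by simp)
    (fun t p2 p1 => Span2.Neg.zero.congr fun c _ => by simp)
    (fun c hc x hx => by simpa [Span2.lift_zero_apply] using h c hc x (Ex_of hx))

/-- step 0: a functional of `x` and of its correction. -/
theorem Hyp.step0 (H : Hyp A B R1 R2 m l g eps Λ)
    (hex : ∀ c ∈ Λ, ∀ x, Ex A B R1 R2 c x → ∃ β, Cor A B R1 g eps c x β)
    (η : τ → P2 →ₗ[K] P1 →ₗ[K] K) {Θ : (P2 →ₗ[K] P1) → K}
    (hΘ : Good A B R1 R2 g eps Λ Θ)
    (h : ∀ c ∈ Λ, ∀ x β, Ex A B R1 R2 c x → Cor A B R1 g eps c x β →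
      ∑ t, TensorProduct.lift (η t) (x t) + Θ β = 0) :
    ∀ t, ∀ r ∈ R2, ∀ p, η t r p = 0 := by
  obtain ⟨θ, h1, h2, h3⟩ := hΘ
  refine (Span2.key H.hA H.hB H.sR1 H.sR2 H.n1 H.n2 H.l1 H.l2 H.gen2 H.inf H.zero
    η θ h1 h2 (fun c hc x hx => ?_)).1
  obtain ⟨β, hβ⟩ := hex c hc x (Ex_of hx)
  have e1 := h c hc x β (Ex_of hx) hβ
  rw [h3 c hc x β hβ] at e1
  rw [Finset.sum_add_distrib]
  exact e1

lemma Hyp.good (H : Hyp A B R1 R2 m l g eps Λ) (f : P1 →ₗ[K] P1 →ₗ[K] K)
    (z : P2 ⊗[K] P1) :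
    Good A B R1 R2 g eps Λ (fun β => TensorProduct.lift (f ∘ₗ β) z) := by
  induction z using TensorProduct.induction_on with
  | zero => exact Good.zero.congr fun c _ x β _ => by simp
  | tmul p2 p1 =>
    refine (Good.point (R1 := R1) H.hB H.rad1 H.eps0 H.adj H.zero m (f.flip p1)
      (fun r hr => ?_) p2).congr fun c _ x β _ => by simp
    rw [H.n1] at hr
    have : r = 0 := hr
    rw [this, map_zero]
  | add a b ha hb => exact (ha.add hb).congr fun c _ x β _ => by simp

/-- step 2: Nakayama. -/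
theorem Hyp.step2 (H : Hyp A B R1 R2 m l g eps Λ)
    (hex : ∀ c ∈ Λ, ∀ x, Ex A B R1 R2 c x → ∃ β, Cor A B R1 g eps c x β)
    (Y : Submodule K P1)
    (hY : ∀ c ∈ Λ, ∀ x β, Ex A B R1 R2 c x → Cor A B R1 g eps c x β → ∀ r ∈ R2, β r ∈ Y) :
    R1 ≤ Y := by
  classical
  set Z : Submodule K P1 := Submodule.span K
    {z | ∃ c ∈ Λ, ∃ x β, Ex A B R1 R2 c x ∧ Cor A B R1 g eps c x β ∧ ∃ r ∈ R2, z = β r}
    with hZ
  have hZY : Z ≤ Y := by
    rw [hZ, Submodule.span_le]
    rintro _ ⟨c, hc, x, β, hx, hβ, r, hr, rfl⟩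
    exact hY c hc x β hx hβ r hr
  have ev0 : ∀ z : P2 ⊗[K] P1, ∀ r ∈ R2, ev g z r = 0 :=
    fun z r hr => ev_zero_of (H.rad2 r hr) z
  have hZs : ∀ t, Z.map (A t) ≤ Z := by
    intro t
    rw [hZ, Submodule.map_span, Submodule.span_le]
    rintro _ ⟨_, ⟨c, hc, x, β, hx, hβ, r, hr, rfl⟩, rfl⟩
    have hBr : B t r ∈ R2 := H.sR2 t (Submodule.mem_map_of_mem hr)
    have e1 := hβ.eq t r
    rw [ev0 _ r hr, ev0 _ _ hBr, map_zero, smul_zero, sub_zero, sub_eq_zero] at e1
    rw [e1]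
    exact Submodule.smul_mem _ _ (Submodule.subset_span ⟨c, hc, x, β, hx, hβ, _, hBr, rfl⟩)
  have hgen : ∀ s p, (A s ^ l s) p ∈ Z ⊔ Span2.Dn A R1 1 := by
    intro s p
    by_contra hcon
    obtain ⟨ξ, hξ, hker⟩ := Submodule.exists_le_ker_of_notMem hcon
    have kZ : ∀ z ∈ Z, ξ z = 0 := fun z hz => hker (Submodule.mem_sup_left hz)
    have kD : ∀ z ∈ Span2.Dn A R1 1, ξ z = 0 := fun z hz => hker (Submodule.mem_sup_right hz)
    obtain ⟨p2, p2', hne⟩ := H.ne s
    have hk := (H.key0 (fun t => if t = s then (g.flip p2').smulRight (ξ ∘ₗ (A s ^ l s)) else 0)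
      (fun c hc x hx => by
        obtain ⟨β, hβ⟩ := hex c hc x hx
        rw [Finset.sum_eq_single s]
        · rw [if_pos rfl]
          have e4 : TensorProduct.lift ((g.flip p2').smulRight (ξ ∘ₗ (A s ^ l s))) (x s) =
              ξ ((A s ^ l s) (ev g (x s) p2')) := by
            generalize x s = z
            induction z using TensorProduct.induction_on with
            | zero => simp
            | tmul x y => simp
            | add x y hx hy =>
              rw [map_add, hx, hy, map_add, LinearMap.add_apply, map_add, map_add]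
          rw [e4]
          have e5 : ∀ n q, (A s ^ n) (β q - ev g (x s) q) =
              (eps * c) ^ n • (β ((B s ^ n) q) - ev g (x s) ((B s ^ n) q)) := by
            intro n
            induction n with
            | zero => intro q; simp
            | succ n ih =>
              intro q
              have e6 : A s (β q - ev g (x s) q) =
                  (eps * c) • (β (B s q) - ev g (x s) (B s q)) := by
                have := hβ.eq s q
                rw [map_sub, smul_sub]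
                rw [sub_eq_iff_eq_add] at this ⊢
                rw [this]
                abel
              have e7 : (A s ^ (n + 1)) (β q - ev g (x s) q) =
                  (A s ^ n) (A s (β q - ev g (x s) q)) := by rw [pow_succ]; rfl
              have e8 : (B s ^ n) (B s q) = (B s ^ (n + 1)) q := by rw [pow_succ]; rfl
              rw [e7, e6, map_smul, ih, smul_smul, e8, ← pow_succ']
          have e9 := e5 (l s) p2'
          rw [ev0 _ _ (H.l2 s p2'), sub_zero, map_sub] at e9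
          have e10 := congrArg ξ e9
          have hl : l s = (l s - 1) + 1 := (Nat.succ_pred_eq_of_pos (H.lpos s)).symm
          have e11 : (A s ^ l s) (β p2') ∈ Span2.Dn A R1 1 := by
            rw [hl, pow_succ']
            have h1 : ∀ n, (A s ^ n) (β p2') ∈ R1 := by
              intro n
              induction n with
              | zero => simpa using hβ.mem p2'
              | succ n ih =>
                rw [pow_succ']
                exact H.sR1 s (Submodule.mem_map_of_mem ih)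
            exact Span2.apply_mem_Dn (A := A) (R := R1) (n := 0) (h1 (l s - 1)) s
          have e12 : ξ (β ((B s ^ l s) p2')) = 0 :=
            kZ _ (Submodule.subset_span ⟨c, hc, x, β, hx, hβ, _, H.l2 s p2', rfl⟩)
          rw [map_sub, map_smul, e12, smul_zero, kD _ e11, zero_sub, neg_eq_zero] at e10
          exact e10
        · intro t _ ht
          rw [if_neg ht, Span2.lift_zero_apply]
        · intro h
          exact absurd (Finset.mem_univ s) h)).2 s 0 (l s - 1) (by have := H.lpos s; omega) p2 p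
    rw [if_pos rfl] at hk
    simp only [LinearMap.smulRight_apply, LinearMap.flip_apply, LinearMap.smul_apply,
      smul_eq_mul, LinearMap.comp_apply, pow_zero, Module.End.one_apply] at hk
    rcases mul_eq_zero.1 hk with h | h
    · exact hne h
    · exact hξ h
  have hsup : ∀ n, R1 ≤ Z ⊔ Span2.Dn A R1 n := by
    have hD : ∀ n, Span2.Dn A R1 n ≤ Z ⊔ Span2.Dn A R1 (n + 1) := by
      intro n
      induction n with
      | zero =>
        refine H.gen1 _ (fun t => ?_) hgen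
        rw [Submodule.map_sup]
        refine sup_le_sup (hZs t) ?_
        refine (le_iSup (fun t => (Span2.Dn A R1 1).map (A t)) t).trans ?_
        exact Span2.Dn_anti H.sR1 1
      | succ n ih =>
        refine iSup_le fun t => ?_
        refine (Submodule.map_mono ih).trans ?_
        rw [Submodule.map_sup]
        exact sup_le_sup (hZs t) (le_iSup (fun t => (Span2.Dn A R1 (n + 1)).map (A t)) t)
    intro n
    induction n with
    | zero => exact le_sup_right
    | succ n ih => exact ih.trans (sup_le le_sup_left (hD n))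
  have := hsup m
  rw [H.n1, sup_bot_eq] at this
  exact this.trans hZY

omit [Fintype τ] in
lemma swap (g : P2 →ₗ[K] P2 →ₗ[K] K) (f : P1 →ₗ[K] P1 →ₗ[K] K) (x x' : P2 ⊗[K] P1) :
    TensorProduct.lift (f ∘ₗ ev g x') x = TensorProduct.lift (f.flip ∘ₗ ev g.flip x) x' := by
  induction x using TensorProduct.induction_on with
  | zero => simp [Span2.lift_zero_apply]
  | tmul p2 p1 =>
    induction x' using TensorProduct.induction_on with
    | zero => simp [Span2.lift_zero_apply]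
    | tmul q2 q1 => simp
    | add a b ha hb =>
      rw [map_add, LinearMap.comp_add, Span2.lift_add_apply, ha, hb, map_add]
  | add a b ha hb =>
    rw [map_add, ha, hb, map_add, LinearMap.comp_add, Span2.lift_add_apply]

/-- the relation of the second derivatives, functional form. -/
def Rel (A : τ → End K P1) (B : τ → End K P2) (R1 : Submodule K P1)
    (R2 : Submodule K P2) (g : P2 →ₗ[K] P2 →ₗ[K] K) (eps : K) (Λ : Set K)
    (a1 a2 a3 : K) (f : τ → P1 →ₗ[K] P1 →ₗ[K] K) : Prop :=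
  ∀ c ∈ Λ, ∀ c' ∈ Λ, ∀ x β x' β', Ex A B R1 R2 c x → Cor A B R1 g eps c x β →
    Ex A B R1 R2 c' x' → Cor A B R1 g eps c' x' β' →
      ∑ t, (a1 • TensorProduct.lift ((f t) ∘ₗ β') (x t) +
        a2 • TensorProduct.lift ((f t).flip ∘ₗ β) (x' t) +
        a3 • TensorProduct.lift ((f t) ∘ₗ (ev g (x' t))) (x t)) = 0

theorem Hyp.left (H : Hyp A B R1 R2 m l g eps Λ) {f : τ → P1 →ₗ[K] P1 →ₗ[K] K} {a1 a2 a3 : K}
    (ha1 : a1 ≠ 0)
    (hex : ∀ c ∈ Λ, ∀ x, Ex A B R1 R2 c x → ∃ β, Cor A B R1 g eps c x β)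
    (h : Rel A B R1 R2 g eps Λ a1 a2 a3 f) : ∀ t, ∀ r ∈ R1, ∀ p, f t r p = 0 := by
  intro t r hr p
  have := H.step2 hex (LinearMap.ker ((f t).flip p)) (fun c' hc' x' β' hx' hβ' r hr => by
    rw [LinearMap.mem_ker, LinearMap.flip_apply]
    have h0 := H.step0 hex (fun t => a1 • ((f t) ∘ₗ β') + a3 • ((f t) ∘ₗ (ev g (x' t))))
      (Θ := fun β => ∑ t, a2 * TensorProduct.lift ((f t).flip ∘ₗ β) (x' t))
      (Good.sum _ fun t _ => (H.good (f t).flip (x' t)).smul a2)
      (fun c hc x β hx hβ => by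
        rw [← h c hc c' hc' x β x' β' hx hβ hx' hβ', ← Finset.sum_add_distrib]
        refine Finset.sum_congr rfl fun t _ => ?_
        rw [Span2.lift_add_apply, Span2.lift_smul_apply, Span2.lift_smul_apply]
        simp only [smul_eq_mul]
        ring) t r hr p
    have e2 := ev_zero_of (H.rad2 r hr) (x' t)
    simp only [LinearMap.add_apply, LinearMap.smul_apply, LinearMap.comp_apply, e2, map_zero,
      LinearMap.zero_apply, smul_zero, add_zero, smul_eq_mul] at h0
    exact (mul_eq_zero.1 h0).resolve_left ha1) hr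
  simpa using this

theorem Hyp.right (H : Hyp A B R1 R2 m l g eps Λ) {f : τ → P1 →ₗ[K] P1 →ₗ[K] K}
    {a1 a2 a3 : K} (ha2 : a2 ≠ 0)
    (hex : ∀ c ∈ Λ, ∀ x, Ex A B R1 R2 c x → ∃ β, Cor A B R1 g eps c x β)
    (h : Rel A B R1 R2 g eps Λ a1 a2 a3 f) : ∀ t, ∀ r ∈ R1, ∀ p, f t p r = 0 := by
  intro t r hr p
  have := H.step2 hex (LinearMap.ker (f t p)) (fun c hc x β hx hβ r hr => by
    rw [LinearMap.mem_ker]
    have h0 := H.step0 hex (fun t => a2 • ((f t).flip ∘ₗ β) +
        a3 • ((f t).flip ∘ₗ (ev g.flip (x t))))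
      (Θ := fun β' => ∑ t, a1 * TensorProduct.lift ((f t) ∘ₗ β') (x t))
      (Good.sum _ fun t _ => (H.good (f t) (x t)).smul a1)
      (fun c' hc' x' β' hx' hβ' => by
        rw [← h c hc c' hc' x β x' β' hx hβ hx' hβ', ← Finset.sum_add_distrib]
        refine Finset.sum_congr rfl fun t _ => ?_
        rw [Span2.lift_add_apply, Span2.lift_smul_apply, Span2.lift_smul_apply, swap g (f t)]
        simp only [smul_eq_mul]
        ring) t r hr p
    have e2 := ev_zero_of (g := g.flip) (H.rad1 r hr) (x t)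
    simp only [LinearMap.add_apply, LinearMap.smul_apply, LinearMap.comp_apply, e2, map_zero,
      LinearMap.zero_apply, smul_zero, add_zero, smul_eq_mul] at h0
    exact (mul_eq_zero.1 h0).resolve_left ha2) hr
  simpa using this

theorem Hyp.prod (H : Hyp A B R1 R2 m l g eps Λ) {f : τ → P1 →ₗ[K] P1 →ₗ[K] K}
    {a1 a2 a3 : K} (ha1 : a1 ≠ 0) (ha2 : a2 ≠ 0) (ha3 : a3 ≠ 0)
    (hex : ∀ c ∈ Λ, ∀ x, Ex A B R1 R2 c x → ∃ β, Cor A B R1 g eps c x β)
    (h : Rel A B R1 R2 g eps Λ a1 a2 a3 f) : ∀ s i j, i + j + 1 = l s → ∀ p p',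
      f s ((A s ^ i) p) ((A s ^ j) p') = 0 := by
  classical
  have hl := H.left ha1 hex h
  have hr := H.right ha2 hex h
  have h1 : ∀ c ∈ Λ, ∀ c' ∈ Λ, ∀ x x', Ex A B R1 R2 c x → Ex A B R1 R2 c' x' →
      ∑ t, TensorProduct.lift ((f t) ∘ₗ (ev g (x' t))) (x t) = 0 := by
    intro c hc c' hc' x x' hx hx'
    obtain ⟨β, hβ⟩ := hex c hc x hx
    obtain ⟨β', hβ'⟩ := hex c' hc' x' hx'
    have e := h c hc c' hc' x β x' β' hx hβ hx' hβ'
    have e1 : ∀ t, (f t) ∘ₗ β' = 0 := by
      intro t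
      ext p q
      exact hl t _ (hβ'.mem p) q
    have e2 : ∀ t, (f t).flip ∘ₗ β = 0 := by
      intro t
      ext p q
      exact hr t _ (hβ.mem p) q
    simp only [e1, e2, Span2.lift_zero_apply, mul_zero, zero_add, smul_eq_mul] at e
    rw [← Finset.mul_sum] at e
    exact (mul_eq_zero.1 e).resolve_left ha3
  intro s i j hij p p'
  obtain ⟨p2, p2', hne⟩ := H.ne s
  -- first in `x`
  have h2 : ∀ c' ∈ Λ, ∀ x', Ex A B R1 R2 c' x' →
      f s (ev g (x' s) ((B s ^ i) p2')) ((A s ^ j) p') = 0 := by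
    intro c' hc' x' hx'
    exact (H.key0 (fun t => (f t) ∘ₗ (ev g (x' t)))
      (fun c hc x hx => h1 c hc c' hc' x x' hx hx')).2 s j i (by omega) p2' p'
  have h3 := (H.key0 (fun t => if t = s then
      (g.flip ((B s ^ i) p2')).smulRight ((f s).flip ((A s ^ j) p')) else 0)
    (fun c hc x hx => by
      rw [Finset.sum_eq_single s]
      · rw [if_pos rfl, ← h2 c hc x hx]
        generalize x s = z
        induction z using TensorProduct.induction_on with
        | zero => simp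
        | tmul x y => simp
        | add x y hx hy =>
          rw [map_add, hx, hy, map_add, LinearMap.add_apply, map_add, LinearMap.add_apply]
      · intro t _ ht
        rw [if_neg ht, Span2.lift_zero_apply]
      · intro h
        exact absurd (Finset.mem_univ s) h)).2 s i j hij p2 p
  rw [if_pos rfl] at h3
  simp only [LinearMap.smulRight_apply, LinearMap.flip_apply, LinearMap.smul_apply,
      smul_eq_mul] at h3
  have e1 : g ((B s ^ (l s - 1)) p2) p2' = eps ^ i * g ((B s ^ j) p2) ((B s ^ i) p2') := by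
    have e2 : ∀ n q q', g ((B s ^ n) q) q' = eps ^ n * g q ((B s ^ n) q') := by
      intro n
      induction n with
      | zero => intro q q'; simp
      | succ n ih =>
        intro q q'
        have e3 : (B s ^ (n + 1)) q = B s ((B s ^ n) q) := by rw [pow_succ']; rfl
        have e4 : (B s ^ (n + 1)) q' = (B s ^ n) (B s q') := by rw [pow_succ]; rfl
        rw [e3, H.adj, ih, e4]
        ring
    rw [← e2]
    have e5 : (B s ^ i) ((B s ^ j) p2) = (B s ^ (l s - 1)) p2 := by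
      have : l s - 1 = i + j := by omega
      rw [this, pow_add]
      rfl
    rw [e5]
  have hne' : g ((B s ^ j) p2) ((B s ^ i) p2') ≠ 0 := by
    intro h
    rw [h, mul_zero] at e1
    exact hne e1
  exact (mul_eq_zero.1 h3).resolve_left hne'

/-- **The abstract end with arbitrary radical.** -/
theorem main (hA : ⨆ t, LinearMap.range (A t) = ⊤) (hB : ⨆ t, LinearMap.range (B t) = ⊤)
    (hR1 : ∀ t, ∀ r ∈ R1, A t r ∈ R1) (hR2 : ∀ t, ∀ r ∈ R2, B t r ∈ R2) {m : ℕ}
    (hN1 : ∀ w : List τ, w.length = m → ∀ r ∈ R1, (w.map A).prod r = 0)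
    (hN2 : ∀ w : List τ, w.length = m → ∀ r ∈ R2, (w.map B).prod r = 0)
    (hl : ∀ s, 1 ≤ l s)
    (hl1 : ∀ s p, (A s ^ l s) p ∈ R1) (hl2 : ∀ s p, (B s ^ l s) p ∈ R2)
    (gen1 : ∀ S : Submodule K P1, (∀ t, ∀ v ∈ S, A t v ∈ S) → (∀ s p, (A s ^ l s) p ∈ S) → R1 ≤ S)
    (gen2 : ∀ S : Submodule K P2, (∀ t, ∀ v ∈ S, B t v ∈ S) → (∀ s p, (B s ^ l s) p ∈ S) → R2 ≤ S)
    (heps : eps ≠ 0) (gR1 : ∀ r ∈ R2, ∀ p, g r p = 0) (gR2 : ∀ r ∈ R2, ∀ p, g p r = 0)
    (gB : ∀ t p p', g (B t p) p' = eps * g p (B t p'))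
    (gtop : ∀ s, ∃ p p', g ((B s ^ (l s - 1)) p) p' ≠ 0)
    {Λ : Set K} (hΛ : Λ.Infinite) (h0 : (0 : K) ∉ Λ)
    (q : τ → P1 →ₗ[K] P1 →ₗ[K] E) (Q : Submodule K E) {a1 a2 a3 : K}
    (ha1 : a1 ≠ 0) (ha2 : a2 ≠ 0) (ha3 : a3 ≠ 0)
    (hex : ∀ c ∈ Λ, ∀ x, Ex A B R1 R2 c x → ∃ b, Cor A B R1 g eps c x b)
    (hrel : ∀ c ∈ Λ, ∀ c' ∈ Λ, ∀ x b x' b', Ex A B R1 R2 c x → Cor A B R1 g eps c x b →
      Ex A B R1 R2 c' x' → Cor A B R1 g eps c' x' b' →
      ∑ t, (a1 • TensorProduct.lift ((q t) ∘ₗ b') (x t)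
        + a2 • TensorProduct.lift ((q t).flip ∘ₗ b) (x' t)
        + a3 • TensorProduct.lift ((q t) ∘ₗ (ev g (x' t))) (x t)) ∈ Q) :
    (∀ t, ∀ r ∈ R1, ∀ p, q t r p ∈ Q ∧ q t p r ∈ Q) ∧
      (∀ s i j, i + j + 1 = l s → ∀ p p', q s ((A s ^ i) p) ((A s ^ j) p') ∈ Q) := by
  have H : Hyp A B R1 R2 m l g eps Λ :=
    { hA := hA
      hB := hB
      sR1 := fun t => by
        rintro _ ⟨r, hr, rfl⟩
        exact hR1 t r hr
      sR2 := fun t => by
        rintro _ ⟨r, hr, rfl⟩
        exact hR2 t r hr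
      n1 := Span2.Dn_eq_bot hN1
      n2 := Span2.Dn_eq_bot hN2
      lpos := hl
      l1 := hl1
      l2 := hl2
      gen1 := fun X hX => gen1 X fun t v hv => hX t (Submodule.mem_map_of_mem hv)
      gen2 := fun X hX => gen2 X fun t v hv => hX t (Submodule.mem_map_of_mem hv)
      eps0 := heps
      rad1 := gR1
      rad2 := gR2
      adj := gB
      ne := gtop
      inf := hΛ
      zero := h0 }
  have hf : ∀ φ : E →ₗ[K] K, Q ≤ LinearMap.ker φ →
      Rel A B R1 R2 g eps Λ a1 a2 a3 (fun t => (q t).compr₂ φ) := by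
    intro φ hφ c hc c' hc' x β x' β' hx hβ hx' hβ'
    have e := hφ (hrel c hc c' hc' x β x' β' hx hβ hx' hβ')
    rw [LinearMap.mem_ker, map_sum] at e
    rw [← e]
    refine Finset.sum_congr rfl fun t _ => ?_
    rw [map_add, map_add, map_smul, map_smul, map_smul]
    congr 1
    · congr 2
      · generalize x t = z
        induction z using TensorProduct.induction_on with
        | zero => simp
        | tmul a b => simp
        | add a b ha hb => rw [map_add, ha, hb, map_add, map_add]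
      · generalize x' t = z
        induction z using TensorProduct.induction_on with
        | zero => simp
        | tmul a b => simp
        | add a b ha hb => rw [map_add, ha, hb, map_add, map_add]
    · congr 1
      generalize x t = z
      induction z using TensorProduct.induction_on with
      | zero => simp
      | tmul a b => simp
      | add a b ha hb => rw [map_add, ha, hb, map_add, map_add]
  have hmem : ∀ v : E, (∀ φ : E →ₗ[K] K, Q ≤ LinearMap.ker φ → φ v = 0) → v ∈ Q := by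
    intro v hv
    by_contra hcon
    obtain ⟨φ, h1, h2⟩ := Submodule.exists_le_ker_of_notMem hcon
    exact h1 (hv φ h2)
  refine ⟨fun t r hr p => ⟨hmem _ fun φ hφ => ?_, hmem _ fun φ hφ => ?_⟩,
    fun s i j hij p p' => hmem _ fun φ hφ => ?_⟩
  · exact H.left ha1 hex (hf φ hφ) t r hr p
  · exact H.right ha2 hex (hf φ hφ) t r hr p
  · exact H.prod ha1 ha2 ha3 hex (hf φ hφ) s i j hij p p'

end Main

end Crest.Agent.R172.RJM
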