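import Crest.Agent.R172.QHalf
import Crest.Agent.R172.QEndQ2
import Crest.Agent.R172.Qt7
import Crest.Agent.R172.QTen
import Crest.Agent.R172.QBlk2
import Crest.Agent.R172.RJM
import Crest.Agent.R172.Qt12

-- ▼ part R172/QHalfQ
section

/-!
Row 172 (S0260), (t3), Q-side: the module `P1 = θ(P_S) ≤ K^δ`, `θ x = gᵀ J X x`, as a `Half`;
the span memberships from `hex`, `hrel`.
-/

set_option autoImplicit false
set_option linter.unusedSectionVars false
set_option linter.unusedFintypeInType false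
set_option linter.unusedDecidableInType false
set_option maxHeartbeats 800000

namespace Crest.Agent.R172.QHQ

open Matrix Module TensorProduct
open Crest.Agent.R172.FO Crest.Agent.R172.Qt Crest.Agent.R172.Mix Crest.Agent.R172.QC
open Crest.Agent.R172.PushQ (Push)

variable {ι : Type*} [Fintype ι] [DecidableEq ι] {δ : Type*} [Fintype δ] [DecidableEq δ]
variable {K : Type*} [Field K]

section defs

variable (arm : δ → Fin 3) (J : Matrix ι ι K) (B : Matrix δ δ K) (g : Matrix ι δ K)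
  (X : Matrix ι ι K)

/-- `Φ_s = M_s φ` on `S` -/
abbrev PhS (s : Fin 3) : End K (Sg g) := Mop arm B g s ∘ₗ eta J g X

/-- `θ x = gᵀ J X x` on `P_S` -/
def th : Pinf (PhS arm J B g X) →ₗ[K] (δ → K) :=
  (gᵀ * J * X).mulVecLin ∘ₗ (Sg g).subtype ∘ₗ (Pinf (PhS arm J B g X)).subtype

theorem th_apply (p : Pinf (PhS arm J B g X)) :
    th arm J B g X p = (gᵀ * J * X) *ᵥ ((p : Sg g) : ι → K) := rfl

/-- `P1 = θ(P_S)` -/
abbrev PQ : Submodule K (δ → K) := LinearMap.range (th arm J B g X)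

theorem th_ap (s : Fin 3) (p : Pinf (PhS arm J B g X)) :
    th arm J B g X (QBlk.ap (PhS arm J B g X) s p)
      = (gᵀ * J * X * g * E K arm s * B) *ᵥ th arm J B g X p := by
  rw [th_apply, th_apply]
  have h1 : ((QBlk.ap (PhS arm J B g X) s p : Sg g) : ι → K)
      = (M arm B s g g * J) *ᵥ (X *ᵥ ((p : Sg g) : ι → K)) := Mop_eta s X (p : Sg g)
  rw [h1]
  unfold M
  simp only [mulVec_mulVec, Matrix.mul_assoc]

/-- the operators on `P1` -/
def Aq (s : Fin 3) : End K (PQ arm J B g X) :=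
  (gᵀ * J * X * g * E K arm s * B).mulVecLin.restrict (p := PQ arm J B g X) (q := PQ arm J B g X)
    (by
      rintro _ ⟨p, rfl⟩
      refine ⟨QBlk.ap (PhS arm J B g X) s p, ?_⟩
      rw [mulVecLin_apply, th_ap])

/-- `θ' : P_S → P1` -/
def th' : Pinf (PhS arm J B g X) →ₗ[K] PQ arm J B g X := (th arm J B g X).rangeRestrict

theorem th'_coe (p : Pinf (PhS arm J B g X)) :
    ((th' arm J B g X p : PQ arm J B g X) : δ → K) = th arm J B g X p := rfl

/-- the radical of `P1` -/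
def R1 : Submodule K (PQ arm J B g X) := (TP (PhS arm J B g X)).map (th' arm J B g X)

theorem push : Push (P := ↥(Pinf (PhS arm J B g X))) (P1 := ↥(PQ arm J B g X))
    (QBlk.ap (PhS arm J B g X)) (TP (PhS arm J B g X)) (Aq arm J B g X)
    (R1 arm J B g X) (th' arm J B g X) where
  surj := LinearMap.surjective_rangeRestrict _
  comm s p := by
    apply Subtype.ext
    rw [th'_coe, th_ap]
    rfl
  ker p hp := by
    have h1 : th arm J B g X p = 0 := by
      rw [← th'_coe, hp]; rfl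
    rw [mem_TP]
    refine St.Nk_le_T _ 1 ?_
    rw [St.mem_Nk_succ]
    intro s
    rw [St.mem_Nk_zero]
    apply Subtype.ext
    have h2 : ((PhS arm J B g X s (p : Sg g) : Sg g) : ι → K)
        = (M arm B s g g * J) *ᵥ (X *ᵥ ((p : Sg g) : ι → K)) := Mop_eta s X (p : Sg g)
    rw [h2]
    have h3 : (M arm B s g g * J) *ᵥ (X *ᵥ ((p : Sg g) : ι → K))
        = (g * E K arm s * B) *ᵥ th arm J B g X p := by
      rw [th_apply]
      unfold M
      simp only [mulVec_mulVec, Matrix.mul_assoc]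
    rw [h3, h1, mulVec_zero]
    rfl
  eq := rfl

end defs

variable {arm : δ → Fin 3} {J : Matrix ι ι K} {B : Matrix δ δ K} {g : Matrix ι δ K}
  {X : Matrix ι ι K}

/-- the form on `P1` -/
theorem exists_w {V : Type*} [AddCommGroup V] [Module K V] {a : Fin 3 → End K V}
    {wa : V →ₗ[K] V →ₗ[K] K} {l : Fin 3 → ℕ}
    (h : Pair a wa (PhS arm J B g X) (eta J g X) l) :
    ∃ w1 : PQ arm J B g X →ₗ[K] PQ arm J B g X →ₗ[K] K,
      (∀ x y, w1 (th' arm J B g X x) (th' arm J B g X y) = eta J g X (x : Sg g) (y : Sg g)) ∧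
      Half (Aq arm J B g X) (R1 arm J B g X) w1 (-1) (-1) l
        (finrank K (Cor (PhS arm J B g X))) := by
  have hB := h.halfB
  have h1 : ∀ x y : Pinf (PhS arm J B g X), th' arm J B g X x = 0 →
      Pform (PhS arm J B g X) (eta J g X) x y = 0 := by
    intro x y hx
    have h2 : th arm J B g X x = 0 := by rw [← th'_coe, hx]; rfl
    rw [Pform_apply, eta_apply]
    obtain ⟨u, hu⟩ := (y : Sg g).2
    rw [← hu, mulVecLin_apply, ← vecMul_transpose, ← dotProduct_mulVec]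
    rw [th_apply] at h2
    have h3 : gᵀ *ᵥ ((J * X) *ᵥ ((x : Sg g) : ι → K)) = 0 := by
      rw [mulVec_mulVec, ← Matrix.mul_assoc]; exact h2
    rw [h3, dotProduct_zero]
  have h2 : ∀ x y : Pinf (PhS arm J B g X), th' arm J B g X y = 0 →
      Pform (PhS arm J B g X) (eta J g X) x y = 0 := by
    intro x y hy
    rw [hB.symm, h1 y x hy, mul_zero]
  obtain ⟨w1, hw1⟩ := PushQ.exists_form (P := ↥(Pinf (PhS arm J B g X)))
    (P1 := ↥(PQ arm J B g X)) (θ := th' arm J B g X) (push arm J B g X).surj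
    (Pform (PhS arm J B g X) (eta J g X)) h1 h2
  exact ⟨w1, fun x y => hw1 x y, hB.push (push arm J B g X) hw1⟩


end Crest.Agent.R172.QHQ
end

-- ▼ part R172/QBrQ2

/-!
Row 172 (S0260), (Q1)/(t3), Q-side: from the gluing families `Fam` (Qt11) to the hypotheses
`hex`, `hrel` of `RJM.main` with `P2 = P'` (`i1 : V1 → S^⊥`), `P1 = θ(P_S)` (`θ : V3 → (δ → K)`).
-/

set_option autoImplicit false
set_option linter.unusedSectionVars false
set_option linter.unusedFintypeInType false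
set_option linter.unusedDecidableInType false
set_option maxHeartbeats 800000

namespace Crest.Agent.R172.QBrQ2

open Matrix Module TensorProduct Crest.Agent.R172.FO Crest.Agent.R172.Qt
open Crest.Agent.R172.QBr (ten ten_tmul ten_skw)
open Crest.Agent.R172.RJM (Ex Cor ev DD RT TR ev_tmul ev_DD)
open Crest.Agent.R172.QEndQ (TT qt mm)

section lift

variable {K : Type*} [Field K] {V1 V2 V3 : Type*} [AddCommGroup V1] [Module K V1]
  [AddCommGroup V2] [Module K V2] [AddCommGroup V3] [Module K V3]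
  {Ap : Fin 3 → End K V1} {F : Fin 3 → End K V2} {A3 : Fin 3 → End K V3} {π : V2 →ₗ[K] V3}

/-- lift of exact families through `π : V2 → V3` -/
theorem lift_surj (hπ : Function.Surjective π) (hπF : ∀ t y, π (F t y) = A3 t (π y))
    (hker : ∀ t y, π y = 0 → F t y = 0) (htop : ⨆ t, LinearMap.range (Ap t) = ⊤) {c : K}
    (hc : c ≠ 0) (x : Fin 3 → V1 ⊗[K] V3) (hx : ∑ t, DD A3 Ap c t (x t) = 0) :
    ∃ y : Fin 3 → V2 ⊗[K] V1,
      (∀ t, x t = π.lTensor V1 (TensorProduct.comm K V2 V1 (y t))) ∧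
      ∑ t, ((Ap t).lTensor V2 (y t) - c⁻¹ • (F t).rTensor V1 (y t)) = 0 := by
  classical
  have hsurj : Function.Surjective (π.lTensor V1) := LinearMap.lTensor_surjective V1 hπ
  choose z0 hz0 using fun t => hsurj (x t)
  let G : Submodule K (V1 ⊗[K] V2) :=
    { carrier := {e | ∃ z : Fin 3 → V1 ⊗[K] V2, (∀ t, π.lTensor V1 (z t) = 0) ∧
        ∑ t, DD F Ap c t (z t) = e}
      add_mem' := by
        rintro _ _ ⟨z, hz, rfl⟩ ⟨w, hw, rfl⟩
        refine ⟨fun t => z t + w t, fun t => by rw [map_add, hz, hw, add_zero], ?_⟩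
        rw [← Finset.sum_add_distrib]
        exact Finset.sum_congr rfl fun t _ => map_add _ _ _
      zero_mem' := ⟨0, fun t => by simp, by simp⟩
      smul_mem' := by
        rintro r _ ⟨z, hz, rfl⟩
        refine ⟨fun t => r • z t, fun t => by rw [map_smul, hz, smul_zero], ?_⟩
        rw [Finset.smul_sum]
        exact Finset.sum_congr rfl fun t _ => map_smul _ _ _ }
  have hmap : ∀ t, ∀ v : V1 ⊗[K] V2, π.lTensor V1 (DD F Ap c t v)
      = DD A3 Ap c t (π.lTensor V1 v) := by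
    intro t v
    induction v using TensorProduct.induction_on with
    | zero => simp
    | tmul a b =>
      simp only [DD, LinearMap.sub_apply, LinearMap.smul_apply, LinearMap.lTensor_tmul,
        LinearMap.rTensor_tmul, map_sub, map_smul, hπF]
    | add a b ha hb => rw [map_add, map_add, map_add, map_add, ha, hb]
  set e : V1 ⊗[K] V2 := ∑ t, DD F Ap c t (z0 t) with he
  have heker : e ∈ LinearMap.ker (π.lTensor V1) := by
    rw [LinearMap.mem_ker, he, map_sum, Finset.sum_congr rfl fun t _ => hmap t (z0 t)]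
    simp only [hz0]
    exact hx
  have hG : LinearMap.ker (π.lTensor V1) ≤ G := by
    have hex : Function.Exact (LinearMap.ker π).subtype π := by
      rw [LinearMap.exact_iff]; simp
    have h1 := (lTensor_exact V1 hex hπ)
    rw [LinearMap.exact_iff] at h1
    rw [h1]
    rintro _ ⟨v, rfl⟩
    induction v using TensorProduct.induction_on with
    | zero => rw [map_zero]; exact G.zero_mem
    | tmul p y =>
      obtain ⟨f, hf⟩ := QBlk.exists_sum_of_top htop p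
      refine ⟨fun t => -(c⁻¹ • (f t ⊗ₜ[K] (y : V2))), fun t => ?_, ?_⟩
      · rw [map_neg, map_smul, LinearMap.lTensor_tmul]
        have : π (y : V2) = 0 := y.2
        rw [this, tmul_zero, smul_zero, neg_zero]
      · rw [LinearMap.lTensor_tmul, Submodule.subtype_apply, hf, TensorProduct.sum_tmul]
        refine Finset.sum_congr rfl fun t _ => ?_
        rw [map_neg, map_smul, DD, LinearMap.sub_apply, LinearMap.smul_apply,
          LinearMap.lTensor_tmul, LinearMap.rTensor_tmul, hker t y y.2, tmul_zero, zero_sub,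
          smul_neg, neg_neg, smul_smul, inv_mul_cancel₀ hc, one_smul]
    | add v w hv hw => rw [map_add]; exact G.add_mem hv hw
  obtain ⟨w, hw, hwe⟩ := hG heker
  refine ⟨fun t => TensorProduct.comm K V1 V2 (z0 t - w t), fun t => ?_, ?_⟩
  · have : TensorProduct.comm K V2 V1 (TensorProduct.comm K V1 V2 (z0 t - w t)) = z0 t - w t := by
      generalize z0 t - w t = v
      induction v using TensorProduct.induction_on with
      | zero => simp
      | tmul a b => simp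
      | add a b ha hb => rw [map_add, map_add, ha, hb]
    rw [this, map_sub, hz0, hw, sub_zero]
  · have hc2 : ∀ t, ∀ v : V1 ⊗[K] V2, (Ap t).lTensor V2 (TensorProduct.comm K V1 V2 v)
        - c⁻¹ • (F t).rTensor V1 (TensorProduct.comm K V1 V2 v)
        = -(c⁻¹ • TensorProduct.comm K V1 V2 (DD F Ap c t v)) := by
      intro t v
      induction v using TensorProduct.induction_on with
      | zero => simp
      | tmul a b =>
        simp only [DD, LinearMap.sub_apply, LinearMap.smul_apply, LinearMap.lTensor_tmul,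
          LinearMap.rTensor_tmul, map_sub, map_smul, TensorProduct.comm_tmul, smul_sub,
          smul_smul, inv_mul_cancel₀ hc, one_smul, neg_sub]
      | add a b ha hb =>
        simp only [map_add, smul_add, neg_add] at ha hb ⊢
        rw [← ha, ← hb]
        abel
    rw [Finset.sum_congr rfl fun t _ => hc2 t (z0 t - w t), Finset.sum_neg_distrib,
      ← Finset.smul_sum, ← map_sum]
    have e2 : ∑ t, DD F Ap c t (z0 t - w t) = 0 := by
      rw [Finset.sum_congr rfl fun t _ => map_sub (DD F Ap c t) (z0 t) (w t),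
        Finset.sum_sub_distrib, ← he, hwe, sub_self]
    rw [e2, map_zero, smul_zero, neg_zero]

end lift

variable {ι : Type*} [Fintype ι] [DecidableEq ι] {δ : Type*} [Fintype δ] [DecidableEq δ]
variable {k K : Type*} [Field k] [Field K] [Algebra k K]
variable {arm : δ → Fin 3} {J : Matrix ι ι K} {B : Matrix δ δ K}
  {N W : Submodule K (Matrix ι δ K)} {g f : Matrix ι δ K} {X : Matrix ι ι K}
variable {V1 V2 V3 : Type*} [AddCommGroup V1] [Module K V1]
  [AddCommGroup V2] [Module K V2] [AddCommGroup V3] [Module K V3]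
  {Ap : Fin 3 → End K V1} {F : Fin 3 → End K V2} {A3 : Fin 3 → End K V3} {π : V2 →ₗ[K] V3}
  {i1 : V1 →ₗ[K] (ι → K)} {i2 : V2 →ₗ[K] (ι → K)} {θ : V3 →ₗ[K] (δ → K)}
  {R1 : Submodule K V1} {R3 : Submodule K V3} {gf : V1 →ₗ[K] V1 →ₗ[K] K}

/-- the operator on `S^* ⊂ (δ → K)` -/
def At (arm : δ → Fin 3) (J : Matrix ι ι K) (B : Matrix δ δ K) (g : Matrix ι δ K)
    (X : Matrix ι ι K) (t : Fin 3) : Matrix δ δ K := gᵀ * J * (X * g) * E K arm t * B

/-- the data of the Q-side -/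
structure QS (arm : δ → Fin 3) (J : Matrix ι ι K) (B : Matrix δ δ K) (g f : Matrix ι δ K)
    (X : Matrix ι ι K) (Ap : Fin 3 → End K V1) (F : Fin 3 → End K V2) (A3 : Fin 3 → End K V3)
    (i1 : V1 →ₗ[K] (ι → K)) (i2 : V2 →ₗ[K] (ι → K)) (π : V2 →ₗ[K] V3) (θ : V3 →ₗ[K] (δ → K))
    (R1 : Submodule K V1) (R3 : Submodule K V3) (gf : V1 →ₗ[K] V1 →ₗ[K] K) : Prop where
  side : QBr.Side arm J B g f X Ap F i1 i2
  surj : Function.Surjective π
  πF : ∀ t y, π (F t y) = A3 t (π y)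
  ker : ∀ t y, π y = 0 → F t y = 0
  θπ : ∀ y, θ (π y) = (gᵀ * J) *ᵥ (X *ᵥ i2 y)
  θinj : Function.Injective θ
  top1 : ⨆ t, LinearMap.range (Ap t) = ⊤
  top2 : ⨆ t, LinearMap.range (F t) = ⊤
  hPΘ : Mix.Pinf (fun t => (At arm J B g X t).mulVecLin) ≤ LinearMap.range θ
  hPf : Mix.Pinf (fun t => (M arm B t f f * J).mulVecLin)
    ≤ LinearMap.range i1 ⊔ LinearMap.range g.mulVecLin
  hrad : ∀ r ∈ R3, ∀ y u, i2 y = g *ᵥ u → u ⬝ᵥ θ r = 0
  st3 : ∀ t, ∀ r ∈ R3, A3 t r ∈ R3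
  hgf : ∀ v v', gf v v' = i1 v ⬝ᵥ J *ᵥ i1 v'
  gR : ∀ r ∈ R1, ∀ v, gf r v = 0

namespace QS

variable (h : QS arm J B g f X Ap F A3 i1 i2 π θ R1 R3 gf)

include h

theorem At_mulVec (t : Fin 3) (w : ι → K) :
    (gᵀ * J) *ᵥ (X *ᵥ ((M arm B t g g * J) *ᵥ w)) = At arm J B g X t *ᵥ ((gᵀ * J) *ᵥ w) := by
  simp only [mulVec_mulVec]
  congr 1
  unfold M At
  simp only [Matrix.mul_assoc]

theorem A3θ (t : Fin 3) (a : V3) : θ (A3 t a) = At arm J B g X t *ᵥ θ a := by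
  obtain ⟨y, rfl⟩ := h.surj a
  rw [← h.πF, h.θπ, h.side.B2, h.At_mulVec, h.θπ]

theorem ev_eq (y : V2 ⊗[K] V1) (v : V1) :
    θ (ev gf (π.lTensor V1 (TensorProduct.comm K V2 V1 y)) v)
      = (gᵀ * J) *ᵥ (X *ᵥ (ten J i1 i2 y *ᵥ i1 v)) := by
  induction y using TensorProduct.induction_on with
  | zero => simp
  | tmul a b =>
    rw [TensorProduct.comm_tmul, LinearMap.lTensor_tmul, ev_tmul, map_smul, h.θπ,
      h.side.ten_tmul_mulVec a b (h.side.J1 v), mulVec_smul, mulVec_smul, h.hgf]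
  | add a b ha hb =>
    rw [map_add, map_add, map_add, LinearMap.add_apply, map_add, ha, hb, map_add, add_mulVec,
      mulVec_add, mulVec_add]

theorem dotg (u : δ → K) (w : ι → K) : (g *ᵥ u) ⬝ᵥ J *ᵥ w = u ⬝ᵥ (gᵀ * J) *ᵥ w := by
  rw [← vecMul_transpose, ← dotProduct_mulVec, mulVec_mulVec]

end QS

theorem inter_vec {p p1 pm p3 p4 : Matrix ι ι K × (Fin 3 → Matrix ι ι K)}
    {R : Fin 3 → Matrix ι ι K} {Z : Matrix ι ι K} {Q : Fin 3 → Matrix ι ι K}
    {e kk : Matrix ι δ K} (hF : Fam arm J B N W g f p R Z Q e p1 pm p3 p4 kk) (s : Fin 3)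
    {v : ι → K} (hv : (gᵀ * J) *ᵥ v = 0) :
    (gᵀ * J) *ᵥ (p.1 *ᵥ ((M arm B s g g * J) *ᵥ (p.1 *ᵥ (R s *ᵥ v) + Z *ᵥ v)))
      = (gᵀ * J) *ᵥ (p.1 *ᵥ (R s *ᵥ ((M arm B s f f * J) *ᵥ v))
        + Z *ᵥ ((M arm B s f f * J) *ᵥ v)) := by
  rcases isEmpty_or_nonempty ι with hι | ⟨⟨j⟩⟩
  · congr 1
    exact Subsingleton.elim _ _
  · have h1 := hF.interφ s (vecMulVec v (Pi.single j 1)) (by
      rw [mul_vecMulVec, hv]
      ext a b
      simp [vecMulVec_apply])
    have h2 : vecMulVec v (Pi.single j (1 : K)) *ᵥ Pi.single j 1 = v := by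
      rw [QBr.vmv_mulVec]
      simp
    have h3 := congrArg (fun A => A *ᵥ (Pi.single j (1 : K))) h1
    simp only [← mulVec_mulVec, add_mulVec, h2] at h3
    simp only [← mulVec_mulVec]
    exact h3

/-- the family data at `c` -/
structure FamQ (arm : δ → Fin 3) (J : Matrix ι ι K) (B : Matrix δ δ K)
    (N W : Submodule K (Matrix ι δ K)) (g f : Matrix ι δ K)
    (p : Matrix ι ι K × (Fin 3 → Matrix ι ι K)) (i1 : V1 →ₗ[K] (ι → K)) (i2 : V2 →ₗ[K] (ι → K))
    (π : V2 →ₗ[K] V3) (θ : V3 →ₗ[K] (δ → K)) (c : K) (x : Fin 3 → V1 ⊗[K] V3)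
    (b : V1 →ₗ[K] V3) (y : Fin 3 → V2 ⊗[K] V1) (Z : Matrix ι ι K) (Q : Fin 3 → Matrix ι ι K) :
    Prop where
  hy : ∀ t, x t = π.lTensor V1 (TensorProduct.comm K V2 V1 (y t))
  fam : ∃ e q1 qm q3 q4 kk, Fam arm J B N W g f (c⁻¹ • p) (fun s => ten J i1 i2 (y s)) Z Q e
    q1 qm q3 q4 kk
  ψ : ∀ v, (gᵀ * J) *ᵥ (Z *ᵥ i1 v) = -(c⁻¹ • θ (b v))
  ZS : ∀ y', ∃ v u, Z *ᵥ i2 y' = i1 v + g *ᵥ u

theorem Pinf_top {V : Type*} [AddCommGroup V] [Module K V] {a : Fin 3 → End K V}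
    (h : ⨆ t, LinearMap.range (a t) = ⊤) : Mix.Pinf a = ⊤ := by
  have h1 : ∀ j, Mix.Rg a j = ⊤ := by
    intro j
    induction j with
    | zero => rfl
    | succ j ih =>
      rw [Mix.Rg_succ, ih]
      exact (iSup_congr fun s => Submodule.map_top _).trans h
  unfold Mix.Pinf
  rw [iInf_congr h1, iInf_const]

/-- the pairing used for `Z P_S ⊂ P' + S` -/
theorem QS.exists_pair (h : QS arm J B g f X Ap F A3 i1 i2 π θ R1 R3 gf) (c : K) (t : Fin 3)
    (y : V2 ⊗[K] V1) (u : δ → K) : ∃ w : V1, ∀ v : ι → K, (gᵀ * J) *ᵥ v = 0 →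
      -(c⁻¹ * (c⁻¹ * (u ⬝ᵥ (At arm J B g X t *ᵥ ((gᵀ * J) *ᵥ (X *ᵥ (ten J i1 i2 y *ᵥ v)))))))
        + c⁻¹ * (u ⬝ᵥ ((gᵀ * J) *ᵥ (X *ᵥ (ten J i1 i2 y *ᵥ ((M arm B t f f * J) *ᵥ v)))))
      = i1 w ⬝ᵥ J *ᵥ v := by
  induction y using TensorProduct.induction_on with
  | zero => exact ⟨0, fun v hv => by simp⟩
  | tmul a b =>
    refine ⟨-(c⁻¹ * (c⁻¹ * (u ⬝ᵥ (At arm J B g X t *ᵥ θ (π a))))) • b
      + (c⁻¹ * (u ⬝ᵥ θ (π a))) • Ap t b, fun v hv => ?_⟩
    rw [h.side.ten_tmul_mulVec a b hv, h.side.ten_tmul_mulVec a b (h.side.Mf_perp t v)]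
    have h1 : i1 b ⬝ᵥ J *ᵥ ((M arm B t f f * J) *ᵥ v) = i1 (Ap t b) ⬝ᵥ J *ᵥ v := by
      obtain ⟨u', hu'⟩ := h.side.A1 t b
      rw [← h.side.M_adj, hu', add_dotProduct, h.dotg, hv, dotProduct_zero, add_zero]
    rw [h1]
    simp only [mulVec_smul, dotProduct_smul, smul_eq_mul, map_add, map_smul, add_dotProduct,
      smul_dotProduct, h.θπ]
    ring
  | add a b ha hb =>
    obtain ⟨w1, hw1⟩ := ha
    obtain ⟨w2, hw2⟩ := hb
    refine ⟨w1 + w2, fun v hv => ?_⟩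
    rw [map_add i1, add_dotProduct, ← hw1 v hv, ← hw2 v hv]
    simp only [map_add, add_mulVec, mulVec_add, dotProduct_add]
    ring

/-- **The Q-side families.** -/
theorem exists_fam (hctx : Ctx k arm J B N W g)
    (hNm : ∀ F, (∀ F' ∈ N, pair J B F' F = 0) → F ∈ N)
    (hWm : ∀ F, (∀ F' ∈ W, pair J B F' F = 0) → F ∈ W)
    (hc : Glue k arm J N W g) (hf : f ∈ N ⊓ W)
    {p : Matrix ι ι K × (Fin 3 → Matrix ι ι K)} (hp : p ∈ NN arm J N g)
    (hp0 : gᵀ * J * (p.1 * f) = 0) [FiniteDimensional K V1] [FiniteDimensional K V2]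
    (h : QS arm J B g f p.1 Ap F A3 i1 i2 π θ R1 R3 gf) {c : K} (hc0 : c ≠ 0)
    (htw : ∀ b : V1 →ₗ[K] (V3 ⧸ R3), (∀ s, QBlk.Aq A3 R3 h.st3 s ∘ₗ b = c • (b ∘ₗ Ap s)) → b = 0)
    {x : Fin 3 → V1 ⊗[K] V3} (hx : Ex A3 Ap R3 R1 c x) :
    ∃ b y Z Q, Cor A3 Ap R3 gf 1 c x b ∧ FamQ arm J B N W g f p i1 i2 π θ c x b y Z Q := by
  classical
  obtain ⟨y, hy, hyx⟩ := lift_surj h.surj h.πF h.ker h.top1 hc0 x hx.sum
  obtain ⟨Z, Q, e, q1, qm, q3, q4, kk, hF⟩ := hctx.fam hNm hWm hc hf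
    (p := c⁻¹ • p) ((NN arm J N g).smul_mem _ hp)
    (by
      change gᵀ * J * ((c⁻¹ • p.1) * f) = 0
      rw [Matrix.smul_mul, Matrix.mul_smul, hp0, smul_zero])
    (R := fun s => ten J i1 i2 (y s)) (fun s => ten_skw h.side.J_symm (y s))
    (fun s => h.side.ten_g (y s)) (fun s v hv => h.side.ten_S (y s) v hv)
    (fun v hv => h.side.hsum hyx v hv)
  have hp1 : (c⁻¹ • p).1 = c⁻¹ • p.1 := rfl
  have hZgv : ∀ u : δ → K, (gᵀ * J) *ᵥ (Z *ᵥ (g *ᵥ u)) = 0 := by
    intro u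
    rw [mulVec_mulVec, mulVec_mulVec, Matrix.mul_assoc, hF.Zg, zero_mulVec]
  -- the relation for `ψ`
  have hrel : ∀ (t : Fin 3) (v : ι → K), (gᵀ * J) *ᵥ v = 0 →
      c⁻¹ • (At arm J B g p.1 t *ᵥ (c⁻¹ • ((gᵀ * J) *ᵥ (p.1 *ᵥ (ten J i1 i2 (y t) *ᵥ v)))
        + (gᵀ * J) *ᵥ (Z *ᵥ v)))
      = c⁻¹ • ((gᵀ * J) *ᵥ (p.1 *ᵥ (ten J i1 i2 (y t) *ᵥ ((M arm B t f f * J) *ᵥ v))))
        + (gᵀ * J) *ᵥ (Z *ᵥ ((M arm B t f f * J) *ᵥ v)) := by
    intro t v hv
    have h1 := inter_vec hF t hv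
    rw [hp1] at h1
    simp only [smul_mulVec, mulVec_smul, mulVec_add] at h1
    have h2 := h.At_mulVec t (c⁻¹ • (p.1 *ᵥ (ten J i1 i2 (y t) *ᵥ v)) + Z *ᵥ v)
    simp only [mulVec_smul, mulVec_add] at h2 ⊢
    rw [← h2]
    simpa only [smul_add, mulVec_smul] using h1
  have hMi : ∀ t v, ∃ u, (M arm B t f f * J) *ᵥ i1 v = i1 (Ap t v) + g *ᵥ u := h.side.A1
  let b0 : V1 →ₗ[K] (δ → K) :=
    -(c • ((gᵀ * J).mulVecLin ∘ₗ Z.mulVecLin ∘ₗ i1))
  have hb0 : ∀ v, b0 v = -(c • ((gᵀ * J) *ᵥ (Z *ᵥ i1 v))) := fun v => rfl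
  have hE : ∀ t v, At arm J B g p.1 t *ᵥ b0 v - c • b0 (Ap t v)
      = θ (A3 t (ev gf (x t) v) - c • ev gf (x t) (Ap t v)) := by
    intro t v
    have h1 := hrel t (i1 v) (h.side.J1 v)
    obtain ⟨u, hu⟩ := hMi t v
    rw [hu] at h1
    simp only [mulVec_add, h.side.ten_g_mulVec, hZgv, add_zero] at h1
    rw [map_sub, map_smul, h.A3θ, hy t, h.ev_eq, h.ev_eq, hb0, hb0]
    set r1 := (gᵀ * J) *ᵥ (p.1 *ᵥ (ten J i1 i2 (y t) *ᵥ i1 v)) with hr1
    set r2 := (gᵀ * J) *ᵥ (p.1 *ᵥ (ten J i1 i2 (y t) *ᵥ i1 (Ap t v))) with hr2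
    set s1 := (gᵀ * J) *ᵥ (Z *ᵥ i1 v) with hs1
    set s2 := (gᵀ * J) *ᵥ (Z *ᵥ i1 (Ap t v)) with hs2
    have h3 := congrArg (fun w => (c * c) • w) h1
    simp only [mulVec_smul, smul_add, smul_smul] at h3
    have e1 : c * c * (c⁻¹ * c⁻¹) = 1 := by field_simp
    have e2 : c * c * c⁻¹ = c := by field_simp
    rw [e1, e2, one_smul] at h3
    rw [mulVec_neg, mulVec_smul, smul_neg, smul_smul, sub_neg_eq_add]
    rw [← eq_sub_iff_add_eq] at h3
    rw [h3]
    abel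
  have hcstab : ∀ w ∈ LinearMap.range θ, ∀ t, At arm J B g p.1 t *ᵥ w ∈ LinearMap.range θ := by
    rintro _ ⟨a, rfl⟩ t
    exact ⟨A3 t a, h.A3θ t a⟩
  have hb0r : ∀ v, b0 v ∈ LinearMap.range θ := by
    intro v
    refine Mix.map_Pinf_le (a := fun t => (At arm J B g p.1 t).mulVecLin) (b := fun t => c • Ap t)
      (c := b0) (U := LinearMap.range θ) (fun s w hw => hcstab w hw s) h.hPΘ ?_ v ?_
    · intro s z _
      have h1 := hE s z
      have h2 : b0 ((c • Ap s) z) = c • b0 (Ap s z) := by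
        rw [LinearMap.smul_apply, map_smul]
      rw [h2, mulVecLin_apply, h1]
      exact ⟨_, rfl⟩
    · rw [QBlk.Pinf_smul c hc0, Pinf_top h.top1]
      trivial
  let b : V1 →ₗ[K] V3 := (LinearEquiv.ofInjective θ h.θinj).symm.toLinearMap ∘ₗ
    b0.codRestrict (LinearMap.range θ) hb0r
  have hθb : ∀ v, θ (b v) = b0 v := by
    intro v
    have h1 := LinearEquiv.apply_symm_apply (LinearEquiv.ofInjective θ h.θinj)
      (b0.codRestrict (LinearMap.range θ) hb0r v)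
    exact congrArg Subtype.val h1
  have hbE : ∀ t v, A3 t (b v) - c • b (Ap t v)
      = A3 t (ev gf (x t) v) - c • ev gf (x t) (Ap t v) := by
    intro t v
    apply h.θinj
    rw [map_sub, map_smul, h.A3θ, hθb, hθb, hE]
  -- `g (B p) p' = g p (B p')`
  have hgB : ∀ t v v', gf (Ap t v) v' = 1 * gf v (Ap t v') := by
    intro t v v'
    rw [one_mul, h.hgf, h.hgf]
    obtain ⟨u, hu⟩ := hMi t v
    obtain ⟨u', hu'⟩ := hMi t v'
    have h1 := h.side.M_adj f t (i1 v) (i1 v')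
    rw [hu, hu', add_dotProduct, h.dotg, h.side.J1, dotProduct_zero, add_zero, mulVec_add,
      dotProduct_add, h.side.i1_perp, add_zero] at h1
    exact h1
  have hev3 : ∀ z ∈ (RT R1 ⊔ TR R3 : Submodule K (V1 ⊗[K] V3)), ∀ v, ev gf z v ∈ R3 := by
    intro z hz v
    obtain ⟨z1, hz1, z2, hz2, rfl⟩ := Submodule.mem_sup.1 hz
    rw [map_add, LinearMap.add_apply]
    refine R3.add_mem ?_ ?_
    · have : ∀ z ∈ (RT R1 : Submodule K (V1 ⊗[K] V3)), ev gf z v ∈ R3 := by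
        intro z hz
        unfold RT at hz
        induction hz using Submodule.span_induction with
        | mem z hz =>
          obtain ⟨r, hr, p, rfl⟩ := hz
          rw [ev_tmul, h.gR r hr, zero_smul]
          exact R3.zero_mem
        | zero => simp
        | add a b _ _ ha hb => rw [map_add, LinearMap.add_apply]; exact R3.add_mem ha hb
        | smul r a _ ha => rw [map_smul, LinearMap.smul_apply]; exact R3.smul_mem _ ha
      exact this z1 hz1
    · have : ∀ z ∈ (TR R3 : Submodule K (V1 ⊗[K] V3)), ev gf z v ∈ R3 := by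
        intro z hz
        unfold TR at hz
        induction hz using Submodule.span_induction with
        | mem z hz =>
          obtain ⟨p, r, hr, rfl⟩ := hz
          rw [ev_tmul]
          exact R3.smul_mem _ hr
        | zero => simp
        | add a b _ _ ha hb => rw [map_add, LinearMap.add_apply]; exact R3.add_mem ha hb
        | smul r a _ ha => rw [map_smul, LinearMap.smul_apply]; exact R3.smul_mem _ ha
      exact this z2 hz2
  have hbR : ∀ v, b v ∈ R3 := by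
    have h1 := htw (R3.mkQ ∘ₗ b) (by
      intro s
      apply LinearMap.ext
      intro v
      have h2 : A3 s (b v) - c • b (Ap s v) ∈ R3 := by
        rw [hbE]
        have h3 := ev_DD A3 Ap hgB c s (x s) v
        rw [one_mul] at h3
        rw [← h3]
        exact hev3 _ (hx.arm s) v
      have h4 : (Submodule.Quotient.mk (A3 s (b v)) : V3 ⧸ R3)
          = Submodule.Quotient.mk (c • b (Ap s v)) := (Submodule.Quotient.eq R3).2 h2
      exact h4)
    intro v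
    have h2 := LinearMap.congr_fun h1 v
    exact (Submodule.Quotient.mk_eq_zero R3).1 h2
  refine ⟨b, y, Z, Q, ⟨hbR, fun t v => by rw [one_mul]; exact hbE t v⟩,
    ⟨hy, ⟨e, q1, qm, q3, q4, kk, hF⟩, fun v => ?_, fun y' => ?_⟩⟩
  · rw [hθb, hb0, smul_neg, smul_smul, inv_mul_cancel₀ hc0, one_smul, neg_neg]
  · -- `Z P_S ⊂ P' + S`
    have hmem : (Z.mulVecLin ∘ₗ i2) y' ∈ LinearMap.range i1 ⊔ LinearMap.range g.mulVecLin := by
      refine Mix.map_Pinf_le (a := fun t => (M arm B t f f * J).mulVecLin)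
        (b := fun t => (-c⁻¹) • F t) (c := Z.mulVecLin ∘ₗ i2)
        (U := LinearMap.range i1 ⊔ LinearMap.range g.mulVecLin) ?_ h.hPf ?_ y' ?_
      · intro s w hw
        obtain ⟨_, ⟨v, rfl⟩, _, ⟨u, rfl⟩, rfl⟩ := Submodule.mem_sup.1 hw
        obtain ⟨u', hu'⟩ := hMi s v
        rw [map_add, mulVecLin_apply, mulVecLin_apply, mulVecLin_apply, hu', h.side.Mf_g, add_zero]
        exact Submodule.add_mem_sup ⟨_, rfl⟩ ⟨u', rfl⟩
      · intro s z _
        obtain ⟨u, hu⟩ := h.side.J2 z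
        obtain ⟨w, hw⟩ := h.exists_pair c s (y s) u
        have hS : ∃ u', (M arm B s f f * J) *ᵥ (Z *ᵥ i2 z) + c⁻¹ • (Z *ᵥ i2 (F s z)) - i1 w
            = g *ᵥ u' := by
          apply h.side.mem_S
          intro v hv
          rw [sub_dotProduct, ← hw v hv, add_dotProduct, smul_dotProduct]
          -- first term
          have t1 : ((M arm B s f f * J) *ᵥ (Z *ᵥ i2 z)) ⬝ᵥ J *ᵥ v
              = -(u ⬝ᵥ ((gᵀ * J) *ᵥ (Z *ᵥ ((M arm B s f f * J) *ᵥ v)))) := by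
            rw [h.side.M_adj, h.side.skw_adj hF.skw, hu, h.dotg]
          have t2 : (Z *ᵥ i2 (F s z)) ⬝ᵥ J *ᵥ v
              = u ⬝ᵥ (At arm J B g p.1 s *ᵥ ((gᵀ * J) *ᵥ (Z *ᵥ v))) := by
            rw [h.side.skw_adj hF.skw, h.side.B2, hu]
            have e1 : (M arm B s g g * J) *ᵥ (p.1 *ᵥ (g *ᵥ u))
                = g *ᵥ ((E K arm s * B * (gᵀ * J * (p.1 * g))) *ᵥ u) := by
              simp only [mulVec_mulVec]
              congr 1
              unfold M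
              simp only [Matrix.mul_assoc]
            rw [e1, h.dotg]
            have e2 : (E K arm s * B * (gᵀ * J * (p.1 * g)))ᵀ
                = -(At arm J B g p.1 s) := by
              have hsk : (gᵀ * J * (p.1 * g))ᵀ = -(gᵀ * J * (p.1 * g)) := by
                rw [transpose_mul, transpose_mul, transpose_mul, transpose_transpose,
                  h.side.J_symm]
                calc gᵀ * p.1ᵀ * (J * g) = gᵀ * (p.1ᵀ * J) * g := by simp only [Matrix.mul_assoc]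
                  _ = _ := by
                    rw [hp.1.eq]; simp only [Matrix.mul_neg, Matrix.neg_mul, Matrix.mul_assoc]
              rw [transpose_mul (E K arm s * B), hsk, transpose_mul, E_transpose, h.side.B_symm,
                ← h.side.B_arm]
              unfold At
              simp only [Matrix.neg_mul, Matrix.mul_assoc]
            have e3 : ((E K arm s * B * (gᵀ * J * (p.1 * g))) *ᵥ u) ⬝ᵥ ((gᵀ * J) *ᵥ (Z *ᵥ v))
                = u ⬝ᵥ ((E K arm s * B * (gᵀ * J * (p.1 * g)))ᵀ *ᵥ ((gᵀ * J) *ᵥ (Z *ᵥ v))) := by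
              rw [← vecMul_transpose, ← dotProduct_mulVec]
            rw [e3, e2, neg_mulVec, dotProduct_neg, neg_neg]
          rw [t1, t2]
          have h5 := congrArg (fun w => u ⬝ᵥ w) (hrel s v hv)
          simp only [mulVec_add, mulVec_smul, smul_add, dotProduct_add, dotProduct_smul,
            smul_eq_mul, smul_smul] at h5
          simp only [smul_eq_mul]
          linear_combination h5
        obtain ⟨u', hu'⟩ := hS
        have h6 : (M arm B s f f * J).mulVecLin ((Z.mulVecLin ∘ₗ i2) z)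
            - (Z.mulVecLin ∘ₗ i2) (((-c⁻¹) • F s) z) = i1 w + g.mulVecLin u' := by
          rw [LinearMap.smul_apply, map_smul, neg_smul, sub_neg_eq_add]
          rw [mulVecLin_apply, LinearMap.comp_apply, LinearMap.comp_apply, mulVecLin_apply,
            mulVecLin_apply, mulVecLin_apply, ← hu']
          abel
        rw [h6]
        exact Submodule.add_mem_sup ⟨_, rfl⟩ ⟨_, rfl⟩
      · rw [QBlk.Pinf_smul _ (neg_ne_zero.2 (inv_ne_zero hc0)), Pinf_top h.top2]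
        trivial
    obtain ⟨_, ⟨v, rfl⟩, _, ⟨u, rfl⟩, hvu⟩ := Submodule.mem_sup.1 hmem
    exact ⟨v, u, hvu.symm⟩

section prod

/-- `lift` of `mm` composed with a map -/
theorem lift_qt_comp (β : V1 →ₗ[K] V3) (t : Fin 3) (z : V1 ⊗[K] V3) :
    TensorProduct.lift ((qt θ t) ∘ₗ β) z = Pi.single t (TensorProduct.lift ((mm θ) ∘ₗ β) z) := by
  induction z using TensorProduct.induction_on with
  | zero => simp
  | tmul a b => simp
  | add a b ha hb => rw [map_add, map_add, ha, hb, Pi.single_add]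

theorem lift_qt_flip (β : V1 →ₗ[K] V3) (t : Fin 3) (z : V1 ⊗[K] V3) :
    TensorProduct.lift ((qt θ t).flip ∘ₗ β) z
      = Pi.single t (TensorProduct.lift ((mm θ).flip ∘ₗ β) z) := by
  induction z using TensorProduct.induction_on with
  | zero => simp
  | tmul a b => simp
  | add a b ha hb => rw [map_add, map_add, ha, hb, Pi.single_add]

theorem vmv_mulmat {α β γ : Type*} [Fintype β] (a : α → K) (b : β → K) (F : Matrix β γ K) :
    vecMulVec a b * F = vecMulVec a (b ᵥ* F) := by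
  ext i j
  simp [Matrix.mul_apply, vecMulVec_apply, Matrix.vecMul, dotProduct, Finset.mul_sum, mul_assoc]

variable (h : QS arm J B g f X Ap F A3 i1 i2 π θ R1 R3 gf)

include h

theorem QS.skw_row {Z : Matrix ι ι K} (hZ : Skw J Z) (w : ι → K) :
    w ᵥ* (J * (Z * g)) = -((gᵀ * J) *ᵥ (Z *ᵥ w)) := by
  have e : (gᵀ * J * Z)ᵀ = -(J * (Z * g)) := by
    rw [transpose_mul, transpose_mul, transpose_transpose, h.side.J_symm, ← Matrix.mul_assoc,
      hZ.eq, Matrix.neg_mul, Matrix.mul_assoc]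
  rw [mulVec_mulVec, ← vecMul_transpose, e, vecMul_neg, neg_neg]

theorem QS.ten_row {Z : Matrix ι ι K} (hZ : Skw J Z) (a : V2) (b : V1) :
    ten J i1 i2 (a ⊗ₜ[K] b) * (Z * g) = vecMulVec (i1 b) ((gᵀ * J) *ᵥ (Z *ᵥ i2 a))
      - vecMulVec (i2 a) ((gᵀ * J) *ᵥ (Z *ᵥ i1 b)) := by
  rw [ten_tmul, Matrix.sub_mul, Matrix.mul_assoc (vecMulVec (i2 a) (i1 b)) J,
    Matrix.mul_assoc (vecMulVec (i1 b) (i2 a)) J, vmv_mulmat, vmv_mulmat, h.skw_row hZ,
    h.skw_row hZ]
  ext i j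
  simp only [vecMulVec_apply, Pi.neg_apply, Matrix.sub_apply]
  ring

omit h in
theorem left_vmv (Y : Matrix ι ι K) (u : ι → K) (w : δ → K) :
    gᵀ * J * (Y * vecMulVec u w) = vecMulVec ((gᵀ * J) *ᵥ (Y *ᵥ u)) w := by
  rw [mul_vecMulVec, mul_vecMulVec]

omit h in
theorem left_vmv2 (Y T : Matrix ι ι K) (u : ι → K) (w : δ → K) :
    gᵀ * J * (Y * (T * vecMulVec u w)) = vecMulVec ((gᵀ * J) *ᵥ (Y *ᵥ (T *ᵥ u))) w := by
  rw [mul_vecMulVec, mul_vecMulVec, mul_vecMulVec]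

theorem QS.L2 (hX : Skw J X) {Z : Matrix ι ι K} (hZg : gᵀ * J * (Z * g) = 0) {β : V1 →ₗ[K] V3}
    (hβ : ∀ v, (gᵀ * J) *ᵥ (Z *ᵥ i1 v) = θ (β v)) (y : V2 ⊗[K] V1) :
    gᵀ * J * (Z * (ten J i1 i2 y * (X * g)))
      = TensorProduct.lift ((mm θ) ∘ₗ β) (π.lTensor V1 (TensorProduct.comm K V2 V1 y)) := by
  induction y using TensorProduct.induction_on with
  | zero => simp
  | tmul a b =>
    obtain ⟨u, hu⟩ := h.side.J2 a
    have e1 : (gᵀ * J) *ᵥ (Z *ᵥ i2 a) = 0 := by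
      rw [hu, mulVec_mulVec, mulVec_mulVec, Matrix.mul_assoc, hZg, zero_mulVec]
    rw [TensorProduct.comm_tmul, LinearMap.lTensor_tmul, TensorProduct.lift.tmul,
      LinearMap.comp_apply, QEndQ.mm_apply, ← hβ, h.θπ, h.ten_row hX, Matrix.mul_sub,
      Matrix.mul_sub, left_vmv, left_vmv, e1]
    ext i j
    simp [vecMulVec_apply]
  | add a b ha hb =>
    simp only [map_add, Matrix.add_mul, Matrix.mul_add] at ha hb ⊢
    rw [ha, hb]

theorem QS.L3 {Z : Matrix ι ι K} (hZ : Skw J Z) (hZg : gᵀ * J * (Z * g) = 0) {β : V1 →ₗ[K] V3}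
    (hβ : ∀ v, (gᵀ * J) *ᵥ (Z *ᵥ i1 v) = θ (β v)) (y : V2 ⊗[K] V1) :
    gᵀ * J * (X * (ten J i1 i2 y * (Z * g)))
      = -TensorProduct.lift ((mm θ).flip ∘ₗ β)
        (π.lTensor V1 (TensorProduct.comm K V2 V1 y)) := by
  induction y using TensorProduct.induction_on with
  | zero => simp
  | tmul a b =>
    obtain ⟨u, hu⟩ := h.side.J2 a
    have e1 : (gᵀ * J) *ᵥ (Z *ᵥ i2 a) = 0 := by
      rw [hu, mulVec_mulVec, mulVec_mulVec, Matrix.mul_assoc, hZg, zero_mulVec]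
    rw [TensorProduct.comm_tmul, LinearMap.lTensor_tmul, TensorProduct.lift.tmul,
      LinearMap.comp_apply, LinearMap.flip_apply, QEndQ.mm_apply, ← hβ, h.θπ, h.ten_row hZ,
      Matrix.mul_sub, Matrix.mul_sub, left_vmv, left_vmv, e1]
    ext i j
    simp [vecMulVec_apply]
  | add a b ha hb =>
    simp only [map_add, Matrix.add_mul, Matrix.mul_add, neg_add] at ha hb ⊢
    rw [ha, hb]

theorem QS.L4 (hX : Skw J X) (y' y : V2 ⊗[K] V1) :
    gᵀ * J * (X * (ten J i1 i2 y' * (ten J i1 i2 y * (X * g))))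
      = TensorProduct.lift ((mm θ) ∘ₗ (ev gf (π.lTensor V1 (TensorProduct.comm K V2 V1 y'))))
        (π.lTensor V1 (TensorProduct.comm K V2 V1 y)) := by
  induction y using TensorProduct.induction_on with
  | zero => simp
  | tmul a b =>
    obtain ⟨u, hu⟩ := h.side.J2 a
    have e1 : ten J i1 i2 y' *ᵥ i2 a = 0 := by
      rw [hu, h.side.ten_g_mulVec]
    rw [TensorProduct.comm_tmul, LinearMap.lTensor_tmul, TensorProduct.lift.tmul,
      LinearMap.comp_apply, QEndQ.mm_apply, h.ev_eq, h.θπ a, h.ten_row hX, Matrix.mul_sub,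
      Matrix.mul_sub, Matrix.mul_sub, left_vmv2, left_vmv2, e1]
    ext i j
    simp [vecMulVec_apply]
  | add a b ha hb =>
    simp only [map_add, Matrix.add_mul, Matrix.mul_add] at ha hb ⊢
    rw [ha, hb]

omit h in
/-- the tensor terms on the arm `t` -/
theorem sum_single (D : Fin 3 → Matrix δ δ K) :
    ∑ t, (Pi.single t (D t) : Fin 3 → Matrix δ δ K) = D := by
  exact Finset.univ_sum_single D

/-- **hrel for the Q-side** -/
theorem QS.hrel (hctx : Ctx k arm J B N W g)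
    {p : Matrix ι ι K × (Fin 3 → Matrix ι ι K)} (hp : p ∈ NN arm J N g) (hpX : p.1 = X)
    {U : Submodule K (δ → K)} (hU : ∀ u ∈ U, ∃ y, i2 y = g *ᵥ u) {c c' : K} (hc : c ≠ 0)
    (hc' : c' ≠ 0) {x x' : Fin 3 → V1 ⊗[K] V3} {b b' : V1 →ₗ[K] V3} {y y' : Fin 3 → V2 ⊗[K] V1}
    {Z Z' : Matrix ι ι K} {Q Q' : Fin 3 → Matrix ι ι K} (hb' : ∀ v, b' v ∈ R3)
    (hF : FamQ arm J B N W g f p i1 i2 π θ c x b y Z Q)
    (hF' : FamQ arm J B N W g f p i1 i2 π θ c' x' b' y' Z' Q') :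
    ∑ t, ((1 : K) • TensorProduct.lift ((qt θ t) ∘ₗ b') (x t)
        + (1 : K) • TensorProduct.lift ((qt θ t).flip ∘ₗ b) (x' t)
        + (-1 : K) • TensorProduct.lift ((qt θ t) ∘ₗ (ev gf (x' t))) (x t))
      ∈ TT arm J N g U := by
  obtain ⟨e, q1, qm, q3, q4, kk, F1⟩ := hF.fam
  obtain ⟨e', q1', qm', q3', q4', kk', F1'⟩ := hF'.fam
  have hX : Skw J X := hpX ▸ hp.1
  obtain ⟨hN, hval⟩ := hctx.prodQ ((NN arm J N g).smul_mem c'⁻¹ hp) F1' F1
    (fun s => ten_skw h.side.J_symm (y' s)) (fun s => h.side.ten_g (y' s))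
    (fun s => ten_skw h.side.J_symm (y s)) (fun s => h.side.ten_g (y s))
  have hZg : gᵀ * J * (Z * g) = 0 := F1.Zg
  have hZg' : gᵀ * J * (Z' * g) = 0 := F1'.Zg
  have hβ : ∀ v, (gᵀ * J) *ᵥ (Z *ᵥ i1 v) = θ ((-(c⁻¹ • b)) v) := by
    intro v
    rw [hF.ψ, LinearMap.neg_apply, LinearMap.smul_apply, map_neg, map_smul]
  have hβ' : ∀ v, (gᵀ * J) *ᵥ (Z' *ᵥ i1 v) = θ ((-(c'⁻¹ • b')) v) := by
    intro v
    rw [hF'.ψ, LinearMap.neg_apply, LinearMap.smul_apply, map_neg, map_smul]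
  have hl2 : ∀ t, TensorProduct.lift ((mm θ) ∘ₗ (-(c'⁻¹ • b'))) (x t)
      = -(c'⁻¹ • TensorProduct.lift ((mm θ) ∘ₗ b') (x t)) := by
    intro t
    generalize x t = z
    induction z using TensorProduct.induction_on with
    | zero => simp
    | tmul a b => simp [neg_vecMulVec, smul_vecMulVec]
    | add a b ha hb => rw [map_add, map_add, ha, hb, smul_add, neg_add]
  have hl3 : ∀ t, TensorProduct.lift ((mm θ).flip ∘ₗ (-(c⁻¹ • b))) (x' t)
      = -(c⁻¹ • TensorProduct.lift ((mm θ).flip ∘ₗ b) (x' t)) := by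
    intro t
    generalize x' t = z
    induction z using TensorProduct.induction_on with
    | zero => simp
    | tmul a b => simp [vecMulVec_neg, vecMulVec_smul]
    | add a b ha hb => rw [map_add, map_add, ha, hb, smul_add, neg_add]
  have e2 : ∀ t, gᵀ * J * (Z' * (ten J i1 i2 (y t) * (X * g)))
      = -(c'⁻¹ • TensorProduct.lift ((mm θ) ∘ₗ b') (x t)) := by
    intro t
    rw [h.L2 hX hZg' hβ', ← hF.hy, hl2]
  have e3 : ∀ t, gᵀ * J * (X * (ten J i1 i2 (y' t) * (Z * g)))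
      = c⁻¹ • TensorProduct.lift ((mm θ).flip ∘ₗ b) (x' t) := by
    intro t
    rw [h.L3 F1.skw hZg hβ, ← hF'.hy, hl3, neg_neg]
  have e4 : ∀ t, gᵀ * J * (X * (ten J i1 i2 (y' t) * (ten J i1 i2 (y t) * (X * g))))
      = TensorProduct.lift ((mm θ) ∘ₗ (ev gf (x' t))) (x t) := by
    intro t
    rw [h.L4 hX, ← hF.hy, ← hF'.hy]
  have hD : ∑ t, ((1 : K) • TensorProduct.lift ((qt θ t) ∘ₗ b') (x t)
        + (1 : K) • TensorProduct.lift ((qt θ t).flip ∘ₗ b) (x' t)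
        + (-1 : K) • TensorProduct.lift ((qt θ t) ∘ₗ (ev gf (x' t))) (x t))
      = fun t => (TensorProduct.lift ((mm θ) ∘ₗ b') (x t)
        + TensorProduct.lift ((mm θ).flip ∘ₗ b) (x' t)
        - TensorProduct.lift ((mm θ) ∘ₗ (ev gf (x' t))) (x t)) := by
    rw [← sum_single (fun t => (TensorProduct.lift ((mm θ) ∘ₗ b') (x t)
        + TensorProduct.lift ((mm θ).flip ∘ₗ b) (x' t)
        - TensorProduct.lift ((mm θ) ∘ₗ (ev gf (x' t))) (x t)))]
    refine Finset.sum_congr rfl fun t _ => ?_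
    rw [lift_qt_comp, lift_qt_flip, lift_qt_comp, one_smul, one_smul, neg_one_smul,
      ← sub_eq_add_neg, ← Pi.single_add, ← Pi.single_sub]
  rw [hD]
  refine ⟨(c * c') • (Z' * Z), fun s => (c * c') • (Q' s * Q s), ?_, ?_, ?_⟩
  · rw [act_smul_left]
    exact N.smul_mem _ hN
  · intro u hu u' hu'
    obtain ⟨r, hr⟩ := hU u hu
    obtain ⟨r', hr'⟩ := hU u' hu'
    obtain ⟨v, w, hvw⟩ := hF.ZS r'
    have h1 : (gᵀ * J * ((c * c') • (Z' * Z) * g)) *ᵥ u'
        = (c * c') • ((gᵀ * J) *ᵥ (Z' *ᵥ (Z *ᵥ i2 r'))) := by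
      rw [hr', Matrix.smul_mul, Matrix.mul_smul, smul_mulVec]
      congr 1
      simp only [mulVec_mulVec, Matrix.mul_assoc]
    have h2 : (gᵀ * J) *ᵥ (Z' *ᵥ (g *ᵥ w)) = 0 := by
      rw [mulVec_mulVec, mulVec_mulVec, Matrix.mul_assoc, hZg', zero_mulVec]
    rw [h1, hvw, mulVec_add, mulVec_add, h2, add_zero, hF'.ψ, smul_neg, dotProduct_neg,
      dotProduct_smul, dotProduct_smul, h.hrad _ (hb' v) r u hr, smul_zero, smul_zero, neg_zero]
  · intro s
    have h1 := hval s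
    have h2 : gᵀ * J * ((Z' + (c'⁻¹ • p).1 * ten J i1 i2 (y' s))
          * (Z - ten J i1 i2 (y s) * (c⁻¹ • p).1) * g)
        = gᵀ * J * (Z' * Z * g) - c⁻¹ • (gᵀ * J * (Z' * (ten J i1 i2 (y s) * (X * g))))
          + c'⁻¹ • (gᵀ * J * (X * (ten J i1 i2 (y' s) * (Z * g))))
          - (c'⁻¹ * c⁻¹) • (gᵀ * J * (X * (ten J i1 i2 (y' s)
            * (ten J i1 i2 (y s) * (X * g))))) := by
      have hp1 : (c⁻¹ • p).1 = c⁻¹ • X := by rw [← hpX]; rfl
      have hp1' : (c'⁻¹ • p).1 = c'⁻¹ • X := by rw [← hpX]; rfl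
      rw [hp1, hp1']
      simp only [Matrix.add_mul, Matrix.mul_sub, Matrix.sub_mul, Matrix.mul_add, Matrix.smul_mul,
        Matrix.mul_smul, Matrix.mul_assoc, smul_sub, smul_smul, smul_add]
      rw [mul_comm c'⁻¹ c⁻¹]
      abel
    rw [h2, e2, e3, e4] at h1
    rw [Matrix.smul_mul, Matrix.smul_mul, Matrix.mul_smul, Matrix.mul_smul, h1]
    simp only [smul_add, smul_sub, smul_neg, smul_smul]
    have c1 : c * c' * (c⁻¹ * c'⁻¹) = 1 := by field_simp
    have c2 : c * c' * (c'⁻¹ * c⁻¹) = 1 := by field_simp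
    rw [c1, c2]
    simp only [one_smul]
    abel

end prod

section unique

variable {P1 P2 : Type*} [AddCommGroup P1] [Module K P1] [AddCommGroup P2] [Module K P2]

theorem kill_top {B : Fin 3 → End K P2} (hB : ⨆ t, LinearMap.range (B t) = ⊤)
    (d : P2 →ₗ[K] P1) : ∀ n : ℕ, (∀ w : List (Fin 3), w.length = n → ∀ v,
      d ((w.map B).prod v) = 0) → d = 0 := by
  intro n
  induction n with
  | zero =>
    intro h
    ext v
    exact h [] rfl v
  | succ n ih =>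
    intro h
    refine ih fun w hw v => ?_
    obtain ⟨f, hf⟩ := QBlk.exists_sum_of_top hB v
    rw [hf, map_sum, map_sum]
    refine Finset.sum_eq_zero fun t _ => ?_
    have h1 := h (w ++ [t]) (by simp [hw]) (f t)
    rwa [List.map_append, List.prod_append, Module.End.mul_apply, List.map_singleton,
      List.prod_singleton] at h1

theorem cor_unique {A : Fin 3 → End K P1} {B : Fin 3 → End K P2} {R : Submodule K P1}
    {g2 : P2 →ₗ[K] P2 →ₗ[K] K} {eps c : K} (hec : eps * c ≠ 0) {x : Fin 3 → P2 ⊗[K] P1}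
    {b b' : P2 →ₗ[K] P1} (hb : Cor A B R g2 eps c x b) (hb' : Cor A B R g2 eps c x b')
    (hB : ⨆ t, LinearMap.range (B t) = ⊤) {m : ℕ}
    (hN : ∀ w : List (Fin 3), w.length = m → ∀ r ∈ R, (w.map A).prod r = 0) : b = b' := by
  have hd : ∀ t v, A t ((b - b') v) = (eps * c) • (b - b') (B t v) := by
    intro t v
    have h1 := hb.eq t v
    rw [← hb'.eq t v] at h1
    rw [LinearMap.sub_apply, LinearMap.sub_apply, map_sub, smul_sub]
    rw [sub_eq_iff_eq_add] at h1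
    rw [h1]
    abel
  have hw : ∀ w : List (Fin 3), ∀ v, (w.map A).prod ((b - b') v)
      = (eps * c) ^ w.length • (b - b') ((w.map B).prod v) := by
    intro w
    induction w with
    | nil => intro v; simp
    | cons s w ih =>
      intro v
      rw [List.map_cons, List.prod_cons, Module.End.mul_apply, ih, map_smul, hd, smul_smul,
        List.map_cons, List.prod_cons, Module.End.mul_apply, List.length_cons, pow_succ]
  refine sub_eq_zero.1 (kill_top hB (b - b') m fun w hwl v => ?_)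
  have h1 := hw w v
  rw [hN w hwl _ (by rw [LinearMap.sub_apply]; exact R.sub_mem (hb.mem v) (hb'.mem v))] at h1
  exact (smul_eq_zero.1 h1.symm).resolve_left (pow_ne_zero _ hec)

end unique

/-- **THE Q-SIDE BRIDGE** -/
theorem bridgeQ [Infinite K] (hctx : Ctx k arm J B N W g)
    (hNm : ∀ F, (∀ F' ∈ N, pair J B F' F = 0) → F ∈ N)
    (hWm : ∀ F, (∀ F' ∈ W, pair J B F' F = 0) → F ∈ W)
    (hc : Glue k arm J N W g) (hf : f ∈ N ⊓ W)
    {p : Matrix ι ι K × (Fin 3 → Matrix ι ι K)} (hp : p ∈ NN arm J N g)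
    (hp0 : gᵀ * J * (p.1 * f) = 0) [FiniteDimensional K V1] [FiniteDimensional K V2]
    [FiniteDimensional K V3]
    (h : QS arm J B g f p.1 Ap F A3 i1 i2 π θ R1 R3 gf) {l : Fin 3 → ℕ}
    (h3 : QBlk.PSide A3 R3 l) (h1 : QBlk.PSide Ap R1 l)
    (gtop : ∀ s, ∃ v v', gf ((Ap s ^ (l s - 1)) v) v' ≠ 0)
    {U : Submodule K (δ → K)} (hU : ∀ u ∈ U, ∃ y, i2 y = g *ᵥ u) :
    (∀ t, ∀ r ∈ R3, ∀ v, qt θ t r v ∈ TT arm J N g U ∧ qt θ t v r ∈ TT arm J N g U) ∧
      (∀ s i j, i + j + 1 = l s → ∀ v v',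
        qt θ s ((A3 s ^ i) v) ((A3 s ^ j) v') ∈ TT arm J N g U) := by
  classical
  set Bad : Set K := {c : K | c ≠ 0 ∧ ∃ x : V1 →ₗ[K] (V3 ⧸ R3), x ≠ 0 ∧
    ∀ s, QBlk.Aq A3 R3 h.st3 s ∘ₗ x = c • (x ∘ₗ Ap s)} with hBad
  have hfin : Bad.Finite := QBlk.twist_finite' (QBlk.Aq A3 R3 h.st3) h1.top
  have hΛ : ((Bad ∪ {0})ᶜ : Set K).Infinite := (hfin.union (Set.finite_singleton 0)).infinite_compl
  have h0 : (0 : K) ∉ ((Bad ∪ {0})ᶜ : Set K) := fun hh => hh (Or.inr rfl)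
  have hne : ∀ c ∈ ((Bad ∪ {0})ᶜ : Set K), c ≠ 0 := fun c hh h' => hh (Or.inr h')
  have hfam : ∀ c ∈ ((Bad ∪ {0})ᶜ : Set K), ∀ x, Ex A3 Ap R3 R1 c x →
      ∃ b y Z Q, Cor A3 Ap R3 gf 1 c x b ∧ FamQ arm J B N W g f p i1 i2 π θ c x b y Z Q := by
    intro c hcΛ x hx
    refine exists_fam hctx hNm hWm hc hf hp hp0 h (hne c hcΛ) ?_ hx
    intro b hb
    by_contra hb0
    exact hcΛ (Or.inl ⟨hne c hcΛ, b, hb0, hb⟩)
  have gsymm : ∀ v v', gf v v' = gf v' v := by
    intro v v'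
    rw [h.hgf, h.hgf, dotProduct_mulVec, ← mulVec_transpose, h.side.J_symm, dotProduct_comm]
  have hgB : ∀ t v v', gf (Ap t v) v' = 1 * gf v (Ap t v') := by
    intro t v v'
    rw [one_mul, h.hgf, h.hgf]
    obtain ⟨u, hu⟩ := h.side.A1 t v
    obtain ⟨u', hu'⟩ := h.side.A1 t v'
    have h1 := h.side.M_adj f t (i1 v) (i1 v')
    rw [hu, hu', add_dotProduct, h.dotg, h.side.J1, dotProduct_zero, add_zero, mulVec_add,
      dotProduct_add, h.side.i1_perp, add_zero] at h1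
    exact h1
  obtain ⟨m3, hm3⟩ := h3.kills_le
  obtain ⟨m1, hm1⟩ := h1.kills_le
  refine RJM.main (A := A3) (B := Ap) (R1 := R3) (R2 := R1) (m := max m3 m1) (l := l) (g := gf)
    (eps := 1) h3.top h1.top h3.stable h1.stable (hm3 _ (le_max_left _ _))
    (hm1 _ (le_max_right _ _)) h3.one_le h3.pow h1.pow h3.gen h1.gen one_ne_zero h.gR
    (fun r hr v => by rw [gsymm]; exact h.gR r hr v) hgB gtop hΛ h0 (qt θ) (TT arm J N g U)
    (a1 := 1) (a2 := 1) (a3 := -1) one_ne_zero one_ne_zero (neg_ne_zero.2 one_ne_zero)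
    (fun c hcΛ x hx => ?_) (fun c hcΛ c' hcΛ' x b x' b' hx hb hx' hb' => ?_)
  · obtain ⟨b, y, Z, Q, hb, -⟩ := hfam c hcΛ x hx
    exact ⟨b, hb⟩
  · obtain ⟨b1, y, Z, Q, hb1, hF⟩ := hfam c hcΛ x hx
    obtain ⟨b1', y', Z', Q', hb1', hF'⟩ := hfam c' hcΛ' x' hx'
    have e1 : b = b1 := cor_unique (by rw [one_mul]; exact hne c hcΛ) hb hb1 h1.top
      (hm3 _ (le_refl _))
    have e2 : b' = b1' := cor_unique (by rw [one_mul]; exact hne c' hcΛ') hb' hb1' h1.top
      (hm3 _ (le_refl _))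
    subst e1
    subst e2
    exact h.hrel hctx hp rfl hU (hne c hcΛ) (hne c' hcΛ') hb'.mem hF hF'

end Crest.Agent.R172.QBrQ2
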