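import Crest.Agent.R172.Mix3

/-!
Row 172 (S0260), node Q-Core (helper28): the concrete data of `TameMix c G f X`.

Abstract part: operators `a : ι → End X` with a form `ω` (`ω x y = e ω y x`, `e = ± 1`,
`ω (a x) y = e₂ ω x (a y)`, `e₂ = ± 1`, `rad ω` killed by all `a s`):
`T a` = orthogonal of `Pinf a`, the form on the core is non-degenerate, the core operators are
`e₂`-adjoint.

Concrete part: (P) `X = S^⊥`, `a = aop`, `ω x y = xᵀ J y`, `e = e₂ = 1`;
(Q) `X = S = im G`, `a = Phi`, `ω = eta`, `e = e₂ = -1`.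
-/

set_option autoImplicit false
set_option linter.unusedSectionVars false
set_option linter.unusedFintypeInType false
set_option linter.unusedDecidableInType false

namespace Crest.Agent.R172.QC

open Module
open Crest.Agent.R172.St (T Nk mem_T T_stable T_closed mem_Nk_succ mem_Nk_zero Nk_le_T T_eq_Nk
  Nk_mono Nk_le_succ)
open Crest.Agent.R172.Mix

section abs

variable {K : Type*} [Field K] {X : Type*} [AddCommGroup X] [Module K X] {ι : Type*}

/-- one side of the mixed pair: a form `ω` with `ω x y = e ω y x`, `ω (a x) y = e₂ ω x (a y)`,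
`rad ω` killed by the operators. -/
structure Side (a : ι → End K X) (ω : X →ₗ[K] X →ₗ[K] K) (e e₂ : K) : Prop where
  symm : ∀ x y, ω x y = e * ω y x
  sq : e * e = 1
  adj : ∀ s x y, ω (a s x) y = e₂ * ω x (a s y)
  sq₂ : e₂ * e₂ = 1
  rad : ∀ v, (∀ y, ω v y = 0) → ∀ s, a s v = 0

variable {a : ι → End K X} {ω : X →ₗ[K] X →ₗ[K] K} {e e₂ : K}


theorem Side.e₂_ne (h : Side a ω e e₂) : e₂ ≠ 0 := by
  intro h0; have := h.sq₂; rw [h0] at this; simp at this

theorem Side.adj' (h : Side a ω e e₂) (s : ι) (x y : X) : ω x (a s y) = e₂ * ω (a s x) y := by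
  rw [h.adj, ← mul_assoc, h.sq₂, one_mul]


theorem Side.Nk_Rg (h : Side a ω e e₂) (k : ℕ) : ∀ v ∈ Nk a k, ∀ p ∈ Rg a k, ω v p = 0 := by
  induction k with
  | zero => intro v hv p _; rw [mem_Nk_zero] at hv; rw [hv]; simp
  | succ k ih =>
    intro v hv p hp
    rw [mem_Nk_succ] at hv
    have hle : ⨆ s, (Rg a k).map (a s) ≤ LinearMap.ker (ω v) := by
      refine iSup_le fun s => ?_
      rintro _ ⟨q, hq, rfl⟩
      rw [LinearMap.mem_ker, h.adj', ih _ (hv s) q hq, mul_zero]
    exact hle hp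

theorem Side.Rg_Nk (h : Side a ω e e₂) (k : ℕ) :
    ∀ v, (∀ p ∈ Rg a k, ω v p = 0) → v ∈ Nk a (k + 1) := by
  induction k with
  | zero =>
    intro v hv
    rw [mem_Nk_succ]
    intro s
    rw [mem_Nk_zero]
    exact h.rad v (fun y => hv y trivial) s
  | succ k ih =>
    intro v hv
    rw [mem_Nk_succ]
    intro s
    refine ih _ fun p hp => ?_
    rw [h.adj, hv _ (map_mem_Rg s hp), mul_zero]

/-- **`T` is the orthogonal of the perfect part** -/
theorem Side.mem_T_iff [FiniteDimensional K X] (h : Side a ω e e₂) {v : X} :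
    v ∈ T a ↔ ∀ p ∈ Pinf a, ω v p = 0 := by
  constructor
  · intro hv p hp
    obtain ⟨k, hk⟩ := mem_T.1 hv
    exact h.Nk_Rg k v hk p (mem_Pinf.1 hp k)
  · intro hv
    obtain ⟨k, hk⟩ := exists_Pinf_eq a
    refine Nk_le_T a (k + 1) (h.Rg_Nk k v fun p hp => hv p ?_)
    rw [← hk k le_rfl]; exact hp


/-- the radical of the form on `Pinf a` is `TP a = Pinf a ⊓ T a` -/
theorem Side.mem_TP_iff [FiniteDimensional K X] (h : Side a ω e e₂) {p : Pinf a} :
    p ∈ TP a ↔ ∀ q : Pinf a, ω p q = 0 := by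
  rw [mem_TP, h.mem_T_iff]
  exact ⟨fun h1 q => h1 q q.2, fun h1 q hq => h1 ⟨q, hq⟩⟩



/-! ### the perfect module `P = Pinf a` with its operators -/











/-! ### the form on the core -/

/-- the form on `Pinf a` -/
def Pform (a : ι → End K X) (ω : X →ₗ[K] X →ₗ[K] K) : Pinf a →ₗ[K] Pinf a →ₗ[K] K :=
  (ω.domRestrict (Pinf a)).compl₂ (Pinf a).subtype |>.comp LinearMap.id

theorem Pform_apply (p q : Pinf a) : Pform a ω p q = ω p q := rfl








/-! ### no common factor after a twist -/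

section twist

variable {Y : Type*} [AddCommGroup Y] [Module K Y]

/-- `x : X → Y` with `x ∘ α s = t • β s ∘ x` for all `s` -/
def Tw (α : ι → End K X) (β : ι → End K Y) (t : K) : Submodule K (X →ₗ[K] Y) where
  carrier := {x | ∀ s v, x (α s v) = t • β s (x v)}
  add_mem' := by
    intro x y hx hy s v
    rw [LinearMap.add_apply, LinearMap.add_apply, hx, hy, map_add, smul_add]
  zero_mem' := by intro s v; simp
  smul_mem' := by
    intro r x hx s v
    rw [LinearMap.smul_apply, LinearMap.smul_apply, hx, map_smul, smul_comm]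





end twist

end abs

end Crest.Agent.R172.QC
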