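import Crest.Agent.R172.Qt6

/-!
Row 172 (S0260), (Q1)/(t3): the data of a gluing family (342's R1, 586's (1)-(3)) and the product
formula, in matrix form, without hypothesis on `φ`, `E₁`, or the radicals.
-/

set_option autoImplicit false
set_option linter.unusedSectionVars false
set_option linter.unusedFintypeInType false
set_option linter.unusedDecidableInType false
set_option maxHeartbeats 800000

namespace Crest.Agent.R172.Qt

open Matrix Module Crest.Agent.R172.FO

variable {ι : Type*} [Fintype ι] [DecidableEq ι] {δ : Type*} [Fintype δ] [DecidableEq δ]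
variable {k K : Type*} [Field k] [Field K] [Algebra k K]
variable {arm : δ → Fin 3} {J : Matrix ι ι K} {B : Matrix δ δ K}
  {N W : Submodule K (Matrix ι δ K)} {g : Matrix ι δ K}

/-- the data of the gluing family `R` at `p ∈ NN`, `T_f φ_p = 0`. -/
structure Fam (arm : δ → Fin 3) (J : Matrix ι ι K) (B : Matrix δ δ K)
    (N W : Submodule K (Matrix ι δ K)) (g f : Matrix ι δ K)
    (p : Matrix ι ι K × (Fin 3 → Matrix ι ι K)) (R : Fin 3 → Matrix ι ι K)
    (Z : Matrix ι ι K) (Q : Fin 3 → Matrix ι ι K) (e : Matrix ι δ K)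
    (p1 pm p3 p4 : Matrix ι ι K × (Fin 3 → Matrix ι ι K)) (kk : Matrix ι δ K) : Prop where
  skw : Skw J Z
  Zg : gᵀ * J * (Z * g) = 0
  stb : Stb arm J N Q
  flag : ∀ s, ∃ C : Matrix δ δ K, (Z - (R s * p.1 - p.1 * R s) - Q s) * g = g * C
  eW : e ∈ W
  eS : ∃ C : Matrix δ δ K, e = g * C
  p1N : p1 ∈ NN arm J N g
  p1z : gᵀ * J * (p1.1 * g) = 0
  nu : e - act arm R f + Pg arm g p1 ∈ N
  kkN : kk ∈ N ⊓ W
  pmN : pm ∈ NN arm J N g
  p3N : p3 ∈ NN arm J N g
  p3e : gᵀ * J * (pm.1 * f) = gᵀ * J * (p3.1 * g)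
  p4N : p4 ∈ NN arm J N g
  p4e : gᵀ * J * (p.1 * kk) = gᵀ * J * (p4.1 * g)
  rel : gᵀ * J * (p.1 * e) = - (gᵀ * J * (Z * f)) - gᵀ * J * (p3.1 * g) - gᵀ * J * (p4.1 * g)
    - gᵀ * J * (p.1 * (p1.1 * g))
  inter : ∀ s, ∀ v : Matrix ι ι K, gᵀ * J * v = 0 →
    M arm B s g g * J * (p.1 * (R s * v) + Z * v) + e * E K arm s * B * fᵀ * J * v
      = R s * (M arm B s f f * J * v)
  interφ : ∀ s, ∀ v : Matrix ι ι K, gᵀ * J * v = 0 →
    gᵀ * J * (p.1 * (M arm B s g g * J * (p.1 * (R s * v) + Z * v)))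
      = gᵀ * J * (p.1 * (R s * (M arm B s f f * J * v)) + Z * (M arm B s f f * J * v))

/-- **The derivative along a gluing direction.** -/
theorem Ctx.fam_core (h : Ctx k arm J B N W g) {f : Matrix ι δ K} (hf : f ∈ N ⊓ W)
    {p : Matrix ι ι K × (Fin 3 → Matrix ι ι K)} (hp : p ∈ NN arm J N g)
    (hp0 : gᵀ * J * (p.1 * f) = 0)
    {R : Fin 3 → Matrix ι ι K} (hR : ∀ s, Skw J (R s)) (hRg : ∀ s, R s * g = 0)
    (hRS : ∀ s, ∀ v : Matrix ι ι K, gᵀ * J * v = 0 → ∃ C : Matrix δ ι K, R s * v = g * C)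
    (hsum : ∀ v : Matrix ι ι K, gᵀ * J * v = 0 →
      ∑ s, (M arm B s g g * J * (p.1 * (R s * v)) - R s * (M arm B s f f * J * v)) = 0)
    {d : Derivation k K K} (hd : Realises arm N W R (0 : Matrix δ δ K) d) (hdg : g.map d = 0)
    {kk : Matrix ι δ K} (hkk : kk ∈ N ⊓ W) {p1 : Matrix ι ι K × (Fin 3 → Matrix ι ι K)}
    (hp1 : p1 ∈ NN arm J N g) (hp10 : gᵀ * J * (p1.1 * g) = 0) {C1 : Matrix δ δ K}
    (hx : f.map d = kk + p1.1 * g + g * C1) :
    ∃ (Z : Matrix ι ι K) (Q : Fin 3 → Matrix ι ι K) (e : Matrix ι δ K)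
      (pm p3 p4 : Matrix ι ι K × (Fin 3 → Matrix ι ι K)),
      Fam arm J B N W g f p R Z Q e p1 pm p3 p4 kk := by
  have hD := h.data
  obtain ⟨G, hG⟩ := exists_pinv g
  obtain ⟨Pi, hPi, hPi'⟩ := exists_proj hD.J_unit g
  have hfp := h.perp f hf
  have hfpt : fᵀ * J * g = 0 := by
    have := congrArg transpose hfp
    rw [transpose_mul, transpose_mul, transpose_transpose, hD.J_symm, transpose_zero,
      ← Matrix.mul_assoc] at this
    exact this
  have hgJR : ∀ s, gᵀ * J * R s = 0 := fun s => gJR (hR s) (hRg s)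
  -- `ι × δ` versions
  have hPF : ∀ F : Matrix ι δ K, gᵀ * J * F = 0 → Pi * F = F := by
    intro F hF
    obtain ⟨Ji, hJi⟩ := hD.J_unit.exists_right_inv
    -- columns
    ext i j
    have h1 : gᵀ * J * (Matrix.of fun i (_ : Unit) => F i j) = 0 := by
      ext a b
      have := congrFun (congrFun hF a) j
      rw [mul_apply] at this ⊢
      exact this
    have h2 := congrFun (congrFun (hPi' _ h1) i) ()
    rw [mul_apply] at h2 ⊢
    exact h2
  have hRS' : ∀ s, ∀ F : Matrix ι δ K, gᵀ * J * F = 0 → ∃ C : Matrix δ δ K, R s * F = g * C := by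
    intro s F hF
    obtain ⟨C, hC⟩ := hRS s Pi hPi
    refine ⟨C * F, ?_⟩
    calc R s * F = R s * (Pi * F) := by rw [hPF F hF]
      _ = (R s * Pi) * F := by rw [Matrix.mul_assoc]
      _ = _ := by rw [hC, Matrix.mul_assoc]
  have hsum' : ∀ F : Matrix ι δ K, gᵀ * J * F = 0 →
      ∑ s, (M arm B s g g * J * (p.1 * (R s * F)) - R s * (M arm B s f f * J * F)) = 0 := by
    intro F hF
    have h1 := hsum Pi hPi
    have h2 : ∑ s, (M arm B s g g * J * (p.1 * (R s * F)) - R s * (M arm B s f f * J * F))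
        = (∑ s, (M arm B s g g * J * (p.1 * (R s * Pi)) - R s * (M arm B s f f * J * Pi))) * F := by
      rw [Matrix.sum_mul]
      refine Finset.sum_congr rfl fun s _ => ?_
      conv_lhs => rw [← hPF F hF]
      rw [Matrix.sub_mul]
      simp only [Matrix.mul_assoc]
    rw [h2, h1, Matrix.zero_mul]
  -- `M_s(f) J F = 0` for `fᵀ J F = 0`
  have hMf : ∀ s {α : Type _} (F : Matrix ι α K), fᵀ * J * F = 0 → M arm B s f f * J * F = 0 := by
    intro s α F hF
    unfold M
    have : f * E K arm s * B * fᵀ * J * F = f * E K arm s * B * (fᵀ * J * F) := by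
      simp only [Matrix.mul_assoc]
    rw [this, hF, Matrix.mul_zero]
  -- Step (a)
  have hcomm : ∀ s, Skw J (R s * p.1 - p.1 * R s) := fun s => (hR s).comm hp.1
  have hRpg : ∀ s, (R s * p.1 - p.1 * R s) * g = R s * (p.1 * g) := by
    intro s
    rw [Matrix.sub_mul, Matrix.mul_assoc p.1, hRg, Matrix.mul_zero, sub_zero, Matrix.mul_assoc]
  obtain ⟨Z1, Q2, hZ1, hZ1g, hQ2, hC2⟩ := h.h1 (X := fun s => R s * p.1 - p.1 * R s) hcomm
    (fun s => by rw [hRpg, ← Matrix.mul_assoc, hgJR, Matrix.zero_mul]) (by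
      intro q hq hq0
      rw [h.pair_trace hq.1, neg_eq_zero]
      have hqf : gᵀ * J * (q.1 * f) = 0 := h.tf_zero hf hq hq0
      have hfq : fᵀ * J * (q.1 * g) = 0 := by
        have h1 := congrArg transpose hqf
        rw [transpose_zero, transpose_mul, transpose_mul, transpose_mul, transpose_transpose,
          hD.J_symm] at h1
        have h2 : fᵀ * q.1ᵀ * (J * g) = - (fᵀ * J * (q.1 * g)) := by
          calc fᵀ * q.1ᵀ * (J * g) = fᵀ * (q.1ᵀ * J) * g := by simp only [Matrix.mul_assoc]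
            _ = _ := by
              rw [hq.1.eq]; simp only [Matrix.mul_neg, Matrix.neg_mul, Matrix.mul_assoc]
        rw [h2, neg_eq_zero] at h1
        exact h1
      -- each term
      have hterm : ∀ s, trace (M arm B s g g * J * q.1 * (R s * p.1 - p.1 * R s))
          = - trace (G * (M arm B s g g * J * (p.1 * (R s * (q.1 * g))))) := by
        intro s
        have h1 : M arm B s g g * J * q.1 * (R s * p.1 - p.1 * R s)
            = M arm B s g g * J * q.1 * R s * p.1 - M arm B s g g * J * q.1 * p.1 * R s := by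
          rw [Matrix.mul_sub]; simp only [Matrix.mul_assoc]
        -- trace of second : `R_s g = 0`
        have h2 : trace (M arm B s g g * J * q.1 * p.1 * R s) = 0 := by
          rw [trace_mul_comm]
          have : R s * (M arm B s g g * J * q.1 * p.1)
              = (R s * g) * (E K arm s * B * gᵀ * J * q.1 * p.1) := by
            unfold M; simp only [Matrix.mul_assoc]
          rw [this, hRg, Matrix.zero_mul, trace_zero]
        -- first
        have h3 : trace (M arm B s g g * J * q.1 * R s * p.1)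
            = - trace (M arm B s g g * J * p.1 * R s * q.1) := by
          have e1 : (M arm B s g g * J * q.1 * R s * p.1)ᵀ
              = (p.1ᵀ * (R s)ᵀ * q.1ᵀ * J) * M arm B s g g := by
            have hMt : (M arm B s g g)ᵀ = M arm B s g g := by
              unfold M
              rw [transpose_mul, transpose_mul, transpose_mul, transpose_transpose, E_transpose,
                hD.B_symm]
              simp only [Matrix.mul_assoc]
              rw [← Matrix.mul_assoc B, ← hD.B_arm, Matrix.mul_assoc]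
            rw [transpose_mul, transpose_mul, transpose_mul, transpose_mul, hMt, hD.J_symm]
            simp only [Matrix.mul_assoc]
          rw [← trace_transpose, e1, trace_mul_comm]
          have e2 : p.1ᵀ * (R s)ᵀ * q.1ᵀ * J = - (J * p.1 * R s * q.1) := by
            calc p.1ᵀ * (R s)ᵀ * q.1ᵀ * J = p.1ᵀ * ((R s)ᵀ * (q.1ᵀ * J)) := by
                  simp only [Matrix.mul_assoc]
              _ = - (p.1ᵀ * ((R s)ᵀ * J * q.1)) := by
                  rw [hq.1.eq]; simp only [Matrix.mul_neg, Matrix.mul_assoc]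
              _ = p.1ᵀ * J * R s * q.1 := by
                  rw [(hR s).eq]
                  simp only [Matrix.mul_neg, Matrix.neg_mul, neg_neg, Matrix.mul_assoc]
              _ = _ := by rw [hp.1.eq]; simp only [Matrix.neg_mul, Matrix.mul_assoc]
          rw [e2, Matrix.mul_neg, trace_neg]
          simp only [Matrix.mul_assoc]
        have h4 : trace (M arm B s g g * J * p.1 * R s * q.1)
            = trace (G * (M arm B s g g * J * (p.1 * (R s * (q.1 * g))))) := by
          have e1 : M arm B s g g * J * p.1 * R s * q.1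
              = g * (G * (M arm B s g g * J * p.1 * R s * q.1)) := by
            have : M arm B s g g = g * G * M arm B s g g := by
              unfold M
              have : g * G * (g * E K arm s * B * gᵀ) = (g * G * g) * E K arm s * B * gᵀ := by
                simp only [Matrix.mul_assoc]
              rw [this, hG]
            conv_lhs => rw [this]
            simp only [Matrix.mul_assoc]
          rw [e1, trace_mul_comm]
          simp only [Matrix.mul_assoc]
        rw [h1, trace_sub, h2, sub_zero, h3, h4]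
      rw [Finset.sum_congr rfl fun s _ => hterm s, Finset.sum_neg_distrib, ← trace_sum,
        ← Matrix.mul_sum]
      have h5 := hsum' (q.1 * g) hq0
      have h6 : ∀ s, R s * (M arm B s f f * J * (q.1 * g)) = 0 := by
        intro s; rw [hMf s _ hfq, Matrix.mul_zero]
      simp only [h6, sub_zero] at h5
      rw [h5, Matrix.mul_zero, trace_zero, neg_zero])
  -- Step (b)
  have hJd := hD.J_const d
  have hdW : f.map d ∈ W := by
    have h8 := hd.onW f hf.2
    rw [transpose_zero, Matrix.mul_zero, sub_zero] at h8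
    exact h8
  have hdN : f.map d - act arm R f ∈ N := hd.onN f hf.1
  have hdgJ : ∀ (F : Matrix ι δ K), (gᵀ * J * F).map d = gᵀ * J * F.map d := by
    intro F
    rw [map_mul_der, map_mul_der, map_transpose_der, hdg, hJd, transpose_zero, Matrix.zero_mul,
      Matrix.mul_zero, add_zero, Matrix.zero_mul, zero_add]
  have hdf : gᵀ * J * f.map d = 0 := by
    rw [← hdgJ, hfp]; ext i j; simp
  obtain ⟨CR, hCR⟩ : ∃ C : Matrix δ δ K, act arm R f = g * C := by
    choose C hC using fun s => hRS' s f hfp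
    exact ⟨_, act_mul_const arm R f hC⟩
  set e : Matrix ι δ K := f.map d - kk with he
  have heW : e ∈ W := W.sub_mem hdW hkk.2
  have he1 : e = p1.1 * g + g * C1 := by rw [he, hx]; abel
  -- the relation (d')
  have hNN2 := h.move hRg hd hdg hp hR hZ1 hQ2 hC2
  obtain ⟨p3, hp3, hpe3⟩ := h.tf hf hNN2
  obtain ⟨p4, hp4, hpe4⟩ := h.tf hkk hp
  have hrel : gᵀ * J * (p.1 * e) = - (gᵀ * J * ((p3.1 + p4.1) * g)) - gᵀ * J * (Z1 * f) := by
    have h1 := congrArg (fun A : Matrix δ δ K => A.map d) hp0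
    simp only [hdgJ] at h1
    rw [map_mul_der] at h1
    have h0 : (0 : Matrix δ δ K).map d = 0 := by ext i j; simp
    rw [h0] at h1
    have h2 : gᵀ * J * (p.1 * f.map d) = - (gᵀ * J * (p.1.map d * f)) := by
      rw [Matrix.mul_add] at h1
      rw [eq_neg_iff_add_eq_zero, add_comm]; exact h1
    have h3 : gᵀ * J * (p.1.map d * f) = gᵀ * J * (p3.1 * g) + gᵀ * J * (Z1 * f) := by
      rw [← hpe3, ← Matrix.mul_add]
      congr 1
      simp only [Matrix.sub_mul]
      abel
    rw [he, Matrix.mul_sub p.1, Matrix.mul_sub (gᵀ * J), h2, h3, hpe4]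
    simp only [Matrix.add_mul, Matrix.mul_add]
    abel
  have hfgv : ∀ s, ∀ v : Matrix ι ι K, gᵀ * J * v = 0 → g * E K arm s * B * fᵀ * J * v = 0 := by
    intro s v hv
    exact h.gf_zero hf s hv
  have hd' : ∀ s, ∀ v : Matrix ι ι K, gᵀ * J * v = 0 →
      gᵀ * J * (p.1 * (e * E K arm s * B * fᵀ * J * v))
        = - (gᵀ * J * (Z1 * (M arm B s f f * J * v))) := by
    intro s v hv
    have h1 : gᵀ * J * (p.1 * (e * E K arm s * B * fᵀ * J * v))
        = (gᵀ * J * (p.1 * e)) * (E K arm s * B * fᵀ * J * v) := by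
      simp only [Matrix.mul_assoc]
    have h2 : gᵀ * J * ((p3.1 + p4.1) * g) * (E K arm s * B * fᵀ * J * v)
        = gᵀ * J * ((p3.1 + p4.1) * (g * E K arm s * B * fᵀ * J * v)) := by
      simp only [Matrix.mul_assoc]
    rw [h1, hrel, Matrix.sub_mul, Matrix.neg_mul, h2, hfgv s v hv, Matrix.mul_zero,
      Matrix.mul_zero, neg_zero, zero_sub]
    congr 1
    unfold M
    simp only [Matrix.mul_assoc]
  -- Step (c)
  set ν : Matrix ι δ K := e - act arm R f - act arm p1.2 g with hν
  have hνN : ν ∈ N := by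
    have : ν = (f.map d - act arm R f) - kk - act arm p1.2 g := by rw [hν, he]; abel
    rw [this]
    exact N.sub_mem (N.sub_mem hdN hkk.1) (hp1.2.1.pres g h.memN)
  obtain ⟨C5, hC5⟩ : ∃ C : Matrix δ δ K, ν = g * C := by
    obtain ⟨C6, hC6⟩ := Pg_InS hp1
    refine ⟨C6 + C1 - CR, ?_⟩
    rw [Matrix.mul_sub, Matrix.mul_add, ← hC6, ← hCR, hν, he1]
    unfold Pg
    abel
  have hνE : ∀ s, ν * E K arm s = e * E K arm s - R s * f * E K arm s - p1.2 s * g * E K arm s := by
    intro s
    rw [hν, Matrix.sub_mul, Matrix.sub_mul, act_mul_E, act_mul_E]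
  have hM0 : ∑ s, M arm B s g g = 0 := by
    rw [sum_M]; exact hD.W_iso g h.memW g h.memW
  have hef0 : e * B * fᵀ = 0 := hD.W_iso e heW f hf.2
  -- the key equality on `S^⊥`
  have hNv0 : ∀ s, ν * E K arm s * B * fᵀ * J = e * E K arm s * B * fᵀ * J
      - R s * (M arm B s f f * J) - p1.2 s * (g * E K arm s * B * fᵀ * J) := by
    intro s
    rw [hνE]
    unfold M
    simp only [Matrix.sub_mul, Matrix.mul_assoc]
  have hNv : ∀ s, ∀ v : Matrix ι ι K, gᵀ * J * v = 0 →
      ν * E K arm s * B * fᵀ * J * v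
        = e * E K arm s * B * fᵀ * J * v - R s * (M arm B s f f * J * v) := by
    intro s v hv
    rw [hNv0, Matrix.sub_mul, Matrix.sub_mul, Matrix.mul_assoc (p1.2 s), hfgv s v hv,
      Matrix.mul_zero, sub_zero, Matrix.mul_assoc (R s)]
  set Nn : Fin 3 → Matrix ι ι K := fun s =>
    M arm B s g g * J * (p.1 * R s + Z1) + ν * E K arm s * B * fᵀ * J with hNn
  obtain ⟨q, hq, hq0, hqv⟩ := h.dual (Nn := Nn) (by
      intro s
      refine ⟨E K arm s * B * gᵀ * J * (p.1 * R s + Z1) + C5 * E K arm s * B * fᵀ * J, ?_⟩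
      rw [hNn, Matrix.mul_add, hC5]
      unfold M
      simp only [Matrix.mul_assoc])
    (by
      intro s
      rw [hNn]
      have h1 : (M arm B s g g * J * (p.1 * R s + Z1) + ν * E K arm s * B * fᵀ * J) * g
          = M arm B s g g * J * (p.1 * (R s * g)) + g * E K arm s * B * (gᵀ * J * (Z1 * g))
            + ν * E K arm s * B * (fᵀ * J * g) := by
        unfold M
        simp only [Matrix.add_mul, Matrix.mul_add, Matrix.mul_assoc]
      rw [h1, hRg, hZ1g, hfpt]
      simp)
    (by
      intro F hF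
      have hgfF : ∀ s, g * E K arm s * B * fᵀ * J * F = 0 := by
        intro s
        have h1 : M arm B s g f = M arm B s f g := hD.symm_arm h.mem hf s
        unfold M at h1
        rw [h1]
        have : f * E K arm s * B * gᵀ * J * F = f * E K arm s * B * (gᵀ * J * F) := by
          simp only [Matrix.mul_assoc]
        rw [this, hF, Matrix.mul_zero]
      have h1 : ∀ s, Nn s * F = (M arm B s g g * J * (p.1 * (R s * F))
          - R s * (M arm B s f f * J * F)) + M arm B s g g * (J * Z1 * F)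
            + e * E K arm s * B * fᵀ * J * F := by
        intro s
        have h2 : ν * E K arm s * B * fᵀ * J * F
            = e * E K arm s * B * fᵀ * J * F - R s * (M arm B s f f * J * F) := by
          rw [hNv0, Matrix.sub_mul, Matrix.sub_mul, Matrix.mul_assoc (p1.2 s), hgfF s,
            Matrix.mul_zero, sub_zero, Matrix.mul_assoc (R s)]
        rw [hNn]
        have h3 : (M arm B s g g * J * (p.1 * R s + Z1) + ν * E K arm s * B * fᵀ * J) * F
            = M arm B s g g * J * (p.1 * (R s * F)) + M arm B s g g * (J * Z1 * F)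
              + ν * E K arm s * B * fᵀ * J * F := by
          simp only [Matrix.add_mul, Matrix.mul_add, Matrix.mul_assoc]
        rw [h3, h2]
        abel
      rw [Finset.sum_congr rfl fun s _ => h1 s, Finset.sum_add_distrib, Finset.sum_add_distrib,
        hsum' F hF, ← Matrix.sum_mul, hM0, Matrix.zero_mul, zero_add, zero_add]
      have h4 : ∑ s, e * E K arm s * B * fᵀ * J * F = (e * B * fᵀ) * J * F := by
        rw [← Matrix.sum_mul, ← Matrix.sum_mul]
        congr 2
        rw [← sum_M arm B]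
        rfl
      rw [h4, hef0, Matrix.zero_mul, Matrix.zero_mul])
    (by
      intro Q hQ hQg s
      obtain ⟨C2, hC2s⟩ := hC2 s
      rw [hNn]
      change trace ((M arm B s g g * J * (p.1 * R s + Z1) + ν * E K arm s * B * fᵀ * J) * Q s) = 0
      rw [Matrix.add_mul, trace_add]
      -- second term
      have t2 : trace (ν * E K arm s * B * fᵀ * J * Q s) = 0 := by
        have h1 : trace (ν * E K arm s * B * fᵀ * J * Q s)
            = pair J B f (Q s * ν * E K arm s) := by
          unfold pair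
          have e1 : ν * E K arm s * B * fᵀ * J * Q s = (ν * E K arm s * B) * (fᵀ * J * Q s) := by
            simp only [Matrix.mul_assoc]
          rw [e1, trace_mul_comm]
          congr 1
          simp only [Matrix.mul_assoc]
        have h2 : Q s * ν * E K arm s ∈ N := by
          have := hD.N_arm _ (hQ.pres ν hνN) s
          rw [act_mul_E] at this
          exact this
        rw [h1]
        exact hD.N_iso f hf.1 _ h2
      -- first term
      have t1 : trace (M arm B s g g * J * (p.1 * R s + Z1) * Q s) = 0 := by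
        have hu : gᵀ * J * (Q s * g) = 0 := hQg s
        have e1 : M arm B s g g * J * (p.1 * R s + Z1) * Q s
            = g * (E K arm s * B * (gᵀ * J * (p.1 * R s + Z1) * Q s)) := by
          unfold M; simp only [Matrix.mul_assoc]
        have hP2 : Skw J (Z1 - (R s * p.1 - p.1 * R s) - Q2 s) :=
          (hZ1.sub (hcomm s)).sub (hQ2.skw s)
        have e2 : gᵀ * J * (p.1 * R s + Z1) * (Q s * g) = gᵀ * J * (Q2 s * (Q s * g)) := by
          have e3 : p.1 * R s + Z1 = R s * p.1 + Q2 s + (Z1 - (R s * p.1 - p.1 * R s) - Q2 s) := by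
            abel
          rw [e3]
          have e4 : gᵀ * J * (R s * p.1 + Q2 s + (Z1 - (R s * p.1 - p.1 * R s) - Q2 s))
              * (Q s * g) = (gᵀ * J * R s) * (p.1 * (Q s * g)) + gᵀ * J * (Q2 s * (Q s * g))
                + gᵀ * J * ((Z1 - (R s * p.1 - p.1 * R s) - Q2 s) * (Q s * g)) := by
            simp only [Matrix.add_mul, Matrix.mul_add, Matrix.mul_assoc]
          rw [e4, hgJR, Matrix.zero_mul, zero_add, perp_stable hP2 hC2s hu, add_zero]
        rw [e1, trace_mul_comm]
        have e5 : E K arm s * B * (gᵀ * J * (p.1 * R s + Z1) * Q s) * g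
            = E K arm s * B * (gᵀ * J * (p.1 * R s + Z1) * (Q s * g)) := by
          simp only [Matrix.mul_assoc]
        rw [e5, e2]
        have e6 : trace (E K arm s * B * (gᵀ * J * (Q2 s * (Q s * g))))
            = pair J B g (Q2 s * (Q s * g) * E K arm s) := by
          unfold pair
          rw [trace_mul_comm]
          congr 1
          simp only [Matrix.mul_assoc]
        rw [e6]
        have h2 : Q2 s * (Q s * g) * E K arm s ∈ N := by
          have := hD.N_arm _ (hQ2.pres _ (hQ.pres g h.memN)) s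
          rw [act_act', act_mul_E] at this
          rw [← Matrix.mul_assoc]
          exact this
        exact hD.N_iso g h.memN _ h2
      rw [t1, t2, add_zero])
  -- conclusion
  have hZf : gᵀ * J * ((Z1 + q.1) * f) = gᵀ * J * (Z1 * f) := by
    rw [Matrix.add_mul, Matrix.mul_add, h.tf_zero hf hq hq0, add_zero]
  have hegC : e - p1.1 * g = g * C1 := by rw [he1]; abel
  have hee : ∀ s, ∀ v : Matrix ι ι K, gᵀ * J * v = 0 →
      (e - p1.1 * g) * E K arm s * B * fᵀ * J * v = e * E K arm s * B * fᵀ * J * v := by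
    intro s v hv
    have h1 : (e - p1.1 * g) * E K arm s * B * fᵀ * J * v
        = e * E K arm s * B * fᵀ * J * v - p1.1 * (g * E K arm s * B * fᵀ * J * v) := by
      simp only [Matrix.sub_mul, Matrix.mul_assoc]
    rw [h1, hfgv s v hv, Matrix.mul_zero, sub_zero]
  have hint : ∀ s, ∀ v : Matrix ι ι K, gᵀ * J * v = 0 →
      M arm B s g g * J * (p.1 * (R s * v) + (Z1 + q.1) * v)
        + e * E K arm s * B * fᵀ * J * v = R s * (M arm B s f f * J * v) := by
    intro s v hv
    have h1 := hqv s v hv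
    have h2 := hNv s v hv
    have h4 : (Nn s + M arm B s g g * J * q.1) * v
        = M arm B s g g * J * (p.1 * (R s * v) + (Z1 + q.1) * v)
          + ν * E K arm s * B * fᵀ * J * v := by
      rw [hNn]
      simp only [Matrix.add_mul, Matrix.mul_add, Matrix.mul_assoc]
      abel
    rw [h4, h2, add_sub, sub_eq_zero] at h1
    exact h1
  refine ⟨Z1 + q.1, fun s => Q2 s + q.2 s, e - p1.1 * g, _, p3, p4,
    { skw := hZ1.add hq.1
      Zg := ?_
      stb := ?_
      flag := ?_
      eW := W.sub_mem heW (h.W_mul _ h.memW)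
      eS := ⟨C1, hegC⟩
      p1N := hp1
      p1z := hp10
      nu := ?_
      kkN := hkk
      pmN := hNN2
      p3N := hp3
      p3e := hpe3
      p4N := hp4
      p4e := hpe4
      rel := ?_
      inter := ?_
      interφ := ?_ }⟩
  · rw [Matrix.add_mul, Matrix.mul_add, hZ1g, hq0, add_zero]
  · refine ⟨fun s => (hQ2.skw s).add (hq.2.1.skw s), fun F hF => ?_⟩
    have h1 : act arm (fun s => Q2 s + q.2 s) F = act arm Q2 F + act arm q.2 F :=
      act_add_left arm Q2 q.2 F
    rw [h1]
    exact N.add_mem (hQ2.pres F hF) (hq.2.1.pres F hF)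
  · intro s
    obtain ⟨Ca, hCa⟩ := hC2 s
    obtain ⟨Cb, hCb⟩ := hq.2.2 s
    refine ⟨Ca + Cb, ?_⟩
    rw [Matrix.mul_add, ← hCa, ← hCb, ← Matrix.add_mul]
    congr 1
    abel
  · have h1 : e - p1.1 * g - act arm R f + Pg arm g p1 = ν := by
      rw [hν]; unfold Pg; abel
    rw [h1]; exact hνN
  · rw [Matrix.mul_sub p.1, Matrix.mul_sub (gᵀ * J), hrel, hZf, Matrix.add_mul, Matrix.mul_add]
    abel
  · intro s v hv
    rw [hee s v hv]
    exact hint s v hv
  · intro s v hv
    have h3 := hint s v hv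
    have h5 : gᵀ * J * (q.1 * (M arm B s f f * J * v)) = 0 := by
      have h6 := h.tf_zero hf hq hq0
      have h7 : gᵀ * J * (q.1 * (M arm B s f f * J * v))
          = (gᵀ * J * (q.1 * f)) * (E K arm s * B * fᵀ * J * v) := by
        unfold M; simp only [Matrix.mul_assoc]
      rw [h7, h6, Matrix.zero_mul]
    have h7 : gᵀ * J * (p.1 * (M arm B s g g * J * (p.1 * (R s * v) + (Z1 + q.1) * v)))
        = gᵀ * J * (p.1 * (R s * (M arm B s f f * J * v)))
          - gᵀ * J * (p.1 * (e * E K arm s * B * fᵀ * J * v)) := by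
      rw [← h3]
      simp only [Matrix.mul_add]
      abel
    rw [h7, hd' s v hv, sub_neg_eq_add, Matrix.add_mul, Matrix.mul_add, Matrix.mul_add, h5,
      add_zero]

/-- the data of a gluing family, for an arbitrary `f`. -/
theorem Ctx.fam (h : Ctx k arm J B N W g)
    (hNm : ∀ F, (∀ F' ∈ N, pair J B F' F = 0) → F ∈ N)
    (hWm : ∀ F, (∀ F' ∈ W, pair J B F' F = 0) → F ∈ W)
    (hc : Glue k arm J N W g) {f : Matrix ι δ K} (hf : f ∈ N ⊓ W)
    {p : Matrix ι ι K × (Fin 3 → Matrix ι ι K)} (hp : p ∈ NN arm J N g)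
    (hp0 : gᵀ * J * (p.1 * f) = 0)
    {R : Fin 3 → Matrix ι ι K} (hR : ∀ s, Skw J (R s)) (hRg : ∀ s, R s * g = 0)
    (hRS : ∀ s, ∀ v : Matrix ι ι K, gᵀ * J * v = 0 → ∃ C : Matrix δ ι K, R s * v = g * C)
    (hsum : ∀ v : Matrix ι ι K, gᵀ * J * v = 0 →
      ∑ s, (M arm B s g g * J * (p.1 * (R s * v)) - R s * (M arm B s f f * J * v)) = 0) :
    ∃ (Z : Matrix ι ι K) (Q : Fin 3 → Matrix ι ι K) (e : Matrix ι δ K)
      (p1 pm p3 p4 : Matrix ι ι K × (Fin 3 → Matrix ι ι K)) (kk : Matrix ι δ K),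
      Fam arm J B N W g f p R Z Q e p1 pm p3 p4 kk := by
  obtain ⟨d, hd, hdg⟩ := hc R hR hRg
  have hD := h.data
  have hfp := h.perp f hf
  obtain ⟨Pi, hPi, hPi'⟩ := exists_proj hD.J_unit g
  have hPF : ∀ F : Matrix ι δ K, gᵀ * J * F = 0 → Pi * F = F := by
    intro F hF
    ext i j
    have h1 : gᵀ * J * (Matrix.of fun i (_ : Unit) => F i j) = 0 := by
      ext a b
      have := congrFun (congrFun hF a) j
      rw [mul_apply] at this ⊢
      exact this
    have h2 := congrFun (congrFun (hPi' _ h1) i) ()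
    rw [mul_apply] at h2 ⊢
    exact h2
  have hRS' : ∀ s, ∀ F : Matrix ι δ K, gᵀ * J * F = 0 → ∃ C : Matrix δ δ K, R s * F = g * C := by
    intro s F hF
    obtain ⟨C, hC⟩ := hRS s Pi hPi
    refine ⟨C * F, ?_⟩
    calc R s * F = R s * (Pi * F) := by rw [hPF F hF]
      _ = (R s * Pi) * F := by rw [Matrix.mul_assoc]
      _ = _ := by rw [hC, Matrix.mul_assoc]
  have hJd := hD.J_const d
  have hdW : f.map d ∈ W := by
    have h8 := hd.onW f hf.2
    rw [transpose_zero, Matrix.mul_zero, sub_zero] at h8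
    exact h8
  have hdN : f.map d - act arm R f ∈ N := hd.onN f hf.1
  have hdf : gᵀ * J * f.map d = 0 := by
    have e1 : (gᵀ * J * f).map d = gᵀ * J * f.map d := by
      rw [map_mul_der, map_mul_der, map_transpose_der, hdg, hJd, transpose_zero, Matrix.zero_mul,
        Matrix.mul_zero, add_zero, Matrix.zero_mul, zero_add]
    rw [← e1, hfp]; ext i j; simp
  obtain ⟨CR, hCR⟩ : ∃ C : Matrix δ δ K, act arm R f = g * C := by
    choose C hC using fun s => hRS' s f hfp
    exact ⟨_, act_mul_const arm R f hC⟩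
  obtain ⟨kk, hkk, p1, hp1, hp10, C1, hx⟩ := h.KV hNm hWm hdW hdf hdN
    (C := CR) (by rw [← hCR]; abel)
  obtain ⟨Z, Q, e, pm, p3, p4, hF⟩ := h.fam_core hf hp hp0 hR hRg hRS hsum hd hdg hkk hp1 hp10 hx
  exact ⟨Z, Q, e, p1, pm, p3, p4, kk, hF⟩


/-- **THE PRODUCT** (342 R3 / 586 (3)) of a family `(p, R)` and a second family `(p', R')`. -/
theorem Fam.prod {f : Matrix ι δ K} {p p2 p1 pm p3 p4 : Matrix ι ι K × (Fin 3 → Matrix ι ι K)}
    {R R2 : Fin 3 → Matrix ι ι K} {Z Z2 : Matrix ι ι K} {Q Q2 : Fin 3 → Matrix ι ι K}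
    {e kk : Matrix ι δ K} (hF : Fam arm J B N W g f p R Z Q e p1 pm p3 p4 kk)
    (hRf : ∃ C : Matrix δ δ K, act arm R f = g * C)
    (hR2g : ∀ s, R2 s * g = 0) (hQ2 : Stb arm J N Q2)
    (hfl : ∀ s, ∃ C : Matrix δ δ K, (Z2 - (R2 s * p2.1 - p2.1 * R2 s) - Q2 s) * g = g * C) :
    ∃ n ∈ N, ∃ C : Matrix δ δ K,
      ∑ s, (Z2 - R2 s * p2.1) * ((e - act arm R f + Pg arm g p1) * E K arm s) = n + g * C := by
  obtain ⟨C1, hC1⟩ := hF.eS
  obtain ⟨C2, hC2⟩ := hRf
  obtain ⟨C3, hC3⟩ := Pg_InS hF.p1N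
  set ν : Matrix ι δ K := e - act arm R f + Pg arm g p1 with hν
  have hνC : ν = g * (C1 - C2 + C3) := by
    rw [hν, Matrix.mul_add, Matrix.mul_sub, ← hC1, ← hC2, ← hC3]
  choose C hC using hfl
  refine ⟨act arm Q2 ν, hQ2.pres ν hF.nu, ∑ s, C s * ((C1 - C2 + C3) * E K arm s), ?_⟩
  rw [Matrix.mul_sum]
  unfold act
  rw [← Finset.sum_add_distrib]
  refine Finset.sum_congr rfl fun s _ => ?_
  have h1 : (Z2 - (R2 s * p2.1 - p2.1 * R2 s) - Q2 s) * (ν * E K arm s)
      = g * (C s * ((C1 - C2 + C3) * E K arm s)) := by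
    rw [hνC, ← Matrix.mul_assoc, ← Matrix.mul_assoc, hC]
    simp only [Matrix.mul_assoc]
  have h2 : R2 s * (ν * E K arm s) = 0 := by
    rw [hνC, ← Matrix.mul_assoc, ← Matrix.mul_assoc, hR2g, Matrix.zero_mul, Matrix.zero_mul]
  have h3 : (Z2 - R2 s * p2.1) * (ν * E K arm s)
      = (Z2 - (R2 s * p2.1 - p2.1 * R2 s) - Q2 s) * (ν * E K arm s)
        - p2.1 * (R2 s * (ν * E K arm s)) + Q2 s * ν * E K arm s := by
    simp only [Matrix.sub_mul, Matrix.mul_assoc]
    abel
  rw [h3, h1, h2, Matrix.mul_zero, sub_zero, add_comm]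

end Crest.Agent.R172.Qt
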