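import Crest.Agent.R172.FO1

-- ▼ part R172/Qt1
section

/-!
Row 172 (S0260), node G1.1 (Q-theory), part 1: the obstruction theory of an isotropic element.

`g ∈ 𝒦 = N ⊓ W` isotropic, `S = im g`.  `S ⊗ U = {g * C}`, `S^⊥ ⊗ U = {F | gᵀ J F = 0}`.
`NN` is the space of pairs `(X₀; X_s)`, `X₀, X_s ∈ so(V)`, `X_s` preserves `N`,
`(X₀ - X_s) S ⊆ S`.
-/

set_option autoImplicit false
set_option linter.unusedSectionVars false
set_option linter.unusedFintypeInType false
set_option linter.unusedDecidableInType false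

namespace Crest.Agent.R172.Qt

open Matrix Module Crest.Agent.R172.FO

variable {ι : Type*} [Fintype ι] [DecidableEq ι] {δ : Type*} [Fintype δ] [DecidableEq δ]
variable {k K : Type*} [Field k] [Field K] [Algebra k K]

/-- `X ∈ so(V)` -/
def Skw (J X : Matrix ι ι K) : Prop := Xᵀ * J + J * X = 0

theorem Skw.eq {J X : Matrix ι ι K} (h : Skw J X) : Xᵀ * J = -(J * X) := eq_neg_of_add_eq_zero_left h

theorem Skw.zero {J : Matrix ι ι K} : Skw J 0 := by simp [Skw]

theorem Skw.add {J X Y : Matrix ι ι K} (hX : Skw J X) (hY : Skw J Y) : Skw J (X + Y) := by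
  unfold Skw at *
  rw [transpose_add, Matrix.add_mul, Matrix.mul_add]
  calc Xᵀ * J + Yᵀ * J + (J * X + J * Y) = (Xᵀ * J + J * X) + (Yᵀ * J + J * Y) := by abel
    _ = 0 := by rw [hX, hY, add_zero]

theorem Skw.neg {J X : Matrix ι ι K} (hX : Skw J X) : Skw J (-X) := by
  unfold Skw at *
  rw [transpose_neg, Matrix.neg_mul, Matrix.mul_neg, ← neg_add, hX, neg_zero]

theorem Skw.sub {J X Y : Matrix ι ι K} (hX : Skw J X) (hY : Skw J Y) : Skw J (X - Y) := by
  rw [sub_eq_add_neg]; exact hX.add hY.neg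

theorem Skw.smul {J X : Matrix ι ι K} (t : K) (hX : Skw J X) : Skw J (t • X) := by
  unfold Skw at *
  rw [transpose_smul, Matrix.smul_mul, Matrix.mul_smul, ← smul_add, hX, smul_zero]

/-- commutator -/
theorem Skw.comm {J X Y : Matrix ι ι K} (hX : Skw J X) (hY : Skw J Y) :
    Skw J (X * Y - Y * X) := by
  unfold Skw
  rw [transpose_sub, transpose_mul, transpose_mul, Matrix.sub_mul, Matrix.mul_assoc,
    Matrix.mul_assoc, hX.eq, hY.eq, Matrix.mul_neg, Matrix.mul_neg, ← Matrix.mul_assoc,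
    ← Matrix.mul_assoc, hX.eq, hY.eq, Matrix.mul_sub, Matrix.neg_mul, Matrix.neg_mul,
    Matrix.mul_assoc, Matrix.mul_assoc]
  abel

theorem Skw.map_der {J X : Matrix ι ι K} (hX : Skw J X) (d : Derivation k K K)
    (hJ : J.map d = 0) : Skw J (X.map d) := by
  have h : (Xᵀ * J + J * X).map d = (0 : Matrix ι ι K).map d := by rw [hX]
  rw [map_add_der, map_mul_der, map_mul_der, hJ, Matrix.mul_zero, Matrix.zero_mul, add_zero,
    zero_add, map_transpose_der] at h
  unfold Skw
  rw [h]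
  ext i j; simp

section pair

variable {J : Matrix ι ι K} {B : Matrix δ δ K}

theorem pair_add_left (F G F' : Matrix ι δ K) :
    pair J B (F + G) F' = pair J B F F' + pair J B G F' := by
  simp [pair, Matrix.add_mul, trace_add]

theorem pair_sub_left (F G F' : Matrix ι δ K) :
    pair J B (F - G) F' = pair J B F F' - pair J B G F' := by
  simp [pair, Matrix.sub_mul, trace_sub]


theorem pair_smul_left (t : K) (F F' : Matrix ι δ K) :
    pair J B (t • F) F' = t * pair J B F F' := by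
  simp [pair, trace_smul]

theorem pair_add_right (F G F' : Matrix ι δ K) :
    pair J B F (G + F') = pair J B F G + pair J B F F' := by
  simp [pair, Matrix.mul_add, Matrix.add_mul, trace_add]

theorem pair_sub_right (F G F' : Matrix ι δ K) :
    pair J B F (G - F') = pair J B F G - pair J B F F' := by
  simp [pair, Matrix.mul_sub, Matrix.sub_mul, trace_sub]

theorem pair_neg_right (F F' : Matrix ι δ K) : pair J B F (-F') = - pair J B F F' := by
  simp [pair, trace_neg]

theorem pair_smul_right (t : K) (F F' : Matrix ι δ K) :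
    pair J B F (t • F') = t * pair J B F F' := by
  simp [pair, trace_smul]

theorem pair_zero_left (F' : Matrix ι δ K) : pair J B 0 F' = 0 := by simp [pair]

theorem pair_zero_right (F : Matrix ι δ K) : pair J B F 0 = 0 := by simp [pair]

theorem pair_comm (hJ : Jᵀ = J) (hB : Bᵀ = B) (F F' : Matrix ι δ K) :
    pair J B F F' = pair J B F' F := by
  unfold pair
  rw [← trace_transpose, transpose_mul, transpose_mul, transpose_mul, transpose_transpose, hJ, hB,
    trace_mul_comm]
  simp only [Matrix.mul_assoc]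

theorem pair_skw {X : Matrix ι ι K} (hX : Skw J X) (F F' : Matrix ι δ K) :
    pair J B (X * F) F' = - pair J B F (X * F') := by
  unfold pair
  rw [transpose_mul, Matrix.mul_assoc Fᵀ, hX.eq, Matrix.mul_neg, Matrix.neg_mul, Matrix.neg_mul,
    trace_neg]
  simp only [Matrix.mul_assoc]

theorem pair_E {arm : δ → Fin 3} (hBE : ∀ s, E K arm s * B = B * E K arm s) (s : Fin 3)
    (F F' : Matrix ι δ K) :
    pair J B (F * E K arm s) F' = pair J B F (F' * E K arm s) := by
  unfold pair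
  rw [transpose_mul, E_transpose]
  simp only [Matrix.mul_assoc]
  rw [trace_mul_comm]
  simp only [Matrix.mul_assoc]
  rw [hBE]

theorem pair_act {arm : δ → Fin 3} (hBE : ∀ s, E K arm s * B = B * E K arm s)
    {X : Fin 3 → Matrix ι ι K} (hX : ∀ s, Skw J (X s)) (F F' : Matrix ι δ K) :
    pair J B (act arm X F) F' = - pair J B F (act arm X F') := by
  have h1 : ∀ (T : Finset (Fin 3)), pair J B (∑ s ∈ T, X s * F * E K arm s) F'
      = ∑ s ∈ T, pair J B (X s * F * E K arm s) F' := by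
    intro T
    induction T using Finset.induction_on with
    | empty => simp [pair_zero_left]
    | insert a T ha ih => rw [Finset.sum_insert ha, Finset.sum_insert ha, pair_add_left, ih]
  have h2 : ∀ (T : Finset (Fin 3)), pair J B F (∑ s ∈ T, X s * F' * E K arm s)
      = ∑ s ∈ T, pair J B F (X s * F' * E K arm s) := by
    intro T
    induction T using Finset.induction_on with
    | empty => simp [pair_zero_right]
    | insert a T ha ih => rw [Finset.sum_insert ha, Finset.sum_insert ha, pair_add_right, ih]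
  unfold act
  rw [h1, h2, ← Finset.sum_neg_distrib]
  refine Finset.sum_congr rfl fun s _ => ?_
  rw [pair_E hBE, pair_skw (hX s), Matrix.mul_assoc]

/-- `S ⊗ U ⊥ S^⊥ ⊗ U` -/
theorem pair_S {g F : Matrix ι δ K} (hF : gᵀ * J * F = 0) (C : Matrix δ δ K) :
    pair J B (g * C) F = 0 := by
  unfold pair
  rw [transpose_mul, Matrix.mul_assoc Cᵀ, Matrix.mul_assoc Cᵀ, hF, Matrix.mul_zero,
    Matrix.zero_mul, trace_zero]

/-- the pairing detects `gᵀ J F` -/
theorem perp_of_pair (hBu : IsUnit B) {g F : Matrix ι δ K}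
    (h : ∀ C : Matrix δ δ K, pair J B (g * C) F = 0) : gᵀ * J * F = 0 := by
  obtain ⟨Bi, hBi⟩ := hBu.exists_right_inv
  have h1 : gᵀ * J * F * B = 0 := by
    ext i j
    have h2 := h (Matrix.single i j 1)
    unfold pair at h2
    rw [transpose_mul, transpose_single, Matrix.mul_assoc (Matrix.single j i 1),
      Matrix.mul_assoc (Matrix.single j i 1), Matrix.mul_assoc (Matrix.single j i 1),
      trace_single_mul, one_smul] at h2
    exact h2
  calc gᵀ * J * F = gᵀ * J * F * B * Bi := by rw [Matrix.mul_assoc _ B, hBi, Matrix.mul_one]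
    _ = 0 := by rw [h1, Matrix.zero_mul]

end pair

/-- `X` in `⊕ stab(E_s)`: the family `X` preserves `N`. -/
structure Stb (arm : δ → Fin 3) (J : Matrix ι ι K) (N : Submodule K (Matrix ι δ K))
    (X : Fin 3 → Matrix ι ι K) : Prop where
  skw : ∀ s, Skw J (X s)
  pres : ∀ F ∈ N, act arm X F ∈ N

theorem act_add_left (arm : δ → Fin 3) (X Y : Fin 3 → Matrix ι ι K) (F : Matrix ι δ K) :
    act arm (fun s => X s + Y s) F = act arm X F + act arm Y F := by
  simp [act, Matrix.add_mul, Finset.sum_add_distrib]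

theorem act_sub_left (arm : δ → Fin 3) (X Y : Fin 3 → Matrix ι ι K) (F : Matrix ι δ K) :
    act arm (fun s => X s - Y s) F = act arm X F - act arm Y F := by
  simp [act, Matrix.sub_mul, Finset.sum_sub_distrib]


theorem act_smul_left (arm : δ → Fin 3) (t : K) (X : Fin 3 → Matrix ι ι K) (F : Matrix ι δ K) :
    act arm (fun s => t • X s) F = t • act arm X F := by
  simp [act, Finset.smul_sum]

theorem act_add_right (arm : δ → Fin 3) (X : Fin 3 → Matrix ι ι K) (F F' : Matrix ι δ K) :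
    act arm X (F + F') = act arm X F + act arm X F' := by
  simp [act, Matrix.add_mul, Matrix.mul_add, Finset.sum_add_distrib]

theorem act_sub_right (arm : δ → Fin 3) (X : Fin 3 → Matrix ι ι K) (F F' : Matrix ι δ K) :
    act arm X (F - F') = act arm X F - act arm X F' := by
  simp [act, Matrix.sub_mul, Matrix.mul_sub, Finset.sum_sub_distrib]

theorem act_const (arm : δ → Fin 3) (X : Matrix ι ι K) (F : Matrix ι δ K) :
    act arm (fun _ => X) F = X * F := by
  unfold act
  rw [← Matrix.mul_sum, sum_E, Matrix.mul_one]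

theorem act_mul_const (arm : δ → Fin 3) (X : Fin 3 → Matrix ι ι K) (F : Matrix ι δ K)
    {C : Fin 3 → Matrix δ δ K} {g : Matrix ι δ K} (h : ∀ s, X s * F = g * C s) :
    act arm X F = g * ∑ s, C s * E K arm s := by
  unfold act
  rw [Matrix.mul_sum]
  refine Finset.sum_congr rfl fun s _ => ?_
  rw [h, Matrix.mul_assoc]

/-- product of actions -/
theorem act_act' (arm : δ → Fin 3) (X Y : Fin 3 → Matrix ι ι K) (F : Matrix ι δ K) :
    act arm X (act arm Y F) = act arm (fun s => X s * Y s) F := by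
  conv_lhs => unfold act
  conv_rhs => unfold act
  refine Finset.sum_congr rfl fun s _ => ?_
  rw [Matrix.mul_assoc (X s)]
  have : (∑ t, Y t * F * E K arm t) * E K arm s = Y s * F * E K arm s := act_mul_E arm Y F s
  rw [this]
  simp only [Matrix.mul_assoc]

/-- **The context**: an isotropic element `g ∈ 𝒦`, perpendicular to `𝒦`. -/
structure Ctx (k : Type*) {K : Type*} [Field k] [Field K] [Algebra k K] (arm : δ → Fin 3)
    (J : Matrix ι ι K) (B : Matrix δ δ K) (N W : Submodule K (Matrix ι δ K))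
    (g : Matrix ι δ K) : Prop where
  data : Data k arm J B N W
  memN : g ∈ N
  memW : g ∈ W
  perp : ∀ f ∈ N ⊓ W, gᵀ * J * f = 0
  frame : ∀ d : Derivation k K K, ∃ Y : Fin 3 → Matrix ι ι K, (∀ s, Skw J (Y s)) ∧
    (∀ F ∈ N, F.map d - act arm Y F ∈ N) ∧ ∀ s, ∃ C : Matrix δ δ K, g.map d - Y s * g = g * C
  lemN : ∀ ν ∈ N, ∀ a ∈ W, gᵀ * J * a = gᵀ * J * ν → (gᵀ * J * a)ᵀ = gᵀ * J * a →
    (∀ s, gᵀ * J * a * (E K arm s * B) * (gᵀ * J * a) = 0) → gᵀ * J * a = 0

section NNsec

variable (arm : δ → Fin 3) (J : Matrix ι ι K) (B : Matrix δ δ K)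
  (N W : Submodule K (Matrix ι δ K)) (g : Matrix ι δ K)

/-- `H⁰(so(V)/p_S)`, with all choices of local lifts. -/
def NN : Submodule K (Matrix ι ι K × (Fin 3 → Matrix ι ι K)) where
  carrier := {p | Skw J p.1 ∧ Stb arm J N p.2 ∧
    ∀ s, ∃ C : Matrix δ δ K, (p.1 - p.2 s) * g = g * C}
  zero_mem' := ⟨Skw.zero, ⟨fun _ => Skw.zero, fun F _ => by
    rw [show act arm (0 : Matrix ι ι K × (Fin 3 → Matrix ι ι K)).2 F = 0 from act_zero arm F]
    exact N.zero_mem⟩, fun s => ⟨0, by simp⟩⟩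
  add_mem' := by
    rintro p q ⟨h1, h2, h3⟩ ⟨h1', h2', h3'⟩
    refine ⟨h1.add h1', ⟨fun s => (h2.skw s).add (h2'.skw s), fun F hF => ?_⟩, fun s => ?_⟩
    · have : act arm (p + q).2 F = act arm p.2 F + act arm q.2 F := act_add_left arm p.2 q.2 F
      rw [this]
      exact N.add_mem (h2.pres F hF) (h2'.pres F hF)
    · obtain ⟨C, hC⟩ := h3 s
      obtain ⟨C', hC'⟩ := h3' s
      refine ⟨C + C', ?_⟩
      rw [Matrix.mul_add, ← hC, ← hC', ← Matrix.add_mul]
      congr 1
      simp only [Prod.fst_add, Prod.snd_add, Pi.add_apply]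
      abel
  smul_mem' := by
    rintro t p ⟨h1, h2, h3⟩
    refine ⟨h1.smul t, ⟨fun s => (h2.skw s).smul t, fun F hF => ?_⟩, fun s => ?_⟩
    · have : act arm (t • p).2 F = t • act arm p.2 F := act_smul_left arm t p.2 F
      rw [this]
      exact N.smul_mem t (h2.pres F hF)
    · obtain ⟨C, hC⟩ := h3 s
      refine ⟨t • C, ?_⟩
      rw [Matrix.mul_smul, ← hC, ← Matrix.smul_mul]
      congr 1
      simp only [Prod.smul_fst, Prod.smul_snd, Pi.smul_apply, smul_sub]

variable {arm J B N W g}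

theorem mem_NN {p : Matrix ι ι K × (Fin 3 → Matrix ι ι K)} : p ∈ NN arm J N g ↔
    Skw J p.1 ∧ Stb arm J N p.2 ∧ ∀ s, ∃ C : Matrix δ δ K, (p.1 - p.2 s) * g = g * C := Iff.rfl

/-- the `S ⊗ U`-part `P g` of `p ∈ NN` -/
def Pg (arm : δ → Fin 3) (g : Matrix ι δ K) (p : Matrix ι ι K × (Fin 3 → Matrix ι ι K)) :
    Matrix ι δ K := p.1 * g - act arm p.2 g

theorem Pg_eq (p : Matrix ι ι K × (Fin 3 → Matrix ι ι K)) :
    Pg arm g p = act arm (fun s => p.1 - p.2 s) g := by
  rw [act_sub_left, act_const]; rfl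

theorem Pg_InS {p : Matrix ι ι K × (Fin 3 → Matrix ι ι K)} (hp : p ∈ NN arm J N g) :
    ∃ C : Matrix δ δ K, Pg arm g p = g * C := by
  choose C hC using hp.2.2
  exact ⟨_, by rw [Pg_eq, act_mul_const arm _ g hC]⟩

/-- the functional `p' ↦ ⟨P' g, ν⟩` on `NN` -/
def fn (arm : δ → Fin 3) (J : Matrix ι ι K) (B : Matrix δ δ K) (N : Submodule K (Matrix ι δ K))
    (g : Matrix ι δ K) : Matrix ι δ K →ₗ[K] Dual K (NN arm J N g) where
  toFun ν :=
    { toFun := fun p => pair J B (Pg arm g p.1) ν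
      map_add' := by
        intro p q
        have : Pg arm g (p + q).1 = Pg arm g p.1 + Pg arm g q.1 := by
          unfold Pg
          rw [show ((p + q).1 : Matrix ι ι K × (Fin 3 → Matrix ι ι K)).2 = fun s => p.1.2 s + q.1.2 s
            from rfl, act_add_left, show ((p + q).1 : Matrix ι ι K × (Fin 3 → Matrix ι ι K)).1
            = p.1.1 + q.1.1 from rfl, Matrix.add_mul]
          abel
        rw [this, pair_add_left]
      map_smul' := by
        intro t p
        have : Pg arm g (t • p).1 = t • Pg arm g p.1 := by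
          unfold Pg
          rw [show ((t • p).1 : Matrix ι ι K × (Fin 3 → Matrix ι ι K)).2 = fun s => t • p.1.2 s
            from rfl, act_smul_left, show ((t • p).1 : Matrix ι ι K × (Fin 3 → Matrix ι ι K)).1
            = t • p.1.1 from rfl, Matrix.smul_mul, smul_sub]
        rw [this, pair_smul_left, RingHom.id_apply, smul_eq_mul] }
  map_add' := by
    intro a b
    ext p
    exact pair_add_right _ _ _
  map_smul' := by
    intro t a
    ext p
    exact pair_smul_right _ _ _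

theorem fn_apply (ν : Matrix ι δ K) (p : NN arm J N g) :
    fn arm J B N g ν p = pair J B (Pg arm g p.1) ν := rfl

end NNsec

/-- a functional killing the radical of a skew form is represented. -/
theorem rep_of_skew {P : Type*} [AddCommGroup P] [Module K P] [FiniteDimensional K P]
    (w : P →ₗ[K] Dual K P) (hw : ∀ p p', w p p' = - w p' p) (l : Dual K P)
    (hl : ∀ p, w p = 0 → l p = 0) : ∃ p, w p = l := by
  have h1 : LinearMap.range w ≤ (LinearMap.ker w).dualAnnihilator := by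
    rintro _ ⟨p, rfl⟩
    rw [Submodule.mem_dualAnnihilator]
    intro q hq
    rw [hw, LinearMap.mem_ker.1 hq, LinearMap.zero_apply, neg_zero]
  have h2 : LinearMap.range w = (LinearMap.ker w).dualAnnihilator := by
    apply Submodule.eq_of_le_of_finrank_eq h1
    have h3 := LinearMap.finrank_range_add_finrank_ker w
    have h4 := Subspace.finrank_add_finrank_dualAnnihilator_eq (LinearMap.ker w)
    omega
  have h5 : l ∈ (LinearMap.ker w).dualAnnihilator := by
    rw [Submodule.mem_dualAnnihilator]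
    intro q hq
    exact hl q (LinearMap.mem_ker.1 hq)
  rw [← h2] at h5
  exact h5

end Crest.Agent.R172.Qt
end

-- ▼ part R172/Qt2
section

/-!
Row 172 (S0260), node G1.1 (Q-theory), part 2: the main facts.

* `Ctx.onto`   : `NN g → H¹(S)` is onto (dual form);
* `Ctx.lift`   : an element of `H⁰(S^*)` perpendicular to `δ(NN₁ g)` is of the form `X₀ g`;
* `Ctx.tf`, `Ctx.tf_zero` : `X₀ f ≡ T_f(φ) g`, and `X₀ f ≡ 0` if `φ = 0`;
* `Ctx.h1`     : `H¹(S^* ⊗ V')^* = {M_s zᵀ}` (dual form);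
* `Ctx.KV`     : `K(V') = F + E₁ g`.
-/

set_option autoImplicit false
set_option linter.unusedSectionVars false
set_option linter.unusedFintypeInType false
set_option linter.unusedDecidableInType false

namespace Crest.Agent.R172.Qt

open Matrix Module Crest.Agent.R172.FO

variable {ι : Type*} [Fintype ι] [DecidableEq ι] {δ : Type*} [Fintype δ] [DecidableEq δ]
variable {k K : Type*} [Field k] [Field K] [Algebra k K]
variable {arm : δ → Fin 3} {J : Matrix ι ι K} {B : Matrix δ δ K}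
  {N W : Submodule K (Matrix ι δ K)} {g : Matrix ι δ K}

theorem trace_right {α β : Type*} [Fintype α] [DecidableEq α] [Fintype β] [DecidableEq β]
    (A : Matrix α β K) (h : ∀ C : Matrix β α K, trace (C * A) = 0) : A = 0 := by
  ext i j
  have h1 := h (Matrix.single j i 1)
  rw [trace_single_mul, one_smul] at h1
  exact h1

theorem pair_W (hD : Data k arm J B N W) {a b : Matrix ι δ K} (ha : a ∈ W) (hb : b ∈ W) :
    pair J B a b = 0 := by
  unfold pair
  rw [Matrix.mul_assoc, Matrix.mul_assoc, trace_mul_comm, Matrix.mul_assoc, hD.W_iso b hb a ha,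
    Matrix.mul_zero, trace_zero]

theorem Ctx.mem (h : Ctx k arm J B N W g) : g ∈ N ⊓ W := ⟨h.memN, h.memW⟩

theorem Ctx.iso (h : Ctx k arm J B N W g) : gᵀ * J * g = 0 := h.perp g h.mem


/-- `g u ∈ W` -/
theorem Ctx.W_mul (h : Ctx k arm J B N W g) (X : Matrix ι ι K) {a : Matrix ι δ K} (ha : a ∈ W) :
    X * a ∈ W := h.data.W_left a ha X

/-- The element of `NN` of a derivation realising `(X, ξ)`, `X ∈ p_S`. -/
theorem mem_NN_of_frame {d : Derivation k K K} {X Y : Fin 3 → Matrix ι ι K} {ξ : Matrix δ δ K}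
    (hX : ∀ s, Skw J (X s)) (hXS : ∀ s, ∃ C : Matrix δ δ K, X s * g = g * C)
    (hR : Realises arm N W X ξ d) (hY : ∀ s, Skw J (Y s))
    (hYN : ∀ F ∈ N, F.map d - act arm Y F ∈ N)
    (hYg : ∀ s, ∃ C : Matrix δ δ K, g.map d - Y s * g = g * C) :
    (Y 0, fun s => Y s - X s) ∈ NN arm J N g := by
  refine ⟨hY 0, ⟨fun s => (hY s).sub (hX s), fun F hF => ?_⟩, fun s => ?_⟩
  · have h1 : act arm (fun s => Y s - X s) F
        = (F.map d - act arm X F) - (F.map d - act arm Y F) := by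
      rw [act_sub_left]; abel
    change act arm (fun s => Y s - X s) F ∈ N
    rw [h1]
    exact N.sub_mem (hR.onN F hF) (hYN F hF)
  · obtain ⟨C0, hC0⟩ := hYg 0
    obtain ⟨C1, hC1⟩ := hYg s
    obtain ⟨C2, hC2⟩ := hXS s
    refine ⟨C1 - C0 + C2, ?_⟩
    change (Y 0 - (Y s - X s)) * g = _
    rw [Matrix.mul_add, Matrix.mul_sub, ← hC0, ← hC1, ← hC2, Matrix.sub_mul, Matrix.sub_mul]
    abel

theorem Ctx.onto (h : Ctx k arm J B N W g) {a ν : Matrix ι δ K} (ha : a ∈ W) (hν : ν ∈ N)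
    (haν : gᵀ * J * a = gᵀ * J * ν) (hq : fn arm J B N g ν = 0) : gᵀ * J * a = 0 := by
  have hD := h.data
  have hperp : gᵀ * J * (a - ν) = 0 := by rw [Matrix.mul_sub, haν, sub_self]
  obtain ⟨Bi, hBi⟩ := hD.B_unit.exists_right_inv
  have hBi' : Bi * B = 1 := by
    rw [mul_eq_one_comm] at hBi; exact hBi
  have hBit : Biᵀ = Bi := by
    have h0 : B * Biᵀ = 1 := by
      have := congrArg transpose hBi'
      rw [transpose_mul, transpose_one, hD.B_symm] at this
      exact this
    calc Biᵀ = (Bi * B) * Biᵀ := by rw [hBi', Matrix.one_mul]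
      _ = Bi := by rw [Matrix.mul_assoc, h0, Matrix.mul_one]
  obtain ⟨Ji, hJi⟩ := hD.J_unit.exists_right_inv
  have hJi' : Ji * J = 1 := by
    rw [mul_eq_one_comm] at hJi; exact hJi
  have hJit : Jiᵀ = Ji := by
    have h0 : J * Jiᵀ = 1 := by
      have := congrArg transpose hJi'
      rw [transpose_mul, transpose_one, hD.J_symm] at this
      exact this
    calc Jiᵀ = (Ji * J) * Jiᵀ := by rw [hJi', Matrix.one_mul]
      _ = Ji := by rw [Matrix.mul_assoc, h0, Matrix.mul_one]
  -- Step A: `gᵀ J a` is symmetric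
  have hsymm : (gᵀ * J * a)ᵀ = gᵀ * J * a := by
    apply symm_of_trace_skew
    intro G hG
    obtain ⟨d, hd⟩ := hD.dir 0 (Bi * G) (by intro s; simp) (by
      rw [transpose_mul, hG, hBit, Matrix.neg_mul, Matrix.neg_mul, Matrix.mul_assoc, hBi',
        Matrix.mul_one, ← Matrix.mul_assoc, hBi, Matrix.one_mul, neg_add_cancel])
    obtain ⟨Y, hY, hYN, hYg⟩ := h.frame d
    have hp : (Y 0, fun s => Y s - (0 : Fin 3 → Matrix ι ι K) s) ∈ NN arm J N g :=
      mem_NN_of_frame (X := 0) (fun s => Skw.zero) (fun s => ⟨0, by simp⟩) hd hY hYN hYg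
    have hfn : pair J B (Pg arm g (Y 0, fun s => Y s - (0 : Fin 3 → Matrix ι ι K) s)) ν = 0 :=
      LinearMap.congr_fun hq ⟨_, hp⟩
    have hst := (mem_NN.1 hp).2.1.pres g h.memN
    obtain ⟨C0, hC0⟩ := hYg 0
    have h1 : pair J B (g.map d - Y 0 * g) (a - ν) = 0 := by rw [hC0]; exact pair_S hperp C0
    have h2 : pair J B (g.map d) ν = 0 := by
      have h3 := hd.onN g h.memN
      rw [act_zero, sub_zero] at h3
      exact hD.N_iso _ h3 _ hν
    have h4 : pair J B (act arm (fun s => Y s - (0 : Fin 3 → Matrix ι ι K) s) g) ν = 0 :=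
      hD.N_iso _ hst _ hν
    have h5 : pair J B (Y 0 * g) ν = 0 := by
      have : Y 0 * g = Pg arm g (Y 0, fun s => Y s - (0 : Fin 3 → Matrix ι ι K) s)
          + act arm (fun s => Y s - (0 : Fin 3 → Matrix ι ι K) s) g := by
        unfold Pg; abel
      rw [this, pair_add_left, hfn, h4, add_zero]
    have h6 : pair J B (Y 0 * g) a = 0 := pair_W hD (h.W_mul _ h.memW) ha
    have h7 : pair J B (g.map d) a = 0 := by
      rw [pair_sub_right, pair_sub_left, pair_sub_left, h2, h5, h6] at h1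
      simpa using h1
    have h8 : pair J B (g.map d - g * (Bi * G)ᵀ) a = 0 := pair_W hD (hd.onW g h.memW) ha
    rw [pair_sub_left, h7, zero_sub, neg_eq_zero] at h8
    unfold pair at h8
    rw [transpose_mul, transpose_transpose] at h8
    have h9 : Bi * G * gᵀ * J * a * B = Bi * (G * (gᵀ * J * a) * B) := by
      simp only [Matrix.mul_assoc]
    rw [h9, trace_mul_comm, Matrix.mul_assoc, hBi, Matrix.mul_one] at h8
    exact h8
  -- Step B: `gᵀ J ν E_s B gᵀ = 0`
  have hzero : ∀ s, gᵀ * J * ν * (E K arm s * B) * gᵀ = 0 := by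
    intro s
    apply trace_right
    intro A
    have hAt : ∀ (A : Matrix δ ι K), Skw J (g * A - Ji * (g * A)ᵀ * J) := by
      intro A
      generalize g * A = Z
      unfold Skw
      have e1 : (Ji * Zᵀ * J)ᵀ = J * Z * Ji := by
        rw [transpose_mul, transpose_mul, transpose_transpose, hJit, hD.J_symm, Matrix.mul_assoc]
      have e2 : J * Z * Ji * J = J * Z := by rw [Matrix.mul_assoc, hJi', Matrix.mul_one]
      have e3 : J * (Ji * Zᵀ * J) = Zᵀ * J := by
        rw [← Matrix.mul_assoc, ← Matrix.mul_assoc, hJi, Matrix.one_mul]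
      rw [transpose_sub, e1, Matrix.mul_sub, e3, Matrix.sub_mul, e2]
      abel
    have hSA : ∀ (A : Matrix δ ι K), (g * A - Ji * (g * A)ᵀ * J) * g = g * (A * g) := by
      intro A
      rw [Matrix.sub_mul, transpose_mul]
      have : Ji * (Aᵀ * gᵀ) * J * g = Ji * Aᵀ * (gᵀ * J * g) := by
        simp only [Matrix.mul_assoc]
      rw [this, h.iso, Matrix.mul_zero, sub_zero, Matrix.mul_assoc]
    -- the family supported on the arm `s`
    have key : pair J B (g * (Aᵀ * g) * E K arm s) ν = 0 := by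
      set P : Matrix ι ι K := g * Aᵀ - Ji * (g * Aᵀ)ᵀ * J with hP
      have hPs : Skw J P := hAt Aᵀ
      have hPg : P * g = g * (Aᵀ * g) := hSA Aᵀ
      let X : Fin 3 → Matrix ι ι K := fun t => if t = s then P else 0
      have hX : ∀ t, Skw J (X t) := by
        intro t
        by_cases ht : t = s
        · simp only [X, ht, if_true]; exact hPs
        · simp only [X, ht, if_false]; exact Skw.zero
      have hXS : ∀ t, ∃ C : Matrix δ δ K, X t * g = g * C := by
        intro t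
        by_cases ht : t = s
        · exact ⟨Aᵀ * g, by simp only [X, ht, if_true]; exact hPg⟩
        · exact ⟨0, by simp only [X, ht, if_false]; simp⟩
      have hXg : act arm X g = g * (Aᵀ * g) * E K arm s := by
        unfold act
        rw [Finset.sum_eq_single s]
        · simp only [X, if_true]; rw [hPg]
        · intro t _ ht; simp only [X, ht, if_false]; simp
        · intro h'; exact absurd (Finset.mem_univ s) h'
      obtain ⟨d, hd⟩ := hD.dir X 0 hX (by simp)
      obtain ⟨Y, hY, hYN, hYg⟩ := h.frame d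
      have hp : (Y 0, fun s => Y s - X s) ∈ NN arm J N g :=
        mem_NN_of_frame hX hXS hd hY hYN hYg
      have hfn : pair J B (Pg arm g (Y 0, fun s => Y s - X s)) ν = 0 :=
        LinearMap.congr_fun hq ⟨_, hp⟩
      have hst := (mem_NN.1 hp).2.1.pres g h.memN
      obtain ⟨C0, hC0⟩ := hYg 0
      have h1 : pair J B (g.map d - Y 0 * g) (a - ν) = 0 := by rw [hC0]; exact pair_S hperp C0
      have h4 : pair J B (act arm (fun s => Y s - X s) g) ν = 0 := hD.N_iso _ hst _ hν
      have h5 : pair J B (Y 0 * g) ν = 0 := by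
        have : Y 0 * g = Pg arm g (Y 0, fun s => Y s - X s) + act arm (fun s => Y s - X s) g := by
          unfold Pg; abel
        rw [this, pair_add_left, hfn, h4, add_zero]
      have h6 : pair J B (Y 0 * g) a = 0 := pair_W hD (h.W_mul _ h.memW) ha
      have h7 : pair J B (g.map d) a = 0 := by
        have h8 := hd.onW g h.memW
        rw [transpose_zero, Matrix.mul_zero, sub_zero] at h8
        exact pair_W hD h8 ha
      have h9 : pair J B (g.map d) ν = 0 := by
        rw [pair_sub_right, pair_sub_left, pair_sub_left, h5, h6, h7] at h1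
        simpa using h1
      have h10 : pair J B (g.map d - act arm X g) ν = 0 := hD.N_iso _ (hd.onN g h.memN) _ hν
      rw [pair_sub_left, h9, zero_sub, neg_eq_zero, hXg] at h10
      exact h10
    unfold pair at key
    rw [transpose_mul, transpose_mul, transpose_mul, transpose_transpose, E_transpose] at key
    have h2 : E K arm s * (gᵀ * A * gᵀ) * J * ν * B = (E K arm s * gᵀ) * (A * (gᵀ * J * ν * B)) := by
      simp only [Matrix.mul_assoc]
    rw [h2, trace_mul_comm] at key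
    rw [← key]
    congr 1
    simp only [Matrix.mul_assoc]
    rw [← Matrix.mul_assoc (E K arm s) B, hD.B_arm, Matrix.mul_assoc]
  apply h.lemN ν hν a ha haν hsymm
  intro s
  have : gᵀ * J * a = gᵀ * (J * a) := Matrix.mul_assoc _ _ _
  conv_lhs => rw [haν]
  calc gᵀ * J * ν * (E K arm s * B) * (gᵀ * J * ν)
      = (gᵀ * J * ν * (E K arm s * B) * gᵀ) * (J * ν) := by simp only [Matrix.mul_assoc]
    _ = 0 := by rw [hzero, Matrix.zero_mul]

/-- `gᵀ J (P g) = 0`. -/
theorem Ctx.perp_Pg (h : Ctx k arm J B N W g) {p : Matrix ι ι K × (Fin 3 → Matrix ι ι K)}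
    (hp : p ∈ NN arm J N g) : gᵀ * J * Pg arm g p = 0 := by
  obtain ⟨C, hC⟩ := Pg_InS hp
  rw [hC, ← Matrix.mul_assoc, h.iso, Matrix.zero_mul]

theorem Ctx.pair_Pg_Pg (h : Ctx k arm J B N W g) {p q : Matrix ι ι K × (Fin 3 → Matrix ι ι K)}
    (hp : p ∈ NN arm J N g) (hq : q ∈ NN arm J N g) :
    pair J B (Pg arm g p) (Pg arm g q) = 0 := by
  obtain ⟨C, hC⟩ := Pg_InS hp
  rw [hC]
  exact pair_S (h.perp_Pg hq) C

theorem Ctx.pair_N (h : Ctx k arm J B N W g) {a b : Matrix ι δ K} (ha : a ∈ N) (hb : b ∈ N) :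
    pair J B a b = 0 := h.data.N_iso a ha b hb

theorem Ctx.skew_w (h : Ctx k arm J B N W g) {p q : Matrix ι ι K × (Fin 3 → Matrix ι ι K)}
    (hp : p ∈ NN arm J N g) (hq : q ∈ NN arm J N g) :
    pair J B (Pg arm g q) (act arm p.2 g) = - pair J B (Pg arm g p) (act arm q.2 g) := by
  have hNp := hp.2.1.pres g h.memN
  have hNq := hq.2.1.pres g h.memN
  have h1 : pair J B (Pg arm g q) (act arm p.2 g) = pair J B (q.1 * g) (act arm p.2 g) := by
    have : Pg arm g q = q.1 * g - act arm q.2 g := rfl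
    rw [this, pair_sub_left, h.pair_N hNq hNp, sub_zero]
  have h2 : pair J B (q.1 * g) (act arm p.2 g) = - pair J B (q.1 * g) (Pg arm g p) := by
    have : act arm p.2 g = p.1 * g - Pg arm g p := by unfold Pg; abel
    rw [this, pair_sub_right, pair_W h.data (h.W_mul _ h.memW) (h.W_mul _ h.memW), zero_sub]
  have h3 : pair J B (Pg arm g p) (act arm q.2 g) = pair J B (Pg arm g p) (q.1 * g) := by
    have : act arm q.2 g = q.1 * g - Pg arm g q := by unfold Pg; abel
    rw [this, pair_sub_right, h.pair_Pg_Pg hp hq, sub_zero]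
  rw [h1, h2, h3, pair_comm h.data.J_symm h.data.B_symm]

/-- Elements of `H⁰(S^*)` perpendicular to `δ(NN₁ g)` are of the form `X₀ g`. -/
theorem Ctx.lift (h : Ctx k arm J B N W g) {a ν : Matrix ι δ K} (ha : a ∈ W) (hν : ν ∈ N)
    (haν : gᵀ * J * a = gᵀ * J * ν)
    (hq : ∀ p ∈ NN arm J N g, gᵀ * J * (p.1 * g) = 0 → pair J B (Pg arm g p) ν = 0) :
    ∃ p ∈ NN arm J N g, gᵀ * J * a = gᵀ * J * (p.1 * g) := by
  let actg : NN arm J N g →ₗ[K] Matrix ι δ K :=
    { toFun := fun p => act arm p.1.2 g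
      map_add' := fun p q => act_add_left arm p.1.2 q.1.2 g
      map_smul' := fun t p => act_smul_left arm t p.1.2 g }
  let w : NN arm J N g →ₗ[K] Dual K (NN arm J N g) := (fn arm J B N g) ∘ₗ actg
  have hw : ∀ p q, w p q = pair J B (Pg arm g q.1) (act arm p.1.2 g) := fun p q => rfl
  have hg2 : ∀ p ∈ NN arm J N g, gᵀ * J * (p.1 * g) = gᵀ * J * (act arm p.2 g) := by
    intro p hp
    have := h.perp_Pg hp
    unfold Pg at this
    rw [Matrix.mul_sub, sub_eq_zero] at this
    exact this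
  obtain ⟨p, hp⟩ := rep_of_skew w (fun p q => by rw [hw, hw]; exact h.skew_w p.2 q.2)
    (fn arm J B N g ν) (fun p hp => by
      rw [fn_apply]
      apply hq p.1 p.2
      exact h.onto (h.W_mul _ h.memW) (p.2.2.1.pres g h.memN) (hg2 p.1 p.2) hp)
  refine ⟨p.1, p.2, ?_⟩
  have h1 : fn arm J B N g (ν - act arm p.1.2 g) = 0 := by
    rw [map_sub, sub_eq_zero]
    exact hp.symm
  have h2 := h.onto (a := a - p.1.1 * g) (W.sub_mem ha (h.W_mul _ h.memW))
    (N.sub_mem hν (p.2.2.1.pres g h.memN)) (by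
      rw [Matrix.mul_sub, Matrix.mul_sub, haν, hg2 p.1 p.2]) h1
  rw [Matrix.mul_sub, sub_eq_zero] at h2
  exact h2

/-- a pseudo-inverse -/
theorem exists_pinv (g : Matrix ι δ K) : ∃ G : Matrix δ ι K, g * G * g = g := by
  obtain ⟨r, hr⟩ := (Matrix.toLin' g).rangeRestrict.exists_rightInverse_of_surjective
    (LinearMap.range_rangeRestrict _)
  obtain ⟨r', hr'⟩ := r.exists_extend
  refine ⟨LinearMap.toMatrix' r', ?_⟩
  have h1 : Matrix.toLin' (g * LinearMap.toMatrix' r' * g) = Matrix.toLin' g := by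
    rw [Matrix.toLin'_mul, Matrix.toLin'_mul, Matrix.toLin'_toMatrix']
    refine LinearMap.ext fun v => ?_
    rw [LinearMap.comp_apply, LinearMap.comp_apply]
    have h2 := LinearMap.congr_fun hr' ((Matrix.toLin' g).rangeRestrict v)
    rw [LinearMap.comp_apply, Submodule.subtype_apply, LinearMap.codRestrict_apply] at h2
    have h3 := LinearMap.congr_fun hr ((Matrix.toLin' g).rangeRestrict v)
    rw [LinearMap.comp_apply, LinearMap.id_apply] at h3
    have h4 := congrArg Subtype.val h3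
    rw [LinearMap.codRestrict_apply, LinearMap.codRestrict_apply, ← h2] at h4
    exact h4
  exact Matrix.toLin'.injective h1

/-- `M_s(f,g) ∈ S ⊗ S` -/
theorem Ctx.psi_SS (h : Ctx k arm J B N W g) {f : Matrix ι δ K} (hf : f ∈ N ⊓ W) (s : Fin 3) :
    ∃ D : Matrix δ δ K, f * E K arm s * B * gᵀ = g * D * gᵀ := by
  obtain ⟨G, hG⟩ := exists_pinv g
  refine ⟨G * (f * E K arm s * B * gᵀ) * Gᵀ, ?_⟩
  have h2 : f * E K arm s * B * gᵀ = g * E K arm s * B * fᵀ := h.data.symm_arm hf h.mem s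
  have h3 : g * G * (f * E K arm s * B * gᵀ) = f * E K arm s * B * gᵀ := by
    rw [h2]
    calc g * G * (g * E K arm s * B * fᵀ) = (g * G * g) * E K arm s * B * fᵀ := by
          simp only [Matrix.mul_assoc]
      _ = _ := by rw [hG]
  have h4 : (f * E K arm s * B * gᵀ) * (Gᵀ * gᵀ) = f * E K arm s * B * gᵀ := by
    have : gᵀ * (Gᵀ * gᵀ) = gᵀ := by
      rw [← transpose_mul, ← transpose_mul, hG]
    rw [Matrix.mul_assoc (f * E K arm s * B), this]
  calc f * E K arm s * B * gᵀ = (g * G * (f * E K arm s * B * gᵀ)) * (Gᵀ * gᵀ) := by rw [h3, h4]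
    _ = _ := by simp only [Matrix.mul_assoc]

end Crest.Agent.R172.Qt
end

-- ▼ part R172/Qt3

/-!
Row 172 (S0260), node G1.1 (Q-theory), part 3: the operators `T_f`, the dual description of
`H¹(S^* ⊗ V')` and `K(V') = F + E₁ g`.
-/

set_option autoImplicit false
set_option linter.unusedSectionVars false
set_option linter.unusedFintypeInType false
set_option linter.unusedDecidableInType false

namespace Crest.Agent.R172.Qt

open Matrix Module Crest.Agent.R172.FO

variable {ι : Type*} [Fintype ι] [DecidableEq ι] {δ : Type*} [Fintype δ] [DecidableEq δ]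
variable {k K : Type*} [Field k] [Field K] [Algebra k K]
variable {arm : δ → Fin 3} {J : Matrix ι ι K} {B : Matrix δ δ K}
  {N W : Submodule K (Matrix ι δ K)} {g : Matrix ι δ K}

/-- `S^⊥` is stable under `p_S`. -/
theorem perp_stable {P : Matrix ι ι K} (hP : Skw J P) {C : Matrix δ δ K} (hPg : P * g = g * C)
    {α : Type*} {F : Matrix ι α K} (hF : gᵀ * J * F = 0) : gᵀ * J * (P * F) = 0 := by
  have h1 : gᵀ * J * P = - (Cᵀ * (gᵀ * J)) := by
    calc gᵀ * J * P = - (gᵀ * (Pᵀ * J)) := by rw [hP.eq, Matrix.mul_neg, neg_neg, Matrix.mul_assoc]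
      _ = - ((P * g)ᵀ * J) := by rw [transpose_mul, Matrix.mul_assoc]
      _ = _ := by rw [hPg, transpose_mul, Matrix.mul_assoc]
  rw [← Matrix.mul_assoc, h1, Matrix.neg_mul, Matrix.mul_assoc, hF, Matrix.mul_zero, neg_zero]

/-- `P f ∈ S^⊥ ⊗ U` for `f ∈ S^⊥ ⊗ U` -/
theorem perp_Pf {p : Matrix ι ι K × (Fin 3 → Matrix ι ι K)} (hp : p ∈ NN arm J N g)
    {f : Matrix ι δ K} (hf : gᵀ * J * f = 0) : gᵀ * J * (p.1 * f - act arm p.2 f) = 0 := by
  have h1 : p.1 * f - act arm p.2 f = act arm (fun s => p.1 - p.2 s) f := by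
    rw [act_sub_left, act_const]
  rw [h1]
  unfold act
  rw [Matrix.mul_sum]
  refine Finset.sum_eq_zero fun s _ => ?_
  obtain ⟨C, hC⟩ := hp.2.2 s
  rw [← Matrix.mul_assoc, perp_stable (hp.1.sub (hp.2.1.skw s)) hC hf, Matrix.zero_mul]

theorem Ctx.pair_sum_left (F' : Matrix ι δ K) (T : Fin 3 → Matrix ι δ K) :
    pair J B (∑ s, T s) F' = ∑ s, pair J B (T s) F' := by
  simp only [Fin.sum_univ_three, pair_add_left]

theorem Ctx.pair_sum_right (F' : Matrix ι δ K) (T : Fin 3 → Matrix ι δ K) :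
    pair J B F' (∑ s, T s) = ∑ s, pair J B F' (T s) := by
  simp only [Fin.sum_univ_three, pair_add_right]

/-- `⟨A g, P_s f⟩` only depends on `A|_S mod S^⊥`. -/
theorem Ctx.pair_X_Pf (h : Ctx k arm J B N W g) {f : Matrix ι δ K} (hf : f ∈ N ⊓ W)
    {p : Matrix ι ι K × (Fin 3 → Matrix ι ι K)} (hp : p ∈ NN arm J N g)
    {A : Matrix ι ι K} (hA : Skw J A) (hA0 : gᵀ * J * (A * g) = 0) :
    pair J B (A * g) (p.1 * f - act arm p.2 f) = 0 := by
  have h1 : p.1 * f - act arm p.2 f = act arm (fun s => p.1 - p.2 s) f := by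
    rw [act_sub_left, act_const]
  rw [h1]
  unfold act
  rw [Ctx.pair_sum_right]
  refine Finset.sum_eq_zero fun s _ => ?_
  obtain ⟨C, hC⟩ := hp.2.2 s
  obtain ⟨D, hD⟩ := h.psi_SS hf s
  have hA1 : (A * g)ᵀ * J = - (gᵀ * J * A) := by
    rw [transpose_mul, Matrix.mul_assoc, hA.eq, Matrix.mul_neg, Matrix.mul_assoc]
  unfold pair
  rw [hA1, Matrix.neg_mul, Matrix.neg_mul, trace_neg, neg_eq_zero]
  have h2 : gᵀ * J * A * ((p.1 - p.2 s) * f * E K arm s) * B
      = gᵀ * (J * A * (p.1 - p.2 s) * (f * E K arm s * B)) := by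
    simp only [Matrix.mul_assoc]
  rw [h2, trace_mul_comm]
  have h3 : J * A * (p.1 - p.2 s) * (f * E K arm s * B) * gᵀ
      = J * A * ((p.1 - p.2 s) * g) * (D * gᵀ) := by
    calc J * A * (p.1 - p.2 s) * (f * E K arm s * B) * gᵀ
        = J * A * (p.1 - p.2 s) * (f * E K arm s * B * gᵀ) := by simp only [Matrix.mul_assoc]
      _ = _ := by rw [hD]; simp only [Matrix.mul_assoc]
  rw [h3, hC]
  have h4 : J * A * (g * C) * (D * gᵀ) = (J * (A * g) * (C * D)) * gᵀ := by
    simp only [Matrix.mul_assoc]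
  rw [h4, trace_mul_comm]
  have h5 : gᵀ * (J * (A * g) * (C * D)) = gᵀ * J * (A * g) * (C * D) := by
    simp only [Matrix.mul_assoc]
  rw [h5, hA0, Matrix.zero_mul, trace_zero]

/-- `⟨P_s g, A f⟩` only depends on `A|_S mod S^⊥`. -/
theorem Ctx.pair_Pg_A (h : Ctx k arm J B N W g) {f : Matrix ι δ K} (hf : f ∈ N ⊓ W)
    {p : Matrix ι ι K × (Fin 3 → Matrix ι ι K)} (hp : p ∈ NN arm J N g)
    {A : Matrix ι ι K} (hA0 : gᵀ * J * (A * g) = 0) :
    pair J B (Pg arm g p) (A * f) = 0 := by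
  rw [Pg_eq]
  unfold act
  rw [Ctx.pair_sum_left]
  refine Finset.sum_eq_zero fun s _ => ?_
  obtain ⟨C, hC⟩ := hp.2.2 s
  obtain ⟨D, hD⟩ := h.psi_SS hf s
  rw [hC, pair_E h.data.B_arm]
  unfold pair
  rw [transpose_mul]
  have h2 : Cᵀ * gᵀ * J * (A * f * E K arm s) * B = Cᵀ * (gᵀ * (J * A * (f * E K arm s * B))) := by
    simp only [Matrix.mul_assoc]
  -- trace (Cᵀ gᵀ J A f E B) ; need `gᵀ` at the right: use `P` again
  have h3 : trace ((g * C)ᵀ * (J * A * (f * E K arm s * B))) = 0 := by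
    rw [← hC, transpose_mul]
    have h4 : gᵀ * (p.1 - p.2 s)ᵀ * (J * A * (f * E K arm s * B))
        = gᵀ * ((p.1 - p.2 s)ᵀ * (J * A) * (f * E K arm s * B)) := by
      simp only [Matrix.mul_assoc]
    rw [h4, trace_mul_comm]
    have h5 : (p.1 - p.2 s)ᵀ * (J * A) * (f * E K arm s * B) * gᵀ
        = (p.1 - p.2 s)ᵀ * (J * A) * (g * D * gᵀ) := by
      rw [← hD]; simp only [Matrix.mul_assoc]
    rw [h5]
    have h6 : (p.1 - p.2 s)ᵀ * (J * A) * (g * D * gᵀ)
        = ((p.1 - p.2 s)ᵀ * (J * (A * g)) * D) * gᵀ := by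
      simp only [Matrix.mul_assoc]
    rw [h6, trace_mul_comm]
    have h7 : gᵀ * ((p.1 - p.2 s)ᵀ * (J * (A * g)) * D)
        = ((p.1 - p.2 s) * g)ᵀ * (J * (A * g)) * D := by
      rw [transpose_mul]; simp only [Matrix.mul_assoc]
    rw [h7, hC, transpose_mul]
    have h8 : Cᵀ * gᵀ * (J * (A * g)) * D = Cᵀ * (gᵀ * J * (A * g)) * D := by
      simp only [Matrix.mul_assoc]
    rw [h8, hA0, Matrix.mul_zero, Matrix.zero_mul, trace_zero]
  rw [h2]
  rw [transpose_mul] at h3
  rw [← h3]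
  congr 1
  simp only [Matrix.mul_assoc]

/-- the pairing `⟨P' g, X f⟩ = - ⟨X₀' g, P f⟩` -/
theorem Ctx.pair_Pg_Xf (h : Ctx k arm J B N W g) {f : Matrix ι δ K} (hf : f ∈ N ⊓ W)
    {p q : Matrix ι ι K × (Fin 3 → Matrix ι ι K)} (hp : p ∈ NN arm J N g)
    (hq : q ∈ NN arm J N g) :
    pair J B (Pg arm g q) (act arm p.2 f) = - pair J B (q.1 * g) (p.1 * f - act arm p.2 f) := by
  have hNp := hp.2.1.pres f hf.1
  have hNq := hq.2.1.pres g h.memN
  have : Pg arm g q = q.1 * g - act arm q.2 g := rfl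
  rw [this, pair_sub_left, h.pair_N hNq hNp, sub_zero, pair_sub_right,
    pair_W h.data (h.W_mul _ h.memW) (h.W_mul _ hf.2), zero_sub, neg_neg]

/-- `X₀ f ≡ T_f(φ) g` -/
theorem Ctx.tf (h : Ctx k arm J B N W g) {f : Matrix ι δ K} (hf : f ∈ N ⊓ W)
    {p : Matrix ι ι K × (Fin 3 → Matrix ι ι K)} (hp : p ∈ NN arm J N g) :
    ∃ p' ∈ NN arm J N g, gᵀ * J * (p.1 * f) = gᵀ * J * (p'.1 * g) := by
  have hfp := h.perp f hf
  refine h.lift (h.W_mul _ hf.2) (hp.2.1.pres f hf.1) ?_ ?_
  · have := perp_Pf hp hfp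
    rw [Matrix.mul_sub, sub_eq_zero] at this
    exact this
  · intro q hq hq0
    rw [h.pair_Pg_Xf hf hp hq, h.pair_X_Pf hf hp hq.1 hq0, neg_zero]

/-- `X₀ f ≡ 0 mod S^⊥` if `φ = 0` -/
theorem Ctx.tf_zero (h : Ctx k arm J B N W g) {f : Matrix ι δ K} (hf : f ∈ N ⊓ W)
    {p : Matrix ι ι K × (Fin 3 → Matrix ι ι K)} (hp : p ∈ NN arm J N g)
    (hp0 : gᵀ * J * (p.1 * g) = 0) : gᵀ * J * (p.1 * f) = 0 := by
  have hfp := h.perp f hf
  have h1 : gᵀ * J * (p.1 * f) = gᵀ * J * (act arm p.2 f) := by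
    have := perp_Pf hp hfp
    rw [Matrix.mul_sub, sub_eq_zero] at this
    exact this
  refine h.onto (h.W_mul _ hf.2) (hp.2.1.pres f hf.1) h1 ?_
  refine LinearMap.ext fun q => ?_
  rw [fn_apply, LinearMap.zero_apply]
  -- ⟨Pg, X f⟩ = ⟨Pg, X₀ f⟩
  have h2 : pair J B (Pg arm g q.1) (p.1 * f - act arm p.2 f) = 0 := by
    obtain ⟨C, hC⟩ := Pg_InS q.2
    rw [hC]
    exact pair_S (perp_Pf hp hfp) C
  rw [pair_sub_right, sub_eq_zero] at h2
  rw [← h2]
  exact h.pair_Pg_A hf q.2 hp0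

/-- **`H¹(S^* ⊗ V')^* = {M_s zᵀ}`**, dual form: if the directions `X_s` with `X_s S ⊆ S^⊥` are
perpendicular to `E₁` then they are locally compatible up to a constant. -/
theorem Ctx.h1 (h : Ctx k arm J B N W g) {X : Fin 3 → Matrix ι ι K} (hX : ∀ s, Skw J (X s))
    (hXS : ∀ s, gᵀ * J * (X s * g) = 0)
    (hq : ∀ p ∈ NN arm J N g, gᵀ * J * (p.1 * g) = 0 → pair J B (p.1 * g) (act arm X g) = 0) :
    ∃ (Z : Matrix ι ι K) (Q : Fin 3 → Matrix ι ι K), Skw J Z ∧ gᵀ * J * (Z * g) = 0 ∧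
      Stb arm J N Q ∧ ∀ s, ∃ C : Matrix δ δ K, (Z - X s - Q s) * g = g * C := by
  have hD := h.data
  obtain ⟨d, hd⟩ := hD.dir X 0 hX (by simp)
  obtain ⟨Y, hY, hYN, hYg⟩ := h.frame d
  have haW : g.map d ∈ W := by
    have h8 := hd.onW g h.memW
    rw [transpose_zero, Matrix.mul_zero, sub_zero] at h8
    exact h8
  have hνN : g.map d - act arm X g ∈ N := hd.onN g h.memN
  have hXg : gᵀ * J * act arm X g = 0 := by
    unfold act
    rw [Matrix.mul_sum]
    refine Finset.sum_eq_zero fun s _ => ?_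
    rw [← Matrix.mul_assoc, hXS, Matrix.zero_mul]
  obtain ⟨p, hp, hpe⟩ := h.lift haW hνN (by rw [Matrix.mul_sub, hXg, sub_zero]) (by
    intro q hq' hq0
    have hNq := hq'.2.1.pres g h.memN
    have : Pg arm g q = q.1 * g - act arm q.2 g := rfl
    rw [this, pair_sub_left, h.pair_N hNq hνN, sub_zero, pair_sub_right,
      pair_W hD (h.W_mul _ h.memW) haW, zero_sub, hq q hq' hq0, neg_zero])
  obtain ⟨C0, hC0⟩ := hYg 0
  refine ⟨Y 0 - p.1, fun s => (Y s - X s) - p.2 s, (hY 0).sub hp.1, ?_, ⟨fun s =>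
    ((hY s).sub (hX s)).sub (hp.2.1.skw s), fun F hF => ?_⟩, fun s => ?_⟩
  · have h1 : Y 0 * g = g.map d - g * C0 := by rw [← hC0]; abel
    have h2 : gᵀ * J * (g * C0) = 0 := by rw [← Matrix.mul_assoc, h.iso, Matrix.zero_mul]
    rw [Matrix.sub_mul, h1, Matrix.mul_sub, Matrix.mul_sub, h2, sub_zero, hpe, sub_self]
  · have h1 : act arm (fun s => (Y s - X s) - p.2 s) F
        = ((F.map d - act arm X F) - (F.map d - act arm Y F)) - act arm p.2 F := by
      rw [act_sub_left arm (fun s => Y s - X s) p.2, act_sub_left]; abel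
    rw [h1]
    exact N.sub_mem (N.sub_mem (hd.onN F hF) (hYN F hF)) (hp.2.1.pres F hF)
  · obtain ⟨C1, hC1⟩ := hYg s
    obtain ⟨C2, hC2⟩ := hp.2.2 s
    refine ⟨C1 - C0 - C2, ?_⟩
    rw [Matrix.mul_sub, Matrix.mul_sub, ← hC0, ← hC1, ← hC2]
    simp only [Matrix.sub_mul]
    abel

/-- if `A` is not in a subspace, it is separated by a pairing. -/
theorem mem_of_pair (hJu : IsUnit J) (hBu : IsUnit B) (Q : Submodule K (Matrix ι δ K))
    (x : Matrix ι δ K)
    (hx : ∀ y : Matrix ι δ K, (∀ z ∈ Q, pair J B z y = 0) → pair J B x y = 0) : x ∈ Q := by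
  by_contra hne
  obtain ⟨l, hl, hlQ⟩ := Submodule.exists_dual_map_eq_bot_of_notMem hne inferInstance
  obtain ⟨Bi, hBi⟩ := hBu.exists_right_inv
  have hBi' : Bi * B = 1 := by
    rw [mul_eq_one_comm] at hBi; exact hBi
  obtain ⟨Ji, hJi⟩ := hJu.exists_right_inv
  -- the functional is `pair · y`
  let y0 : Matrix ι δ K := Matrix.of fun i d => l (Matrix.single i d 1)
  have hrep : ∀ z : Matrix ι δ K, l z = trace (zᵀ * y0) := by
    intro z
    conv_lhs => rw [matrix_eq_sum_single z]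
    rw [map_sum]
    have h1 : ∀ i, l (∑ j, single i j (z i j)) = ∑ j, z i j * l (single i j 1) := by
      intro i
      rw [map_sum]
      refine Finset.sum_congr rfl fun j _ => ?_
      have : (single i j (z i j) : Matrix ι δ K) = z i j • single i j 1 := by
        rw [smul_single, smul_eq_mul, mul_one]
      rw [this, map_smul, smul_eq_mul]
    simp only [h1]
    simp only [trace, diag_apply, mul_apply, transpose_apply, y0, of_apply]
    exact Finset.sum_comm
  have hy : ∀ z : Matrix ι δ K, pair J B z (Ji * y0 * Bi) = l z := by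
    intro z
    rw [hrep]
    unfold pair
    congr 1
    calc zᵀ * J * (Ji * y0 * Bi) * B = zᵀ * (J * Ji) * y0 * (Bi * B) := by
          simp only [Matrix.mul_assoc]
      _ = _ := by rw [hJi, hBi', Matrix.mul_one, Matrix.mul_one]
  apply hl
  rw [← hy]
  apply hx
  intro z hz
  rw [hy]
  have : l z ∈ Submodule.map l Q := ⟨z, hz, rfl⟩
  rw [hlQ] at this
  exact (Submodule.mem_bot K).1 this

/-- **`K(V') = F + E₁ g`.** -/
theorem Ctx.KV (h : Ctx k arm J B N W g)
    (hNm : ∀ F, (∀ F' ∈ N, pair J B F' F = 0) → F ∈ N)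
    (hWm : ∀ F, (∀ F' ∈ W, pair J B F' F = 0) → F ∈ W)
    {x ν : Matrix ι δ K} (hx : x ∈ W) (hxS : gᵀ * J * x = 0) (hν : ν ∈ N) {C : Matrix δ δ K}
    (hxν : x = ν + g * C) :
    ∃ f ∈ N ⊓ W, ∃ p ∈ NN arm J N g, gᵀ * J * (p.1 * g) = 0 ∧
      ∃ C' : Matrix δ δ K, x = f + p.1 * g + g * C' := by
  have hD := h.data
  -- the submodules
  let A1 : Submodule K (Matrix ι δ K) :=
    { carrier := {y | ∃ p ∈ NN arm J N g, gᵀ * J * (p.1 * g) = 0 ∧ y = p.1 * g}
      zero_mem' := ⟨0, (NN arm J N g).zero_mem, by simp, by simp⟩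
      add_mem' := by
        rintro _ _ ⟨p, hp, hp0, rfl⟩ ⟨q, hq, hq0, rfl⟩
        refine ⟨p + q, (NN arm J N g).add_mem hp hq, ?_, ?_⟩
        · rw [Prod.fst_add, Matrix.add_mul, Matrix.mul_add, hp0, hq0, add_zero]
        · rw [Prod.fst_add, Matrix.add_mul]
      smul_mem' := by
        rintro t _ ⟨p, hp, hp0, rfl⟩
        refine ⟨t • p, (NN arm J N g).smul_mem t hp, ?_, ?_⟩
        · rw [Prod.smul_fst, Matrix.smul_mul, Matrix.mul_smul, hp0, smul_zero]
        · rw [Prod.smul_fst, Matrix.smul_mul] }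
  let A2 : Submodule K (Matrix ι δ K) :=
    { carrier := {y | ∃ C : Matrix δ δ K, y = g * C}
      zero_mem' := ⟨0, by simp⟩
      add_mem' := by
        rintro _ _ ⟨C, rfl⟩ ⟨C', rfl⟩
        exact ⟨C + C', by rw [Matrix.mul_add]⟩
      smul_mem' := by
        rintro t _ ⟨C, rfl⟩
        exact ⟨t • C, by rw [Matrix.mul_smul]⟩ }
  have hmem : x ∈ (N ⊓ W) ⊔ A1 ⊔ A2 := by
    refine mem_of_pair hD.J_unit hD.B_unit _ x fun y hy => ?_
    have hyK : ∀ z ∈ N ⊓ W, pair J B z y = 0 := fun z hz =>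
      hy z (Submodule.mem_sup_left (Submodule.mem_sup_left hz))
    have hy1 : ∀ z ∈ A1, pair J B z y = 0 := fun z hz =>
      hy z (Submodule.mem_sup_left (Submodule.mem_sup_right hz))
    have hy2 : ∀ C : Matrix δ δ K, pair J B (g * C) y = 0 := fun C =>
      hy _ (Submodule.mem_sup_right ⟨C, rfl⟩)
    have hyS : gᵀ * J * y = 0 := perp_of_pair hD.B_unit hy2
    -- `y ∈ N + W`
    have hyNW : y ∈ N ⊔ W := by
      refine mem_of_pair hD.J_unit hD.B_unit _ y fun z hz => ?_
      rw [pair_comm hD.J_symm hD.B_symm]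
      exact hyK z ⟨hNm z fun F' hF' => hz F' (Submodule.mem_sup_left hF'),
        hWm z fun F' hF' => hz F' (Submodule.mem_sup_right hF')⟩
    obtain ⟨n, hn, a', ha', rfl⟩ := Submodule.mem_sup.1 hyNW
    obtain ⟨a, rfl⟩ : ∃ a, a' = -a := ⟨-a', by simp⟩
    have ha : a ∈ W := by simpa using W.neg_mem ha'
    have han : gᵀ * J * a = gᵀ * J * n := by
      rw [← sub_eq_add_neg, Matrix.mul_sub, sub_eq_zero] at hyS
      exact hyS.symm
    obtain ⟨p, hp, hpe⟩ := h.lift ha hn han (by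
      intro q hq hq0
      have h1 := hy1 (q.1 * g) ⟨q, hq, hq0, rfl⟩
      rw [pair_add_right, pair_neg_right, pair_W hD (h.W_mul _ h.memW) ha, neg_zero,
        add_zero] at h1
      have : Pg arm g q = q.1 * g - act arm q.2 g := rfl
      rw [this, pair_sub_left, h1, h.pair_N (hq.2.1.pres g h.memN) hn, sub_zero])
    have e1 : pair J B x (n + -a) = pair J B x n := by
      rw [pair_add_right, pair_neg_right, pair_W hD hx ha, neg_zero, add_zero]
    have e2 : pair J B x n = pair J B (g * C) n := by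
      rw [hxν, pair_add_left, h.pair_N hν hn, zero_add]
    have e3 : pair J B (g * C) n = pair J B (g * C) (p.1 * g) := by
      have : pair J B (g * C) (n - p.1 * g) = 0 :=
        pair_S (by rw [Matrix.mul_sub, ← han, hpe, sub_self]) C
      rw [pair_sub_right, sub_eq_zero] at this
      exact this
    have e4 : pair J B (g * C) (p.1 * g) = - pair J B ν (p.1 * g) := by
      have : g * C = x - ν := by rw [hxν]; abel
      rw [this, pair_sub_left, pair_W hD hx (h.W_mul _ h.memW), zero_sub]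
    have e5 : pair J B ν (p.1 * g) = pair J B ν (Pg arm g p) := by
      have : p.1 * g = Pg arm g p + act arm p.2 g := by unfold Pg; abel
      rw [this, pair_add_right, h.pair_N hν (hp.2.1.pres g h.memN), add_zero]
    have e6 : pair J B ν (Pg arm g p) = 0 := by
      have h1 : ν = x - g * C := by rw [hxν]; abel
      rw [h1, pair_sub_left, pair_S (h.perp_Pg hp), sub_zero, pair_comm hD.J_symm hD.B_symm]
      obtain ⟨C', hC'⟩ := Pg_InS hp
      rw [hC']
      exact pair_S hxS C'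
    rw [e1, e2, e3, e4, e5, e6, neg_zero]
  obtain ⟨y, hy, z, ⟨C', rfl⟩, hz⟩ := Submodule.mem_sup.1 hmem
  obtain ⟨f, hf, u, ⟨p, hp, hp0, rfl⟩, hu⟩ := Submodule.mem_sup.1 hy
  exact ⟨f, hf, p, hp, hp0, C', by rw [← hz, ← hu]⟩

end Crest.Agent.R172.Qt
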