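import Crest.Agent.R172.ZP1
import Crest.Agent.R172.ZPL
import Crest.Agent.R172.FrmB
import Crest.Agent.R172.SpEx
import Crest.Agent.R172.FC2
import Crest.Agent.R172.FrmP
import Crest.Agent.R172.RJM

-- ▼ part R172/ZP2
section

/-!
Row 172, T0, node (o2): matrix form of the space of twisted self-adjoint corrections
(fields of `ZOK`, note 15982, and the END `Z3`).
-/

set_option autoImplicit false
set_option linter.unusedSectionVars false

namespace Crest.Agent.R172.ZPM

open Matrix Crest.Agent.R172.ZP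

section NilM

variable {E : Type*} [Ring E]

/-- left multiplication -/
def lE (m : E) : AddMonoid.End E := AddMonoidHom.mulLeft m

/-- minus right multiplication -/
def rE (m : E) : AddMonoid.End E := -AddMonoidHom.mulRight m

theorem nil_ad_of_nilpotent {m : E} (hm : IsNilpotent m) (y : E) : NilAt (adE m) y := by
  obtain ⟨j, hj⟩ := hm
  have h1 : ∀ i : ℕ, ((lE m) ^ i) y = m ^ i * y := by
    intro i
    induction i with
    | zero => simp
    | succ i ih =>
      rw [pow_succ', AddMonoid.End.coe_mul, Function.comp_apply, ih, pow_succ', mul_assoc]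
      rfl
  have h2 : ∀ i : ℕ, ((rE m) ^ i) y = (-1) ^ i * (y * m ^ i) := by
    intro i
    induction i with
    | zero => simp
    | succ i ih =>
      rw [pow_succ', AddMonoid.End.coe_mul, Function.comp_apply, ih]
      change -(((-1) ^ i * (y * m ^ i)) * m) = _
      rw [pow_succ, pow_succ]
      noncomm_ring
  have hc : Commute (lE m) (rE m) := by
    ext x
    change m * -(x * m) = -((m * x) * m)
    noncomm_ring
  have e1 : adE m = lE m + rE m := by
    ext x
    change m * x - x * m = m * x + -(x * m)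
    rw [sub_eq_add_neg]
  rw [e1]
  refine NilAt.add_op hc ⟨j, ?_⟩ ⟨j, ?_⟩
  · rw [h1, hj, zero_mul]
  · rw [h2, hj, mul_zero, mul_zero]

theorem NilAt.sum {A : Type*} [AddCommGroup A] {U : AddMonoid.End A} {α : Type*} (s : Finset α)
    (f : α → A) (h : ∀ i ∈ s, NilAt U (f i)) : NilAt U (∑ i ∈ s, f i) := by
  classical
  induction s using Finset.induction_on with
  | empty => simpa using NilAt.zero U
  | insert a s ha ih =>
    rw [Finset.sum_insert ha]
    exact (h a (Finset.mem_insert_self _ _)).add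
      (ih fun i hi => h i (Finset.mem_insert_of_mem hi))

end NilM

variable {ι : Type*} [Fintype ι] [DecidableEq ι] {n κ : Type*} [Fintype n] [DecidableEq n]
variable {k K : Type*} [Field k] [Field K] [Algebra k K]









/-- block-diagonal matrices -/
def Blk (e : n → Matrix ι ι K) : Submodule K (Matrix ι ι K) where
  carrier := {z | ∀ l, e l * z = z * e l}
  add_mem' := by
    intro a b ha hb l
    rw [Matrix.mul_add, Matrix.add_mul, ha l, hb l]
  zero_mem' := fun l => by rw [Matrix.mul_zero, Matrix.zero_mul]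
  smul_mem' := by
    intro c a ha l
    rw [Matrix.mul_smul, Matrix.smul_mul, ha l]

/-- filtered matrices (column form) -/
def Fil (Φ : κ → Matrix ι ι K) : Submodule K (Matrix ι ι K) where
  carrier := {z | ∀ s, ∀ v : ℕ, ∃ R, z * (Φ s) ^ v = (Φ s) ^ v * R}
  add_mem' := by
    intro a b ha hb s v
    obtain ⟨R, hR⟩ := ha s v
    obtain ⟨R', hR'⟩ := hb s v
    exact ⟨R + R', by rw [Matrix.add_mul, hR, hR', Matrix.mul_add]⟩
  zero_mem' := fun s v => ⟨0, by rw [Matrix.zero_mul, Matrix.mul_zero]⟩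
  smul_mem' := by
    intro c a ha s v
    obtain ⟨R, hR⟩ := ha s v
    exact ⟨c • R, by rw [Matrix.smul_mul, hR, Matrix.mul_smul]⟩


/-- the data -/
structure ZD (J : Matrix ι ι K) (e : n → Matrix ι ι K) (D : Matrix ι ι K)
    (Φ : κ → Matrix ι ι K) (lam : n → K) : Prop where
  J_symm : Jᵀ = J
  J_unit : IsUnit J
  sa : ∀ l, (e l)ᵀ * J = J * e l
  idem : ∀ l, e l * e l = e l
  orth : ∀ i j, i ≠ j → e i * e j = 0
  eD : ∀ l, e l * D = D * e l
  eeD : (∑ l, e l) * D = D
  Dsa : Dᵀ * J = J * D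
  Dcom : ∀ r, D * Φ r = Φ r * D
  com : ∀ l r, e l * Φ r = Φ r * e l
  Φsa : ∀ r, (Φ r)ᵀ * J = J * Φ r
  nil : ∀ l, IsNilpotent (e l * D - lam l • e l)

variable {J : Matrix ι ι K} {e : n → Matrix ι ι K} {D : Matrix ι ι K}
  {Φ : κ → Matrix ι ι K} {lam : n → K}

theorem ZD.ee (h : ZD J e D Φ lam) (l : n) : (∑ i, e i) * e l = e l := by
  rw [Finset.sum_mul, Finset.sum_eq_single l]
  · exact h.idem l
  · intro j _ hj; exact h.orth j l hj
  · intro hl; exact absurd (Finset.mem_univ _) hl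


theorem ZD.EE (h : ZD J e D Φ lam) : (∑ i, e i) * (∑ i, e i) = ∑ i, e i := by
  rw [Finset.mul_sum]
  exact Finset.sum_congr rfl fun l _ => h.ee l

theorem ZD.DE (h : ZD J e D Φ lam) : D * (∑ i, e i) = D := by
  rw [Finset.mul_sum]
  rw [← Finset.sum_congr rfl fun l _ => h.eD l, ← Finset.sum_mul, h.eeD]


theorem ZD.Esa (h : ZD J e D Φ lam) : (∑ i, e i)ᵀ * J = J * ∑ i, e i := by
  rw [transpose_sum, Finset.sum_mul, Finset.mul_sum]
  exact Finset.sum_congr rfl fun l _ => h.sa l






section gauge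

variable {a : K} {ci : Matrix ι ι K}

/-- gauge data in the corner ring -/
structure Gc (e : n → Matrix ι ι K) (D : Matrix ι ι K) (a : K) (ci : Matrix ι ι K) : Prop where
  cci : ((∑ l, e l) + a • D) * ci = ∑ l, e l
  ici : ci * ((∑ l, e l) + a • D) = ∑ l, e l
  eci : (∑ l, e l) * ci = ci
  cie : ci * (∑ l, e l) = ci






theorem Ec (h : ZD J e D Φ lam) (a : K) :
    (∑ l, e l) * ((∑ l, e l) + a • D) = (∑ l, e l) + a • D := by
  rw [Matrix.mul_add, h.EE, Matrix.mul_smul, h.eeD]


theorem c1 (h : ZD J e D Φ lam) (a : K) (r : κ) :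
    (1 + a • D) * (1 + a • D) * ((∑ l, e l) * Φ r)
      = ((∑ l, e l) + a • D) * ((∑ l, e l) + a • D) * Φ r := by
  have e2 : (1 + a • D) * (∑ l, e l) = (∑ l, e l) + a • D := by
    rw [Matrix.add_mul, Matrix.one_mul, Matrix.smul_mul, h.DE]
  calc (1 + a • D) * (1 + a • D) * ((∑ l, e l) * Φ r)
      = (1 + a • D) * ((1 + a • D) * (∑ l, e l)) * Φ r := by simp only [Matrix.mul_assoc]
    _ = (1 + a • D) * ((∑ l, e l) * ((∑ l, e l) + a • D)) * Φ r := by rw [e2, Ec h]
    _ = ((1 + a • D) * (∑ l, e l)) * ((∑ l, e l) + a • D) * Φ r := by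
        simp only [Matrix.mul_assoc]
    _ = _ := by rw [e2]










end gauge



end Crest.Agent.R172.ZPM
namespace Crest.Agent.R172.ZPM.Gc
end Crest.Agent.R172.ZPM.Gc
end

-- ▼ part R172/ZFr
section

/-!
Row 172 (S0260), T0 for arbitrary radical and arbitrary `D`, in a frame: the space of corrections
`HasZ` (twisted self-adjoint on the core `M`) and its stability under the two derivatives.
-/

set_option autoImplicit false
set_option linter.unusedSectionVars false

namespace Crest.Agent.R172.ZFr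

open Matrix Module Crest.Agent.R172.FO Crest.Agent.R172.FrmB Crest.Agent.R172.ZP

section Conn

variable {k K : Type*} [Field k] [Field K] [Algebra k K]
variable {M : Type*} [AddCommGroup M] [Module K M]

/-- a connection over the derivation `d` -/
structure Conn (d : Derivation k K K) (nb : M → M) : Prop where
  add : ∀ x y, nb (x + y) = nb x + nb y
  smul : ∀ (a : K) x, nb (a • x) = d a • x + a • nb x

/-- the derivation induced on endomorphisms -/
def Conn.dE {d : Derivation k K K} {nb : M → M} (h : Conn d nb) (A : End K M) : End K M where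
  toFun m := nb (A m) - A (nb m)
  map_add' x y := by
    rw [map_add, h.add, h.add, map_add]; abel
  map_smul' a x := by
    rw [map_smul, h.smul, h.smul, map_add, map_smul, map_smul, RingHom.id_apply, smul_sub]; abel

variable {d : Derivation k K K} {nb : M → M} (h : Conn d nb)

theorem Conn.dE_apply (A : End K M) (m : M) : h.dE A m = nb (A m) - A (nb m) := rfl

theorem Conn.dE_add (A A' : End K M) : h.dE (A + A') = h.dE A + h.dE A' := by
  ext m
  simp only [Conn.dE_apply, LinearMap.add_apply, h.add]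
  abel

theorem Conn.dE_mul (A A' : End K M) : h.dE (A * A') = h.dE A * A' + A * h.dE A' := by
  ext m
  simp only [Conn.dE_apply, LinearMap.add_apply, Module.End.mul_apply, map_sub]
  abel

theorem Conn.dE_one : h.dE (1 : End K M) = 0 := by
  ext m
  simp [Conn.dE_apply]



end Conn

section Adj

variable {K : Type*} [Field K] {M : Type*} [AddCommGroup M] [Module K M]

/-- `T` is the adjoint of the nondegenerate symmetric form `β` -/
structure Adj (β : LinearMap.BilinForm K M) (T : End K M →ₗ[K] End K M) : Prop where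
  symm : ∀ x y, β x y = β y x
  nondeg : ∀ x, (∀ y, β x y = 0) → x = 0
  adj : ∀ A x y, β (T A x) y = β x (A y)

variable {β : LinearMap.BilinForm K M} {T : End K M →ₗ[K] End K M}

theorem Adj.ext (h : Adj β T) {A A' : End K M} (hA : ∀ x y, β (A x) y = β (A' x) y) : A = A' := by
  ext x
  rw [← sub_eq_zero]
  apply h.nondeg
  intro y
  rw [map_sub, LinearMap.sub_apply, hA, sub_self]

theorem Adj.mul (h : Adj β T) (A A' : End K M) : T (A * A') = T A' * T A := by
  apply h.ext
  intro x y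
  rw [h.adj, Module.End.mul_apply, Module.End.mul_apply, h.adj, h.adj]

theorem Adj.TT (h : Adj β T) (A : End K M) : T (T A) = A := by
  apply h.ext
  intro x y
  rw [h.adj, h.symm, h.adj, h.symm]

theorem Adj.eq_of (h : Adj β T) {A A' : End K M} (hA : ∀ x y, β (A' x) y = β x (A y)) :
    T A = A' := by
  apply h.ext
  intro x y
  rw [h.adj, hA]

theorem Adj.one (h : Adj β T) : T 1 = 1 := h.eq_of fun _ _ => rfl

end Adj

section Mono

variable {K E κ : Type*} [Field K] [Ring E] [Algebra K E] {T : E →ₗ[K] E} {e D : E} {Φ : κ → E}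

theorem ZZ_le_zero : ZZ T e D Φ ≤ ZZ T e 0 Φ := by
  rintro z ⟨h, h1, h2, h3, h4, h5, h6, h7⟩
  refine ⟨h, h1, ⟨1, ?_⟩, h3, h4, h5, h6, h7⟩
  funext k
  simp

theorem nil_zero (x : E) : NilAt (adE (0 : E)) x := ⟨1, by simp⟩

end Mono

section Core

variable {n : Type*} [Fintype n] [DecidableEq n]
variable {k K : Type*} [Field k] [Field K] [Algebra k K]
variable {M : Type*} [AddCommGroup M] [Module K M]

/-- frame over the core `M` -/
structure CF (β : LinearMap.BilinForm K M) (T : End K M →ₗ[K] End K M) (q : (n → K) →ₗ[K] M)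
    (g : Matrix n n K) : Prop where
  adj : Adj β T
  surj : Function.Surjective q
  form : ∀ y y', β (q y) (q y') = y ⬝ᵥ (g *ᵥ y')

variable {β : LinearMap.BilinForm K M} {T : End K M →ₗ[K] End K M} {q : (n → K) →ₗ[K] M}
  {g : Matrix n n K}

theorem CF.ker (h : CF β T q g) (y : n → K) : q y = 0 ↔ g *ᵥ y = 0 := by
  constructor
  · intro hy
    have h1 : ∀ y', y' ⬝ᵥ (g *ᵥ y) = 0 := by
      intro y'
      rw [← h.form, hy, map_zero]
    exact dotProduct_eq_zero _ (fun w => by rw [dotProduct_comm]; exact h1 w)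
  · intro hy
    apply h.adj.nondeg
    intro m
    obtain ⟨y', rfl⟩ := h.surj m
    rw [h.adj.symm, h.form, hy, dotProduct_zero]

/-- `z` lifts `zb` -/
def Lifts (q : (n → K) →ₗ[K] M) (z : Matrix n n K) (zb : End K M) : Prop :=
  ∀ y, q (z *ᵥ y) = zb (q y)

theorem Lifts.add {z z' : Matrix n n K} {zb zb' : End K M} (h : Lifts q z zb)
    (h' : Lifts q z' zb') : Lifts q (z + z') (zb + zb') := by
  intro y
  rw [Matrix.add_mulVec, map_add, h, h', LinearMap.add_apply]

theorem Lifts.sub {z z' : Matrix n n K} {zb zb' : End K M} (h : Lifts q z zb)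
    (h' : Lifts q z' zb') : Lifts q (z - z') (zb - zb') := by
  intro y
  rw [Matrix.sub_mulVec, map_sub, h, h', LinearMap.sub_apply]

theorem Lifts.smul {z : Matrix n n K} {zb : End K M} (a : K) (h : Lifts q z zb) :
    Lifts q (a • z) (a • zb) := by
  intro y
  rw [Matrix.smul_mulVec, map_smul, h, LinearMap.smul_apply]

theorem Lifts.mul {z z' : Matrix n n K} {zb zb' : End K M} (h : Lifts q z zb)
    (h' : Lifts q z' zb') : Lifts q (z * z') (zb * zb') := by
  intro y
  rw [← Matrix.mulVec_mulVec, h, h', Module.End.mul_apply]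

theorem Lifts.one : Lifts q (1 : Matrix n n K) 1 := by
  intro y
  rw [Matrix.one_mulVec, Module.End.one_apply]

theorem Lifts.zero : Lifts q (0 : Matrix n n K) 0 := by
  intro y
  rw [Matrix.zero_mulVec, map_zero, LinearMap.zero_apply]


theorem CF.exists_lift (h : CF β T q g) {z N : Matrix n n K} (hz : g * z = N * g) :
    ∃ zb : End K M, Lifts q z zb := by
  have hle : LinearMap.ker q ≤ LinearMap.ker (q ∘ₗ Matrix.toLin' z) := by
    intro y hy
    rw [LinearMap.mem_ker] at hy ⊢
    rw [LinearMap.comp_apply, Matrix.toLin'_apply, h.ker, Matrix.mulVec_mulVec, hz,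
      ← Matrix.mulVec_mulVec, (h.ker y).1 hy, Matrix.mulVec_zero]
  refine ⟨((LinearMap.ker q).liftQ (q ∘ₗ Matrix.toLin' z) hle) ∘ₗ
    (q.quotKerEquivOfSurjective h.surj).symm.toLinearMap, fun y => ?_⟩
  have h1 : (q.quotKerEquivOfSurjective h.surj).symm (q y) = (LinearMap.ker q).mkQ y := by
    rw [LinearEquiv.symm_apply_eq]
    rfl
  rw [LinearMap.comp_apply, LinearEquiv.coe_coe, h1]
  rfl

/-- the lift of the adjoint -/
theorem CF.T_eq (h : CF β T q g) {z z' : Matrix n n K} {zb zb' : End K M} (hz : Lifts q z zb)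
    (hz' : Lifts q z' zb') (he : g * z' = zᵀ * g) : T zb = zb' := by
  apply h.adj.eq_of
  intro x y
  obtain ⟨x, rfl⟩ := h.surj x
  obtain ⟨y, rfl⟩ := h.surj y
  rw [← hz, ← hz', h.adj.symm, h.form, h.form, Matrix.mulVec_mulVec, he]
  rw [← Matrix.mulVec_mulVec, Matrix.dotProduct_mulVec, Matrix.vecMul_transpose]
  have : g *ᵥ (z *ᵥ y) = g *ᵥ (z *ᵥ y) := rfl
  rw [← h.form, ← h.form, h.adj.symm]


/-- the frame connection -/
def fr (d : Derivation k K K) (P : Matrix n n K) (y : n → K) : n → K :=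
  (fun i => d (y i)) + P *ᵥ y

theorem d_mulVec (d : Derivation k K K) {m : Type*} (A : Matrix m n K) (y : n → K) :
    (fun i => d ((A *ᵥ y) i)) = (A.map d) *ᵥ y + A *ᵥ (fun i => d (y i)) := by
  funext i
  simp only [Matrix.mulVec, dotProduct, Pi.add_apply, map_sum, Derivation.leibniz, smul_eq_mul,
    Matrix.map_apply, Finset.sum_add_distrib]
  rw [add_comm]
  congr 1
  exact Finset.sum_congr rfl fun j _ => mul_comm _ _

theorem fr_add (d : Derivation k K K) (P : Matrix n n K) (y y' : n → K) :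
    fr d P (y + y') = fr d P y + fr d P y' := by
  unfold fr
  rw [Matrix.mulVec_add]
  funext i
  simp only [Pi.add_apply, map_add]
  abel

theorem fr_smul (d : Derivation k K K) (P : Matrix n n K) (a : K) (y : n → K) :
    fr d P (a • y) = d a • y + a • fr d P y := by
  unfold fr
  rw [Matrix.mulVec_smul]
  funext i
  simp only [Pi.add_apply, Pi.smul_apply, smul_eq_mul, Derivation.leibniz]
  ring

theorem CF.fr_ker (h : CF β T q g) {d : Derivation k K K} {P : Matrix n n K}
    (hg : g.map d = Pᵀ * g + g * P) {y : n → K} (hy : q y = 0) : q (fr d P y) = 0 := by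
  rw [h.ker] at hy ⊢
  have h1 := d_mulVec d g y
  rw [hy] at h1
  have h0 : (fun i => d ((0 : n → K) i)) = 0 := by funext i; simp
  rw [h0, hg, Matrix.add_mulVec, ← Matrix.mulVec_mulVec, hy, Matrix.mulVec_zero, zero_add] at h1
  unfold fr
  rw [Matrix.mulVec_add, Matrix.mulVec_mulVec, add_comm]
  exact h1.symm

/-- the induced connection on the core -/
noncomputable def CF.nb (h : CF β T q g) (d : Derivation k K K) (P : Matrix n n K) (m : M) : M :=
  q (fr d P (Function.surjInv h.surj m))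

theorem CF.nb_q (h : CF β T q g) {d : Derivation k K K} {P : Matrix n n K}
    (hg : g.map d = Pᵀ * g + g * P) (y : n → K) : h.nb d P (q y) = q (fr d P y) := by
  unfold CF.nb
  have h1 : q (Function.surjInv h.surj (q y) - y) = 0 := by
    rw [map_sub, Function.surjInv_eq h.surj, sub_self]
  have h2 := h.fr_ker hg h1
  have h3 : fr d P (Function.surjInv h.surj (q y))
      = fr d P (Function.surjInv h.surj (q y) - y) + fr d P y := by
    rw [← fr_add, sub_add_cancel]
  rw [h3, map_add, h2, zero_add]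

theorem CF.conn (h : CF β T q g) {d : Derivation k K K} {P : Matrix n n K}
    (hg : g.map d = Pᵀ * g + g * P) : Conn d (h.nb d P) where
  add x y := by
    obtain ⟨x, rfl⟩ := h.surj x
    obtain ⟨y, rfl⟩ := h.surj y
    rw [← map_add, h.nb_q hg, h.nb_q hg, h.nb_q hg, fr_add, map_add]
  smul a x := by
    obtain ⟨x, rfl⟩ := h.surj x
    rw [← map_smul, h.nb_q hg, h.nb_q hg, fr_smul, map_add, map_smul, map_smul]

theorem CF.nb_form (h : CF β T q g) {d : Derivation k K K} {P : Matrix n n K}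
    (hg : g.map d = Pᵀ * g + g * P) (x y : M) :
    β (h.nb d P x) y + β x (h.nb d P y) = d (β x y) := by
  obtain ⟨x, rfl⟩ := h.surj x
  obtain ⟨y, rfl⟩ := h.surj y
  rw [h.nb_q hg, h.nb_q hg, h.form, h.form, h.form]
  have hdot : ∀ u v : n → K, d (u ⬝ᵥ v) = (fun i => d (u i)) ⬝ᵥ v + u ⬝ᵥ (fun i => d (v i)) := by
    intro u v
    simp only [dotProduct, map_sum, Derivation.leibniz, smul_eq_mul, Finset.sum_add_distrib]
    rw [add_comm]
    congr 1
    exact Finset.sum_congr rfl fun j _ => mul_comm _ _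
  rw [hdot, d_mulVec, hg]
  unfold fr
  have h1 : (P *ᵥ x) ⬝ᵥ (g *ᵥ y) = x ⬝ᵥ ((Pᵀ * g) *ᵥ y) := by
    rw [← Matrix.mulVec_mulVec, Matrix.dotProduct_mulVec x, Matrix.vecMul_transpose]
  rw [add_dotProduct, h1, Matrix.mulVec_add, Matrix.mulVec_mulVec, dotProduct_add,
    Matrix.add_mulVec, dotProduct_add, dotProduct_add]
  ring

theorem CF.T_dE (h : CF β T q g) {d : Derivation k K K} {P : Matrix n n K}
    (hg : g.map d = Pᵀ * g + g * P) (A : End K M) :
    (h.conn hg).dE (T A) = T ((h.conn hg).dE A) := by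
  symm
  apply h.adj.eq_of
  intro x y
  rw [Conn.dE_apply, Conn.dE_apply, map_sub, LinearMap.sub_apply, map_sub, h.adj.adj]
  have h1 := h.nb_form hg (T A x) y
  have h2 := h.nb_form hg x (A y)
  rw [h.adj.adj, h.adj.adj] at h1
  have h3 : β (h.nb d P (T A x)) y = d (β x (A y)) - β x (A (h.nb d P y)) := by
    rw [← h1]; ring
  rw [h3, ← h2]; ring

/-- lift of the induced derivation -/
theorem CF.lifts_dE (h : CF β T q g) {d : Derivation k K K} {P : Matrix n n K}
    (hg : g.map d = Pᵀ * g + g * P) {z : Matrix n n K} {zb : End K M} (hz : Lifts q z zb) :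
    Lifts q (z.map d + P * z - z * P) ((h.conn hg).dE zb) := by
  intro y
  rw [Conn.dE_apply, ← hz, h.nb_q hg, h.nb_q hg, ← hz, ← map_sub]
  congr 1
  unfold fr
  rw [d_mulVec, Matrix.sub_mulVec, Matrix.add_mulVec, Matrix.mulVec_add, Matrix.mulVec_mulVec,
    Matrix.mulVec_mulVec]
  abel

variable {κ : Type*} {Ψ : κ → End K M} {al : κ → Matrix n n K}

/-- the correction space (right-action convention `wᵀ J p = Fᵀ J p z`) -/
def ZF (T : End K M →ₗ[K] End K M) (q : (n → K) →ₗ[K] M) (Ψ : κ → End K M) :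
    Submodule K (Matrix n n K) where
  carrier := {z | ∃ zb : End K M, Lifts q z zb ∧ T zb ∈ ZZ T 1 0 Ψ}
  add_mem' := by
    rintro z z' ⟨zb, h1, h2⟩ ⟨zb', h1', h2'⟩
    exact ⟨zb + zb', h1.add h1', by rw [map_add]; exact Submodule.add_mem _ h2 h2'⟩
  zero_mem' := ⟨0, Lifts.zero, by rw [map_zero]; exact Submodule.zero_mem _⟩
  smul_mem' := by
    rintro a z ⟨zb, h1, h2⟩
    exact ⟨a • zb, h1.smul a, by rw [map_smul]; exact Submodule.smul_mem _ _ h2⟩





/-- **abstract second derivative** -/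
theorem ZF_second (h : CF β T q g) {d : Derivation k K K} {P : Matrix n n K}
    (hg : g.map d = Pᵀ * g + g * P) (hΨ : ∀ r, Lifts q (al r) (Ψ r))
    {zY z : Matrix n n K}
    (hv : ∀ r, g * ((al r).map d + P * al r - al r * P) = zYᵀ * g * al r + g * al r * zY)
    (hzY : zY ∈ ZF T q Ψ) (hz : z ∈ ZF T q Ψ) :
    zY * z + z.map d + P * z - z * P ∈ ZF T q Ψ := by
  obtain ⟨yb, y1, y2⟩ := hzY
  obtain ⟨zb, z1, z2⟩ := hz
  refine ⟨yb * zb + (h.conn hg).dE zb, ?_, ?_⟩
  · have h1 := (y1.mul z1).add (h.lifts_dE hg z1)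
    have h2 : zY * z + z.map d + P * z - z * P = zY * z + (z.map d + P * z - z * P) := by abel
    rw [h2]; exact h1
  · rw [map_add, h.adj.mul, ← h.T_dE hg, add_comm]
    refine ZPL.fixed_mem h.adj.mul (h.conn hg).dE (h.conn hg).dE_add (h.conn hg).dE_mul
      (fun x => h.T_dE hg x) (h.conn hg).dE_one (nil_zero _) z2 y2 ?_
    intro r
    rw [h.adj.TT]
    apply h.adj.ext
    intro x y
    obtain ⟨x, rfl⟩ := h.surj x
    obtain ⟨y, rfl⟩ := h.surj y
    have e1 := h.lifts_dE hg (hΨ r)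
    rw [h.adj.symm, ← e1, h.form, Matrix.mulVec_mulVec, hv, LinearMap.add_apply,
      Module.End.mul_apply, Module.End.mul_apply, map_add, LinearMap.add_apply, h.adj.adj,
      ← y1, ← y1, ← hΨ, ← hΨ, h.adj.symm (q (al r *ᵥ x)), h.form,
      h.adj.symm (q (al r *ᵥ (zY *ᵥ x))), h.form, Matrix.add_mulVec, dotProduct_add]
    congr 1
    · rw [Matrix.mul_assoc, ← Matrix.mulVec_mulVec, Matrix.dotProduct_mulVec,
        Matrix.vecMul_transpose, Matrix.mulVec_mulVec]
    · simp only [Matrix.mulVec_mulVec, Matrix.mul_assoc]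

end Core

section Frame

variable {ι : Type*} [Fintype ι] [DecidableEq ι] {δ : Type*} [Fintype δ] [DecidableEq δ]
variable {n : Type*} [Fintype n] [DecidableEq n]
variable {k K : Type*} [Field k] [Field K] [Algebra k K]
variable {arm : δ → Fin 3} {J : Matrix ι ι K} {B : Matrix δ δ K}
  {N W : Submodule K (Matrix ι δ K)} {F G : Matrix ι δ K} {p : Matrix ι n K}
variable {M : Type*} [AddCommGroup M] [Module K M]
variable {β : LinearMap.BilinForm K M} {T : End K M →ₗ[K] End K M} {q : (n → K) →ₗ[K] M}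
variable {Ψ : Fin 3 → End K M} {al : Fin 3 → Matrix n n K}

theorem g_der (hD : Data k arm J B N W) {d : Derivation k K K} {P : Matrix n n K}
    (hp : p.map d = p * P) :
    (pᵀ * J * p).map d = Pᵀ * (pᵀ * J * p) + (pᵀ * J * p) * P := by
  rw [map_mul_der, map_mul_der, map_transpose_der, hp, hD.J_const, Matrix.mul_zero, add_zero,
    transpose_mul]
  simp only [Matrix.mul_assoc]

theorem al_der (hD : Data k arm J B N W) (hal : ∀ r, Phi arm J B F r * p = p * al r)
    {wY : Matrix ι δ K} {zY : Matrix n n K} (hval : wYᵀ * J * p = Fᵀ * J * p * zY)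
    {d : Derivation k K K} (hdF : F.map d = wY) {P : Matrix n n K} (hp : p.map d = p * P)
    (r : Fin 3) :
    (pᵀ * J * p) * ((al r).map d + P * al r - al r * P)
      = zYᵀ * (pᵀ * J * p) * al r + (pᵀ * J * p) * al r * zY := by
  have e1 : (Phi arm J B F r).map d * p =
      wY * E K arm r * B * (Fᵀ * J * p) + F * E K arm r * B * (wYᵀ * J * p) := by
    unfold Phi M
    rw [map_mul_der, map_mul_der, map_mul_der, map_mul_der, hD.J_const, hD.B_const, E_map_der,
      map_transpose_der, hdF]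
    simp only [Matrix.mul_zero, Matrix.add_mul, add_zero, Matrix.mul_assoc]
  have e2 := congrArg (fun A : Matrix ι n K => A.map d) (hal r)
  rw [map_mul_der, map_mul_der, hp, e1, hval] at e2
  have e3 : pᵀ * J * wY = zYᵀ * (pᵀ * J * F) := by
    have h1 := congrArg transpose hval
    simp only [transpose_mul, transpose_transpose, hD.J_symm] at h1
    simpa only [Matrix.mul_assoc] using h1
  have e4 : pᵀ * J * (Phi arm J B F r * p) = pᵀ * J * p * al r := by
    rw [hal]; simp only [Matrix.mul_assoc]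
  have e5 := congrArg (fun A => pᵀ * J * A) e2
  simp only [Matrix.mul_add] at e5
  have e6 : pᵀ * J * (wY * E K arm r * B * (Fᵀ * J * p)) = zYᵀ * (pᵀ * J * p * al r) := by
    rw [← e4]
    unfold Phi M
    calc pᵀ * J * (wY * E K arm r * B * (Fᵀ * J * p))
        = (pᵀ * J * wY) * (E K arm r * (B * (Fᵀ * (J * p)))) := by
          simp only [Matrix.mul_assoc]
      _ = _ := by rw [e3]; simp only [Matrix.mul_assoc]
  have e7 : pᵀ * J * (F * E K arm r * B * (Fᵀ * J * p * zY)) = pᵀ * J * p * al r * zY := by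
    rw [← e4]
    unfold Phi M
    simp only [Matrix.mul_assoc]
  have e8 : pᵀ * J * (Phi arm J B F r * (p * P)) = pᵀ * J * p * al r * P := by
    rw [← e4]
    simp only [Matrix.mul_assoc]
  rw [e6, e7, e8] at e5
  rw [Matrix.mul_sub, Matrix.mul_add]
  have e9 : pᵀ * J * p * (al r).map d + pᵀ * J * p * (P * al r)
      = zYᵀ * (pᵀ * J * p * al r) + pᵀ * J * p * al r * zY + pᵀ * J * p * al r * P := by
    rw [e5]
    simp only [Matrix.mul_assoc]
    abel
  rw [e9]
  simp only [Matrix.mul_assoc]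
  abel

/-- **(b) second derivative in the frame** -/
theorem second (hD : Data k arm J B N W) (h : CF β T q (pᵀ * J * p))
    (hal : ∀ r, Phi arm J B F r * p = p * al r) (hΨ : ∀ r, Lifts q (al r) (Ψ r))
    {wY : Matrix ι δ K} {zY z : Matrix n n K} (hval : wYᵀ * J * p = Fᵀ * J * p * zY)
    {d : Derivation k K K} (hdF : F.map d = wY) {P : Matrix n n K} (hp : p.map d = p * P)
    (hzY : zY ∈ ZF T q Ψ) (hz : z ∈ ZF T q Ψ) :
    zY * z + z.map d + P * z - z * P ∈ ZF T q Ψ :=
  ZF_second h (g_der hD hp) hΨ (al_der hD hal hval hdF hp) hzY hz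

end Frame

end Crest.Agent.R172.ZFr
end

-- ▼ part R172/RDEnd
section

/-!
Row 172 (S0260), T0, any radical, any `D`: the END in frame language.

`p : ι × n` is a frame (`F v = p`, `Φ_s p = p al_s`, `g = pᵀ J p`), `M` the core with the
nondegenerate form `β`, `π : K^n → M` onto, `β (π y) (π y') = y · g y'`.

* `end_zero`: `y = (X, X, X)` in `Q3` with correction `z` whose core part is in `ZZ`: the
  operator of `X` on the core is zero.
* `false_of_arms`: single-arm memberships contradict `Core.Tame`.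
-/

set_option autoImplicit false
set_option linter.unusedSectionVars false
set_option linter.unusedVariables false

namespace Crest.Agent.R172.RDEnd

open Matrix Module Crest.Agent.R172.FO Crest.Agent.R172.FrmB
open Crest.Agent.R172.ZP (ZZ)
open Crest.Agent.R172.Core (NS Tame)

variable {ι : Type*} [Fintype ι] [DecidableEq ι] {δ : Type*} [Fintype δ] [DecidableEq δ]
variable {n : Type*} [Fintype n] [DecidableEq n]
variable {k K : Type*} [Field k] [Field K] [Algebra k K]
variable {arm : δ → Fin 3} {J : Matrix ι ι K} {B : Matrix δ δ K}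
  {N W : Submodule K (Matrix ι δ K)} {F : Matrix ι δ K} {p : Matrix ι n K}

section frame

variable {v : Matrix δ n K} {al : Fin 3 → Matrix n n K} {X z : Matrix n n K}
  {w : Matrix ι δ K}

/-- the frame identities of the end -/
theorem frame_end (hD : Data k arm J B N W) (hF : F ∈ N ⊓ W) (hv : F * v = p)
    (hal : ∀ s, Phi arm J B F s * p = p * al s)
    (hN : io arm J F p (fun _ => X) - w ∈ N) (hW : w ∈ W)
    (hz : wᵀ * J * p = Fᵀ * J * p * z) :
    (Xᵀ * (pᵀ * J * p) - z)ᵀ * (pᵀ * J * p) = (pᵀ * J * p) * (Xᵀ * (pᵀ * J * p) - z) ∧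
      ∀ s, (pᵀ * J * p) * (al s * (Xᵀ * (pᵀ * J * p) - z)) =
        (pᵀ * J * p) * ((Xᵀ * (pᵀ * J * p) - z) * al s) := by
  have hX : io arm J F p (fun _ => X) = p * X * pᵀ * J * F := by
    rw [io_eq]
    have : ∀ r : Fin 3, p * (X * (pᵀ * (J * (F * E K arm r)))) = p * X * pᵀ * J * F * E K arm r := by
      intro r; simp only [Matrix.mul_assoc]
    simp only [this]
    rw [← Matrix.mul_sum, sum_E, Matrix.mul_one]
  rw [hX] at hN
  set kk : Matrix ι δ K := p * X * pᵀ * J * F - w with hkk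
  have hkW : kk ∈ W := W.sub_mem (hD.W_left _ hF.2 _) hW
  have hkK : kk ∈ N ⊓ W := ⟨hN, hkW⟩
  set ζ : Matrix n n K := Xᵀ * (pᵀ * J * p) - z with hζ
  set g : Matrix n n K := pᵀ * J * p with hg
  have hk1 : kkᵀ * J * p = Fᵀ * J * p * ζ := by
    rw [hkk, transpose_sub, Matrix.sub_mul, Matrix.sub_mul, hz, hζ, Matrix.mul_sub]
    congr 1
    simp only [transpose_mul, transpose_transpose, hD.J_symm, Matrix.mul_assoc, hg]
  have hk2 : pᵀ * J * kk = ζᵀ * (pᵀ * J * F) := by
    have := congrArg transpose hk1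
    simp only [transpose_mul, transpose_transpose, hD.J_symm] at this
    rw [Matrix.mul_assoc, this]
    simp only [Matrix.mul_assoc]
  have hpF : pᵀ * J * F * v = g := by
    rw [Matrix.mul_assoc, hv]
  have h1 := hD.symm_U hF hkK
  -- `Fᵀ J kk = kkᵀ J F`
  have hsym : ζᵀ * g = g * ζ := by
    have e1 : ζᵀ * g = vᵀ * (Fᵀ * J * kk) * v := by
      have e2 : vᵀ * (Fᵀ * J * kk) * v = (F * v)ᵀ * J * kk * v := by
        rw [transpose_mul]; simp only [Matrix.mul_assoc]
      rw [e2, hv, hk2, Matrix.mul_assoc, hpF]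
    have e3 : g * ζ = vᵀ * (kkᵀ * J * F) * v := by
      have e4 : vᵀ * (kkᵀ * J * F) * v = vᵀ * (kkᵀ * J * p) := by
        rw [← hv]; simp only [Matrix.mul_assoc]
      rw [e4, hk1]
      have e5 : vᵀ * (Fᵀ * J * p * ζ) = (F * v)ᵀ * J * p * ζ := by
        rw [transpose_mul]; simp only [Matrix.mul_assoc]
      rw [e5, hv]
    rw [e1, e3, h1]
  refine ⟨hsym, fun s => ?_⟩
  have h2 := hD.symm_arm hF hkK s
  unfold M at h2
  -- F E B kkᵀ = kk E B Fᵀ
  have e6 : pᵀ * J * (F * E K arm s * B * kkᵀ) * J * p = g * (al s * ζ) := by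
    have e7 : pᵀ * J * (F * E K arm s * B * kkᵀ) * J * p
        = pᵀ * J * (F * E K arm s * B) * (kkᵀ * J * p) := by
      simp only [Matrix.mul_assoc]
    rw [e7, hk1]
    have e8 := hal s
    unfold Phi M at e8
    calc pᵀ * J * (F * E K arm s * B) * (Fᵀ * J * p * ζ)
        = pᵀ * J * (F * E K arm s * B * Fᵀ * J * p) * ζ := by simp only [Matrix.mul_assoc]
      _ = pᵀ * J * (p * al s) * ζ := by rw [e8]
      _ = _ := by rw [hg]; simp only [Matrix.mul_assoc]
  have e9 : pᵀ * J * (kk * E K arm s * B * Fᵀ) * J * p = g * (ζ * al s) := by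
    have e8 := hal s
    unfold Phi M at e8
    calc pᵀ * J * (kk * E K arm s * B * Fᵀ) * J * p
        = (pᵀ * J * kk) * (E K arm s * B * Fᵀ * J * p) := by simp only [Matrix.mul_assoc]
      _ = ζᵀ * (pᵀ * J) * (F * E K arm s * B * Fᵀ * J * p) := by
          rw [hk2]; simp only [Matrix.mul_assoc]
      _ = ζᵀ * (pᵀ * J) * (p * al s) := by rw [e8]
      _ = (ζᵀ * g) * al s := by rw [hg]; simp only [Matrix.mul_assoc]
      _ = _ := by rw [hsym, Matrix.mul_assoc]
  rw [← e6, ← e9, h2]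

end frame

section core

variable {M : Type*} [AddCommGroup M] [Module K M]

/-- the core of a frame -/
structure Cr (J : Matrix ι ι K) (p : Matrix ι n K) (al : Fin 3 → Matrix n n K)
    (β : LinearMap.BilinForm K M) (π : (n → K) →ₗ[K] M) (Ψ : Fin 3 → Module.End K M)
    (T : Module.End K M →ₗ[K] Module.End K M) : Prop where
  ns : NS β
  onto : Function.Surjective π
  form : ∀ y y', β (π y) (π y') = y ⬝ᵥ ((pᵀ * J * p) *ᵥ y')
  op : ∀ s y, Ψ s (π y) = π (al s *ᵥ y)
  sa : ∀ s v w, β (Ψ s v) w = β v (Ψ s w)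
  adj : ∀ A v w, β (T A v) w = β v (A w)
  top : ∀ x : Module.End K M, (∀ r, x * Ψ r = 0) → x = 0

variable {al : Fin 3 → Matrix n n K} {β : LinearMap.BilinForm K M}
  {π : (n → K) →ₗ[K] M} {Ψ : Fin 3 → Module.End K M} {D : Module.End K M}
  {T : Module.End K M →ₗ[K] Module.End K M}

theorem Cr.ext (h : Cr J p al β π Ψ T) {A A' : Module.End K M}
    (hA : ∀ v w, β (A v) w = β (A' v) w) : A = A' := by
  apply LinearMap.ext
  intro v
  rw [← sub_eq_zero]
  apply h.ns.nd
  intro w
  rw [map_sub, LinearMap.sub_apply, hA, sub_self]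

theorem Cr.TT (h : Cr J p al β π Ψ T) (A : Module.End K M) : T (T A) = A := by
  apply h.ext
  intro v w
  rw [h.adj, h.ns.symm, h.adj, h.ns.symm]

theorem dt (A : Matrix n n K) (y u : n → K) : (A *ᵥ y) ⬝ᵥ u = y ⬝ᵥ (Aᵀ *ᵥ u) := by
  rw [dotProduct_mulVec, vecMul_transpose]

/-- a frame element with core correction in `ZZ` and skew operator has zero operator -/
theorem Cr.zero [CharZero K] (h : Cr J p al β π Ψ T) {X z : Matrix n n K}
    {A zb : Module.End K M} (hA : ∀ v w, β (A v) w = - β v (A w))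
    (hX : ∀ y, π ((Xᵀ * (pᵀ * J * p)) *ᵥ y) = - A (π y)) (hzb : ∀ y, π (z *ᵥ y) = zb (π y))
    (hZ : T zb ∈ ZZ T 1 D Ψ)
    (h1 : (Xᵀ * (pᵀ * J * p) - z)ᵀ * (pᵀ * J * p) = (pᵀ * J * p) * (Xᵀ * (pᵀ * J * p) - z))
    (h2 : ∀ s, (pᵀ * J * p) * (al s * (Xᵀ * (pᵀ * J * p) - z)) =
        (pᵀ * J * p) * ((Xᵀ * (pᵀ * J * p) - z) * al s)) : A = 0 := by
  set g : Matrix n n K := pᵀ * J * p with hg
  set ζ : Matrix n n K := Xᵀ * g - z with hζ
  have hform : ∀ y y', β (π y) (π y') = y ⬝ᵥ (g *ᵥ y') := h.form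
  have hζb : ∀ y, π (ζ *ᵥ y) = (- A - zb) (π y) := by
    intro y
    rw [hζ, Matrix.sub_mulVec, map_sub, hX, hzb]
    rfl
  have hsa : ∀ v w, β ((- A - zb) v) w = β v ((- A - zb) w) := by
    intro v w
    obtain ⟨y, rfl⟩ := h.onto v
    obtain ⟨y', rfl⟩ := h.onto w
    rw [← hζb, ← hζb, hform, hform, dt, mulVec_mulVec, mulVec_mulVec, h1]
  have hcomm : ∀ s v, (- A - zb) (Ψ s v) = Ψ s ((- A - zb) v) := by
    intro s v
    obtain ⟨y, rfl⟩ := h.onto v
    rw [h.op, ← hζb, ← hζb, h.op, ← sub_eq_zero]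
    apply h.ns.nd
    intro w
    obtain ⟨y', rfl⟩ := h.onto w
    rw [h.ns.symm, map_sub, hform, hform, mulVec_mulVec, mulVec_mulVec, mulVec_mulVec,
      mulVec_mulVec, Matrix.mul_assoc g ζ, Matrix.mul_assoc g (al s), h2, sub_self]
  have hTz : T (- A - zb) = - A - zb := by
    apply h.ext
    intro v w
    rw [h.adj, ← hsa]
  have hTA : T A = - A := by
    apply h.ext
    intro v w
    rw [h.adj, LinearMap.neg_apply, map_neg, LinearMap.neg_apply, hA, neg_neg]
  have hkey : A - T zb = - A - zb := by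
    have := hTz
    rw [map_sub, map_neg, hTA, neg_neg] at this
    exact this
  let _ : Module ℚ (Module.End K M) := Module.compHom _ (algebraMap ℚ K)
  refine ZP.skew_eq_zero (z := T zb) hZ hTA (mul_one A) (fun x _ hx => h.top x hx) ?_ ?_
  · rw [hkey, hTz]
  · intro r
    rw [hkey]
    apply LinearMap.ext
    intro v
    exact hcomm r v

/-- good families: `Q3` without `img`, with core correction in `ZZ` -/
def Rel (arm : δ → Fin 3) (J : Matrix ι ι K) (N W : Submodule K (Matrix ι δ K))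
    (F : Matrix ι δ K) (p : Matrix ι n K) (π : (n → K) →ₗ[K] M)
    (T : Module.End K M →ₗ[K] Module.End K M) (D : Module.End K M)
    (Ψ : Fin 3 → Module.End K M) : Submodule K (Fin 3 → Matrix n n K) where
  carrier := {y | ∃ (w : Matrix ι δ K) (z : Matrix n n K) (zb : Module.End K M), w ∈ W ∧
    io arm J F p y - w ∈ N ∧ wᵀ * J * p = Fᵀ * J * p * z ∧ (∀ x, π (z *ᵥ x) = zb (π x)) ∧
    T zb ∈ ZZ T 1 D Ψ}
  add_mem' := by
    rintro y y' ⟨w, z, zb, h1, h2, h3, h4, h5⟩ ⟨w', z', zb', h1', h2', h3', h4', h5'⟩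
    refine ⟨w + w', z + z', zb + zb', W.add_mem h1 h1', ?_, ?_, ?_, ?_⟩
    · have e : io arm J F p (y + y') = io arm J F p y + io arm J F p y' := io_add y y'
      rw [e]
      have : io arm J F p y + io arm J F p y' - (w + w') =
        (io arm J F p y - w) + (io arm J F p y' - w') := by abel
      rw [this]; exact N.add_mem h2 h2'
    · rw [transpose_add, Matrix.add_mul, Matrix.add_mul, h3, h3', Matrix.mul_add]
    · intro x
      rw [Matrix.add_mulVec, map_add, h4, h4']; rfl
    · rw [map_add]; exact Submodule.add_mem _ h5 h5'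
  zero_mem' := by
    refine ⟨0, 0, 0, W.zero_mem, ?_, ?_, ?_, ?_⟩
    · have e : io arm J F p (0 : Fin 3 → Matrix n n K) = 0 := by
        rw [io_eq]
        simp
      rw [e, sub_zero]; exact N.zero_mem
    · simp
    · intro x; simp
    · rw [map_zero]; exact Submodule.zero_mem _
  smul_mem' := by
    rintro c y ⟨w, z, zb, h1, h2, h3, h4, h5⟩
    refine ⟨c • w, c • z, c • zb, W.smul_mem c h1, ?_, ?_, ?_, ?_⟩
    · have e : io arm J F p (c • y) = c • io arm J F p y := io_smul c y
      rw [e, ← smul_sub]; exact N.smul_mem c h2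
    · rw [transpose_smul, Matrix.smul_mul, Matrix.smul_mul, h3, Matrix.mul_smul]
    · intro x
      rw [Matrix.smul_mulVec, map_smul, h4]; rfl
    · rw [map_smul]; exact Submodule.smul_mem _ c h5

theorem mem_Rel_of_Q3 {y : Fin 3 → Matrix n n K} {w : Matrix ι δ K} {z : Matrix n n K}
    {zb : Module.End K M} (h : Q3 arm J B N W F p y w z) (h4 : ∀ x, π (z *ᵥ x) = zb (π x))
    (h5 : T zb ∈ ZZ T 1 D Ψ) : y ∈ Rel arm J N W F p π T D Ψ :=
  ⟨w, z, zb, h.memW, h.memN, h.val, h4, h5⟩

/-- single arm family -/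
noncomputable def qs (s : Fin 3) : (n → K) →ₗ[K] (n → K) →ₗ[K] (Fin 3 → Matrix n n K) :=
  LinearMap.mk₂ K (fun y y' => Pi.single s (vecMulVec y y'))
    (fun a b c => by rw [add_vecMulVec, Pi.single_add])
    (fun t a b => by rw [smul_vecMulVec, Pi.single_smul])
    (fun a b c => by rw [vecMulVec_add, Pi.single_add])
    (fun t a b => by rw [vecMulVec_smul, Pi.single_smul])

@[simp] theorem qs_apply (s : Fin 3) (y y' : n → K) :
    qs s y y' = Pi.single s (vecMulVec y y') := rfl

/-- the matrix of a tensor -/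
noncomputable def mt : TensorProduct K (n → K) (n → K) →ₗ[K] Matrix n n K :=
  TensorProduct.lift (LinearMap.mk₂ K (fun y y' => vecMulVec y y')
    (fun a b c => add_vecMulVec _ _ _) (fun t a b => smul_vecMulVec _ _ _)
    (fun a b c => vecMulVec_add _ _ _) (fun t a b => vecMulVec_smul _ _ _))

theorem mt_tmul (y y' : n → K) : mt (y ⊗ₜ[K] y') = vecMulVec y y' := rfl

theorem mt_comm (x : TensorProduct K (n → K) (n → K)) :
    mt (TensorProduct.comm K (n → K) (n → K) x) = (mt x)ᵀ := by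
  induction x using TensorProduct.induction_on with
  | zero => simp
  | tmul a b =>
    rw [TensorProduct.comm_tmul, mt_tmul, mt_tmul]
    ext i j
    simp [vecMulVec_apply, mul_comm]
  | add a b ha hb => rw [map_add, map_add, map_add, transpose_add, ha, hb]

theorem lift_qs (s : Fin 3) (x : TensorProduct K (n → K) (n → K)) :
    TensorProduct.lift (qs s) x = Pi.single s (mt x) := by
  induction x using TensorProduct.induction_on with
  | zero => simp
  | tmul a b => rw [TensorProduct.lift.tmul, mt_tmul, qs_apply]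
  | add a b ha hb => rw [map_add, map_add, ha, hb, Pi.single_add]

theorem ct_mt (g : Matrix n n K) (a b : n → K) (x : TensorProduct K (n → K) (n → K)) :
    SPE.ct (Matrix.toLinearMap₂' K g) a b x = (g *ᵥ a) ⬝ᵥ (mt x *ᵥ (g *ᵥ b)) := by
  induction x using TensorProduct.induction_on with
  | zero => simp
  | tmul y y' =>
    rw [SPE.ct_tmul, mt_tmul, Matrix.toLinearMap₂'_apply', Matrix.toLinearMap₂'_apply',
      vecMulVec_mulVec, dotProduct_smul]
    rw [dotProduct_comm y, op_smul_eq_smul, smul_eq_mul]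
    ring
  | add y y' h1 h2 => rw [map_add, map_add, h1, h2, Matrix.add_mulVec, dotProduct_add]

/-- **END**: single-arm memberships contradict `Core.Tame`. -/
theorem false_of_arms [CharZero K] [FiniteDimensional K M] (hD : Data k arm J B N W)
    (hF : F ∈ N ⊓ W) {v : Matrix δ n K} (hv : F * v = p)
    (hal : ∀ s, Phi arm J B F s * p = p * al s) (h : Cr J p al β π Ψ T)
    {Dm : Module.End K M} (hDΦ : ∀ s v, Dm (Ψ s v) = Ψ s (Dm v))
    (hDs : ⨆ ν, Dm.maxGenEigenspace ν = ⊤) (hT : Tame Ψ Dm) {l : Fin 3 → ℕ}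
    (h1 : ∀ s, 1 ≤ l s) (hsum : ∑ s, (1 - 1 / (l s : ℚ)) = 2) (hl : ∀ s, Ψ s ^ l s = 0)
    (hfree : ∀ s, l s * finrank K (LinearMap.ker (Ψ s)) = finrank K M)
    (hq1 : ∀ s, ∀ r, π r = 0 → ∀ y, (Pi.single s (vecMulVec r y) : Fin 3 → Matrix n n K) ∈
      Rel arm J N W F p π T D Ψ)
    (hq2 : ∀ s, ∀ r, π r = 0 → ∀ y, (Pi.single s (vecMulVec y r) : Fin 3 → Matrix n n K) ∈
      Rel arm J N W F p π T D Ψ)
    (hq3 : ∀ s i j, i + j + 1 = l s → ∀ y y' : n → K,
      (Pi.single s (vecMulVec ((al s ^ i) *ᵥ y) ((al s ^ j) *ᵥ y')) : Fin 3 → Matrix n n K) ∈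
        Rel arm J N W F p π T D Ψ) :
    False := by
  classical
  set g : Matrix n n K := pᵀ * J * p with hg
  obtain ⟨l', -, -, -, h4, h5, h6⟩ := TC.free_of_tame hDΦ hDs hT
  -- the quotient
  let e : ((n → K) ⧸ LinearMap.ker π) ≃ₗ[K] M := π.quotKerEquivOfSurjective h.onto
  have he : ∀ x, e ((LinearMap.ker π).mkQ x) = π x := fun x => rfl
  let Φq : Fin 3 → Module.End K ((n → K) ⧸ LinearMap.ker π) := fun s => e.symm.conj (Ψ s)
  have hpow : ∀ s (j : ℕ), Φq s ^ j = e.symm.conj (Ψ s ^ j) := by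
    intro s j
    induction j with
    | zero => apply LinearMap.ext; intro x; simp [LinearEquiv.conj_apply]
    | succ j ih =>
      rw [pow_succ, ih, pow_succ]
      apply LinearMap.ext; intro x
      simp [Φq, LinearEquiv.conj_apply]
  have hw : ∀ x y, Matrix.toLinearMap₂' K g x y = β (π x) (π y) := by
    intro x y
    rw [Matrix.toLinearMap₂'_apply', h.form]
  obtain ⟨T0, t1, ⟨a, b, t2⟩, t3⟩ := SPE.P_end (R := LinearMap.ker π) (E := Fin 3 → Matrix n n K)
    (S := Rel arm J N W F p π T D Ψ) (q := qs) (Φ := fun s => Matrix.toLin' (al s))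
    (Φq := Φq) (l := l) (Matrix.toLinearMap₂' K g)
    (fun x y => by rw [hw, hw, h.ns.symm])
    (fun x => by
      rw [LinearMap.mem_ker]
      constructor
      · intro hx y; rw [hw, hx, map_zero, LinearMap.zero_apply]
      · intro hx
        apply h.ns.nd
        intro w
        obtain ⟨y, rfl⟩ := h.onto w
        rw [← hw]; exact hx y)
    (fun s x y => by
      rw [hw, hw, Matrix.toLin'_apply, Matrix.toLin'_apply, ← h.op, ← h.op, h.sa])
    (fun s x => by
      apply e.injective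
      change e (e.symm (Ψ s (e ((LinearMap.ker π).mkQ x)))) = _
      rw [LinearEquiv.apply_symm_apply, he, he, Matrix.toLin'_apply, h.op])
    h1 hsum
    (fun s => by rw [hpow, hl s]; apply LinearMap.ext; intro x; simp [LinearEquiv.conj_apply])
    (fun s => by
      have e1 : LinearMap.ker (Φq s) = (LinearMap.ker (Ψ s)).map (e.symm : M →ₗ[K] _) := by
        ext x
        rw [LinearMap.mem_ker, Submodule.mem_map]
        constructor
        · intro hx
          refine ⟨e x, ?_, by simp⟩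
          rw [LinearMap.mem_ker]
          apply e.symm.injective
          rw [map_zero]
          exact hx
        · rintro ⟨m, hm, rfl⟩
          change e.symm (Ψ s (e (e.symm m))) = 0
          rw [LinearEquiv.apply_symm_apply, LinearMap.mem_ker.1 hm, map_zero]
      rw [e1, LinearEquiv.finrank_map_eq, hfree, e.finrank_eq])
    (by rw [e.finrank_eq]; exact h5)
    (fun hl3 => by
      rw [e.finrank_eq]
      have h7 := h6 0
      have h8 := hfree 0
      have h9 := h4 0
      rw [hl3 0] at h8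
      -- the two nilpotency data have the same kernel
      by_contra hcon
      have h10 : finrank K M = 3 := by
        have : 0 < finrank K (LinearMap.ker (Ψ 0)) := by
          rw [Nat.pos_iff_ne_zero]; intro h0; rw [h0] at h8; omega
        omega
      have h11 : finrank K (LinearMap.ker (Ψ 0)) = 1 := by omega
      rw [h11, h10] at h9
      omega)
    (fun s r hr y => hq1 s r (LinearMap.mem_ker.1 hr) y)
    (fun s r hr y => hq2 s r (LinearMap.mem_ker.1 hr) y)
    (fun s i j hij y y' => by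
      rw [qs_apply, ← Matrix.toLin'_pow, ← Matrix.toLin'_pow, Matrix.toLin'_apply,
        Matrix.toLin'_apply]
      exact hq3 s i j hij y y')
  -- the matrix
  set X : Matrix n n K := mt T0 with hXdef
  have hXt : Xᵀ = -X := by
    rw [hXdef, ← mt_comm, t1, map_neg]
  have hXR : (fun _ : Fin 3 => X) ∈ Rel arm J N W F p π T D Ψ := by
    have e1 : (fun _ : Fin 3 => X) = ∑ s, TensorProduct.lift (qs s) T0 := by
      funext r
      rw [Finset.sum_apply, Finset.sum_eq_single r]
      · rw [lift_qs, Pi.single_eq_same]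
      · intro s _ hs
        rw [lift_qs, Pi.single_eq_of_ne (Ne.symm hs)]
      · intro hr; exact absurd (Finset.mem_univ r) hr
    rw [e1]
    exact Submodule.sum_mem _ fun s _ => t3 s
  obtain ⟨w, z, zb, r1, r2, r3, r4, r5⟩ := hXR
  obtain ⟨σ, hσ⟩ := LinearMap.exists_rightInverse_of_surjective π
    (LinearMap.range_eq_top.2 h.onto)
  have hσ' : ∀ m, π (σ m) = m := fun m => LinearMap.congr_fun hσ m
  have hgk : ∀ x, π x = 0 → g *ᵥ x = 0 := by
    intro x hx
    have : ∀ y : n → K, y ⬝ᵥ (g *ᵥ x) = 0 := by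
      intro y
      rw [← h.form, hx, map_zero]
    funext i
    have := this (Pi.single i 1)
    rwa [single_one_dotProduct] at this
  let A : Module.End K M := π ∘ₗ Matrix.toLin' (X * g) ∘ₗ σ
  have hA : ∀ y, A (π y) = π ((X * g) *ᵥ y) := by
    intro y
    change π (Matrix.toLin' (X * g) (σ (π y))) = _
    rw [Matrix.toLin'_apply]
    have h7 : g *ᵥ (σ (π y) - y) = 0 := hgk _ (by rw [map_sub, hσ', sub_self])
    rw [mulVec_sub, sub_eq_zero] at h7
    rw [← mulVec_mulVec, h7, mulVec_mulVec]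
  have hform : ∀ y y', β (π y) (π y') = y ⬝ᵥ (g *ᵥ y') := h.form
  have hgt : gᵀ = g := by
    rw [hg, transpose_mul, transpose_mul, transpose_transpose, hD.J_symm, Matrix.mul_assoc]
  have hAs : ∀ v w, β (A v) w = - β v (A w) := by
    intro v w
    obtain ⟨y, rfl⟩ := h.onto v
    obtain ⟨y', rfl⟩ := h.onto w
    rw [hA, hA, hform, hform, dt, mulVec_mulVec, mulVec_mulVec, transpose_mul, hgt, hXt,
      Matrix.mul_neg, Matrix.neg_mul, neg_mulVec, dotProduct_neg, Matrix.mul_assoc]
  obtain ⟨f1, f2⟩ := frame_end hD hF hv hal r2 r1 r3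
  have hA0 : A = 0 := h.zero hAs (fun y => by
    rw [hXt, Matrix.neg_mul, neg_mulVec, map_neg, hA]) r4 r5 f1 f2
  apply t2
  rw [ct_mt, ← hXdef]
  have e3 : (g *ᵥ a) ⬝ᵥ (X *ᵥ (g *ᵥ b)) = β (π a) (A (π b)) := by
    rw [hA, hform, dt, hgt, mulVec_mulVec, mulVec_mulVec, mulVec_mulVec, Matrix.mul_assoc]
  rw [e3, hA0, LinearMap.zero_apply, map_zero]

end core

end Crest.Agent.R172.RDEnd
end

-- ▼ part R172/RD0

/-!
Row 172 (S0260), (T0), any radical, any `D`: the data of the final assembly (`RD`).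
-/

set_option autoImplicit false
set_option linter.unusedSectionVars false

namespace Crest.Agent.R172.RD

open Matrix Module TensorProduct Crest.Agent.R172.FO Crest.Agent.R172.FrmB
open Crest.Agent.R172.Core (NS Tame)
open Crest.Agent.R172.PL (Wk)

variable {ι : Type*} [Fintype ι] [DecidableEq ι] {δ : Type*} [Fintype δ] [DecidableEq δ]
variable {n : Type*} [Fintype n] [DecidableEq n]
variable {k K : Type*} [Field k] [Field K] [Algebra k K]
variable {M : Type*} [AddCommGroup M] [Module K M]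
variable {m : Type*} [Fintype m] [DecidableEq m]

/-- the frame of the universal cover, with its core, its blocks `e i` and the parameters `TT` -/
structure Fr (k : Type*) {K : Type*} [Field k] [Field K] [Algebra k K]
    {M : Type*} [AddCommGroup M] [Module K M]
    (arm : δ → Fin 3) (J : Matrix ι ι K) (B : Matrix δ δ K)
    (N W : Submodule K (Matrix ι δ K)) (F G : Matrix ι δ K) (p : Matrix ι n K)
    (al : Fin 3 → Matrix n n K) (tau : Matrix n n K)
    (β : LinearMap.BilinForm K M) (T : Module.End K M →ₗ[K] Module.End K M)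
    (Ψ : Fin 3 → Module.End K M) (D : Module.End K M) (π : (n → K) →ₗ[K] M)
    (e : m → Matrix n n K) (lam : m → K) (l : Fin 3 → ℕ) (TT : Set k) : Prop where
  ctx : FC.Ctx k arm J B N W F G p al tau
  vt : Vt k arm N W F G
  /-- words of `Φ(F)` end in `im p` -/
  wk : ∃ m0 : ℕ, Wk (fun r => Matrix.toLin' (Phi arm J B F r)) m0 ≤ LinearMap.range (toLin' p)
  par : ∀ t ∈ TT, ∃ kap kai, FC.Par k arm J B N W F G p tau (algebraMap k K t) kap kai
  inf : TT.Infinite
  ne0 : (0 : k) ∉ TT
  sum0 : ∑ s, al s = 0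
  cr : RDEnd.Cr J p al β π Ψ T
  ptau : ∀ y, π (tau *ᵥ y) = D (π y)
  /-- long words kill the radical `ker π` -/
  kill : ∃ m0 : ℕ, ∀ w : List (Fin 3), w.length = m0 → ∀ u, π u = 0 → (w.map al).prod *ᵥ u = 0
  /-- the same on `V`: long words of `Φ(F + tG)` kill `v ⟂ im p`-part of `im p` -/
  killV : ∀ t : K, ∃ m0 : ℕ, ∀ w : List (Fin 3), w.length = m0 → ∀ u, π u = 0 →
    (w.map (Phi arm J B (F + t • G))).prod *ᵥ (p *ᵥ u) = 0
  idem : ∀ i, e i * e i = e i
  orth : ∀ i j, i ≠ j → e i * e j = 0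
  sumE : ∑ i, e i = 1
  eal : ∀ i s, e i * al s = al s * e i
  etau : ∀ i, e i * tau = tau * e i
  /-- block adapted basis: the `e i` are constant matrices -/
  eC : ∀ i (d : Derivation k K K), (e i).map d = 0
  eg : ∀ i, (e i)ᵀ * (pᵀ * J * p) = (pᵀ * J * p) * e i
  nil : ∀ i, IsNilpotent ((tau - lam i • (1 : Matrix n n K)) * e i)
  lamInj : Function.Injective lam
  two : ∀ i : m, ∃ j, j ≠ i
  /-- `Hom_A(M_i, M_j) = 0` at `F + tG`, every `t ∈ TT ∪ {0}` -/
  hom : ∀ t : k, (t ∈ TT ∨ t = 0) → ∀ A : Module.End K M,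
    (∀ s x, A (Ψ s ((1 + algebraMap k K t • D) ((1 + algebraMap k K t • D) x))) =
      Ψ s ((1 + algebraMap k K t • D) ((1 + algebraMap k K t • D) (A x)))) →
    ∀ i j, i ≠ j → ∀ x y, β (A (π (e i *ᵥ x))) (π (e j *ᵥ y)) = 0
  lpos : ∀ s, 1 ≤ l s
  lsum : ∑ s, (1 - 1 / (l s : ℚ)) = 2
  lnil : ∀ s, Ψ s ^ l s = 0
  free : ∀ s, l s * finrank K (LinearMap.ker (Ψ s)) = finrank K M
  top : ∀ i s, ∃ u u' : n → K, (e i *ᵥ u) ⬝ᵥ ((pᵀ * J * p) *ᵥ ((al s ^ (l s - 1)) *ᵥ (e i *ᵥ u'))) ≠ 0
  gen : ∀ i (S : Submodule K (n → K)), (∀ s, ∀ v ∈ S, al s *ᵥ v ∈ S) →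
    (∀ s u, (al s ^ l s) *ᵥ (e i *ᵥ u) ∈ S) → ∀ u, π (e i *ᵥ u) = 0 → e i *ᵥ u ∈ S
  /-- corrections exist for scalar exact families (universal cover) -/
  hexS : ∀ i j, i ≠ j → ∀ c : K, c ≠ 0 → ∀ x : Fin 3 → Matrix n n K,
    (∀ r, e j * x r * (e i)ᵀ = x r) → ∑ r, (x r * (al r)ᵀ - c • (al r * x r)) = 0 →
    (∀ r, (pᵀ * J * p) * (x r * (al r)ᵀ - c • (al r * x r)) * (pᵀ * J * p) = 0) →
    ∃ b kk : Matrix n n K, e i * b * e j = b ∧ e j * kk * e i = kk ∧ (∀ u, π (b *ᵥ u) = 0) ∧
      (∀ u, π (kk *ᵥ u) = 0) ∧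
      (∀ r, al r * (b + (x r)ᵀ * (pᵀ * J * p)) = c • ((b + (x r)ᵀ * (pᵀ * J * p)) * al r)) ∧
      (∀ r, (kk - x r * (pᵀ * J * p)) * al r = c • (al r * (kk - x r * (pᵀ * J * p))))

/-- off-diagonal part -/
def off (e : m → Matrix n n K) (A : Matrix n n K) : Matrix n n K := A - ∑ l, e l * A * e l

/-- the family `x ∈ (U_j ⊗ U_i)³` with its corrections `b : U_j → R_i`, `kk : U_i → R_j`, exact for
the operators `P r` (on `U_i`) and `Q r` (on `U_j`) -/
structure Dec (g : Matrix n n K) (π : (n → K) →ₗ[K] M) (e : m → Matrix n n K) (i j : m)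
    (P Q : Fin 3 → Matrix n n K) (x : Fin 3 → Matrix n n K) (b kk : Matrix n n K) : Prop where
  bx : ∀ r, e j * x r * (e i)ᵀ = x r
  bb : e i * b * e j = b
  bk : e j * kk * e i = kk
  rb : ∀ u, π (b *ᵥ u) = 0
  rk : ∀ u, π (kk *ᵥ u) = 0
  sum : ∑ r, (x r * (P r)ᵀ - Q r * x r) = 0
  arm : ∀ r, g * (x r * (P r)ᵀ - Q r * x r) * g = 0
  eb : ∀ r, P r * (b + (x r)ᵀ * g) = (b + (x r)ᵀ * g) * Q r
  ek : ∀ r, (kk - x r * g) * P r = Q r * (kk - x r * g)

/-- good decorated elements: `y` with correction `z` (core part in `ZF`), off-diagonal parts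
`v.2.1` of `z` and `v.2.2 r` of the left action `μ r` prescribed -/
def RS (arm : δ → Fin 3) (J : Matrix ι ι K) (B : Matrix δ δ K) (N W : Submodule K (Matrix ι δ K))
    (F : Matrix ι δ K) (p : Matrix ι n K) (T : Module.End K M →ₗ[K] Module.End K M)
    (Ψ : Fin 3 → Module.End K M) (π : (n → K) →ₗ[K] M) (e : m → Matrix n n K)
    (y : Fin 3 → Matrix n n K) (z0 : Matrix n n K) (μ0 : Fin 3 → Matrix n n K) : Prop :=
  ∃ (w : Matrix ι δ K) (z : Matrix n n K) (μ : Fin 3 → Matrix n n K), w ∈ W ∧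
    io arm J F p y - w ∈ N ∧ wᵀ * J * p = Fᵀ * J * p * z ∧
    (∀ r, w * E K arm r * B * (Fᵀ * J * p) = p * μ r) ∧ z ∈ ZFr.ZF T π Ψ ∧
    off e z = z0 ∧ ∀ r, off e (μ r) = μ0 r

/-- `y` is filtered at the arm `s` on the core -/
def Fil (g : Matrix n n K) (π : (n → K) →ₗ[K] M) (Ψ : Fin 3 → Module.End K M) (s : Fin 3)
    (y : Matrix n n K) : Prop :=
  ∃ yb : Module.End K M, (∀ u, π (y *ᵥ (g *ᵥ u)) = yb (π u)) ∧
    ∀ (a : ℕ) v, ∃ v', yb ((Ψ s ^ a) v) = (Ψ s ^ a) v'

end Crest.Agent.R172.RD
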