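import Crest.Agent.R172.Fin3
import Crest.Agent.R172.N5a
import Crest.Agent.R172.RD0

-- ▼ part R172/AsmIn
section

/-!
Row 172 (S0260), node R-AsmIn: `InT00` from the abstract tame theorem.

`AsmIn.inT00_of`: it is enough to prove `False` from `FO.Data` (over `c.arm, Jm n K, c.B K`), nilpotency
of all `Ph H s`, `H ∈ 𝒦`, `FO.GenOver F G`, `𝒦iso = 0`, a core `C` of `Ph F` and `TameAt F G C τ`.
-/

set_option autoImplicit false
set_option linter.unusedSectionVars false

namespace Crest.Agent.R172.AsmIn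

open Module Matrix Crest.AlgebraR.SpinSaturation Crest.Agent.R172.SoGrade Crest.Agent.R172.CF
open Crest.Agent.R172.Gen (Jm Ix emb Ent ent)
open Crest.Agent.R172.ThX Crest.Agent.R172.CSys
open Crest.Agent.R172.Ind

/-- **(T00)** from the abstract form. -/
theorem inT00_of
    (h : ∀ (n : ℕ) (a : Fin 3 → Fin n → ℤ) (c : Cfg n a) (K : Type) [Field K] [Algebra ℂ K]
      [IsAlgClosed K] [CharZero K] (N W : Submodule K (Matrix (Ix n) c.δ K)),
      FO.Data ℂ c.arm (Jm n K) (c.B K) N W →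
      (∀ H ∈ N ⊓ W, ∃ k, ∀ s, MM (pU c K) (adjU c K) (Matrix.toLin' H) (Matrix.toLin' H) s ^ k
        = 0) →
      (∀ H ∈ N ⊓ W, ∀ v, ∑ s, MM (pU c K) (adjU c K) (Matrix.toLin' H) (Matrix.toLin' H) s v = 0) →
      Om.Kiso (Jm n K) N W = ⊥ →
      ∀ F G : Matrix (Ix n) c.δ K, FO.GenOver ℂ c.arm N W F G →
      ∀ (C : St.Core (BV n K) (MM (pU c K) (adjU c K) (Matrix.toLin' F) (Matrix.toLin' F)))
        (τ : Module.End K C.M), TameAt F G C τ → False) : InT00 := by
  refine InT00.of_forall ?_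
  intro n a c q R K _ _ _ g H hI h0 F G hF C τ hτ
  have hcz : CharZero K := charZero_of_injective_algebraMap (algebraMap ℂ K).injective
  exact h n a c K (c.N g) (VL (q.toPol.LH H)) hI.data
    (fun H' hH' => MM_nil R hI.gi.orth hH'.1) (fun H' hH' => MM_sum hI.data hH'.2) h0 F G hF C τ
    hτ

end Crest.Agent.R172.AsmIn
end

-- ▼ part R172/RDIn

/-!
Row 172 (S0260), node R-AsmIn: from the frame `RD.Fr` to `Ind.InT00`.
-/

set_option autoImplicit false
set_option linter.unusedSectionVars false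

namespace Crest.Agent.R172.RD

open Module Matrix Crest.AlgebraR.SpinSaturation Crest.Agent.R172.SoGrade Crest.Agent.R172.CF
open Crest.Agent.R172.Gen (Jm Ix emb Ent ent)
open Crest.Agent.R172.ThX Crest.Agent.R172.CSys
open Crest.Agent.R172.Ind

/-- **exists_fr**: the frame of the universal cover exists -/
def ExFr : Prop :=
  ∀ (n : ℕ) (a : Fin 3 → Fin n → ℤ) (c : Cfg n a) (K : Type) [Field K] [Algebra ℂ K]
    [IsAlgClosed K] [CharZero K] (N W : Submodule K (Matrix (Ix n) c.δ K)),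
    FO.Data ℂ c.arm (Jm n K) (c.B K) N W →
    (∀ H ∈ N ⊓ W, ∃ k, ∀ s, MM (pU c K) (adjU c K) (Matrix.toLin' H) (Matrix.toLin' H) s ^ k
      = 0) →
    (∀ H ∈ N ⊓ W, ∀ v, ∑ s, MM (pU c K) (adjU c K) (Matrix.toLin' H) (Matrix.toLin' H) s v = 0) →
    Om.Kiso (Jm n K) N W = ⊥ →
    ∀ F G : Matrix (Ix n) c.δ K, FO.GenOver ℂ c.arm N W F G →
    ∀ (C : St.Core (BV n K) (MM (pU c K) (adjU c K) (Matrix.toLin' F) (Matrix.toLin' F)))
      (τ : Module.End K C.M), TameAt F G C τ →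
    ∃ (n0 : Type) (_ : Fintype n0) (_ : DecidableEq n0) (m : Type) (_ : Fintype m)
      (_ : DecidableEq m) (p : Matrix (Ix n) n0 K) (al : Fin 3 → Matrix n0 n0 K)
      (tau : Matrix n0 n0 K) (T : Module.End K C.M →ₗ[K] Module.End K C.M)
      (π : (n0 → K) →ₗ[K] C.M) (e : m → Matrix n0 n0 K) (lam : m → K) (l : Fin 3 → ℕ)
      (TT : Set ℂ),
      Fr ℂ c.arm (Jm n K) (c.B K) N W F G p al tau (Core.BM C) T
        (fun s => Core.cp C (MM (pU c K) (adjU c K) (Matrix.toLin' F) (Matrix.toLin' F) s)) τ π e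
        lam l TT

/-- **false_of_fr** at the type of the final assembly -/
def FalseFr : Prop :=
  ∀ {ι δ n m : Type} [Fintype ι] [DecidableEq ι] [Fintype δ] [DecidableEq δ] [Fintype n]
    [DecidableEq n] [Fintype m] [DecidableEq m] {K M : Type} [Field K] [Algebra ℂ K] [CharZero K]
    [AddCommGroup M] [Module K M] [FiniteDimensional K M] {arm : δ → Fin 3} {J : Matrix ι ι K}
    {B : Matrix δ δ K} {N W : Submodule K (Matrix ι δ K)} {F G : Matrix ι δ K}
    {p : Matrix ι n K} {al : Fin 3 → Matrix n n K} {tau : Matrix n n K}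
    {β : LinearMap.BilinForm K M} {T : Module.End K M →ₗ[K] Module.End K M}
    {Ψ : Fin 3 → Module.End K M} {D : Module.End K M} {π : (n → K) →ₗ[K] M}
    {e : m → Matrix n n K} {lam : m → K} {l : Fin 3 → ℕ} {TT : Set ℂ},
    Fr ℂ arm J B N W F G p al tau β T Ψ D π e lam l TT →
    (∀ s v, D (Ψ s v) = Ψ s (D v)) → ⨆ ν, D.maxGenEigenspace ν = ⊤ → Core.Tame Ψ D → False

/-- **(T00)** from the frame -/
theorem inT00_of_fr (hE : ExFr) (hF : FalseFr) : InT00 := by
  refine AsmIn.inT00_of ?_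
  intro n a c K _ _ _ _ N W hD hnil hsum hK F G hG C τ hT
  obtain ⟨n0, i1, i2, m, i3, i4, p, al, tau, T, π, e, lam, l, TT, h⟩ :=
    hE n a c K N W hD hnil hsum hK F G hG C τ hT
  exact hF h (fun s v => hT.comm s v) (Module.End.iSup_maxGenEigenspace_eq_top τ) hT.tame

end Crest.Agent.R172.RD
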