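import Crest.Agent.R172.TG2
import Crest.Agent.R172.EndR
import Crest.Agent.R172.ZPL
import Crest.Agent.R172.FC2
import Crest.Agent.R172.RD0

-- ▼ part R172/RDZ
section

/-!
Row 172 (S0260), T0 for arbitrary radical and arbitrary `D` (node RD-ZZ): the connection on the core
`M` in a frame, and the corrections of `FC.firstQ` and `FrmB.second` lie in 644's `ZZ`.
-/

set_option autoImplicit false
set_option linter.unusedSectionVars false

namespace Crest.Agent.R172.RDZ

open Matrix Module Crest.Agent.R172.FO Crest.Agent.R172.Core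
open Crest.Agent.R172.FC (nab)
open Crest.Agent.R172.ZP (NilAt adE Gau)

section conn

variable {k K : Type*} [Field k] [Field K] [Algebra k K]
variable {n : Type*} [Fintype n] [DecidableEq n]
variable {M : Type*} [AddCommGroup M] [Module K M]

/-- `∇ y = ∂ y + θ y` -/
def nb (d : Derivation k K K) (θ : Matrix n n K) (y : n → K) : n → K :=
  (fun i => d (y i)) + θ *ᵥ y

variable {d : Derivation k K K} {θ : Matrix n n K}

theorem nb_add (y y' : n → K) : nb d θ (y + y') = nb d θ y + nb d θ y' := by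
  unfold nb
  rw [mulVec_add]
  funext i
  simp only [Pi.add_apply, map_add]
  ring

theorem nb_smul (c : K) (y : n → K) : nb d θ (c • y) = d c • y + c • nb d θ y := by
  unfold nb
  rw [mulVec_smul]
  funext i
  simp only [Pi.add_apply, Pi.smul_apply, smul_eq_mul, Derivation.leibniz]
  ring

theorem d_mulVec (z : Matrix n n K) (y : n → K) :
    (fun i => d ((z *ᵥ y) i)) = z.map d *ᵥ y + z *ᵥ (fun i => d (y i)) := by
  funext i
  simp only [mulVec, dotProduct, Pi.add_apply, map_sum, Derivation.leibniz, smul_eq_mul,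
    Matrix.map_apply]
  rw [← Finset.sum_add_distrib]
  refine Finset.sum_congr rfl fun j _ => ?_
  ring

theorem nb_mulVec (z : Matrix n n K) (y : n → K) :
    nb d θ (z *ᵥ y) = nab d θ z *ᵥ y + z *ᵥ nb d θ y := by
  unfold nb nab
  rw [d_mulVec, sub_mulVec, add_mulVec, mulVec_add, mulVec_mulVec, mulVec_mulVec]
  abel

theorem d_dot (y y' : n → K) :
    d (y ⬝ᵥ y') = (fun i => d (y i)) ⬝ᵥ y' + y ⬝ᵥ (fun i => d (y' i)) := by
  simp only [dotProduct, map_sum, Derivation.leibniz, smul_eq_mul]
  rw [← Finset.sum_add_distrib]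
  refine Finset.sum_congr rfl fun j _ => ?_
  ring

theorem nb_form {γ : Matrix n n K} (hγ : γ.map d = θᵀ * γ + γ * θ) (y y' : n → K) :
    d (y ⬝ᵥ (γ *ᵥ y')) = nb d θ y ⬝ᵥ (γ *ᵥ y') + y ⬝ᵥ (γ *ᵥ nb d θ y') := by
  rw [d_dot, d_mulVec, hγ]
  unfold nb
  rw [add_dotProduct, mulVec_add, dotProduct_add, dotProduct_add, add_mulVec, dotProduct_add]
  have h1 : (θ *ᵥ y) ⬝ᵥ (γ *ᵥ y') = y ⬝ᵥ ((θᵀ * γ) *ᵥ y') := by
    rw [← mulVec_mulVec, dotProduct_mulVec y, vecMul_transpose]
  rw [h1, mulVec_mulVec _ γ θ]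
  ring

/-- a frame `n → K` over the core `M` -/
structure Fr (β : LinearMap.BilinForm K M) (γ : Matrix n n K) (π : (n → K) →ₗ[K] M) : Prop where
  ns : NS β
  sur : Function.Surjective π
  form : ∀ y y', β (π y) (π y') = y ⬝ᵥ (γ *ᵥ y')

/-- `z` descends to the operator `x` of the core -/
def Desc (π : (n → K) →ₗ[K] M) (z : Matrix n n K) (x : End K M) : Prop :=
  ∀ y, π (z *ᵥ y) = x (π y)

variable {β : LinearMap.BilinForm K M} {γ : Matrix n n K} {π : (n → K) →ₗ[K] M}

theorem Fr.zero_iff (h : Fr β γ π) {y : n → K} : π y = 0 ↔ ∀ y', y' ⬝ᵥ (γ *ᵥ y) = 0 := by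
  constructor
  · intro h0 y'
    rw [← h.form, h0, map_zero]
  · intro h0
    refine h.ns.nd _ fun w => ?_
    obtain ⟨y', rfl⟩ := h.sur w
    rw [h.ns.symm, h.form, h0]

theorem Fr.eq_of (h : Fr β γ π) {u v : M} (h1 : ∀ y', β (π y') u = β (π y') v) : u = v := by
  rw [← sub_eq_zero]
  refine h.ns.nd _ fun w => ?_
  obtain ⟨y', rfl⟩ := h.sur w
  rw [h.ns.symm, map_sub, h1, sub_self]

theorem Fr.exists_sec (h : Fr β γ π) : ∃ σ : M →ₗ[K] (n → K), ∀ m, π (σ m) = m := by
  obtain ⟨σ, hσ⟩ := LinearMap.exists_rightInverse_of_surjective π (LinearMap.range_eq_top.2 h.sur)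
  exact ⟨σ, fun m => LinearMap.congr_fun hσ m⟩

/-- a matrix preserving the radical descends -/
theorem Fr.exists_desc (h : Fr β γ π) {z : Matrix n n K} (hz : ∀ y, π y = 0 → π (z *ᵥ y) = 0) :
    ∃ x, Desc π z x := by
  obtain ⟨σ, hσ⟩ := h.exists_sec
  refine ⟨π ∘ₗ Matrix.toLin' z ∘ₗ σ, fun y => ?_⟩
  have h1 : π (y - σ (π y)) = 0 := by rw [map_sub, hσ, sub_self]
  have h2 := hz _ h1
  rw [mulVec_sub, map_sub, sub_eq_zero] at h2
  exact h2

/-- a `γ`-self-adjoint matrix descends -/
theorem Fr.exists_desc_sa (h : Fr β γ π) {z : Matrix n n K} (hz : γ * z = zᵀ * γ) :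
    ∃ x, Desc π z x := by
  refine h.exists_desc fun y hy => ?_
  rw [h.zero_iff] at hy ⊢
  intro y'
  rw [mulVec_mulVec, hz, ← mulVec_mulVec, dotProduct_mulVec, vecMul_transpose]
  exact hy _

namespace Desc

variable {z z' : Matrix n n K} {x x' : End K M}

theorem add (h : Desc π z x) (h' : Desc π z' x') : Desc π (z + z') (x + x') := fun y => by
  rw [add_mulVec, map_add, h, h', LinearMap.add_apply]

theorem sub (h : Desc π z x) (h' : Desc π z' x') : Desc π (z - z') (x - x') := fun y => by
  rw [sub_mulVec, map_sub, h, h', LinearMap.sub_apply]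

theorem smul (c : K) (h : Desc π z x) : Desc π (c • z) (c • x) := fun y => by
  rw [smul_mulVec, map_smul, h, LinearMap.smul_apply]

theorem mul (h : Desc π z x) (h' : Desc π z' x') : Desc π (z * z') (x * x') := fun y => by
  rw [← mulVec_mulVec, h, h', Module.End.mul_apply]

theorem one : Desc π (1 : Matrix n n K) (1 : End K M) := fun y => by
  rw [one_mulVec, Module.End.one_apply]

theorem unique (f : Fr β γ π) (h : Desc π z x) (h' : Desc π z x') : x = x' := by
  ext m
  obtain ⟨y, rfl⟩ := f.sur m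
  rw [← h, h']

theorem eq_of_eq (f : Fr β γ π) (h : Desc π z x) (h' : Desc π z' x') (e : z = z') : x = x' := by
  subst e; exact h.unique f h'

end Desc

/-- `T` is the adjoint -/
def Adj (β : LinearMap.BilinForm K M) (T : End K M →ₗ[K] End K M) : Prop :=
  ∀ x u v, β (T x u) v = β u (x v)


namespace Adj

variable {T : End K M →ₗ[K] End K M}

theorem mul (hT : Adj β T) (h : NS β) (x y : End K M) : T (x * y) = T y * T x := by
  ext u
  rw [← sub_eq_zero]
  refine h.nd _ fun v => ?_
  rw [map_sub, LinearMap.sub_apply, hT, Module.End.mul_apply, Module.End.mul_apply, hT, hT,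
    sub_self]

theorem inv (hT : Adj β T) (h : NS β) (x : End K M) : T (T x) = x := by
  ext u
  rw [← sub_eq_zero]
  refine h.nd _ fun v => ?_
  rw [map_sub, LinearMap.sub_apply, hT, h.symm, hT, h.symm, sub_self]


/-- adjoints in the frame -/
theorem of_desc (hT : Adj β T) (f : Fr β γ π) {z z' : Matrix n n K} {x x' : End K M}
    (hz : Desc π z x) (hz' : Desc π z' x') (e : γ * z' = zᵀ * γ) : x' = T x := by
  ext m
  obtain ⟨y, rfl⟩ := f.sur m
  refine f.eq_of fun y' => ?_
  rw [← hz', f.form, f.ns.symm (π y') (T x (π y)), hT, f.ns.symm, ← hz, f.form, mulVec_mulVec, e,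
    ← mulVec_mulVec, dotProduct_mulVec, vecMul_transpose]

end Adj

/-- a connection on the core -/
structure Conn (d : Derivation k K K) (θ : Matrix n n K) (π : (n → K) →ₗ[K] M)
    (β : LinearMap.BilinForm K M) (D : M → M) : Prop where
  add : ∀ u v, D (u + v) = D u + D v
  smul : ∀ (c : K) u, D (c • u) = d c • u + c • D u
  pi : ∀ y, D (π y) = π (nb d θ y)
  form : ∀ u v, d (β u v) = β (D u) v + β u (D v)

theorem Fr.exists_conn (h : Fr β γ π) (hγ : γ.map d = θᵀ * γ + γ * θ) :
    ∃ D : M → M, Conn d θ π β D := by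
  obtain ⟨σ, hσ⟩ := h.exists_sec
  have key : ∀ y, π y = 0 → π (nb d θ y) = 0 := by
    intro y hy
    rw [h.zero_iff] at hy ⊢
    intro y'
    have h1 := nb_form hγ y' y
    rw [hy y', map_zero, hy (nb d θ y'), zero_add] at h1
    exact h1.symm
  have hsub : ∀ y y', nb d θ (y - y') = nb d θ y - nb d θ y' := by
    intro y y'
    have := nb_add (d := d) (θ := θ) (y - y') y'
    rw [sub_add_cancel] at this
    rw [this]; abel
  have hpi : ∀ y, π (nb d θ (σ (π y))) = π (nb d θ y) := by
    intro y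
    have h1 : π (σ (π y) - y) = 0 := by rw [map_sub, hσ, sub_self]
    have h2 := key _ h1
    rw [hsub, map_sub, sub_eq_zero] at h2
    exact h2
  refine ⟨fun m => π (nb d θ (σ m)), ?_, ?_, hpi, ?_⟩
  · intro u v
    rw [map_add, nb_add, map_add]
  · intro c u
    rw [map_smul, nb_smul, map_add, map_smul, map_smul, hσ]
  · intro u v
    obtain ⟨y, rfl⟩ := h.sur u
    obtain ⟨y', rfl⟩ := h.sur v
    rw [hpi, hpi, h.form, h.form, h.form, nb_form hγ]

namespace Conn

variable {D : M → M} (h : Conn d θ π β D)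

/-- the derivation of `End M` -/
def dE (h : Conn d θ π β D) (x : End K M) : End K M where
  toFun m := D (x m) - x (D m)
  map_add' u v := by
    rw [map_add, h.add, h.add, map_add]; abel
  map_smul' c u := by
    rw [map_smul, h.smul, h.smul, map_add, map_smul, map_smul, RingHom.id_apply, smul_sub]
    abel

theorem dE_apply (x : End K M) (m : M) : h.dE x m = D (x m) - x (D m) := rfl


theorem dE_mul (x y : End K M) : h.dE (x * y) = h.dE x * y + x * h.dE y := by
  ext m
  simp only [dE_apply, LinearMap.add_apply, Module.End.mul_apply, map_sub]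
  abel



theorem desc {z : Matrix n n K} {x : End K M} (hz : Desc π z x) :
    Desc π (nab d θ z) (h.dE x) := by
  intro y
  rw [dE_apply, ← hz, h.pi, h.pi, ← hz, nb_mulVec, map_add]
  abel

end Conn

theorem Fr.desc_zero (f : Fr β γ π) {z : Matrix n n K} {x : End K M} (hz : Desc π z x)
    (h0 : γ * z = 0) : x = 0 := by
  ext m
  obtain ⟨y, rfl⟩ := f.sur m
  refine f.eq_of fun y' => ?_
  rw [← hz, f.form, mulVec_mulVec, h0, zero_mulVec, dotProduct_zero, LinearMap.zero_apply, map_zero]

/-- **(Z1) in a frame**: the correction of the first derivative lies in `ZZ`. -/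
theorem first_ZZ (f : Fr β γ π) {Dn : M → M} (con : Conn d θ π β Dn) {T : End K M →ₗ[K] End K M}
    (hT : Adj β T) {al : Fin 3 → Matrix n n K} {Ψ : Fin 3 → End K M}
    (hΨ : ∀ s, Desc π (al s) (Ψ s)) {τ : Matrix n n K} {DM : End K M} (hDM : Desc π τ DM) {c : K}
    {kap kai : Matrix n n K} (hkap : kap = 1 + c • τ) (hmul : kap * kai = 1)
    (hkai : γ * kai = kaiᵀ * γ) (hcomm : ∀ s, kap * al s = al s * kap)
    (hsa : γ * nab d θ τ = (nab d θ τ)ᵀ * γ)
    (hnab : ∀ s, γ * nab d θ (al s * (kap * kap)) = 0)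
    (hnil : ∀ x : End K M, (∀ s, x * ((1 + c • DM) * (1 + c • DM) * Ψ s) =
      ((1 + c • DM) * (1 + c • DM) * Ψ s) * x) → NilAt (adE DM) x) :
    ∃ zM, Desc π (c • (nab d θ τ * kai)) zM ∧ T zM ∈ ZP.ZZ T 1 DM Ψ := by
  obtain ⟨kM, hkM⟩ := f.exists_desc_sa hkai
  obtain ⟨cM, hcM⟩ : ∃ cM : End K M, cM = 1 + c • DM := ⟨_, rfl⟩
  rw [← hcM] at hnil
  have hcMd : Desc π kap cM := by
    rw [hkap, hcM]; exact Desc.one.add (hDM.smul c)
  have e1 : cM * kM = 1 := (hcMd.mul hkM).eq_of_eq f Desc.one hmul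
  have e2 : kM * cM = 1 := (hkM.mul hcMd).eq_of_eq f Desc.one (mul_eq_one_comm.1 hmul)
  have hcΨ : ∀ s, cM * Ψ s = Ψ s * cM := fun s =>
    (hcMd.mul (hΨ s)).eq_of_eq f ((hΨ s).mul hcMd) (hcomm s)
  have TkM : T kM = kM := (hT.of_desc f hkM hkM hkai).symm
  have Tδ : T (con.dE DM) = con.dE DM := (hT.of_desc f (con.desc hDM) (con.desc hDM) hsa).symm
  have hcD : cM * DM = DM * cM := by
    rw [hcM]; simp only [add_mul, mul_add, one_mul, mul_one, smul_mul_assoc, mul_smul_comm]
  have hDΨ : ∀ s, c • (DM * Ψ s) = c • (Ψ s * DM) := by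
    intro s
    have := hcΨ s
    rw [hcM] at this
    simpa only [add_mul, mul_add, one_mul, mul_one, smul_mul_assoc, mul_smul_comm,
      add_right_inj] using this
  have hd0 : ∀ s, con.dE (cM * cM * Ψ s) = 0 := by
    intro s
    refine f.desc_zero (con.desc ((hcMd.mul hcMd).mul (hΨ s))) ?_
    have : kap * kap * al s = al s * (kap * kap) := by
      rw [Matrix.mul_assoc, hcomm, ← Matrix.mul_assoc, hcomm, Matrix.mul_assoc]
    rw [this]; exact hnab s
  by_cases hc : c = 0
  · refine ⟨0, ?_, ?_⟩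
    · rw [hc, zero_smul]
      intro y
      rw [zero_mulVec, map_zero, LinearMap.zero_apply]
    · rw [map_zero]; exact Submodule.zero_mem _
  have hDΨ' : ∀ s, DM * Ψ s = Ψ s * DM := fun s => by
    have := congrArg (fun x => c⁻¹ • x) (hDΨ s)
    simpa only [smul_smul, inv_mul_cancel₀ hc, one_smul] using this
  have hδc : ∀ s, con.dE DM * (cM * cM * Ψ s) = (cM * cM * Ψ s) * con.dE DM := by
    intro s
    have h1 : DM * (cM * cM * Ψ s) = (cM * cM * Ψ s) * DM := by
      have a1 : Commute DM cM := hcD.symm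
      exact ((a1.mul_right a1).mul_right (hDΨ' s)).eq
    have h2 := congrArg con.dE h1
    rw [con.dE_mul DM, con.dE_mul (cM * cM * Ψ s) DM, hd0, mul_zero, add_zero, zero_mul,
      zero_add] at h2
    exact h2
  refine ⟨c • (con.dE DM * kM), ((con.desc hDM).mul hkM).smul c, ?_⟩
  rw [map_smul, hT.mul f.ns, TkM, Tδ]
  refine Submodule.smul_mem _ _ (ZP.first_mem (t := c) (fun x y => hT.mul f.ns x y) ⟨e1, e2, ?_⟩ TkM
    (by rw [mul_one, one_mul]) hcΨ Tδ (mul_one _) (one_mul _) (hnil _ hδc) hδc)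
  intro x
  rw [hcM]
  simp only [add_mul, mul_add, one_mul, mul_one, smul_mul_assoc, mul_smul_comm, smul_sub]
  abel


end conn

section geo

variable {ι : Type*} [Fintype ι] [DecidableEq ι] {δ : Type*} [Fintype δ] [DecidableEq δ]
variable {a : Type*} [Fintype a] [DecidableEq a]
variable {k K : Type*} [Field k] [Field K] [Algebra k K]
variable {arm : δ → Fin 3} {J : Matrix ι ι K} {B : Matrix δ δ K}
  {N W : Submodule K (Matrix ι δ K)} {F G : Matrix ι δ K} {p : Matrix ι a K}
  {al : Fin 3 → Matrix a a K} {τ : Matrix a a K}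
variable {M : Type*} [AddCommGroup M] [Module K M] {β : LinearMap.BilinForm K M}
  {π : (a → K) →ₗ[K] M} {T : End K M →ₗ[K] End K M} {Ψ : Fin 3 → End K M} {DM : End K M}

/-- the frame derivative of the Gram matrix, from `Data` alone -/
theorem der_gam (hD : Data k arm J B N W) {d : Derivation k K K} {θ : Matrix a a K}
    (hθ : p.map d = p * θ) :
    (pᵀ * J * p).map d = θᵀ * (pᵀ * J * p) + (pᵀ * J * p) * θ := by
  rw [map_mul_der, map_mul_der, map_transpose_der, hθ, hD.J_const, Matrix.mul_zero,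
    add_zero, transpose_mul]
  simp only [Matrix.mul_assoc]


/-- **(Z1), geometric form**: the correction of `FC.Ctx.firstQ`. -/
theorem firstQ_ZZ (h : FC.Ctx k arm J B N W F G p al τ) {c : K} {kap kai : Matrix a a K}
    (hp : FC.Par k arm J B N W F G p τ c kap kai) (f : Fr β (pᵀ * J * p) π) (hT : Adj β T)
    (hΨ : ∀ s, Desc π (al s) (Ψ s)) (hDM : Desc π τ DM)
    (hnil : ∀ x : End K M, (∀ s, x * ((1 + c • DM) * (1 + c • DM) * Ψ s) =
      ((1 + c • DM) * (1 + c • DM) * Ψ s) * x) → NilAt (adE DM) x)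
    {χ : Fin 3 → Matrix a a K}
    (hχ0 : ∀ s, (pᵀ * J * p) * (χ s * (pᵀ * J * p) * (al s * (kap * kap)) -
      al s * (kap * kap) * (χ s * (pᵀ * J * p))) = 0)
    {d : Derivation k K K} {θ : Matrix a a K} (hθ : p.map d = p * θ)
    (hsa : (pᵀ * J * p) * nab d θ τ = (nab d θ τ)ᵀ * (pᵀ * J * p))
    (hnab : ∀ s, p * nab d θ (al s * (kap * kap)) =
      p * (χ s * (pᵀ * J * p) * (al s * (kap * kap)) -
        al s * (kap * kap) * (χ s * (pᵀ * J * p)))) :
    ∃ zM, Desc π (c • (nab d θ τ * kai)) zM ∧ T zM ∈ ZP.ZZ T 1 DM Ψ := by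
  obtain ⟨Dn, con⟩ := f.exists_conn (h.der_gam hp hθ)
  refine first_ZZ f con hT hΨ hDM hp.kap_eq hp.mul (h.kai_sa hp) (h.kap_al hp) hsa ?_ hnil
  intro s
  have h1 := hnab s
  have h2 := hχ0 s
  rw [Matrix.mul_assoc (pᵀ * J) p, ← h1] at h2
  rw [Matrix.mul_assoc (pᵀ * J) p]
  exact h2



end geo

section core

open Crest.Agent.R172.TG

variable {ι : Type*} [Fintype ι] [DecidableEq ι] {δ : Type*} [Fintype δ] [DecidableEq δ]
variable {a : Type*} [Fintype a] [DecidableEq a]
variable {K : Type*} [Field K]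
variable {J : Matrix ι ι K} {W : Submodule K (Matrix ι δ K)} {F : Matrix ι δ K}
  {P : Submodule K (ι → K)} {e : Matrix ι ι K} {M : Submodule K (ι → K)} {p : Matrix ι a K}

/-- the projection of the frame `p` of `P` to the core `M = im e` -/
def pi (e : Matrix ι ι K) (hM : ∀ v, v ∈ M ↔ ∃ w, v = e *ᵥ w) (p : Matrix ι a K) :
    (a → K) →ₗ[K] M := prM e hM ∘ₗ Matrix.mulVecLin p




end core

end Crest.Agent.R172.RDZ
end

-- ▼ part R172/RDfirst1

/-!
Row 172 (S0260), T0, any radical, any `D`: the first derivative, decorated (`RD.first`), from `pick`.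
-/

set_option autoImplicit false
set_option linter.unusedSectionVars false

namespace Crest.Agent.R172.RDF1

open Matrix Module TensorProduct Crest.Agent.R172.FO Crest.Agent.R172.FrmB
open Crest.Agent.R172.RD
open Crest.Agent.R172.Core (NS Tame)
open Crest.Agent.R172.PL (Wk)
open Crest.Agent.R172.FC (nab)
open Crest.Agent.R172.ZP (NilAt adE)

variable {ι : Type*} [Fintype ι] [DecidableEq ι] {δ : Type*} [Fintype δ] [DecidableEq δ]
variable {n : Type*} [Fintype n] [DecidableEq n]
variable {k K : Type*} [Field k] [Field K] [Algebra k K]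
variable {M : Type*} [AddCommGroup M] [Module K M]
variable {m : Type*} [Fintype m] [DecidableEq m]

theorem sub_swap {A : Type*} [AddCommGroup A] {x y u v : A} (h : x - u = y - v) :
    x - y = u - v := by
  have : x = y - v + u := by rw [← h]; abel
  rw [this]; abel

section off

variable {e : m → Matrix n n K}

theorem off_add (A A' : Matrix n n K) : off e (A + A') = off e A + off e A' := by
  unfold off
  simp only [Matrix.mul_add, Matrix.add_mul, Finset.sum_add_distrib]
  abel

theorem off_sub (A A' : Matrix n n K) : off e (A - A') = off e A - off e A' := by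
  unfold off
  simp only [Matrix.mul_sub, Matrix.sub_mul, Finset.sum_sub_distrib]
  abel

theorem off_smul (c : K) (A : Matrix n n K) : off e (c • A) = c • off e A := by
  unfold off
  simp only [Matrix.mul_smul, Matrix.smul_mul, ← Finset.smul_sum, smul_sub]

theorem off_mul_right {X : Matrix n n K} (hX : ∀ l, e l * X = X * e l) (A : Matrix n n K) :
    off e (A * X) = off e A * X := by
  unfold off
  rw [Matrix.sub_mul, Matrix.sum_mul]
  congr 1
  refine Finset.sum_congr rfl fun l _ => ?_
  simp only [Matrix.mul_assoc, hX]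

theorem off_mul_left {X : Matrix n n K} (hX : ∀ l, e l * X = X * e l) (A : Matrix n n K) :
    off e (X * A) = X * off e A := by
  unfold off
  rw [Matrix.mul_sub, Matrix.mul_sum]
  congr 1
  refine Finset.sum_congr rfl fun l _ => ?_
  rw [← Matrix.mul_assoc, ← Matrix.mul_assoc, hX]
  simp only [Matrix.mul_assoc]

theorem off_comm (idem : ∀ i, e i * e i = e i) (sumE : ∑ i, e i = 1) {X : Matrix n n K}
    (hX : ∀ l, e l * X = X * e l) : off e X = 0 := by
  unfold off
  have : ∀ l, e l * X * e l = X * e l := fun l => by rw [hX, Matrix.mul_assoc, idem]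
  simp only [this]
  rw [← Matrix.mul_sum, sumE, Matrix.mul_one, sub_self]

theorem off_blk (orth : ∀ i j, i ≠ j → e i * e j = 0) {i j : m} (hij : i ≠ j) {A : Matrix n n K}
    (hA : e i * A * e j = A) : off e A = A := by
  unfold off
  have : ∀ l, e l * A * e l = 0 := by
    intro l
    by_cases hl : l = i
    · subst hl
      rw [← hA, Matrix.mul_assoc, Matrix.mul_assoc _ (e j), orth j l (fun h => hij h.symm),
        Matrix.mul_zero, Matrix.mul_zero]
    · rw [← hA, Matrix.mul_assoc (e i), ← Matrix.mul_assoc (e l), orth l i hl, Matrix.zero_mul,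
        Matrix.zero_mul]
  simp only [this, Finset.sum_const_zero, sub_zero]

theorem map_comm_e {d : Derivation k K K} (eC : ∀ i, (e i).map d = 0) {X : Matrix n n K}
    (hX : ∀ l, e l * X = X * e l) (l : m) : e l * X.map d = X.map d * e l := by
  have h1 := congrArg (fun A : Matrix n n K => A.map d) (hX l)
  simp only [map_mul_der, eC, Matrix.zero_mul, Matrix.mul_zero, add_zero, zero_add] at h1
  exact h1

end off

variable {arm : δ → Fin 3} {J : Matrix ι ι K} {B : Matrix δ δ K}
  {N W : Submodule K (Matrix ι δ K)} {F G : Matrix ι δ K} {p : Matrix ι n K}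
  {al : Fin 3 → Matrix n n K} {tau : Matrix n n K}
  {β : LinearMap.BilinForm K M} {T : Module.End K M →ₗ[K] Module.End K M}
  {Ψ : Fin 3 → Module.End K M} {D : Module.End K M} {π : (n → K) →ₗ[K] M}
  {e : m → Matrix n n K} {lam : m → K} {l : Fin 3 → ℕ} {TT : Set k}

/-- the frame in the sense of `RDZ` -/
theorem fr (h : Fr k arm J B N W F G p al tau β T Ψ D π e lam l TT) :
    RDZ.Fr β (pᵀ * J * p) π := ⟨h.cr.ns, h.cr.onto, h.cr.form⟩

theorem adj (h : Fr k arm J B N W F G p al tau β T Ψ D π e lam l TT) : RDZ.Adj β T := h.cr.adj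

/-- block diagonal operators of the core are ad-nilpotent -/
theorem nilAt (h : Fr k arm J B N W F G p al tau β T Ψ D π e lam l TT) {A : Module.End K M}
    (hA : ∀ i j, i ≠ j → ∀ x y, β (A (π (e i *ᵥ x))) (π (e j *ᵥ y)) = 0) : NilAt (adE D) A := by
  have f := fr h
  have hE : ∀ i, ∃ x, RDZ.Desc π (e i) x := fun i => f.exists_desc_sa (h.eg i).symm
  choose E hE using hE
  have hD : RDZ.Desc π tau D := h.ptau
  have E1 : ∀ i, E i * E i = E i := fun i => ((hE i).mul (hE i)).eq_of_eq f (hE i) (h.idem i)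
  have E0 : ∀ i j, i ≠ j → E i * E j = 0 := fun i j hij => by
    refine ((hE i).mul (hE j)).eq_of_eq f (z' := 0) ?_ (h.orth i j hij)
    intro y
    rw [zero_mulVec, map_zero, LinearMap.zero_apply]
  have dsum : ∀ (f' : m → Matrix n n K) (x' : m → Module.End K M) (S : Finset m),
      (∀ i, RDZ.Desc π (f' i) (x' i)) → RDZ.Desc π (∑ i ∈ S, f' i) (∑ i ∈ S, x' i) := by
    intro f' x' S hf
    classical
    induction S using Finset.induction_on with
    | empty =>
      intro y
      rw [Finset.sum_empty, Finset.sum_empty, zero_mulVec, map_zero, LinearMap.zero_apply]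
    | insert a S ha ih =>
      rw [Finset.sum_insert ha, Finset.sum_insert ha]
      exact (hf a).add ih
  have Es : ∑ i, E i = 1 := (dsum e E _ hE).eq_of_eq f RDZ.Desc.one h.sumE
  have ED : ∀ i, E i * D = D * E i := fun i =>
    ((hE i).mul hD).eq_of_eq f (hD.mul (hE i)) (h.etau i)
  have Eadj : ∀ i u v, β (E i u) v = β u (E i v) := by
    intro i u v
    have := (adj h).of_desc f (hE i) (hE i) (h.eg i).symm
    rw [this, (adj h), ← this]
  -- `A` commutes with the `E i`
  have hA0 : ∀ i j, i ≠ j → E j * A * E i = 0 := by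
    intro i j hij
    ext u
    refine f.ns.nd _ fun v => ?_
    obtain ⟨x, rfl⟩ := f.sur u
    obtain ⟨y, rfl⟩ := f.sur v
    rw [Module.End.mul_apply, Module.End.mul_apply, Eadj, ← hE, ← hE]
    exact hA i j hij x y
  have hAE : ∀ i, A * E i = E i * A := by
    intro i
    have e1 : A * E i = E i * A * E i := by
      calc A * E i = (∑ j, E j) * (A * E i) := by rw [Es, one_mul]
        _ = ∑ j, E j * A * E i := by
          rw [Finset.sum_mul]; simp only [mul_assoc]
        _ = _ := by
          rw [Finset.sum_eq_single i]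
          · intro j _ hj
            exact hA0 i j (fun h => hj h.symm)
          · intro h; exact absurd (Finset.mem_univ i) h
    have e2 : E i * A = E i * A * E i := by
      calc E i * A = (E i * A) * ∑ j, E j := by rw [Es, mul_one]
        _ = ∑ j, E i * A * E j := by rw [Finset.mul_sum]
        _ = _ := by
          rw [Finset.sum_eq_single i]
          · intro j _ hj
            exact hA0 j i hj
          · intro h; exact absurd (Finset.mem_univ i) h
    rw [e1, ← e2]
  -- the nilpotent part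
  obtain ⟨Nn, hNn⟩ : ∃ Nn : m → Module.End K M, Nn = fun i => (D - lam i • (1 : End K M)) * E i :=
    ⟨_, rfl⟩
  have hN : ∀ i, IsNilpotent (Nn i) := by
    intro i
    obtain ⟨r, hr⟩ := h.nil i
    have hd : RDZ.Desc π ((tau - lam i • (1 : Matrix n n K)) * e i) (Nn i) := by
      rw [hNn]
      exact (hD.sub (RDZ.Desc.one.smul (lam i))).mul (hE i)
    have hpw : ∀ r : ℕ, RDZ.Desc π (((tau - lam i • (1 : Matrix n n K)) * e i) ^ r) (Nn i ^ r) := by
      intro r
      induction r with
      | zero => rw [pow_zero, pow_zero]; exact RDZ.Desc.one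
      | succ r ih => rw [pow_succ, pow_succ]; exact ih.mul hd
    refine ⟨r, (hpw r).eq_of_eq f (z' := 0) ?_ hr⟩
    intro y
    rw [zero_mulVec, map_zero, LinearMap.zero_apply]
  have hNc : ∀ i j, Commute (Nn i) (Nn j) := by
    intro i j
    by_cases hij : i = j
    · subst hij; exact Commute.refl _
    · have z1 : ∀ i j, i ≠ j → Nn i * Nn j = 0 := by
        intro i j hij
        have c1 : E i * (D - lam j • (1 : End K M)) = (D - lam j • (1 : End K M)) * E i := by
          rw [mul_sub, sub_mul, ED, mul_smul_comm, smul_mul_assoc, mul_one, one_mul]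
        rw [hNn]
        change (D - lam i • (1 : End K M)) * E i * ((D - lam j • (1 : End K M)) * E j) = 0
        rw [mul_assoc, ← mul_assoc (E i), c1, mul_assoc _ (E i), E0 i j hij, mul_zero, mul_zero]
      change Nn i * Nn j = Nn j * Nn i
      rw [z1 i j hij, z1 j i (fun h => hij h.symm)]
  have hNs : IsNilpotent (∑ i, Nn i) :=
    Commute.isNilpotent_sum (fun i _ => hN i) (fun i j _ _ => hNc i j)
  obtain ⟨Dn, hDn⟩ : ∃ Dn, Dn = ∑ i, Nn i := ⟨_, rfl⟩
  obtain ⟨Ds, hDs⟩ : ∃ Ds : Module.End K M, Ds = ∑ i, lam i • E i := ⟨_, rfl⟩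
  have hsum : D = Dn + Ds := by
    rw [hDn, hDs, ← Finset.sum_add_distrib]
    have : ∀ i, Nn i + lam i • E i = D * E i := by
      intro i
      rw [hNn]
      change (D - lam i • (1 : End K M)) * E i + lam i • E i = _
      rw [sub_mul, smul_mul_assoc, one_mul, sub_add_cancel]
    simp only [this]
    rw [← Finset.mul_sum, Es, mul_one]
  have hDsD : Commute D Ds := by
    rw [hDs]
    refine Commute.sum_right _ _ _ fun i _ => ?_
    exact ((show Commute D (E i) from (ED i).symm).smul_right (lam i))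
  have hDsN : Commute Dn Ds := by
    have : Dn = D - Ds := by rw [hsum]; abel
    rw [this]
    exact hDsD.sub_left (Commute.refl Ds)
  have hDsA : Commute Ds A := by
    rw [hDs]
    refine Commute.sum_left _ _ _ fun i _ => ?_
    exact ((show Commute (E i) A from (hAE i).symm).smul_left (lam i))
  have had : adE D = adE Dn + adE Ds := by
    refine AddMonoidHom.ext fun x => ?_
    change D * x - x * D = (Dn * x - x * Dn) + (Ds * x - x * Ds)
    rw [hsum]
    noncomm_ring
  rw [had]
  refine NilAt.add_op ?_ ?_ ⟨1, ?_⟩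
  · change adE Dn * adE Ds = adE Ds * adE Dn
    refine AddMonoidHom.ext fun x => ?_
    change Dn * (Ds * x - x * Ds) - (Ds * x - x * Ds) * Dn =
      Ds * (Dn * x - x * Dn) - (Dn * x - x * Dn) * Ds
    have c := hDsN.eq
    calc Dn * (Ds * x - x * Ds) - (Ds * x - x * Ds) * Dn
        = (Dn * Ds) * x - Dn * x * Ds - Ds * x * Dn + x * (Ds * Dn) := by noncomm_ring
      _ = (Ds * Dn) * x - Dn * x * Ds - Ds * x * Dn + x * (Dn * Ds) := by rw [c]
      _ = _ := by noncomm_ring
  · exact ZPM.nil_ad_of_nilpotent (hDn ▸ hNs) A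
  · rw [pow_one]
    change Ds * A - A * Ds = 0
    rw [hDsA.eq, sub_self]


/-- **RD1**: FIRST, decorated, from the choice of the connection -/
theorem first_core [CharZero K] (h : Fr k arm J B N W F G p al tau β T Ψ D π e lam l TT)
    {i j : m} (hij : i ≠ j) {t : k} (ht : t ∈ TT) {kap kai : Matrix n n K}
    (hp : FC.Par k arm J B N W F G p tau (algebraMap k K t) kap kai)
    {x : Fin 3 → Matrix n n K} {b kk : Matrix n n K}
    (hx : Dec (pᵀ * J * p) π e i j (fun r => al r * (kap * kap)) (fun r => al r * (kap * kap)) x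
      b kk)
    (hpick : ∀ (d : Derivation k K K) (θ0 : Matrix n n K), p.map d = p * θ0 →
      ∀ (U : Fin 3 → Matrix n n K), (∀ s, p * FC.nab d θ0 (al s * (kap * kap)) = p * U s) →
      ∀ (C : Matrix n n K), off e C = C → (∀ u, π (C *ᵥ u) = 0) →
      (∀ s, off e (U s) = C * (al s * (kap * kap)) - al s * (kap * kap) * C) →
      ∃ θ, p.map d = p * θ ∧ off e θ = C) :
    RS arm J B N W F p T Ψ π e
      (fun r => kai * (x r - (x r)ᵀ) * kapᵀ - (x r - (x r)ᵀ))
      ((b - kap * b * kai) + (kk - kap * kk * kai))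
      (fun r => (kai * b * kap - b) * al r + (kai * kk * kap - kk) * al r) := by
  obtain ⟨c, hc⟩ : ∃ c : K, c = algebraMap k K t := ⟨_, rfl⟩
  rw [← hc] at hp
  obtain ⟨χ, hχd⟩ : ∃ χ : Fin 3 → Matrix n n K, χ = fun r => x r - (x r)ᵀ := ⟨_, rfl⟩
  have hχr : ∀ r, χ r = x r - (x r)ᵀ := fun r => by rw [hχd]
  have hχ : ∀ s, (χ s)ᵀ = - χ s := by
    intro s
    rw [hχr, transpose_sub, transpose_transpose, neg_sub]
  have hex : ∑ s, (χ s * (kap * kap)ᵀ * (al s)ᵀ - al s * (kap * kap) * χ s) = 0 := by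
    have h1 := hx.sum
    have h2 := congrArg transpose h1
    rw [transpose_sum, transpose_zero] at h2
    rw [← sub_zero (0 : Matrix n n K)]
    nth_rw 1 [← h1]
    rw [← neg_zero, ← h2, ← Finset.sum_neg_distrib, ← Finset.sum_sub_distrib]
    refine Finset.sum_congr rfl fun r _ => ?_
    rw [hχr]
    simp only [transpose_sub, transpose_mul, transpose_transpose, Matrix.mul_sub, Matrix.sub_mul,
      Matrix.mul_assoc]
    abel
  obtain ⟨d, ξ, θ0, hreal, hθ0, -, hdH, hW, hleft, hdbs, -, hβ⟩ := h.ctx.first0 hp χ hχ hex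
  obtain ⟨γ, hγ⟩ : ∃ γ : Matrix n n K, γ = pᵀ * J * p := ⟨_, rfl⟩
  obtain ⟨Q, hQ⟩ : ∃ Q : Matrix δ n K, Q = Fᵀ * J * p := ⟨_, rfl⟩
  obtain ⟨C, hCd⟩ : ∃ C : Matrix n n K, C = b + kk := ⟨_, rfl⟩
  -- `χ γ P - P χ γ = C P - P C`
  have hU : ∀ s, χ s * γ * (al s * (kap * kap)) - al s * (kap * kap) * (χ s * γ) =
      C * (al s * (kap * kap)) - al s * (kap * kap) * C := by
    intro s
    have h1 := hx.eb s
    have h2 := hx.ek s
    rw [← hγ] at h1 h2
    rw [hχr, hCd]
    simp only [Matrix.mul_add, Matrix.add_mul, Matrix.mul_sub, Matrix.sub_mul] at h1 h2 ⊢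
    have h3 : (x s)ᵀ * γ * (al s * (kap * kap)) = al s * (kap * kap) * b +
        al s * (kap * kap) * ((x s)ᵀ * γ) - b * (al s * (kap * kap)) := by
      rw [h1]; abel
    have h4 : x s * γ * (al s * (kap * kap)) = kk * (al s * (kap * kap)) -
        (al s * (kap * kap) * kk - al s * (kap * kap) * (x s * γ)) := by
      rw [← h2]; abel
    rw [h3, h4]
    abel
  have hCo : off e C = C := by
    rw [hCd, off_add, off_blk h.orth hij hx.bb, off_blk h.orth (fun h => hij h.symm) hx.bk]
  have hCr : ∀ u, π (C *ᵥ u) = 0 := by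
    intro u
    rw [hCd, Matrix.add_mulVec, map_add, hx.rb, hx.rk, add_zero]
  have hek : ∀ l, e l * kap = kap * e l := by
    intro l
    rw [hp.kap_eq, Matrix.mul_add, Matrix.add_mul, Matrix.mul_one, Matrix.one_mul,
      Matrix.mul_smul, Matrix.smul_mul, h.etau]
  have heki : ∀ l, e l * kai = kai * e l := by
    intro l
    have h1 : kai * (e l * kap) * kai = kai * (kap * e l) * kai := by rw [hek]
    rw [← Matrix.mul_assoc kai kap, h.ctx.mul' hp, Matrix.one_mul, Matrix.mul_assoc kai,
      Matrix.mul_assoc (e l), hp.mul, Matrix.mul_one] at h1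
    exact h1.symm
  have heP : ∀ s l, e l * (al s * (kap * kap)) = al s * (kap * kap) * e l := by
    intro s l
    rw [← Matrix.mul_assoc, h.eal, Matrix.mul_assoc, ← Matrix.mul_assoc (e l), hek,
      Matrix.mul_assoc kap, hek]
    simp only [Matrix.mul_assoc]
  obtain ⟨θ, hθ, hoff⟩ := hpick d θ0 hθ0
    (fun s => χ s * (pᵀ * J * p) * (al s * (kap * kap)) -
      al s * (kap * kap) * (χ s * (pᵀ * J * p))) hβ C hCo hCr (by
      intro s
      rw [← hγ, hU, off_sub, off_mul_right (heP s), off_mul_left (heP s), hCo])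
  -- from `θ0` to `θ`
  have hpθ : p * (θ - θ0) = 0 := by rw [Matrix.mul_sub, ← hθ, ← hθ0, sub_self]
  have hQθ : Q * (θ - θ0) = 0 := by rw [hQ, Matrix.mul_assoc, hpθ, Matrix.mul_zero]
  have hQτ : Q * (tau * (θ - θ0)) = 0 := by
    rw [← Matrix.mul_assoc, hQ, ← h.ctx.hτ, Matrix.mul_assoc, hpθ, Matrix.mul_zero]
  have hQn : Q * nab d θ tau = Q * nab d θ0 tau := by
    rw [← sub_eq_zero, ← Matrix.mul_sub]
    have : nab d θ tau - nab d θ0 tau = (θ - θ0) * tau - tau * (θ - θ0) := by
      unfold nab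
      rw [Matrix.sub_mul, Matrix.mul_sub]; abel
    rw [this, Matrix.mul_sub, hQτ, ← Matrix.mul_assoc, hQθ, Matrix.zero_mul, sub_zero]
  obtain ⟨z, hz⟩ : ∃ z : Matrix n n K, z = c • (nab d θ tau * kai) := ⟨_, rfl⟩
  have hQz : Q * (c • (nab d θ0 tau * kai)) = Q * z := by
    rw [hz, Matrix.mul_smul, Matrix.mul_smul, ← Matrix.mul_assoc, ← Matrix.mul_assoc, hQn]
  have hbsQ : ∀ s (X : Matrix n n K), FC.bs arm J B F p s * X = E K arm s * B * (Q * X) := by
    intro s X
    unfold FC.bs
    rw [hQ]; simp only [Matrix.mul_assoc]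
  -- `w`
  obtain ⟨w, hw⟩ : ∃ w : Matrix ι δ K,
    w = io arm J F p (fun s => kai * χ s * kapᵀ) - F.map d := ⟨_, rfl⟩
  obtain ⟨μ, hμ⟩ : ∃ μ : Fin 3 → Matrix n n K, μ = fun s => kai * χ s * kapᵀ * (γ * al s) -
    al s * (kap * (χ s * (γ * kai))) - nab d θ (al s) - al s * z := ⟨_, rfl⟩
  have hkap := h.ctx.kap_sa hp
  rw [← hγ] at hkap
  refine ⟨w, z, μ, ?_, ?_, ?_, ?_, ?_, ?_, ?_⟩
  · -- `w ∈ W`
    rw [hw, ← FC.Ctx.famio]
    have := W.neg_mem hW
    rwa [neg_sub] at this
  · -- mod `N`
    have h1 := hreal.onN F h.ctx.memF.1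
    rw [FC.act_opF] at h1
    have e0 : (fun r => kai * (x r - (x r)ᵀ) * kapᵀ - (x r - (x r)ᵀ)) =
        fun s => kai * χ s * kapᵀ - χ s := by
      funext r; rw [hχr]
    rw [e0, hw, ← FC.Ctx.famio, ← FC.Ctx.famio, ← FC.fam_sub (fun s => kai * χ s * kapᵀ) χ]
    have e : FC.fam arm J F p (fun s => kai * χ s * kapᵀ) - FC.fam arm J F p χ -
        (FC.fam arm J F p (fun s => kai * χ s * kapᵀ) - F.map d) =
        F.map d - FC.fam arm J F p χ := by abel
    rw [e]
    exact h1
  · -- the right value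
    rw [hw, ← FC.Ctx.famio]
    have e : FC.fam arm J F p (fun s => kai * χ s * kapᵀ) - F.map d =
        -(F.map d - FC.fam arm J F p (fun s => kai * χ s * kapᵀ)) := by abel
    rw [e, transpose_neg, Matrix.neg_mul, Matrix.neg_mul, hleft, Matrix.mul_neg, neg_neg, ← hQ,
      hQz]
  · -- the left action
    intro s
    have h1 := congrArg (fun A : Matrix ι n K => A.map d) (h.ctx.Fbs s)
    simp only [map_mul_der, hdbs s, hθ] at h1
    have hb : FC.bs arm J B F p s * (kap * ((χ s)ᵀ * ((pᵀ * J * p) * kai)) +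
        -(c • (nab d θ0 tau * kai)) + θ0) = FC.bs arm J B F p s *
        (kap * ((χ s)ᵀ * (γ * kai)) - z + θ) := by
      rw [hbsQ, hbsQ]
      congr 1
      rw [Matrix.mul_add, Matrix.mul_add, Matrix.mul_neg, hQz, Matrix.mul_add, Matrix.mul_sub,
        ← hγ]
      have : Q * θ = Q * θ0 := by
        rw [← sub_eq_zero, ← Matrix.mul_sub, hQθ]
      rw [this]; abel
    rw [hb, ← Matrix.mul_assoc F, h.ctx.Fbs] at h1
    have h2 : F.map d * FC.bs arm J B F p s = p * θ * al s + p * (al s).map d -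
        p * al s * (kap * ((χ s)ᵀ * (γ * kai)) - z + θ) := by
      rw [← h1]; abel
    have e : w * E K arm s * B * (Fᵀ * J * p) = FC.fam arm J F p (fun s => kai * χ s * kapᵀ) *
        FC.bs arm J B F p s - F.map d * FC.bs arm J B F p s := by
      rw [hw, ← FC.Ctx.famio]
      unfold FC.bs
      simp only [Matrix.sub_mul, Matrix.mul_assoc]
    rw [e, FC.fam_bs h.ctx.data, h2, h.ctx.Fbs, hμ, hχ]
    have e3 : pᵀ * J * (p * al s) = γ * al s := by rw [hγ, ← Matrix.mul_assoc]
    rw [e3]
    unfold nab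
    simp only [Matrix.mul_add, Matrix.mul_sub, Matrix.mul_assoc, Matrix.neg_mul, Matrix.mul_neg]
    abel
  · -- the correction space
    have hsa := h.ctx.nab_tau_sa hp hθ
    have hD : RDZ.Desc π tau D := h.ptau
    have hΨ : ∀ s, RDZ.Desc π (al s) (Ψ s) := fun s y => (h.cr.op s y).symm
    have hDΨ : ∀ s, D * Ψ s = Ψ s * D := fun s =>
      (hD.mul (hΨ s)).eq_of_eq (fr h) ((hΨ s).mul hD) (h.ctx.comm s)
    have g0 : ∀ X : Matrix n n K, (∀ u, π (X *ᵥ u) = 0) → γ * X = 0 := by
      intro X hX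
      ext a b'
      have := h.cr.form (Pi.single a 1) (X *ᵥ Pi.single b' 1)
      rw [hX, map_zero, ← hγ, mulVec_mulVec, single_one_dotProduct, mulVec_single_one] at this
      exact this.symm
    have hχ0 : ∀ s, (pᵀ * J * p) * (χ s * (pᵀ * J * p) * (al s * (kap * kap)) -
        al s * (kap * kap) * (χ s * (pᵀ * J * p))) = 0 := by
      intro s
      rw [← hγ, hU, Matrix.mul_sub, ← Matrix.mul_assoc, g0 C hCr, Matrix.zero_mul]
      rw [g0 _ (fun u => ?_), sub_zero]
      have hk : RDZ.Desc π kap (1 + c • D) := by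
        rw [hp.kap_eq]; exact RDZ.Desc.one.add (hD.smul c)
      have := ((hΨ s).mul (hk.mul hk)) (C *ᵥ u)
      rw [mulVec_mulVec] at this
      rw [this, hCr, map_zero]
    have hnab : ∀ s, p * nab d θ (al s * (kap * kap)) =
        p * (χ s * (pᵀ * J * p) * (al s * (kap * kap)) -
          al s * (kap * kap) * (χ s * (pᵀ * J * p))) := by
      intro s
      rw [← hβ s, ← sub_eq_zero, ← Matrix.mul_sub]
      have e1 : nab d θ (al s * (kap * kap)) - nab d θ0 (al s * (kap * kap)) =
          (θ - θ0) * (al s * (kap * kap)) - al s * (kap * kap) * (θ - θ0) := by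
        unfold nab
        rw [Matrix.sub_mul, Matrix.mul_sub]; abel
      rw [e1, Matrix.mul_sub, ← Matrix.mul_assoc, hpθ, Matrix.zero_mul, ← Matrix.mul_assoc p,
        ← h.ctx.PhiHp hp, Matrix.mul_assoc, hpθ, Matrix.mul_zero, sub_zero]
    have hnil : ∀ y : End K M, (∀ s, y * ((1 + c • D) * (1 + c • D) * Ψ s) =
        ((1 + c • D) * (1 + c • D) * Ψ s) * y) → NilAt (adE D) y := by
      intro y hy
      refine nilAt h (h.hom t (Or.inl ht) y fun s u => ?_)
      rw [← hc]
      have hcom : (1 + c • D) * (1 + c • D) * Ψ s = Ψ s * ((1 + c • D) * (1 + c • D)) := by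
        have c1 : Commute (1 + c • D) (Ψ s) :=
          (Commute.one_left _).add_left ((show Commute D (Ψ s) from hDΨ s).smul_left c)
        exact (c1.mul_left c1).eq
      have h1 := hy s
      rw [hcom] at h1
      exact LinearMap.congr_fun h1 u
    obtain ⟨zM, z1, z2⟩ := RDZ.firstQ_ZZ h.ctx hp (fr h) (adj h) hΨ hD hnil hχ0 hθ hsa hnab
    rw [hz]
    exact ⟨zM, z1, ZFr.ZZ_le_zero z2⟩
  · -- off-diagonal part of `z`
    have e1 : off e (nab d θ tau) = C * tau - tau * C := by
      unfold nab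
      rw [off_sub, off_add, off_comm h.idem h.sumE (map_comm_e (fun i => h.eC i d) h.etau),
        off_mul_right h.etau, off_mul_left h.etau, hoff, zero_add]
    have e2 : c • (C * tau - tau * C) = C * kap - kap * C := by
      rw [hp.kap_eq, Matrix.mul_add, Matrix.add_mul, Matrix.mul_one, Matrix.one_mul,
        Matrix.mul_smul, Matrix.smul_mul, smul_sub]
      abel
    rw [hz, off_smul, off_mul_right heki, e1, ← Matrix.smul_mul, e2, Matrix.sub_mul,
      Matrix.mul_assoc, hp.mul, Matrix.mul_one, hCd]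
    simp only [Matrix.mul_add, Matrix.add_mul]
    abel
  · -- off-diagonal part of `μ`
    intro s
    have ez : off e z = C - kap * C * kai := by
      have e1 : off e (nab d θ tau) = C * tau - tau * C := by
        unfold nab
        rw [off_sub, off_add, off_comm h.idem h.sumE (map_comm_e (fun i => h.eC i d) h.etau),
          off_mul_right h.etau, off_mul_left h.etau, hoff, zero_add]
      have e2 : c • (C * tau - tau * C) = C * kap - kap * C := by
        rw [hp.kap_eq, Matrix.mul_add, Matrix.add_mul, Matrix.mul_one, Matrix.one_mul,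
          Matrix.mul_smul, Matrix.smul_mul, smul_sub]
        abel
      rw [hz, off_smul, off_mul_right heki, e1, ← Matrix.smul_mul, e2, Matrix.sub_mul,
        Matrix.mul_assoc, hp.mul, Matrix.mul_one]
    have en : off e (nab d θ (al s)) = C * al s - al s * C := by
      unfold nab
      rw [off_sub, off_add, off_comm h.idem h.sumE (map_comm_e (fun i => h.eC i d)
        (fun l => h.eal l s)), off_mul_right (fun l => h.eal l s), off_mul_left (fun l => h.eal l s),
        hoff, zero_add]
    have hχo : off e (χ s * γ) = χ s * γ := by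
      have c1 : e j * (x s * γ) * e i = x s * γ := by
        have h1 := hx.bx s
        calc e j * (x s * γ) * e i = e j * x s * (γ * e i) := by simp only [Matrix.mul_assoc]
          _ = (e j * x s * (e i)ᵀ) * γ := by rw [hγ, ← h.eg]; simp only [Matrix.mul_assoc]
          _ = _ := by rw [h1]
      have c2 : e i * ((x s)ᵀ * γ) * e j = (x s)ᵀ * γ := by
        have h1 : e i * (x s)ᵀ * (e j)ᵀ = (x s)ᵀ := by
          conv_rhs => rw [← hx.bx s]
          simp only [transpose_mul, transpose_transpose, Matrix.mul_assoc]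
        calc e i * ((x s)ᵀ * γ) * e j = e i * (x s)ᵀ * (γ * e j) := by simp only [Matrix.mul_assoc]
          _ = (e i * (x s)ᵀ * (e j)ᵀ) * γ := by rw [hγ, ← h.eg]; simp only [Matrix.mul_assoc]
          _ = _ := by rw [h1]
      rw [hχr, Matrix.sub_mul, off_sub, off_blk h.orth (fun h => hij h.symm) c1,
        off_blk h.orth hij c2]
    have hka : ∀ l, e l * (kap * al s) = kap * al s * e l := by
      intro l
      rw [← Matrix.mul_assoc, hek, Matrix.mul_assoc, h.eal, Matrix.mul_assoc]
    have hal : ∀ l, e l * (al s * kap) = al s * kap * e l := by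
      intro l
      rw [← Matrix.mul_assoc, h.eal, Matrix.mul_assoc, hek, Matrix.mul_assoc]
    have e0 : μ s = kai * ((χ s * γ) * (kap * al s)) - al s * kap * ((χ s * γ) * kai) -
        nab d θ (al s) - al s * z := by
      rw [hμ]
      have : kapᵀ * (γ * al s) = γ * (kap * al s) := by
        rw [← Matrix.mul_assoc, ← hkap, Matrix.mul_assoc]
      simp only [Matrix.mul_assoc] at this ⊢
      rw [this]
    have hQ' : (χ s * γ - C) * (al s * (kap * kap)) = al s * (kap * kap) * (χ s * γ - C) := by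
      have := hU s
      rw [Matrix.sub_mul, Matrix.mul_sub]
      exact sub_swap this
    have hka2 : kap * al s = al s * kap := h.ctx.kap_al hp s
    have hfin : kai * ((χ s * γ - C) * (kap * al s)) = al s * kap * ((χ s * γ - C) * kai) := by
      obtain ⟨R, hR⟩ : ∃ R : Matrix n n K, R = χ s * γ - C := ⟨_, rfl⟩
      rw [← hR] at hQ' ⊢
      have k1 : R * (kap * al s) * kap = kap * (al s * kap) * R := by
        have e5 : R * (kap * al s) * kap = R * (al s * (kap * kap)) := by
          rw [hka2]; simp only [Matrix.mul_assoc]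
        have e6 : kap * (al s * kap) * R = al s * (kap * kap) * R := by
          rw [← Matrix.mul_assoc kap, hka2]; simp only [Matrix.mul_assoc]
        rw [e5, e6, hQ']
      calc kai * (R * (kap * al s)) = kai * (R * (kap * al s) * kap) * kai := by
            simp only [Matrix.mul_assoc]
            rw [hp.mul, Matrix.mul_one]
        _ = kai * (kap * (al s * kap) * R) * kai := by rw [k1]
        _ = (kai * kap) * (al s * kap * (R * kai)) := by simp only [Matrix.mul_assoc]
        _ = _ := by rw [h.ctx.mul' hp, Matrix.one_mul]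
    have e7 : off e (μ s) = kai * ((χ s * γ) * (kap * al s)) - al s * kap * ((χ s * γ) * kai) -
        (C * al s - al s * C) - al s * (C - kap * C * kai) := by
      rw [e0, off_sub, off_sub, off_sub, off_mul_left heki, off_mul_right hka, hχo,
        off_mul_left hal, off_mul_right heki, hχo, en, off_mul_left (fun l => h.eal l s), ez]
    have e8 : kai * ((χ s * γ) * (kap * al s)) - al s * kap * ((χ s * γ) * kai) =
        kai * (C * (kap * al s)) - al s * kap * (C * kai) := by
      have := hfin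
      simp only [Matrix.sub_mul, Matrix.mul_sub] at this
      exact sub_swap this
    rw [e7, e8]
    change _ = (kai * b * kap - b) * al s + (kai * kk * kap - kk) * al s
    have e9 : (kai * b * kap - b) * al s + (kai * kk * kap - kk) * al s =
        (kai * C * kap - C) * al s := by
      rw [hCd]; simp only [Matrix.mul_add, Matrix.add_mul, Matrix.sub_mul]; abel
    rw [e9]
    simp only [Matrix.mul_sub, Matrix.sub_mul, Matrix.mul_assoc]
    abel

end Crest.Agent.R172.RDF1
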