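import Crest.Agent.R172.RDfalse47_Mg
import Crest.Agent.R172.N5a
import Crest.Agent.R172.Fin3
import Crest.Agent.R172.QN1
import Crest.Agent.R172.CoreP
import Crest.Agent.R172.ThX3
import Crest.Agent.R172.NilBr3
import Crest.Agent.R172.Cov
import Crest.Agent.R172.CovI
import Crest.Agent.R172.RGen
import Crest.Agent.R172.RJM
import Crest.Agent.R172.EndR
import Crest.Agent.R172.TameCount4
import Crest.Agent.R172.QBlk2
import Crest.Agent.R172.FrU
import Crest.Agent.R172.RRk
import Crest.Agent.R172.Pt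
import Crest.Agent.R172.PairLift1
import Crest.Agent.R172.RDfrA
import Crest.Agent.R172.RDIn
import Crest.Agent.R172.CovF
import Crest.Agent.R172.Dual1

-- ▼ part R172/RDGlue2
section

/-!
Row 172 (S0260), `RD`: `FalseFr` from the five statements.
-/

set_option autoImplicit false
set_option linter.unusedSectionVars false

namespace Crest.Agent.R172.RD

open Matrix Module TensorProduct Crest.Agent.R172.FO Crest.Agent.R172.FrmB
open Crest.Agent.R172.Core (NS Tame)

/-- the five statements at the level of types used by the final assembly -/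
structure Five : Prop where
  first : ∀ {ι δ n m : Type} [Fintype ι] [DecidableEq ι] [Fintype δ] [DecidableEq δ] [Fintype n]
    [DecidableEq n] [Fintype m] [DecidableEq m] {K M : Type} [Field K] [Algebra ℂ K] [CharZero K]
    [AddCommGroup M] [Module K M] [FiniteDimensional K M] {arm : δ → Fin 3} {J : Matrix ι ι K}
    {B : Matrix δ δ K} {N W : Submodule K (Matrix ι δ K)} {F G : Matrix ι δ K}
    {p : Matrix ι n K} {al : Fin 3 → Matrix n n K} {tau : Matrix n n K}
    {β : LinearMap.BilinForm K M} {T : Module.End K M →ₗ[K] Module.End K M}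
    {Ψ : Fin 3 → Module.End K M} {D : Module.End K M} {π : (n → K) →ₗ[K] M}
    {e : m → Matrix n n K} {lam : m → K} {l : Fin 3 → ℕ} {TT : Set ℂ},
    Fr ℂ arm J B N W F G p al tau β T Ψ D π e lam l TT →
    (∀ s v, D (Ψ s v) = Ψ s (D v)) → ⨆ ν, D.maxGenEigenspace ν = ⊤ →
    ∀ i j : m, i ≠ j → FirstP ℂ arm J B N W F G p al tau T Ψ π e TT i j
  halves : ∀ {ι δ n m : Type} [Fintype ι] [DecidableEq ι] [Fintype δ] [DecidableEq δ] [Fintype n]
    [DecidableEq n] [Fintype m] [DecidableEq m] {K M : Type} [Field K] [Algebra ℂ K] [CharZero K]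
    [AddCommGroup M] [Module K M] [FiniteDimensional K M] {arm : δ → Fin 3} {J : Matrix ι ι K}
    {B : Matrix δ δ K} {N W : Submodule K (Matrix ι δ K)} {F G : Matrix ι δ K}
    {p : Matrix ι n K} {al : Fin 3 → Matrix n n K} {tau : Matrix n n K}
    {β : LinearMap.BilinForm K M} {T : Module.End K M →ₗ[K] Module.End K M}
    {Ψ : Fin 3 → Module.End K M} {D : Module.End K M} {π : (n → K) →ₗ[K] M}
    {e : m → Matrix n n K} {lam : m → K} {l : Fin 3 → ℕ} {TT : Set ℂ},
    Fr ℂ arm J B N W F G p al tau β T Ψ D π e lam l TT →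
    ∀ i j : m, i ≠ j → FirstP ℂ arm J B N W F G p al tau T Ψ π e TT i j →
      HalvesP arm J B N W F p al T Ψ π e i j
  off : ∀ {ι δ n m : Type} [Fintype ι] [DecidableEq ι] [Fintype δ] [DecidableEq δ] [Fintype n]
    [DecidableEq n] [Fintype m] [DecidableEq m] {K M : Type} [Field K] [Algebra ℂ K] [CharZero K]
    [AddCommGroup M] [Module K M] [FiniteDimensional K M] {arm : δ → Fin 3} {J : Matrix ι ι K}
    {B : Matrix δ δ K} {N W : Submodule K (Matrix ι δ K)} {F G : Matrix ι δ K}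
    {p : Matrix ι n K} {al : Fin 3 → Matrix n n K} {tau : Matrix n n K}
    {β : LinearMap.BilinForm K M} {T : Module.End K M →ₗ[K] Module.End K M}
    {Ψ : Fin 3 → Module.End K M} {D : Module.End K M} {π : (n → K) →ₗ[K] M}
    {e : m → Matrix n n K} {lam : m → K} {l : Fin 3 → ℕ} {TT : Set ℂ},
    Fr ℂ arm J B N W F G p al tau β T Ψ D π e lam l TT →
    (∀ s v, D (Ψ s v) = Ψ s (D v)) → ⨆ ν, D.maxGenEigenspace ν = ⊤ → Tame Ψ D →
    ∀ i j : m, i ≠ j → HalvesP arm J B N W F p al T Ψ π e i j →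
      OffP arm J N W F p T Ψ π e i j
  second : ∀ {ι δ n m : Type} [Fintype ι] [DecidableEq ι] [Fintype δ] [DecidableEq δ] [Fintype n]
    [DecidableEq n] [Fintype m] [DecidableEq m] {K M : Type} [Field K] [Algebra ℂ K] [CharZero K]
    [AddCommGroup M] [Module K M] [FiniteDimensional K M] {arm : δ → Fin 3} {J : Matrix ι ι K}
    {B : Matrix δ δ K} {N W : Submodule K (Matrix ι δ K)} {F G : Matrix ι δ K}
    {p : Matrix ι n K} {al : Fin 3 → Matrix n n K} {tau : Matrix n n K}
    {β : LinearMap.BilinForm K M} {T : Module.End K M →ₗ[K] Module.End K M}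
    {Ψ : Fin 3 → Module.End K M} {D : Module.End K M} {π : (n → K) →ₗ[K] M}
    {e : m → Matrix n n K} {lam : m → K} {l : Fin 3 → ℕ} {TT : Set ℂ},
    Fr ℂ arm J B N W F G p al tau β T Ψ D π e lam l TT →
    ∀ i j : m, i ≠ j → (∀ i j : m, i ≠ j → OffP arm J N W F p T Ψ π e i j) →
      SecondP arm J B N W F p al T Ψ π e i j
  diag : ∀ {ι δ n m : Type} [Fintype ι] [DecidableEq ι] [Fintype δ] [DecidableEq δ] [Fintype n]
    [DecidableEq n] [Fintype m] [DecidableEq m] {K M : Type} [Field K] [Algebra ℂ K] [CharZero K]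
    [AddCommGroup M] [Module K M] [FiniteDimensional K M] {arm : δ → Fin 3} {J : Matrix ι ι K}
    {B : Matrix δ δ K} {N W : Submodule K (Matrix ι δ K)} {F G : Matrix ι δ K}
    {p : Matrix ι n K} {al : Fin 3 → Matrix n n K} {tau : Matrix n n K}
    {β : LinearMap.BilinForm K M} {T : Module.End K M →ₗ[K] Module.End K M}
    {Ψ : Fin 3 → Module.End K M} {D : Module.End K M} {π : (n → K) →ₗ[K] M}
    {e : m → Matrix n n K} {lam : m → K} {l : Fin 3 → ℕ} {TT : Set ℂ},
    Fr ℂ arm J B N W F G p al tau β T Ψ D π e lam l TT →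
    (∀ s v, D (Ψ s v) = Ψ s (D v)) → ⨆ ν, D.maxGenEigenspace ν = ⊤ → Tame Ψ D →
    ∀ i j : m, i ≠ j → HalvesP arm J B N W F p al T Ψ π e i j →
      SecondP arm J B N W F p al T Ψ π e i j → DiagP arm J N W F p al T Ψ π e l i

theorem falseFr_of_five (H : Five) : FalseFr := by
  intro ι δ n m _ _ _ _ _ _ _ _ K M _ _ _ _ _ _ arm J B N W F G p al tau β T Ψ D π e lam l TT h
    hDΦ hDs hT
  exact glue h (H.first h hDΦ hDs) (H.halves h) (H.off h hDΦ hDs hT) (H.second h)
    (H.diag h hDΦ hDs hT) (fun h1 h2 => RF47.false_of_fr h hDΦ hDs hT h1 h2)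

end Crest.Agent.R172.RD
end

-- ▼ part R172/N5b
section

/-!
Row 172, TAME (T0), node N5, part 2 (radical zero): from a core `C` of `M(F,F)` and `TameAt F G C τ`
to the matrix data `QN.Co` and `D = hat τ`.
-/

set_option autoImplicit false
set_option linter.unusedSectionVars false
set_option maxHeartbeats 400000

namespace Crest.Agent.R172.N5

open Module Matrix Crest.AlgebraR.SpinSaturation Crest.Agent.R172.SoGrade Crest.Agent.R172.CF
open Crest.Agent.R172.Gen (Jm Ix emb Ent ent)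
open Crest.Agent.R172.ThX Crest.Agent.R172.CSys Crest.Agent.R172.TG
open Crest.Agent.R172.Core (NS cp BM Tame)
open Crest.Agent.R172.QN (Co Psi)

variable {n : ℕ} {a : Fin 3 → Fin n → ℤ} {c : Cfg n a} {K : Type} [Field K] [Algebra ℂ K]
variable {N W : Submodule K (Matrix (Ix n) c.δ K)} {F G : Matrix (Ix n) c.δ K}

/-- the operators `Φ_s` as linear maps -/
noncomputable abbrev Ph (F : Matrix (Ix n) c.δ K) : Fin 3 → Module.End K (Ix n → K) :=
  MM (pU c K) (adjU c K) (Matrix.toLin' F) (Matrix.toLin' F)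

theorem Ph_apply (F : Matrix (Ix n) c.δ K) (s : Fin 3) (v : Ix n → K) :
    Ph F s v = FO.Phi c.arm (Jm n K) (c.B K) F s *ᵥ v := MM_toLin F F s v


/-- the matrix of the projection of the core -/
noncomputable def eM (C : St.Core (BV n K) (Ph F)) : Matrix (Ix n) (Ix n) K :=
  LinearMap.toMatrix' C.π

theorem eM_mulVec (C : St.Core (BV n K) (Ph F)) (v : Ix n → K) : eM C *ᵥ v = C.π v := by
  rw [eM, ← Matrix.toLin'_apply, Matrix.toLin'_toMatrix']

theorem mem_M (C : St.Core (BV n K) (Ph F)) (v : Ix n → K) :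
    v ∈ C.M ↔ ∃ w, v = eM C *ᵥ w := by
  constructor
  · intro h
    exact ⟨v, by rw [eM_mulVec, C.fix v h]⟩
  · rintro ⟨w, rfl⟩
    rw [eM_mulVec]
    exact C.mem w




variable (hD : FO.Data ℂ c.arm (Jm n K) (c.B K) N W)

include hD in
theorem Ph_sa (hF : F ∈ N ⊓ W) (s : Fin 3) : St.Sa (BV n K) (Ph F s) :=
  (sys hD).MM_sa BV_ns BU_ns ⟨F, hF, rfl⟩ ⟨F, hF, rfl⟩ s


variable {C : St.Core (BV n K) (Ph F)} {τ : Module.End K C.M}

/-- the matrix of an operator of the core -/
noncomputable abbrev ht (C : St.Core (BV n K) (Ph F)) (A : Module.End K C.M) :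
    Matrix (Ix n) (Ix n) K := hat (eM C) (mem_M C) A









end Crest.Agent.R172.N5
end

-- ▼ part R172/CoreP2
section

/-!
Row 172, TAME, arbitrary radical, part B: the operators `M_s(F,G)` and the maps `Fᵀ`, `Gᵀ` on the
perfect submodules `PP C Mi` (`C` = core of `M(F,F)`).

* `PP_Ψ`: `M_s(F,G) PP ≤ PP`;
* `exists_D`: for `p ∈ PP` there is `d ∈ PP` with `Gᵀ p = Fᵀ d`, `π d = τ π p`;
* `lin_exact`: if `τ = lam` on `Mi` then `Gᵀ p = lam Fᵀ p` EXACTLY for `p ∈ PP`;
* `lin_exact_mat`: the same for matrices.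
-/

set_option autoImplicit false
set_option linter.unusedSectionVars false

namespace Crest.Agent.R172.CP

open Module LinearMap
open Crest.Agent.R172.St Crest.Agent.R172.Core Crest.Agent.R172.ThX

variable {K : Type*} [Field K] {V : Type*} [AddCommGroup V] [Module K V] {ι : Type*}
  {B : LinearMap.BilinForm K V}

section Psi

variable {Φ Ψ : ι → End K V} {C : St.Core B Φ} {Mi : Submodule K C.M}

theorem pM_pres {f : End K V} (hf : Pres B Φ f) (C : St.Core B Φ) {v : V} (hv : v ∈ Tp B Φ) :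
    pM C (f v) = cp C f (pM C v) := by
  apply Subtype.ext
  rw [pM_coe, cp_coe, pM_coe]
  exact (pi_pres C hf hv).symm


end Psi

section sys

variable {U : Type*} [AddCommGroup U] [Module K U] {q : LinearMap.BilinForm K U} {p : ι → End K U}
variable {adj : (U →ₗ[K] V) →ₗ[K] (V →ₗ[K] U)} {𝒦 : Submodule K (U →ₗ[K] V)}



variable [Fintype ι] {F G : U →ₗ[K] V} {C : St.Core B (MM p adj F F)} {Mi : Submodule K C.M}




end sys

end Crest.Agent.R172.CP

namespace Crest.Agent.R172.CP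

open Module Matrix Crest.Agent.R172.ThX Crest.Agent.R172.CSys Crest.Agent.R172.CF
open Crest.Agent.R172.Gen (Jm Ix)

variable {n : ℕ} {a : Fin 3 → Fin n → ℤ} {c : Cfg n a} {K : Type} [Field K]


section data

variable [Algebra ℂ K] {N W : Submodule K (Matrix (Ix n) c.δ K)} {F G : Matrix (Ix n) c.δ K}
  {C : St.Core (BV n K) (MM (pU c K) (adjU c K) (Matrix.toLin' F) (Matrix.toLin' F))}
  {Mi : Submodule K C.M} {τ : Module.End K C.M}





end data

end Crest.Agent.R172.CP
end

-- ▼ part R172/RDSet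
section

/-!
Row 172 (S0260), T0 for arbitrary radical and arbitrary `D`: the SETUP.

`MC`: the perfect cover `X` of the tame core `M` on which `D` is an honest operator:
`A_s`, `T` on `X`, `l : X → V`, `π : X → M` with `Φ_s l = l A_s`, `Gᵀ J l = Fᵀ J l T`, `π A_s = Ψ_s π`,
`π T = D π`, `π` onto with nilpotent kernel, `range l = T^⊥`.
`exists_MC`: it exists.
`MC.blk`: the block `X_ν` (generalized eigenspace of `T`) satisfies the module hypotheses of
`RJ1.main` / `RJ2.main_coeff`.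
-/

set_option autoImplicit false
set_option linter.unusedSectionVars false
set_option maxHeartbeats 400000

namespace Crest.Agent.R172.RDSet

open Module LinearMap
open Crest.Agent.R172.St

/-- the module cover -/
structure MC {K V U M X : Type*} [Field K] [AddCommGroup V] [Module K V] [AddCommGroup U]
    [Module K U] [AddCommGroup M] [Module K M] [AddCommGroup X] [Module K X]
    (B : LinearMap.BilinForm K V) (Φ : Fin 3 → End K V) (Fs Gs : V →ₗ[K] U)
    (β : LinearMap.BilinForm K M) (Ψ : Fin 3 → End K M) (D : End K M)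
    (A : Fin 3 → End K X) (T : End K X) (l : X →ₗ[K] V) (π : X →ₗ[K] M) (m : ℕ) : Prop where
  sumA : ∑ s, A s = 0
  comm : ∀ s x, T (A s x) = A s (T x)
  perf : ⨆ s, range (A s) = ⊤
  lA : ∀ s x, Φ s (l x) = l (A s x)
  lG : ∀ x, Gs (l x) = Fs (l (T x))
  rng : range l = Tp B Φ
  pA : ∀ s x, π (A s x) = Ψ s (π x)
  pT : ∀ x, π (T x) = D (π x)
  onto : Function.Surjective π
  nil : ∀ w : List (Fin 3), w.length = m → ∀ x, π x = 0 → (w.map A).prod x = 0
  form : ∀ x y, B (l x) (l y) = β (π x) (π y)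

section nil

variable {K X : Type*} [Field K] [AddCommGroup X] [Module K X] {A : Fin 3 → End K X}

theorem nil_words {k : ℕ} {x : X} (h : x ∈ CovT.Nil A k) (w : List (Fin 3)) (hw : w.length = k) :
    (w.map A).prod x = 0 := by
  induction w using List.reverseRecOn generalizing k x with
  | nil =>
    subst hw
    rw [List.length_nil, CovT.mem_Nil_zero] at h
    rw [h, map_zero]
  | append_singleton w s ih =>
    rw [List.length_append, List.length_singleton] at hw
    subst hw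
    rw [List.map_append, List.prod_append, List.map_singleton, List.prod_singleton,
      Module.End.mul_apply]
    exact ih (CovT.mem_Nil_succ.1 h s) rfl

theorem Nk_eq {V : Type*} [AddCommGroup V] [Module K V] (Φ : Fin 3 → End K V) (k : ℕ) :
    Nk Φ k = CovT.Nil Φ k := by
  induction k with
  | zero => rfl
  | succ k ih => change (⨅ s, (Nk Φ k).comap (Φ s)) = ⨅ s, (CovT.Nil Φ k).comap (Φ s); rw [ih]

end nil

section inst

open Matrix Crest.AlgebraR.SpinSaturation Crest.Agent.R172.SoGrade Crest.Agent.R172.CF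
open Crest.Agent.R172.Gen (Jm Ix emb Ent ent)
open Crest.Agent.R172.ThX Crest.Agent.R172.CSys Crest.Agent.R172.TG
open Crest.Agent.R172.Core (NS cp BM Tame Pres pres_Φ)
open Crest.Agent.R172.N5 (Ph)

variable {n : ℕ} {a : Fin 3 → Fin n → ℤ} {c : Cfg n a} {K : Type} [Field K] [Algebra ℂ K]
variable {N W : Submodule K (Matrix (Ix n) c.δ K)} {F G : Matrix (Ix n) c.δ K}

theorem Ph_eq (F : Matrix (Ix n) c.δ K) :
    Ph F = CovI.Ph (CovI.st (Jm n K) F) (CovI.lo c.arm (c.B K) F) := by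
  rw [CovI.Ph_eq]; exact MM_eq F

theorem Ps_eq (F G : Matrix (Ix n) c.δ K) :
    MM (pU c K) (adjU c K) (Matrix.toLin' F) (Matrix.toLin' G) =
      CovI.Ps (CovI.st (Jm n K) G) (CovI.lo c.arm (c.B K) F) := by
  funext s
  refine LinearMap.ext fun v => ?_
  rw [MM_toLin, CovI.Ps_apply, CovI.lo_st_apply]


end inst

end Crest.Agent.R172.RDSet
end

-- ▼ part R172/HexU
section

/-!
Row 172 (S0260), T0 with arbitrary radical and arbitrary `D`: on the universal cover
`X ↦ X × X ≅ W ⊗ X` (`W = K³/(1,1,1)`) the correction `b` of an exact family exists formally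
(hypothesis `hex` of `RJM.main`), for every `c` with `eps * c ≠ 0`.
-/

set_option autoImplicit false
set_option linter.unusedSectionVars false

namespace Crest.Agent.R172.HexU

open TensorProduct Module LinearMap Crest.Agent.R172.CovT
open Crest.Agent.R172.RJM (RT TR DD Ex ev Cor)

universe u v

variable {K : Type*} [Field K] {X : Type u} {Y : Type v} [AddCommGroup X] [Module K X]
  [AddCommGroup Y] [Module K Y]
  {A : Fin 3 → End K X} {B : Fin 3 → End K Y} {R1 : Submodule K X} {R2 : Submodule K Y}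
  {g : Y →ₗ[K] Y →ₗ[K] K} {eps c : K}

/-- hypothesis `hex` of `RJM.main` at `c` -/
def HEX (A : Fin 3 → End K X) (B : Fin 3 → End K Y) (R1 : Submodule K X) (R2 : Submodule K Y)
    (g : Y →ₗ[K] Y →ₗ[K] K) (eps c : K) : Prop :=
  ∀ x, Ex A B R1 R2 c x → ∃ b, Cor A B R1 g eps c x b

theorem pi'_A' (hs : ∀ x, A 0 x + A 1 x + A 2 x = 0) (t : Fin 3) (z : X × X) :
    pi' A (A' A t z) = A t (pi' A z) := pi'_em hs t _

theorem A'_apply (t : Fin 3) (z : X × X) : A' A t z = em K X t (pi' A z) := rfl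

theorem map_DD (hsA : ∀ x, A 0 x + A 1 x + A 2 x = 0) (hsB : ∀ x, B 0 x + B 1 x + B 2 x = 0)
    (t : Fin 3) (z : (Y × Y) ⊗[K] (X × X)) :
    TensorProduct.map (pi' B) (pi' A) (DD (A' A) (A' B) c t z) =
      DD A B c t (TensorProduct.map (pi' B) (pi' A) z) := by
  induction z using TensorProduct.induction_on with
  | zero => simp
  | tmul a b =>
    simp only [DD, LinearMap.sub_apply, LinearMap.smul_apply, LinearMap.lTensor_tmul,
      LinearMap.rTensor_tmul, map_sub, map_smul, TensorProduct.map_tmul, pi'_A' hsA, pi'_A' hsB]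
  | add a b ha hb => simp only [map_add, ha, hb]

/-- the pulled back form -/
def g' (B : Fin 3 → End K Y) (g : Y →ₗ[K] Y →ₗ[K] K) : (Y × Y) →ₗ[K] (Y × Y) →ₗ[K] K :=
  g.compl₁₂ (pi' B) (pi' B)

theorem g'_apply (z w : Y × Y) : g' B g z w = g (pi' B z) (pi' B w) := rfl

theorem ev_map (z : (Y × Y) ⊗[K] (X × X)) (w : Y × Y) :
    ev g (TensorProduct.map (pi' B) (pi' A) z) (pi' B w) = pi' A (ev (g' B g) z w) := by
  induction z using TensorProduct.induction_on with
  | zero => simp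
  | tmul a b => simp [g'_apply]
  | add a b ha hb => simp only [map_add, LinearMap.add_apply, ha, hb]

theorem ev_DD' (hg : ∀ t p p', g (B t p) p' = eps * g p (B t p')) (t : Fin 3)
    (z : Y ⊗[K] X) (p : Y) :
    ev g (DD A B c t z) p = A t (ev g z p) - (eps * c) • ev g z (B t p) := by
  exact RJM.ev_DD A B hg c t z p

theorem hg' (hsB : ∀ x, B 0 x + B 1 x + B 2 x = 0)
    (hg : ∀ t p p', g (B t p) p' = eps * g p (B t p')) (t : Fin 3) (p p' : Y × Y) :
    g' B g (A' B t p) p' = eps * g' B g p (A' B t p') := by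
  rw [g'_apply, g'_apply, pi'_A' hsB, pi'_A' hsB, hg]

theorem map_RT {z : (Y × Y) ⊗[K] (X × X)} (hz : z ∈ RT (P1 := X × X) (R2.comap (pi' B))) :
    TensorProduct.map (pi' B) (pi' A) z ∈ RT (P1 := X) R2 := by
  unfold RT at hz
  induction hz using Submodule.span_induction with
  | mem z hz =>
    obtain ⟨r, hr, p, rfl⟩ := hz
    rw [TensorProduct.map_tmul]
    exact Submodule.subset_span ⟨_, hr, _, rfl⟩
  | zero => rw [map_zero]; exact Submodule.zero_mem _
  | add a b _ _ ha hb => rw [map_add]; exact Submodule.add_mem _ ha hb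
  | smul c a _ ha => rw [map_smul]; exact Submodule.smul_mem _ _ ha

theorem map_TR {z : (Y × Y) ⊗[K] (X × X)} (hz : z ∈ TR (P2 := Y × Y) (R1.comap (pi' A))) :
    TensorProduct.map (pi' B) (pi' A) z ∈ TR (P2 := Y) R1 := by
  unfold TR at hz
  induction hz using Submodule.span_induction with
  | mem z hz =>
    obtain ⟨p, r, hr, rfl⟩ := hz
    rw [TensorProduct.map_tmul]
    exact Submodule.subset_span ⟨_, _, hr, rfl⟩
  | zero => rw [map_zero]; exact Submodule.zero_mem _
  | add a b _ _ ha hb => rw [map_add]; exact Submodule.add_mem _ ha hb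
  | smul c a _ ha => rw [map_smul]; exact Submodule.smul_mem _ _ ha

/-- **the step of the tower** -/
theorem step (hsA : ∀ x, A 0 x + A 1 x + A 2 x = 0) (hsB : ∀ x, B 0 x + B 1 x + B 2 x = 0)
    (hpB : ∀ y : Y, ∃ w, pi' B w = y)
    (hg : ∀ t p p', g (B t p) p' = eps * g p (B t p')) (hk : eps * c ≠ 0)
    (H : HEX A B R1 R2 g eps c) :
    HEX (A' A) (A' B) (R1.comap (pi' A)) (R2.comap (pi' B)) (g' B g) eps c := by
  intro x' hx'
  set x : Fin 3 → Y ⊗[K] X := fun t => TensorProduct.map (pi' B) (pi' A) (x' t) with hx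
  have hex : Ex A B R1 R2 c x := by
    refine ⟨?_, fun t => ?_⟩
    · have h1 := congrArg (TensorProduct.map (pi' B) (pi' A)) hx'.sum
      rw [map_sum, map_zero] at h1
      rw [← h1]
      exact Finset.sum_congr rfl fun t _ => (map_DD hsA hsB t _).symm
    · have h1 := hx'.arm t
      obtain ⟨a, ha, b, hb, hab⟩ := Submodule.mem_sup.1 h1
      change DD A B c t (TensorProduct.map (pi' B) (pi' A) (x' t)) ∈ _
      rw [← map_DD hsA hsB t, ← hab, map_add]
      exact Submodule.add_mem _ (Submodule.mem_sup_left (map_RT ha))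
        (Submodule.mem_sup_right (map_TR hb))
  obtain ⟨b, hb⟩ := H x hex
  let β : Fin 3 → (Y →ₗ[K] X × X) := fun t =>
    (eps * c)⁻¹ • (em K X t ∘ₗ (b - ev g (x t))) + (ev (g' B g) (x' t)) ∘ₗ em K Y t
  have hβ : ∀ t q, β t q = (eps * c)⁻¹ • em K X t (b q - ev g (x t) q) +
      ev (g' B g) (x' t) (em K Y t q) := fun t q => rfl
  have hevx : ∀ t z, ev g (x t) (pi' B z) = pi' A (ev (g' B g) (x' t) z) := fun t z =>
    ev_map (x' t) z
  have hβ0 : ∀ q, β 0 q + β 1 q + β 2 q = 0 := by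
    intro q
    obtain ⟨q', rfl⟩ := hpB q
    have h1 : ∀ t, β t (pi' B q') = (eps * c)⁻¹ • em K X t (b (pi' B q')) -
        (eps * c)⁻¹ • ev (g' B g) (DD (A' A) (A' B) c t (x' t)) q' := by
      intro t
      rw [hβ, ev_DD' (hg' hsB hg), hevx, map_sub, smul_sub, smul_sub, smul_smul,
        inv_mul_cancel₀ hk, one_smul, A'_apply, A'_apply]
      abel
    have h2 := congrArg (fun z => ev (g' B g) z q') hx'.sum
    simp only [Fin.sum_univ_three, map_add, LinearMap.add_apply, map_zero,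
      LinearMap.zero_apply] at h2
    rw [h1, h1, h1]
    have h3 := em_sum (K := K) (b (pi' B q'))
    calc _ = (eps * c)⁻¹ • (em K X 0 (b (pi' B q')) + em K X 1 (b (pi' B q')) +
          em K X 2 (b (pi' B q'))) - (eps * c)⁻¹ •
          (ev (g' B g) (DD (A' A) (A' B) c 0 (x' 0)) q' +
            ev (g' B g) (DD (A' A) (A' B) c 1 (x' 1)) q' +
            ev (g' B g) (DD (A' A) (A' B) c 2 (x' 2)) q') := by
          simp only [smul_add]; abel
      _ = 0 := by rw [h3, h2]; simp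
  let b' : Y × Y →ₗ[K] X × X := (β 0).coprod (β 1)
  have hb'em : ∀ t q, b' (em K Y t q) = β t q := by
    intro t q
    fin_cases t
    · simp [b', CovT.em]
    · simp [b', CovT.em]
    · have h2 : β 2 q = -(β 0 q + β 1 q) := by
        rw [eq_neg_iff_add_eq_zero, add_comm]; exact hβ0 q
      change b' (em K Y 2 q) = β 2 q
      rw [h2]
      simp [b', CovT.em]
      abel
  have hpiβ : ∀ t q, pi' A (β t q) = b (B t q) := by
    intro t q
    have h1 := hb.eq t q
    rw [hβ, map_add, map_smul, pi'_em hsA, ← hevx, pi'_em hsB, map_sub]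
    have h2 : A t (b q) - A t (ev g (x t) q) =
        (eps * c) • (b (B t q) - ev g (x t) (B t q)) := by
      rw [smul_sub, sub_eq_sub_iff_add_eq_add]
      rw [sub_eq_sub_iff_add_eq_add] at h1
      rw [h1]; abel
    rw [h2, smul_smul, inv_mul_cancel₀ hk, one_smul]
    abel
  have hpib' : ∀ z, pi' A (b' z) = b (pi' B z) := by
    intro z
    have h1 : b' z = β 0 z.1 + β 1 z.2 := by simp [b']
    rw [h1, map_add, hpiβ, hpiβ]
    simp [pi']
  refine ⟨b', ⟨fun z => ?_, fun t z => ?_⟩⟩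
  · change pi' A (b' z) ∈ R1
    rw [hpib']
    exact hb.mem _
  · rw [A'_apply, hpib', A'_apply (A := B), hb'em, hβ, smul_add, smul_smul, mul_inv_cancel₀ hk,
      one_smul, map_sub, hevx, A'_apply]
    abel

theorem RT_bot : RT (P1 := X) (⊥ : Submodule K Y) = ⊥ := by
  rw [eq_bot_iff, RT, Submodule.span_le]
  rintro _ ⟨r, hr, p, rfl⟩
  rw [(Submodule.mem_bot K).1 hr, TensorProduct.zero_tmul]
  exact Submodule.zero_mem _

theorem TR_bot : TR (P2 := Y) (⊥ : Submodule K X) = ⊥ := by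
  rw [eq_bot_iff, TR, Submodule.span_le]
  rintro _ ⟨p, r, hr, rfl⟩
  rw [(Submodule.mem_bot K).1 hr, TensorProduct.tmul_zero]
  exact Submodule.zero_mem _

/-- the base -/
theorem base (hg : ∀ t p p', g (B t p) p' = eps * g p (B t p')) :
    HEX A B ⊥ ⊥ g eps c := by
  intro x hx
  refine ⟨0, ⟨fun p => by simp, fun t p => ?_⟩⟩
  have h1 := hx.arm t
  rw [RT_bot, TR_bot, sup_bot_eq, Submodule.mem_bot] at h1
  rw [← ev_DD' hg, h1]
  simp

theorem pi'_surj (hs : ∀ x, A 0 x + A 1 x + A 2 x = 0)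
    (hp : ∀ x, ∃ y : Fin 3 → X, x = ∑ s, A s (y s)) (x : X) : ∃ w, pi' A w = x := by
  obtain ⟨y, hy⟩ := hp x
  refine ⟨(y 0 - y 2, y 1 - y 2), ?_⟩
  rw [hy, Fin.sum_univ_three]
  simp only [pi', LinearMap.coprod_apply, map_sub]
  have h2 : A 2 (y 2) = -(A 0 (y 2) + A 1 (y 2)) := by
    rw [eq_neg_iff_add_eq_zero, add_comm]; exact hs (y 2)
  rw [h2]; abel

section family

variable {V U' M : Type*} [AddCommGroup V] [Module K V] [AddCommGroup U']
  [Module K U'] [AddCommGroup M] [Module K M]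
  {Φ Ψ : Fin 3 → End K V} {f gg : V →ₗ[K] U'} {F' : Fin 3 → U' →ₗ[K] V} {Tp : Submodule K V}
  {pM : V →ₗ[K] M}

/-- a family of covers (one for each block), all of the same height, with the formal `hex` -/
structure Fam (Φ : Fin 3 → End K V) (f gg : V →ₗ[K] U') (Tp : Submodule K V) (pM : V →ₗ[K] M)
    {μ : Type*} {X0 : μ → Type u} [∀ i, AddCommGroup (X0 i)] [∀ i, Module K (X0 i)]
    (A0 : ∀ i, Fin 3 → End K (X0 i)) (D0 : ∀ i, End K (X0 i)) (p0 : ∀ i, X0 i →ₗ[K] M)
    (P : Prop) (e e' n : ℕ) {X : μ → Type u} [∀ i, AddCommGroup (X i)] [∀ i, Module K (X i)]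
    (A : ∀ i, Fin 3 → End K (X i)) (D : ∀ i, End K (X i)) (pr : ∀ i, X i →ₗ[K] X0 i)
    (l : ∀ i, X i →ₗ[K] V) : Prop where
  st : ∀ i, Stage Φ f gg Tp pM (A0 i) (D0 i) (p0 i) P e e' n (A i) (D i) (pr i) (l i)
  hex : ∀ (i j) (g0 : X0 j →ₗ[K] X0 j →ₗ[K] K) (eps c : K),
    (∀ t p p', g0 (A0 j t p) p' = eps * g0 p (A0 j t p')) → eps * c ≠ 0 →
    HEX (A i) (A j) (LinearMap.ker (pr i)) (LinearMap.ker (pr j))
      (g0.compl₁₂ (pr j) (pr j)) eps c

variable {μ : Type*} {X0 : μ → Type u} [∀ i, AddCommGroup (X0 i)] [∀ i, Module K (X0 i)]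
    {A0 : ∀ i, Fin 3 → End K (X0 i)} {D0 : ∀ i, End K (X0 i)} {p0 : ∀ i, X0 i →ₗ[K] M}

theorem Fam.step {P : Prop} {e e' n : ℕ} {X : μ → Type u} [∀ i, AddCommGroup (X i)]
    [∀ i, Module K (X i)]
    {A : ∀ i, Fin 3 → End K (X i)} {D : ∀ i, End K (X i)} {pr : ∀ i, X i →ₗ[K] X0 i}
    {l : ∀ i, X i →ₗ[K] V}
    (hΦ : ∀ s v, Φ s v = F' s (f v)) (hΨ : ∀ s v, Ψ s v = F' s (gg v))
    (hgf : ∀ s v, gg (Φ s v) = f (Ψ s v)) (hsum : ∀ v, Φ 0 v + Φ 1 v + Φ 2 v = 0)
    (hTp : ∀ s, ∀ v ∈ Tp, Φ s v ∈ Tp) {φ : Fin 3 → End K M}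
    (hpM : ∀ s, ∀ v ∈ Tp, pM (Φ s v) = φ s (pM v))
    (hp0 : ∀ i s x, p0 i (A0 i s x) = φ s (p0 i x))
    (h : Fam Φ f gg Tp pM A0 D0 p0 P e e' n A D pr l) :
    Fam Φ f gg Tp pM A0 D0 p0 P (e - 1) (e' - 1) (n + 1) (X := fun i => X i × X i)
      (fun i => A' (A i)) (fun i => LinearMap.prodMap (D i) (D i))
      (fun i => pr i ∘ₗ pi' (A i)) (fun i => l' Φ (l i)) where
  st i := Stage.step (F' := F') hΦ hΨ hgf hsum hTp hpM (hp0 i) (h.st i)
  hex i j g0 eps c hg hc := by
    have h1 := h.hex i j g0 eps c hg hc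
    have h2 : ∀ t p p', (g0.compl₁₂ (pr j) (pr j)) (A j t p) p' =
        eps * (g0.compl₁₂ (pr j) (pr j)) p (A j t p') := by
      intro t p p'
      rw [LinearMap.compl₁₂_apply, LinearMap.compl₁₂_apply, (h.st j).prA, (h.st j).prA, hg]
    have h3 := HexU.step (h.st i).sumA (h.st j).sumA
      (pi'_surj (h.st j).sumA (h.st j).perf) h2 hc h1
    rw [LinearMap.ker_comp, LinearMap.ker_comp]
    exact h3

/-- **The family of covers.** -/
theorem exists_fam (hΦ : ∀ s v, Φ s v = F' s (f v)) (hΨ : ∀ s v, Ψ s v = F' s (gg v))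
    (hgf : ∀ s v, gg (Φ s v) = f (Ψ s v)) (hsum : ∀ v, Φ 0 v + Φ 1 v + Φ 2 v = 0)
    (hTp : ∀ s, ∀ v ∈ Tp, Φ s v ∈ Tp) (hTp' : ∀ s, ∀ v ∈ Tp, Ψ s v ∈ Tp)
    {φ : Fin 3 → End K M} {τ : End K M}
    (hpM : ∀ s, ∀ v ∈ Tp, pM (Φ s v) = φ s (pM v))
    (hpM' : ∀ s, ∀ v ∈ Tp, pM (Ψ s v) = φ s (τ (pM v)))
    {k : ℕ} (hk : ∀ v ∈ Tp, pM v = 0 → v ∈ Nil Φ k) {sec : M →ₗ[K] V}
    (hsec : ∀ m, sec m ∈ Tp) (hsec' : ∀ m, pM (sec m) = m)
    (hA0 : ∀ i x, A0 i 0 x + A0 i 1 x + A0 i 2 x = 0)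
    (hAD : ∀ i s x, D0 i (A0 i s x) = A0 i s (D0 i x))
    (hperf : ∀ i x, ∃ y : Fin 3 → X0 i, x = ∑ s, A0 i s (y s))
    (hp0 : ∀ i s x, p0 i (A0 i s x) = φ s (p0 i x)) (hpD : ∀ i x, p0 i (D0 i x) = τ (p0 i x)) :
    ∃ (X : μ → Type u) (_ : ∀ i, AddCommGroup (X i)) (_ : ∀ i, Module K (X i))
      (A : ∀ i, Fin 3 → End K (X i)) (D : ∀ i, End K (X i))
      (pr : ∀ i, X i →ₗ[K] X0 i) (l : ∀ i, X i →ₗ[K] V) (n : ℕ),
      Fam Φ f gg Tp pM A0 D0 p0 True 0 0 n A D pr l := by
  have h0 : Fam Φ f gg Tp pM A0 D0 p0 False k k 0 A0 D0 (fun i => LinearMap.id)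
      (fun i => sec ∘ₗ p0 i) :=
    { st := fun i => Stage.base (hA0 i) (hAD i) (hperf i) hTp hpM (hp0 i) hk hsec hsec'
      hex := by
        intro i j g0 eps c hg _
        rw [LinearMap.ker_id, LinearMap.ker_id]
        exact base hg }
  have h1 := Fam.step (F' := F') (Ψ := Ψ) hΦ hΨ hgf hsum hTp hpM hp0 h0
  have h2 : Fam Φ f gg Tp pM A0 D0 p0 True (k - 1) k (0 + 1) (X := fun i => X0 i × X0 i)
      (fun i => A' (A0 i)) (fun i => LinearMap.prodMap (D0 i) (D0 i))
      (fun i => LinearMap.id ∘ₗ pi' (A0 i)) (fun i => l' Φ (sec ∘ₗ p0 i)) :=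
    { hex := h1.hex
      st := fun i =>
        { sumA := (h1.st i).sumA
          comm := (h1.st i).comm
          prA := (h1.st i).prA
          prD := (h1.st i).prD
          surj := (h1.st i).surj
          perf := (h1.st i).perf
          nil := (h1.st i).nil
          lTp := (h1.st i).lTp
          lpM := (h1.st i).lpM
          errA := (h1.st i).errA
          nilD := (h1.st i).nilD
          fin := (h1.st i).fin
          errG := by
            intro _ z
            refine ⟨(Ψ 0 (sec (p0 i z.1)) - Φ 0 (sec (p0 i (D0 i z.1)))) +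
              (Ψ 1 (sec (p0 i z.2)) - Φ 1 (sec (p0 i (D0 i z.2)))), ?_, ?_⟩
            · refine hk _ (Tp.add_mem (Tp.sub_mem (hTp' 0 _ (hsec _)) (hTp 0 _ (hsec _)))
                (Tp.sub_mem (hTp' 1 _ (hsec _)) (hTp 1 _ (hsec _)))) ?_
              rw [map_add, map_sub, map_sub, hpM' 0 _ (hsec _), hpM' 1 _ (hsec _),
                hpM 0 _ (hsec _), hpM 1 _ (hsec _), hsec', hsec', hsec', hsec', hpD, hpD,
                sub_self, sub_self, add_zero]
            · simp only [l', LinearMap.coprod_apply, LinearMap.comp_apply,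
                LinearMap.prodMap_apply]
              rw [map_add, hgf, hgf]
              simp only [map_add, map_sub]
              abel } }
  clear h0 h1
  have key : ∀ j : ℕ, ∃ (X : μ → Type u) (_ : ∀ i, AddCommGroup (X i)) (_ : ∀ i, Module K (X i))
      (A : ∀ i, Fin 3 → End K (X i)) (D : ∀ i, End K (X i))
      (pr : ∀ i, X i →ₗ[K] X0 i) (l : ∀ i, X i →ₗ[K] V) (n : ℕ),
      Fam Φ f gg Tp pM A0 D0 p0 True (k - 1 - j) (k - j) n A D pr l := by
    intro j
    induction j with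
    | zero => exact ⟨_, _, _, _, _, _, _, _, h2⟩
    | succ j ih =>
      obtain ⟨X, i1, i2, A, D, pr, l, n, h⟩ := ih
      exact ⟨_, _, _, _, _, _, _, _,
        Fam.step (F' := F') (Ψ := Ψ) hΦ hΨ hgf hsum hTp hpM hp0 h⟩
  obtain ⟨X, i1, i2, A, D, pr, l, n, h⟩ := key k
  refine ⟨X, i1, i2, A, D, pr, l, n, ?_⟩
  have e1 : k - 1 - k = 0 := by omega
  have e2 : k - k = 0 := by omega
  rw [e1, e2] at h
  exact h

end family

/-! ## the hypotheses of `RJM.main` for one cover -/

theorem word_Nil : ∀ (n : ℕ) {v : X}, v ∈ Nil A n → ∀ w : List (Fin 3), w.length = n →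
    (w.map A).prod v = 0 := by
  intro n
  induction n with
  | zero =>
    intro v hv w hw
    rw [mem_Nil_zero] at hv
    rw [hv, map_zero]
  | succ n ih =>
    intro v hv w hw
    obtain ⟨w', s, rfl⟩ : ∃ w' s, w = w' ++ [s] := by
      refine ⟨w.dropLast, w.getLast (by intro h; rw [h] at hw; simp at hw), ?_⟩
      exact (List.dropLast_append_getLast _).symm
    have hl : w'.length = n := by
      rw [List.length_append] at hw
      simpa using hw
    rw [List.map_append, List.prod_append]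
    simp only [List.map_cons, List.map_nil, List.prod_cons, List.prod_nil, mul_one]
    exact ih (mem_Nil_succ.1 hv s) w' hl

theorem Nil_eq_Nk (k : ℕ) : Nil A k = St.Nk A k := by
  induction k with
  | zero => rfl
  | succ k ih =>
    change (⨅ s, (Nil A k).comap (A s)) = ⨅ s, (St.Nk A k).comap (A s)
    rw [ih]

section rj

variable {V U' M X0 : Type*} [AddCommGroup V] [Module K V] [AddCommGroup U'] [Module K U']
  [AddCommGroup M] [Module K M] [AddCommGroup X0] [Module K X0]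
  {Φ : Fin 3 → End K V} {f gg : V →ₗ[K] U'} {Tp : Submodule K V} {pM : V →ₗ[K] M}
  {A0 : Fin 3 → End K X0} {D0 : End K X0} {p0 : X0 →ₗ[K] M} {P : Prop} {e e' n : ℕ}
  {D : End K X} {pr : X →ₗ[K] X0} {l : X →ₗ[K] V}

theorem pr_pow (h : Stage Φ f gg Tp pM A0 D0 p0 P e e' n A D pr l) (s : Fin 3) (k : ℕ) (x : X) :
    pr ((A s ^ k) x) = (A0 s ^ k) (pr x) := by
  induction k with
  | zero => rfl
  | succ k ih => rw [pow_succ', pow_succ', Module.End.mul_apply, Module.End.mul_apply, h.prA, ih]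

/-- all the hypotheses of `RJM.main` on one side, for the cover `X` of `X0` -/
theorem rj [FiniteDimensional K X0] (h : Stage Φ f gg Tp pM A0 D0 p0 P e e' n A D pr l)
    (hker : ∀ m : X0, (∀ s, A0 s m = 0) → m = 0) {len : Fin 3 → ℕ} (hl1 : ∀ s, 1 ≤ len s)
    (hl : ∀ s, A0 s ^ len s = 0)
    (hfree : ∀ s, len s * finrank K (LinearMap.ker (A0 s)) = finrank K X0)
    (hq : ∑ s, (1 - 1 / (len s : ℚ)) = 2) :
    (⨆ t, LinearMap.range (A t) = ⊤) ∧
    (∀ t, ∀ r ∈ LinearMap.ker pr, A t r ∈ LinearMap.ker pr) ∧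
    (∀ w : List (Fin 3), w.length = n → ∀ r ∈ LinearMap.ker pr, (w.map A).prod r = 0) ∧
    (∀ s p, (A s ^ len s) p ∈ LinearMap.ker pr) ∧
    (∀ S : Submodule K X, (∀ t, ∀ v ∈ S, A t v ∈ S) → (∀ s p, (A s ^ len s) p ∈ S) →
      LinearMap.ker pr ≤ S) := by
  have htop : ⨆ t, LinearMap.range (A t) = ⊤ := by
    rw [eq_top_iff]
    intro x _
    obtain ⟨y, hy⟩ := h.perf x
    rw [hy]
    exact Submodule.sum_mem _ fun s _ =>
      Submodule.mem_iSup_of_mem s (LinearMap.mem_range_self (A s) (y s))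
  refine ⟨htop, ?_, ?_, ?_, ?_⟩
  · intro t r hr
    rw [LinearMap.mem_ker] at hr ⊢
    rw [h.prA, hr, map_zero]
  · intro w hw r hr
    exact word_Nil n (h.nil r hr) w hw
  · intro s p
    rw [LinearMap.mem_ker, pr_pow h, hl, LinearMap.zero_apply]
  · intro S hS hSl
    refine RG.gen A A0 pr h.prA (LinearMap.range_eq_top.2 h.surj) ?_ htop (k := n) ?_ hker len hl1
      hl hfree hq S hS hSl
    · ext x
      rw [Fin.sum_univ_three]
      exact h.sumA x
    · intro x hx
      rw [← Nil_eq_Nk]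
      exact h.nil x hx

/-- the pulled back form: hypotheses `gR1 gR2 gB` of `RJM.main` -/
theorem form (h : Stage Φ f gg Tp pM A0 D0 p0 P e e' n A D pr l)
    {g0 : X0 →ₗ[K] X0 →ₗ[K] K} {eps : K} (hg : ∀ t p p', g0 (A0 t p) p' = eps * g0 p (A0 t p')) :
    (∀ r ∈ LinearMap.ker pr, ∀ p, (g0.compl₁₂ pr pr) r p = 0) ∧
    (∀ r ∈ LinearMap.ker pr, ∀ p, (g0.compl₁₂ pr pr) p r = 0) ∧
    (∀ t p p', (g0.compl₁₂ pr pr) (A t p) p' = eps * (g0.compl₁₂ pr pr) p (A t p')) := by
  refine ⟨?_, ?_, ?_⟩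
  · intro r hr p
    rw [LinearMap.compl₁₂_apply, LinearMap.mem_ker.1 hr, map_zero, LinearMap.zero_apply]
  · intro r hr p
    rw [LinearMap.compl₁₂_apply, LinearMap.mem_ker.1 hr, map_zero]
  · intro t p p'
    rw [LinearMap.compl₁₂_apply, LinearMap.compl₁₂_apply, h.prA, h.prA, hg]


end rj

end Crest.Agent.R172.HexU
end

-- ▼ part R172/CoreP3
section

/-!
Row 172, TAME, arbitrary radical, part C: from `CSys.TameAt F G C τ` to the END (`EndR.tame_false_of`).

* `Nums C τ l`: the numbers `l` and all elementary properties of the blocks `τ.maxGenEigenspace nu`;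
* `nums_of_tame`;
* `Tp_eq_iSup`: `Tp = ⨆ PP_nu`, and the decomposition of radical elements;
* `false_of_blocks`: single arm memberships for all pairs of blocks contradict `TameAt`.
-/

set_option autoImplicit false
set_option linter.unusedSectionVars false

namespace Crest.Agent.R172.CP

open Module LinearMap
open Crest.Agent.R172.St Crest.Agent.R172.Core

variable {K : Type*} [Field K]

section blocks

variable {M : Type*} [AddCommGroup M] [Module K M] {ι : Type*} [Fintype ι]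
  {Φ : ι → End K M} {τ : End K M}

theorem gen_le_Ax [FiniteDimensional K M] (htop : ⨆ s, range (Φ s) = ⊤)
    (hD : ∀ s v, τ (Φ s v) = Φ s (τ v))
    (hDs : ⨆ ν, τ.maxGenEigenspace ν = ⊤) (nu : K) :
    τ.maxGenEigenspace nu ≤ Ax Φ (τ.maxGenEigenspace nu) := by
  intro v hv
  have h1 : v ∈ Ax Φ (⊤ : Submodule K M) := by
    have h2 : v ∈ (⊤ : Submodule K M) := Submodule.mem_top
    rw [← htop] at h2
    unfold Ax
    simpa only [Submodule.map_top] using h2
  obtain ⟨w, -, rfl⟩ := mem_Ax_iff.1 h1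
  have hc := gen_isCompl hDs nu
  have h2 : ∀ s, ∃ a ∈ τ.maxGenEigenspace nu, ∃ b ∈ co τ nu, a + b = w s := by
    intro s
    have h3 : w s ∈ τ.maxGenEigenspace nu ⊔ co τ nu := by rw [hc.sup_eq_top]; trivial
    exact Submodule.mem_sup.1 h3
  choose a ha b hb hab using h2
  have h3 : ∑ s, Φ s (w s) = ∑ s, Φ s (a s) + ∑ s, Φ s (b s) := by
    rw [← Finset.sum_add_distrib]
    exact Finset.sum_congr rfl fun s _ => by rw [← hab s, map_add]
  have h4 : ∑ s, Φ s (a s) ∈ τ.maxGenEigenspace nu :=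
    Submodule.sum_mem _ fun s _ => gen_stable (hD s) nu _ (ha s)
  have h5 : ∑ s, Φ s (b s) ∈ co τ nu :=
    Submodule.sum_mem _ fun s _ => co_stable (hD s) nu _ (hb s)
  have h6 : ∑ s, Φ s (b s) ∈ τ.maxGenEigenspace nu := by
    rw [h3] at hv
    have h7 := Submodule.sub_mem _ hv h4
    rwa [add_sub_cancel_left] at h7
  have h7 : ∑ s, Φ s (b s) = 0 := Submodule.disjoint_def.1 hc.disjoint _ h6 h5
  rw [h3, h7, add_zero]
  exact mem_Ax_iff.2 ⟨a, ha, rfl⟩

end blocks

section nums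

variable {V : Type*} [AddCommGroup V] [Module K V] {B : LinearMap.BilinForm K V}
  {Φ : Fin 3 → End K V}

/-- the numbers `l` and the elementary properties of the blocks. -/
structure Nums (C : St.Core B Φ) (τ : End K C.M) (l : Fin 3 → ℕ) : Prop where
  one_le : ∀ s, 1 ≤ l s
  sum : ∑ s, (1 - 1 / (l s : ℚ)) = 2
  stable : ∀ nu s, ∀ m ∈ τ.maxGenEigenspace nu, cp C (Φ s) m ∈ τ.maxGenEigenspace nu
  perfect : ∀ nu, τ.maxGenEigenspace nu ≤ Ax (fun s => cp C (Φ s)) (τ.maxGenEigenspace nu)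
  nil : ∀ nu s, ∀ m ∈ τ.maxGenEigenspace nu, (cp C (Φ s) ^ l s) m = 0
  free : ∀ nu s, l s * finrank K (ker (cp C (Φ s)) ⊓ τ.maxGenEigenspace nu : Submodule K C.M) =
    finrank K (τ.maxGenEigenspace nu)
  dim : ∀ nu, ∑ s, finrank K (ker (cp C (Φ s)) ⊓ τ.maxGenEigenspace nu : Submodule K C.M) +
    2 * finrank K (τ.maxGenEigenspace nu) =
      Fintype.card (Fin 3) * finrank K (τ.maxGenEigenspace nu)
  orth : ∀ nu mu, nu ≠ mu → ∀ m ∈ τ.maxGenEigenspace nu, ∀ m' ∈ τ.maxGenEigenspace mu,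
    BM C m m' = 0
  top : ⨆ ν, τ.maxGenEigenspace ν = ⊤
  nilM : ∀ s, cp C (Φ s) ^ l s = 0
  freeM : ∀ s, l s * finrank K (ker (cp C (Φ s))) = finrank K C.M

/-- the numbers of a tame triple -/
theorem nums_of_tame [FiniteDimensional K V] (hB : NS B) (hΦ : ∀ s, Sa B (Φ s))
    (C : St.Core B Φ) {τ : End K C.M} (hsa : ∀ v w, BM C (τ v) w = BM C v (τ w))
    (hcomm : ∀ s v, τ (cp C (Φ s) v) = cp C (Φ s) (τ v))
    (hDs : ⨆ ν, τ.maxGenEigenspace ν = ⊤) (hT : Tame (fun s => cp C (Φ s)) τ) :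
    ∃ l, Nums C τ l := by
  classical
  obtain ⟨-, -, l, h1, h2, h3⟩ := hT
  have hnil : ∀ nu s, ∀ m ∈ τ.maxGenEigenspace nu, (cp C (Φ s) ^ l s) m = 0 := by
    intro nu s m hm
    by_cases hν : τ.maxGenEigenspace nu = ⊥
    · rw [hν, Submodule.mem_bot] at hm
      rw [hm, map_zero]
    · exact (((h2 s nu hν).1 (l s)).2 le_rfl) m hm
  have hfree : ∀ nu s, l s *
      finrank K (ker (cp C (Φ s)) ⊓ τ.maxGenEigenspace nu : Submodule K C.M) =
      finrank K (τ.maxGenEigenspace nu) := by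
    intro nu s
    by_cases hν : τ.maxGenEigenspace nu = ⊥
    · rw [hν, inf_bot_eq, finrank_bot, mul_zero]
    · exact (h2 s nu hν).2
  have hind := Module.End.independent_maxGenEigenspace τ
  have hfin : {ν | τ.maxGenEigenspace ν ≠ ⊥}.Finite :=
    WellFoundedGT.finite_ne_bot_of_iSupIndep hind
  set S : Finset K := hfin.toFinset with hS
  have hmem : ∀ ν, ν ∈ S ↔ τ.maxGenEigenspace ν ≠ ⊥ := by
    intro ν; rw [hS, Set.Finite.mem_toFinset]; rfl
  have hV : finrank K C.M = ∑ ν ∈ S, finrank K (τ.maxGenEigenspace ν) := by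
    rw [← TC.finrank_iSup hind (fun ν h => (hmem ν).2 h), hDs, finrank_top]
  have hker : ∀ s, finrank K (ker (cp C (Φ s))) =
      ∑ ν ∈ S, finrank K (ker (cp C (Φ s)) ⊓ τ.maxGenEigenspace ν : Submodule K C.M) := by
    intro s
    have hind' : iSupIndep fun ν =>
        (ker (cp C (Φ s)) ⊓ τ.maxGenEigenspace ν : Submodule K C.M) :=
      hind.mono fun ν => inf_le_right
    rw [← TC.finrank_iSup hind' (fun ν h => (hmem ν).2 fun h0 => h (by rw [h0, inf_bot_eq]))]
    have hst : ∀ x ∈ ker (cp C (Φ s)), τ x ∈ ker (cp C (Φ s)) := by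
      intro x hx
      rw [LinearMap.mem_ker] at hx ⊢
      rw [← hcomm, hx, map_zero]
    have h4 := Submodule.inf_iSup_genEigenspace (f := τ) (p := ker (cp C (Φ s))) hst
      (k := ⊤)
    have h5 : (⨆ ν, ker (cp C (Φ s)) ⊓ τ.maxGenEigenspace ν) = ker (cp C (Φ s)) := by
      have h6 : (⨆ ν, (τ.genEigenspace ν) ⊤) = ⊤ := hDs
      rw [h6, inf_top_eq] at h4
      exact h4.symm
    rw [h5]
  refine ⟨l, h1, h3, fun nu s => gen_stable (hcomm s) nu, ?_, hnil, hfree, ?_,
    fun nu mu hne => gen_ortho hsa hne, hDs, ?_, ?_⟩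
  · intro nu
    exact gen_le_Ax (iSup_range_eq_top (NS_BM hB C) (fun s => cp_sa C (hΦ s)) (cp_ker hΦ C))
      hcomm hDs nu
  · intro nu
    have h4 : ∀ s, ((finrank K (ker (cp C (Φ s)) ⊓ τ.maxGenEigenspace nu :
        Submodule K C.M) : ℕ) : ℚ) = (1 / (l s : ℚ)) * finrank K (τ.maxGenEigenspace nu) := by
      intro s
      have h5 : (l s : ℚ) ≠ 0 := by
        have := h1 s
        exact_mod_cast (by omega : l s ≠ 0)
      rw [← hfree nu s]
      push_cast
      field_simp
    have h6 : (((∑ s, finrank K (ker (cp C (Φ s)) ⊓ τ.maxGenEigenspace nu : Submodule K C.M)) +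
        2 * finrank K (τ.maxGenEigenspace nu) : ℕ) : ℚ) =
        ((Fintype.card (Fin 3) * finrank K (τ.maxGenEigenspace nu) : ℕ) : ℚ) := by
      push_cast
      rw [Finset.sum_congr rfl fun s _ => h4 s, ← Finset.sum_mul]
      rw [Finset.sum_sub_distrib] at h3
      have h7 : ∑ s, (1 / (l s : ℚ)) = 1 := by
        have h8 : ∑ _s : Fin 3, (1 : ℚ) = 3 := by simp
        rw [h8] at h3
        linarith
      rw [h7, Fintype.card_fin]
      push_cast
      ring
    exact_mod_cast h6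
  · intro s
    apply LinearMap.ext
    intro v
    have hle : (⊤ : Submodule K C.M) ≤ ker (cp C (Φ s) ^ l s) := by
      rw [← hDs]
      exact iSup_le fun ν w hw => hnil ν s w hw
    exact hle (Submodule.mem_top (x := v))
  · intro s
    rw [hker, hV, Finset.mul_sum]
    exact Finset.sum_congr rfl fun ν _ => hfree ν s

variable {C : St.Core B Φ} {τ : End K C.M} {l : Fin 3 → ℕ}




end nums

end Crest.Agent.R172.CP

namespace Crest.Agent.R172.CP

open Module LinearMap
open Crest.Agent.R172.St Crest.Agent.R172.Core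

section rad

variable {K : Type*} [Field K] {V : Type*} [AddCommGroup V] [Module K V]
  {B : LinearMap.BilinForm K V} {Φ : Fin 3 → End K V} {C : St.Core B Φ} {τ : End K C.M}
  {l : Fin 3 → ℕ}


end rad

end Crest.Agent.R172.CP

namespace Crest.Agent.R172.CP

open Module Matrix Crest.Agent.R172.ThX Crest.Agent.R172.CSys Crest.Agent.R172.CF
open Crest.Agent.R172.Gen (Jm Ix)
open Crest.Agent.R172.TG Crest.Agent.R172.N5

section tens

variable {ι : Type*} [Fintype ι] [DecidableEq ι] {K : Type*} [Field K] {J : Matrix ι ι K}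





end tens

section mat

variable {n : ℕ} {a : Fin 3 → Fin n → ℤ} {c : Cfg n a} {K : Type} [Field K] [Algebra ℂ K]
variable {N W : Submodule K (Matrix (Ix n) c.δ K)} {F G : Matrix (Ix n) c.δ K}
  {C : St.Core (BV n K) (Ph F)} {τ : Module.End K C.M} {l : Fin 3 → ℕ}





end mat

end Crest.Agent.R172.CP
end

-- ▼ part R172/RDTot
section

/-!
Row 172, TAME (T0), arbitrary radical, arbitrary `τ`: the universal covers of the eigenblocks of the
core (619's `HexU.exists_fam`) and the total cover (`FrU.ACov`).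
-/

set_option autoImplicit false
set_option linter.unusedSectionVars false
set_option maxHeartbeats 800000

namespace Crest.Agent.R172.RDTot

open Module Matrix LinearMap Crest.AlgebraR.SpinSaturation Crest.Agent.R172.SoGrade
  Crest.Agent.R172.CF
open Crest.Agent.R172.Gen (Jm Ix emb Ent ent)
open Crest.Agent.R172.ThX Crest.Agent.R172.CSys
open Crest.Agent.R172.Core (NS cp BM Tame Pres)
open Crest.Agent.R172.CP (pM PP Nums)
open Crest.Agent.R172.N5 (Ph)

variable {n : ℕ} {a : Fin 3 → Fin n → ℤ} {c : Cfg n a} {K : Type} [Field K] [Algebra ℂ K]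
variable {N W : Submodule K (Matrix (Ix n) c.δ K)} {F G : Matrix (Ix n) c.δ K}
variable {C : St.Core (BV n K) (Ph F)} {τ : Module.End K C.M} {l : Fin 3 → ℕ}

theorem mapsD (τ : Module.End K C.M) (ν : K) :
    ∀ x ∈ τ.maxGenEigenspace ν, τ x ∈ τ.maxGenEigenspace ν :=
  Module.End.mapsTo_maxGenEigenspace_of_comm (Commute.refl τ) ν

/-- the operators on the block `ν` of the core -/
noncomputable def A0 (hl : Nums C τ l) (ν : K) (s : Fin 3) : End K (τ.maxGenEigenspace ν) :=
  (cp C (Ph F s)).restrict (hl.stable ν s)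

noncomputable def D0 (τ : Module.End K C.M) (ν : K) : End K (τ.maxGenEigenspace ν) :=
  τ.restrict (mapsD τ ν)

/-- spectral projectors -/
structure Spec (τ : Module.End K C.M) {m : ℕ} (lam : Fin m → K) (e : Fin m → End K C.M) :
    Prop where
  inj : Function.Injective lam
  mem : ∀ i v, e i v ∈ τ.maxGenEigenspace (lam i)
  fix : ∀ i, ∀ v ∈ τ.maxGenEigenspace (lam i), e i v = v
  zero : ∀ i j, i ≠ j → ∀ v ∈ τ.maxGenEigenspace (lam j), e i v = 0
  sum : ∀ v, ∑ i, e i v = v
  sa : ∀ i v w, BM C (e i v) w = BM C v (e i w)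
  comm : ∀ (f : End K C.M), (∀ v, τ (f v) = f (τ v)) → ∀ i v, e i (f v) = f (e i v)
  ne : ∀ i, τ.maxGenEigenspace (lam i) ≠ ⊥
  all : ∀ ν, τ.maxGenEigenspace ν ≠ ⊥ → ∃ i, lam i = ν

theorem exists_spec [IsAlgClosed K] (hT : TameAt F G C τ) :
    ∃ (m : ℕ) (lam : Fin m → K) (e : Fin m → End K C.M), Spec τ lam e := by
  obtain ⟨m, lam, e, h1, h2, h3, h4, h5, h6, h7, h8, h9⟩ := N5.exists_spec (B := BM C) τ
    (Module.End.iSup_maxGenEigenspace_eq_top τ) hT.sa
  exact ⟨m, lam, e, h1, h2, h3, h4, h5, h6, h7, h8, h9⟩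

/-- the family of universal covers -/
structure Tot (N W : Submodule K (Matrix (Ix n) c.δ K)) (F G : Matrix (Ix n) c.δ K)
    (C : St.Core (BV n K) (Ph F)) (τ : Module.End K C.M) {l : Fin 3 → ℕ} (hl : Nums C τ l)
    {m : ℕ} (lam : Fin m → K) (e : Fin m → End K C.M)
    {X : Fin m → Type} [∀ i, AddCommGroup (X i)] [∀ i, Module K (X i)]
    (A : ∀ i, Fin 3 → End K (X i)) (D : ∀ i, End K (X i))
    (pr : ∀ i, X i →ₗ[K] (τ.maxGenEigenspace (lam i))) (ll : ∀ i, X i →ₗ[K] (Ix n → K))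
    (h : ℕ) : Prop where
  spec : Spec τ lam e
  fin : ∀ i, FiniteDimensional K (X i)
  fam : HexU.Fam (Ph F) (CovI.st (Jm n K) F) (CovI.st (Jm n K) G) (St.Tp (BV n K) (Ph F))
    (CP.pM C) (fun i => A0 hl (lam i)) (fun i => D0 τ (lam i))
    (fun i => (τ.maxGenEigenspace (lam i)).subtype) True 0 0 h A D pr ll

theorem exists_tot [IsAlgClosed K] (hD : FO.Data ℂ c.arm (Jm n K) (c.B K) N W) (hF : F ∈ N ⊓ W)
    (hG : G ∈ N ⊓ W) (hT : TameAt F G C τ) (hl : Nums C τ l) :
    ∃ (m : ℕ) (lam : Fin m → K) (e : Fin m → End K C.M) (X : Fin m → Type)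
      (_ : ∀ i, AddCommGroup (X i)) (_ : ∀ i, Module K (X i))
      (A : ∀ i, Fin 3 → End K (X i)) (D : ∀ i, End K (X i))
      (pr : ∀ i, X i →ₗ[K] (τ.maxGenEigenspace (lam i))) (ll : ∀ i, X i →ₗ[K] (Ix n → K))
      (h : ℕ), Tot N W F G C τ hl lam e A D pr ll h := by
  classical
  obtain ⟨m, lam, e, hsp⟩ := exists_spec hT
  have hpen := CovI.pen hD hF hG
  have hsa : ∀ s, St.Sa (BV n K) (Ph F s) := N5.Ph_sa hD hF
  have hB : BV n K = DerG.BJ (Jm n K) := BV_eq
  have hPs : ∀ s v, MM (pU c K) (adjU c K) (Matrix.toLin' F) (Matrix.toLin' G) s v =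
      CovI.lo c.arm (c.B K) F s (CovI.st (Jm n K) G v) := by
    intro s v; rw [RDSet.Ps_eq]; rfl
  have hPh : ∀ s v, Ph F s v = CovI.lo c.arm (c.B K) F s (CovI.st (Jm n K) F v) := by
    intro s v; rw [RDSet.Ph_eq]; rfl
  have hPsT : ∀ s, ∀ v ∈ St.T (Ph F),
      MM (pU c K) (adjU c K) (Matrix.toLin' F) (Matrix.toLin' G) s v ∈ St.T (Ph F) := by
    intro s v hv
    rw [RDSet.Ps_eq, RDSet.Ph_eq] at *
    exact hpen.Ps_T s hv
  have hPssa : ∀ s, St.Sa (BV n K)
      (MM (pU c K) (adjU c K) (Matrix.toLin' F) (Matrix.toLin' G) s) := by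
    intro s
    rw [RDSet.Ps_eq, hB]
    exact hpen.Ps_sa s
  have hpres : ∀ s, Pres (BV n K) (Ph F)
      (MM (pU c K) (adjU c K) (Matrix.toLin' F) (Matrix.toLin' G) s) := by
    intro s
    exact ⟨hPsT s, fun v hv => St.Tp_stable (hPssa s) (hPsT s) hv⟩
  obtain ⟨k, hk⟩ := St.T_eq_Nk (Ph F)
  have hsum : ∀ v, Ph F 0 v + Ph F 1 v + Ph F 2 v = 0 := by
    intro v
    have h1 := MM_sum hD hF.2 v
    rwa [Fin.sum_univ_three] at h1
  obtain ⟨X, i1, i2, A, D, pr, ll, h, hfam⟩ := HexU.exists_fam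
    (Φ := Ph F) (Ψ := fun s => MM (pU c K) (adjU c K) (Matrix.toLin' F) (Matrix.toLin' G) s)
    (f := CovI.st (Jm n K) F) (gg := CovI.st (Jm n K) G) (F' := CovI.lo c.arm (c.B K) F)
    (Tp := St.Tp (BV n K) (Ph F)) (pM := CP.pM C) (μ := Fin m)
    (X0 := fun i => τ.maxGenEigenspace (lam i))
    (A0 := fun i => A0 hl (lam i)) (D0 := fun i => D0 τ (lam i))
    (p0 := fun i => (τ.maxGenEigenspace (lam i)).subtype) hPh hPs
    (by
      intro s v
      rw [hPh, hPs]
      exact (hpen.Gs_Ph s v))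
    hsum
    (fun s v hv => CP.Φ_Tp hsa s hv)
    (fun s v hv => (hpres s).Tp v hv)
    (φ := fun s => cp C (Ph F s)) (τ := τ)
    (fun s v hv => CP.pM_Φ hsa C s hv)
    (fun s v hv => by
      rw [CP.pM_pres (hpres s) C hv]
      exact hT.rel s _)
    (k := k)
    (fun v hv hv0 => by
      rw [← RDSet.Nk_eq, ← hk]
      exact (CP.pM_eq_zero C hv).1 hv0)
    (sec := C.M.subtype)
    (fun m => C.le _ m.2)
    (fun m => CP.pM_self C m)
    (fun i x => by
      apply Subtype.ext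
      have h1 := hsum ((x : C.M) : Ix n → K)
      have h2 : ∀ s, cp C (Ph F s) (x : C.M) = CP.pM C (Ph F s ((x : C.M) : Ix n → K)) :=
        fun s => rfl
      change cp C (Ph F 0) (x : C.M) + cp C (Ph F 1) (x : C.M) + cp C (Ph F 2) (x : C.M) = 0
      rw [h2, h2, h2, ← map_add, ← map_add, h1, map_zero])
    (fun i s x => Subtype.ext (hT.comm s x))
    (fun i x => by
      obtain ⟨q, hq, hqx⟩ := CP.mem_Ax_iff.1 (hl.perfect (lam i) x.2)
      refine ⟨fun s => ⟨q s, hq s⟩, ?_⟩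
      apply Subtype.ext
      rw [AddSubmonoidClass.coe_finsetSum]
      exact hqx)
    (fun i s x => rfl)
    (fun i x => rfl)
  exact ⟨m, lam, e, X, i1, i2, A, D, pr, ll, h, hsp, fun i => (hfam.st i).fin inferInstance, hfam⟩

section abs

open Crest.Agent.R172.CovT

theorem pside_of {K V U' M X0 X : Type*} [Field K] [AddCommGroup V] [Module K V]
    [AddCommGroup U'] [Module K U'] [AddCommGroup M] [Module K M] [AddCommGroup X0] [Module K X0]
    [AddCommGroup X] [Module K X] [FiniteDimensional K X0]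
    {Φ : Fin 3 → End K V} {f g : V →ₗ[K] U'} {Tp : Submodule K V} {pM : V →ₗ[K] M}
    {A0 : Fin 3 → End K X0} {D0 : End K X0} {p0 : X0 →ₗ[K] M} {P : Prop} {e e' h : ℕ}
    {A : Fin 3 → End K X} {D : End K X} {pr : X →ₗ[K] X0} {ll : X →ₗ[K] V}
    (st : Stage Φ f g Tp pM A0 D0 p0 P e e' h A D pr ll)
    (hker : ∀ v : X0, (∀ s, A0 s v = 0) → v = 0) {l : Fin 3 → ℕ} (hl1 : ∀ s, 1 ≤ l s)
    (hnil : ∀ s, A0 s ^ l s = 0) (hfree : ∀ s, l s * finrank K (ker (A0 s)) = finrank K X0)
    (hq : ∑ s, (1 - 1 / (l s : ℚ)) = 2) (hpos : 0 < finrank K X0) :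
    QBlk.PSide A (ker pr) l := by
  obtain ⟨h1, h2, h3, h4, h5⟩ := HexU.rj st hker hl1 hnil hfree hq
  refine ⟨h1, h2, ⟨h, h3⟩, hl1, h4, h5, ?_, ?_⟩
  · intro s
    exact RRk.lift_pow hpos (hl1 s) (hfree s) pr st.surj (fun p => st.prA s p)
      (fun p hp => LinearMap.mem_ker.1 hp)
  · intro t u htu
    obtain ⟨s, hst', hsu⟩ : ∃ s : Fin 3, s ≠ t ∧ s ≠ u := by
      fin_cases t <;> fin_cases u <;> first
        | exact absurd rfl htu
        | exact ⟨0, by decide, by decide⟩
        | exact ⟨1, by decide, by decide⟩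
        | exact ⟨2, by decide, by decide⟩
    exact RRk.lift_ab hpos hl1 hfree hq pr st.surj st.prA
      (fun p => LinearMap.mem_ker) hst' hsu htu

end abs

section tot

variable {m : ℕ} {X : Fin m → Type} [∀ i, AddCommGroup (X i)] [∀ i, Module K (X i)]

/-- operators on the total cover -/
def AA (A : ∀ i, Fin 3 → End K (X i)) (s : Fin 3) : End K (∀ i, X i) :=
  LinearMap.pi fun i => A i s ∘ₗ LinearMap.proj i

def DD (D : ∀ i, End K (X i)) : End K (∀ i, X i) :=
  LinearMap.pi fun i => D i ∘ₗ LinearMap.proj i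

/-- the map to `V` -/
noncomputable def LL (ll : ∀ i, X i →ₗ[K] (Ix n → K)) : (∀ i, X i) →ₗ[K] (Ix n → K) :=
  ∑ i, ll i ∘ₗ LinearMap.proj i

/-- the map to the core -/
noncomputable def QQ {lam : Fin m → K} (pr : ∀ i, X i →ₗ[K] (τ.maxGenEigenspace (lam i))) :
    (∀ i, X i) →ₗ[K] C.M :=
  ∑ i, ((τ.maxGenEigenspace (lam i)).subtype ∘ₗ pr i) ∘ₗ LinearMap.proj i

@[simp] theorem AA_apply (A : ∀ i, Fin 3 → End K (X i)) (s : Fin 3) (x : ∀ i, X i) (i : Fin m) :
    AA A s x i = A i s (x i) := rfl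

@[simp] theorem DD_apply (D : ∀ i, End K (X i)) (x : ∀ i, X i) (i : Fin m) :
    DD D x i = D i (x i) := rfl

theorem LL_apply (ll : ∀ i, X i →ₗ[K] (Ix n → K)) (x : ∀ i, X i) :
    LL ll x = ∑ i, ll i (x i) := by
  rw [LL, LinearMap.sum_apply]; rfl

theorem QQ_apply {lam : Fin m → K} (pr : ∀ i, X i →ₗ[K] (τ.maxGenEigenspace (lam i)))
    (x : ∀ i, X i) : QQ pr x = ∑ i, ((pr i (x i) : τ.maxGenEigenspace (lam i)) : C.M) := by
  rw [QQ, LinearMap.sum_apply]; rfl

namespace Tot

variable {hl : Nums C τ l} {lam : Fin m → K} {e : Fin m → End K C.M}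
  {A : ∀ i, Fin 3 → End K (X i)} {D : ∀ i, End K (X i)}
  {pr : ∀ i, X i →ₗ[K] (τ.maxGenEigenspace (lam i))} {ll : ∀ i, X i →ₗ[K] (Ix n → K)} {h : ℕ}
  (H : Tot N W F G C τ hl lam e A D pr ll h)
include H

theorem pM_LL (x : ∀ i, X i) : pM C (LL ll x) = QQ pr x := by
  rw [LL_apply, QQ_apply, map_sum]
  exact Finset.sum_congr rfl fun i _ => (H.fam.st i).lpM (x i)

theorem LL_mem (x : ∀ i, X i) : LL ll x ∈ St.Tp (BV n K) (Ph F) := by
  rw [LL_apply]
  exact Submodule.sum_mem _ fun i _ => (H.fam.st i).lTp (x i)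

theorem e_QQ (i : Fin m) (x : ∀ i, X i) : e i (QQ pr x) = ((pr i (x i) :) : C.M) := by
  rw [QQ_apply, map_sum, Finset.sum_eq_single i]
  · exact H.spec.fix i _ (pr i (x i)).2
  · intro j _ hj
    exact H.spec.zero i j (Ne.symm hj) _ (pr j (x j)).2
  · intro hi
    exact absurd (Finset.mem_univ i) hi

theorem QQ_eq_zero {x : ∀ i, X i} : QQ pr x = 0 ↔ ∀ i, pr i (x i) = 0 := by
  constructor
  · intro h0 i
    have h1 := H.e_QQ i x
    rw [h0, map_zero] at h1
    exact Subtype.ext h1.symm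
  · intro h0
    rw [QQ_apply]
    exact Finset.sum_eq_zero fun i _ => by rw [h0 i]; rfl

theorem QQ_AA (s : Fin 3) (x : ∀ i, X i) : QQ pr (AA A s x) = cp C (Ph F s) (QQ pr x) := by
  rw [QQ_apply, QQ_apply, map_sum]
  refine Finset.sum_congr rfl fun i _ => ?_
  rw [AA_apply, (H.fam.st i).prA]
  rfl

theorem QQ_DD (x : ∀ i, X i) : QQ pr (DD D x) = τ (QQ pr x) := by
  rw [QQ_apply, QQ_apply, map_sum]
  refine Finset.sum_congr rfl fun i _ => ?_
  rw [DD_apply, (H.fam.st i).prD]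
  rfl

theorem QQ_surj : Function.Surjective (QQ pr : (∀ i, X i) →ₗ[K] C.M) := by
  intro v
  choose x hx using fun i => (H.fam.st i).surj ⟨e i v, H.spec.mem i v⟩
  refine ⟨x, ?_⟩
  rw [QQ_apply]
  conv_rhs => rw [← H.spec.sum v]
  refine Finset.sum_congr rfl fun i _ => ?_
  rw [hx]

theorem form (x y : ∀ i, X i) : BV n K (LL ll x) (LL ll y) = BM C (QQ pr x) (QQ pr y) := by
  rw [CP.form_eq (fun u v => BV_ns.symm u v) C (H.LL_mem x) (H.LL_mem y), H.pM_LL, H.pM_LL]

theorem orth {i j : Fin m} (hij : i ≠ j) (x : X i) (y : X j) :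
    BM C ((pr i x : τ.maxGenEigenspace (lam i)) : C.M) ((pr j y :) : C.M) = 0 :=
  hl.orth _ _ (fun hh => hij (H.spec.inj hh)) _ (pr i x).2 _ (pr j y).2

theorem words (w : List (Fin 3)) (hw : w.length = h) (x : ∀ i, X i) (hx : QQ pr x = 0) :
    (w.map (AA A)).prod x = 0 := by
  have key : ∀ (w : List (Fin 3)) (i : Fin m), ((w.map (AA A)).prod x) i =
      (w.map (A i)).prod (x i) := by
    intro w i
    induction w with
    | nil => simp
    | cons s w ih =>
      rw [List.map_cons, List.prod_cons, Module.End.mul_apply, AA_apply, ih, List.map_cons,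
        List.prod_cons, Module.End.mul_apply]
  funext i
  rw [key]
  exact RDSet.nil_words ((H.fam.st i).nil _ (H.QQ_eq_zero.1 hx i)) w hw

theorem AA_DD (s : Fin 3) (x : ∀ i, X i) : AA A s (DD D x) = DD D (AA A s x) := by
  funext i
  exact ((H.fam.st i).comm s (x i)).symm

theorem sumA (x : ∀ i, X i) : ∑ s, AA A s x = 0 := by
  funext i
  rw [Finset.sum_apply, Fin.sum_univ_three]
  exact (H.fam.st i).sumA (x i)

theorem perf (x : ∀ i, X i) : ∃ f : Fin 3 → ∀ i, X i, x = ∑ s, AA A s (f s) := by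
  choose f hf using fun i => (H.fam.st i).perf (x i)
  refine ⟨fun s i => f i s, ?_⟩
  funext i
  rw [Finset.sum_apply]
  exact hf i

theorem LL_AA (s : Fin 3) (x : ∀ i, X i) : Ph F s (LL ll x) = LL ll (AA A s x) := by
  rw [LL_apply, LL_apply, map_sum]
  exact Finset.sum_congr rfl fun i _ => (H.fam.st i).exA s (x i)

theorem LL_DD (x : ∀ i, X i) : (Gᵀ * Jm n K) *ᵥ (LL ll x) = (Fᵀ * Jm n K) *ᵥ (LL ll (DD D x)) := by
  have e1 : ∀ (Z : Matrix (Ix n) c.δ K) (v : Ix n → K), CovI.st (Jm n K) Z v =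
      (Zᵀ * Jm n K) *ᵥ v := fun Z v => rfl
  rw [← e1, ← e1, LL_apply, LL_apply, map_sum, map_sum]
  exact Finset.sum_congr rfl fun i _ => (H.fam.st i).exG (x i)

theorem range_LL (hD : FO.Data ℂ c.arm (Jm n K) (c.B K) N W) (hF : F ∈ N ⊓ W) :
    LinearMap.range (LL ll : (∀ i, X i) →ₗ[K] (Ix n → K)) = St.Tp (BV n K) (Ph F) := by
  have hsa : ∀ s, St.Sa (BV n K) (Ph F s) := N5.Ph_sa hD hF
  obtain ⟨k, hk⟩ := St.T_eq_Nk (Ph F)
  refine le_antisymm ?_ ?_
  · rintro _ ⟨x, rfl⟩
    exact H.LL_mem x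
  · have hR' : CP.Ax (Ph F) (range (LL ll)) ≤ range (LL ll) := by
      refine CP.Ax_le fun s v hv => ?_
      obtain ⟨x, rfl⟩ := hv
      exact ⟨AA A s x, (H.LL_AA s x).symm⟩
    have hTpp : St.Tp (BV n K) (Ph F) ≤ CP.Ax (Ph F) (St.Tp (BV n K) (Ph F)) :=
      Core.Tp_le_iSup BV_ns hsa
    have hdec : ∀ v ∈ St.Tp (BV n K) (Ph F),
        ∃ x, v - LL ll x ∈ St.Tp (BV n K) (Ph F) ⊓ St.T (Ph F) := by
      intro v hv
      obtain ⟨x, hx⟩ := H.QQ_surj (CP.pM C v)
      refine ⟨x, Submodule.sub_mem _ hv (H.LL_mem x), ?_⟩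
      refine (CP.pM_eq_zero C (Submodule.sub_mem _ hv (H.LL_mem x))).1 ?_
      rw [map_sub, H.pM_LL, hx, sub_self]
    have hRR : St.Tp (BV n K) (Ph F) ⊓ St.T (Ph F) ≤
        range (LL ll) ⊔ CP.Ax (Ph F) (St.Tp (BV n K) (Ph F) ⊓ St.T (Ph F)) := by
      intro v hv
      obtain ⟨q, hq, hqv⟩ := CP.mem_Ax_iff.1 (hTpp hv.1)
      rw [hqv]
      refine Submodule.sum_mem _ fun s _ => ?_
      obtain ⟨x, hx⟩ := hdec _ (hq s)
      have e1 : Ph F s (q s) = LL ll (AA A s x) + Ph F s (q s - LL ll x) := by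
        rw [map_sub, H.LL_AA]; abel
      rw [e1]
      exact Submodule.add_mem_sup ⟨_, rfl⟩ (CP.mem_Ax hx s)
    have hnk : St.Tp (BV n K) (Ph F) ⊓ St.T (Ph F) ≤ range (LL ll) := by
      refine CP.nak hR' hRR (k := k) ?_
      refine le_trans (CP.It_mono ?_ k) ((CP.It_Nk (Ph F) k).trans bot_le)
      rw [← hk]; exact inf_le_right
    intro v hv
    obtain ⟨x, hx⟩ := hdec v hv
    have h1 := hnk hx
    have e1 : v = (v - LL ll x) + LL ll x := by abel
    rw [e1]
    exact Submodule.add_mem _ h1 ⟨x, rfl⟩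

/-- **the total cover is an abstract cover in the sense of `FrU`** -/
theorem acov (hD : FO.Data ℂ c.arm (Jm n K) (c.B K) N W) (hF : F ∈ N ⊓ W) :
    FrU.ACov c.arm (Jm n K) (c.B K) F G (AA A) (DD D) (LL ll) where
  piA s x := by rw [← H.LL_AA, N5.Ph_apply]
  rel := H.LL_DD
  comm := H.AA_DD
  perf := H.perf
  range := by
    rw [H.range_LL hD hF, BV_eq, show (Ph F) = DerG.Ph c.arm (Jm n K) (c.B K) F from MM_eq F]

/-- one-sided hypotheses of the span lemmas for the block `i` -/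
theorem pside (i : Fin m)
    (hker : ∀ v : C.M, (∀ s, cp C (Ph F s) v = 0) → v = 0) :
    QBlk.PSide (A i) (ker (pr i)) l := by
  have hνfree : ∀ s, l s * finrank K (ker (A0 hl (lam i) s)) =
      finrank K (τ.maxGenEigenspace (lam i)) := by
    intro s
    rw [← hl.free (lam i) s]
    congr 1
    exact RRk.finrank_ker_restrict (hl.stable (lam i) s)
  have hpow : ∀ s (k : ℕ) (x : τ.maxGenEigenspace (lam i)),
      (((A0 hl (lam i) s ^ k) x : τ.maxGenEigenspace (lam i)) : C.M) = (cp C (Ph F s) ^ k) x := by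
    intro s k x
    induction k with
    | zero => rfl
    | succ k ih =>
      rw [pow_succ', Module.End.mul_apply, pow_succ', Module.End.mul_apply, ← ih]
      rfl
  have hnil : ∀ s, A0 hl (lam i) s ^ l s = 0 := by
    intro s
    refine LinearMap.ext fun x => Subtype.ext ?_
    rw [hpow, hl.nil (lam i) s x x.2]
    rfl
  have hkr : ∀ v : τ.maxGenEigenspace (lam i), (∀ s, A0 hl (lam i) s v = 0) → v = 0 := by
    intro v hv
    exact Subtype.ext (hker v fun s => congrArg Subtype.val (hv s))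
  have hpos : 0 < finrank K (τ.maxGenEigenspace (lam i)) := by
    rw [Nat.pos_iff_ne_zero]
    intro e0
    exact H.spec.ne i (Submodule.finrank_eq_zero.1 e0)
  exact pside_of (H.fam.st i) hkr hl.one_le hnil hνfree hl.sum hpos

end Tot

end tot

end Crest.Agent.R172.RDTot
end

-- ▼ part R172/Pt2
section

/-!
Row 172, TAME (T0), arbitrary radical, node R-Hom.

`F ∈ 𝒦` generic, `G ∈ 𝒦`, `H = F + s • G` generic (`s ∈ K` arbitrary), `C` a core of `F`,
`D = τ_G` on the core.

* `cp_GG`, `cp_H` : `cp C Φ_r(H) = cp C Φ_r(F) (1 + s D)^2`.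
* `inter_zero`: no `A_H`-linear maps between different generalised eigenspaces of `D`.
* `hom`: `A_H`-linear maps `P_ν → C.M` have values in the generalised eigenspace of `ν`.
-/

set_option autoImplicit false
set_option linter.unusedSectionVars false

namespace Crest.Agent.R172.Pt

open Matrix Crest.Agent.R172.FO Crest.Agent.R172.QN Crest.Agent.R172.St Module
open Crest.Agent.R172.Core (NS BM cp Pres cp_coe)

variable {ι : Type*} [Fintype ι] [DecidableEq ι] {δ : Type*} [Fintype δ] [DecidableEq δ]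
variable {k K : Type*} [Field k] [Field K] [Algebra k K]
variable {arm : δ → Fin 3} {J : Matrix ι ι K} {B : Matrix δ δ K}
  {N W : Submodule K (Matrix ι δ K)}

theorem ns_BJ (hJ : Jᵀ = J) (hJu : IsUnit J) : NS (DerG.BJ J) where
  symm v w := by
    rw [DerG.BJ_apply, DerG.BJ_apply, dotProduct_comm, ← vecMul_transpose, hJ,
      ← dotProduct_mulVec]
  nd v hv := by
    obtain ⟨Ji, hJi, hJi', _⟩ := symm_inv hJ hJu
    have h1 : ∀ w : ι → K, v ⬝ᵥ w = 0 := by
      intro w
      have := hv (Ji *ᵥ w)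
      rw [DerG.BJ_apply, mulVec_mulVec, hJi, one_mulVec] at this
      exact this
    funext i
    have := h1 (Pi.single i 1)
    simpa using this

theorem sa_toLin {A : Matrix ι ι K} (hA : Aᵀ * J = J * A) : Sa (DerG.BJ J) (toLin' A) := by
  intro u v
  rw [DerG.BJ_apply, DerG.BJ_apply, toLin'_apply, toLin'_apply, mulVec_mulVec, ← hA,
    ← mulVec_mulVec, ← vecMul_transpose, ← dotProduct_mulVec]

/-- self-adjointness of `M_r(a,b) J`, `a, b ∈ 𝒦` -/
theorem sa_M (hD : Data k arm J B N W) {a b : Matrix ι δ K} (ha : a ∈ N ⊓ W) (hb : b ∈ N ⊓ W)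
    (r : Fin 3) : (M arm B r a b * J)ᵀ * J = J * (M arm B r a b * J) := by
  rw [transpose_mul, Slack.M_transpose hD, hD.J_symm, hD.symm_arm hb ha, Matrix.mul_assoc]

/-- a word followed by `M_r(a,b) J` -/
theorem wd_mul (F a0 a1 : Matrix ι δ K) (r : Fin 3) (l : List (Fin 3)) :
    wd (Phi arm J B F) l * (M arm B r a0 a1 * J) =
      Wd arm J B (l ++ [r]) (fun n => if n = 2 * l.length then a0 else
        if n = 2 * l.length + 1 then a1 else F) := by
  induction l with
  | nil => simp [wd, Wd]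
  | cons s l ih =>
    have h2 : wd (Phi arm J B F) (s :: l) = Phi arm J B F s * wd (Phi arm J B F) l := by
      simp [wd]
    rw [h2, Matrix.mul_assoc, ih, List.cons_append, Wd]
    have e0 : (if 0 = 2 * (s :: l).length then a0 else
        if 0 = 2 * (s :: l).length + 1 then a1 else F) = F := by
      rw [if_neg (by simp), if_neg (by simp)]
    have e1 : (if 1 = 2 * (s :: l).length then a0 else
        if 1 = 2 * (s :: l).length + 1 then a1 else F) = F := by
      rw [if_neg (by simp only [List.length_cons]; omega),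
        if_neg (by simp only [List.length_cons]; omega)]
    rw [e0, e1]
    have e2 : (fun n => if n + 2 = 2 * (s :: l).length then a0 else
        if n + 2 = 2 * (s :: l).length + 1 then a1 else F) =
        fun n => if n = 2 * l.length then a0 else if n = 2 * l.length + 1 then a1 else F := by
      funext n
      simp only [List.length_cons]
      congr 1
      · simp only [eq_iff_iff]; omega
      · congr 1
        simp only [eq_iff_iff]; omega
    rw [e2]
    rfl

/-- `M_r(a,b) J` preserves `T(F)` and `P(F)` for `F` generic, `a, b ∈ 𝒦`. -/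
theorem pres_M [CharZero K] (hD : Data k arm J B N W) {F : Matrix ι δ K}
    (hF : Generic k arm N W F) {a b : Matrix ι δ K} (ha : a ∈ N ⊓ W) (hb : b ∈ N ⊓ W)
    (r : Fin 3) : Pres (DerG.BJ J) (DerG.Ph arm J B F) (toLin' (M arm B r a b * J)) := by
  have hT : ∀ t ∈ T (DerG.Ph arm J B F), toLin' (M arm B r a b * J) t ∈
      T (DerG.Ph arm J B F) := by
    intro t ht
    obtain ⟨m, hm⟩ := T_eq_Nk (DerG.Ph arm J B F)
    refine mem_T.2 ⟨m, (mem_Nk_iff F).2 fun l hl => ?_⟩
    rw [toLin'_apply, mulVec_mulVec, wd_mul]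
    refine nil_all hD hF (m := m + 1) (hm.le.trans (Nk_le_succ _ m)) (by simp [hl])
      (fun n => ?_) ht
    split_ifs
    · exact ha
    · exact hb
    · exact hF.mem
  exact ⟨hT, fun t ht => Tp_stable (sa_toLin (sa_M hD ha hb r)) hT ht⟩

section core

variable {F G : Matrix ι δ K}

theorem sa_Ph (hD : Data k arm J B N W) {H : Matrix ι δ K} (hH : H ∈ N ⊓ W) (r : Fin 3) :
    Sa (DerG.BJ J) (DerG.Ph arm J B H r) := sa_toLin (sa_M hD hH hH r)

theorem cp_add {V : Type*} [AddCommGroup V] [Module K V] {κ : Type*}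
    {b : LinearMap.BilinForm K V} {Φ : κ → End K V} (C : St.Core b Φ) (f g : End K V) :
    cp C (f + g) = cp C f + cp C g := by
  apply LinearMap.ext
  intro v
  apply Subtype.ext
  change C.π (f v + g v) = C.π (f v) + C.π (g v)
  rw [map_add]

theorem cp_smul {V : Type*} [AddCommGroup V] [Module K V] {κ : Type*}
    {b : LinearMap.BilinForm K V} {Φ : κ → End K V} (C : St.Core b Φ) (c : K) (f : End K V) :
    cp C (c • f) = c • cp C f := by
  apply LinearMap.ext
  intro v
  apply Subtype.ext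
  change C.π (c • f v) = c • C.π (f v)
  rw [map_smul]

/-- `Φ_r(G) Φ_s(F) = Ψ_r Ψ_s` -/
theorem GG_Phi (hD : Data k arm J B N W) (hF : F ∈ N ⊓ W) (hG : G ∈ N ⊓ W) (r s : Fin 3) :
    Phi arm J B G r * Phi arm J B F s = Psi arm J B F G r * Psi arm J B F G s := by
  have h1 := hD.symm_U hF hG
  rw [Psi_comm hD hF hG r]
  unfold Phi Psi M
  calc G * E K arm r * B * Gᵀ * J * (F * E K arm s * B * Fᵀ * J)
      = G * E K arm r * B * (Gᵀ * J * F) * E K arm s * B * Fᵀ * J := by
        simp only [Matrix.mul_assoc]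
    _ = G * E K arm r * B * (Fᵀ * J * G) * E K arm s * B * Fᵀ * J := by rw [h1]
    _ = G * E K arm r * B * Fᵀ * J * (G * E K arm s * B * Fᵀ * J) := by
        simp only [Matrix.mul_assoc]
    _ = G * E K arm r * B * Fᵀ * J * (F * E K arm s * B * Gᵀ * J) := by
        have h2 := hD.symm_arm hG hF s
        unfold M at h2
        rw [h2]

theorem Ph_add (hD : Data k arm J B N W) (hF : F ∈ N ⊓ W) (hG : G ∈ N ⊓ W) (s : K)
    (r : Fin 3) : DerG.Ph arm J B (F + s • G) r = DerG.Ph arm J B F r +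
      (2 * s) • toLin' (Psi arm J B F G r) + (s * s) • DerG.Ph arm J B G r := by
  have h1 : Phi arm J B (F + s • G) r = Phi arm J B F r + (2 * s) • Psi arm J B F G r +
      (s * s) • Phi arm J B G r := by
    have h2 := Psi_comm (J := J) hD hF hG r
    have e : Phi arm J B (F + s • G) r = Phi arm J B F r + s • Psi arm J B F G r +
        s • Psi arm J B G F r + (s * s) • Phi arm J B G r := by
      unfold Phi Psi M
      rw [transpose_add, transpose_smul, Matrix.mul_add, Matrix.mul_smul]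
      simp only [Matrix.add_mul, Matrix.smul_mul, smul_add, smul_smul]
      abel
    rw [e, ← h2, two_mul, add_smul]
    abel
  unfold DerG.Ph
  rw [h1, map_add, map_add, map_smul, map_smul]

variable (C : St.Core (DerG.BJ J) (DerG.Ph arm J B F)) {D : End K C.M}

theorem core_top [FiniteDimensional K (ι → K)] (hD : Data k arm J B N W) (hF : F ∈ N ⊓ W) :
    ⨆ r, LinearMap.range (cp C (DerG.Ph arm J B F r)) = ⊤ :=
  Core.iSup_range_eq_top (Core.NS_BM (ns_BJ hD.J_symm hD.J_unit) C)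
    (fun r v w => Core.cp_sa C (sa_Ph hD hF r) v w)
    (fun v hv => Core.cp_ker (sa_Ph hD hF) C v hv)

/-- `Φ_r(G) = Φ_r(F) D²` on the core -/
theorem cp_GG [CharZero K] (hD : Data k arm J B N W) (hF : Generic k arm N W F)
    (hG : G ∈ N ⊓ W)
    (hDΦ : ∀ r v, D (cp C (DerG.Ph arm J B F r) v) = cp C (DerG.Ph arm J B F r) (D v))
    (hrel : ∀ r v, cp C (toLin' (Psi arm J B F G r)) v = cp C (DerG.Ph arm J B F r) (D v))
    (r : Fin 3) (v : C.M) :
    cp C (DerG.Ph arm J B G r) v = cp C (DerG.Ph arm J B F r) (D (D v)) := by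
  have htop := core_top C hD hF.mem
  have hle : (⊤ : Submodule K C.M) ≤ LinearMap.eqLocus (cp C (DerG.Ph arm J B G r))
      (cp C (DerG.Ph arm J B F r) * (D * D)) := by
    rw [← htop]
    refine iSup_le fun s => ?_
    rintro _ ⟨w, rfl⟩
    rw [LinearMap.mem_eqLocus]
    have p1 : Pres (DerG.BJ J) (DerG.Ph arm J B F) (DerG.Ph arm J B G r) :=
      pres_M hD hF hG hG r
    have p2 : Pres (DerG.BJ J) (DerG.Ph arm J B F) (DerG.Ph arm J B F s) :=
      pres_M hD hF hF.mem hF.mem s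
    have p3 : ∀ u, Pres (DerG.BJ J) (DerG.Ph arm J B F) (toLin' (Psi arm J B F G u)) :=
      fun u => pres_M hD hF hF.mem hG u
    rw [Core.cp_comp C p1 p2]
    have e1 : DerG.Ph arm J B G r * DerG.Ph arm J B F s =
        toLin' (Psi arm J B F G r) * toLin' (Psi arm J B F G s) := by
      unfold DerG.Ph
      change toLin' _ ∘ₗ toLin' _ = toLin' _ ∘ₗ toLin' _
      rw [← toLin'_mul, ← toLin'_mul, GG_Phi hD hF.mem hG]
    rw [e1, ← Core.cp_comp C (p3 r) (p3 s), hrel, hrel]
    change _ = cp C (DerG.Ph arm J B F r) (D (D (cp C (DerG.Ph arm J B F s) w)))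
    rw [hDΦ s w]
  exact LinearMap.mem_eqLocus.1 (hle (Submodule.mem_top (x := v)))

/-- `Φ_r(H) = Φ_r(F) (1 + s D)²` on the core, `H = F + s G` -/
theorem cp_H [CharZero K] (hD : Data k arm J B N W) (hF : Generic k arm N W F)
    (hG : G ∈ N ⊓ W)
    (hDΦ : ∀ r v, D (cp C (DerG.Ph arm J B F r) v) = cp C (DerG.Ph arm J B F r) (D v))
    (hrel : ∀ r v, cp C (toLin' (Psi arm J B F G r)) v = cp C (DerG.Ph arm J B F r) (D v))
    (s : K) (r : Fin 3) (v : C.M) :
    cp C (DerG.Ph arm J B (F + s • G) r) v =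
      cp C (DerG.Ph arm J B F r) ((1 + s • D) ((1 + s • D) v)) := by
  rw [Ph_add hD hF.mem hG, cp_add, cp_add, cp_smul, cp_smul]
  simp only [LinearMap.add_apply, LinearMap.smul_apply, hrel,
    cp_GG C hD hF hG hDΦ hrel, Module.End.one_apply, map_add, map_smul, smul_add, smul_smul]
  rw [two_mul, add_smul]
  abel

theorem cp_H_comm [CharZero K] (hD : Data k arm J B N W) (hF : Generic k arm N W F)
    (hG : G ∈ N ⊓ W)
    (hDΦ : ∀ r v, D (cp C (DerG.Ph arm J B F r) v) = cp C (DerG.Ph arm J B F r) (D v))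
    (hrel : ∀ r v, cp C (toLin' (Psi arm J B F G r)) v = cp C (DerG.Ph arm J B F r) (D v))
    (s : K) (r : Fin 3) (v : C.M) :
    D (cp C (DerG.Ph arm J B (F + s • G) r) v) =
      cp C (DerG.Ph arm J B (F + s • G) r) (D v) := by
  rw [cp_H C hD hF hG hDΦ hrel, cp_H C hD hF hG hDΦ hrel, hDΦ]
  congr 1
  simp only [LinearMap.add_apply, LinearMap.smul_apply, Module.End.one_apply, map_add,
    map_smul]

end core

section abstract

variable {K : Type*} [Field K] {V : Type*} [AddCommGroup V] [Module K V] {κ : Type*}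
variable {b : LinearMap.BilinForm K V} {Φ Φ0 : κ → End K V}

theorem pres_of_T (hΦ : ∀ s, Sa b (Φ s)) (hT : T Φ = T Φ0) (s : κ) : Pres b Φ0 (Φ s) := by
  have h1 := Core.pres_Φ hΦ s
  refine ⟨fun t ht => ?_, fun t ht => ?_⟩
  · rw [← hT] at ht ⊢
    exact h1.T t ht
  · rw [mem_Tp, ← hT] at ht ⊢
    exact h1.Tp t ht

theorem cp_ker_of_T [Finite κ] (hΦ : ∀ s, Sa b (Φ s)) (hT : T Φ = T Φ0) (C : St.Core b Φ0)
    (v : C.M) (h : ∀ s, cp C (Φ s) v = 0) : v = 0 :=
  Core.cp_ker hΦ (coreCongr hT C) v h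

theorem der_of_T [FiniteDimensional K V] [CharZero K] [Fintype κ] (hB : NS b)
    (hΦ : ∀ s, Sa b (Φ s)) (hDer : Core.DerR b Φ) (hT : T Φ = T Φ0) (C : St.Core b Φ0) :
    Core.Der (BM C) (fun s => cp C (Φ s)) :=
  Core.Der_core' hB hΦ hDer (coreCongr hT C)

/-- **No `A`-linear maps between different blocks** of a self-adjoint `D`. -/
theorem inter_zero [FiniteDimensional K V] [IsAlgClosed K] [CharZero K] [Fintype κ] (hB : NS b)
    (hΦ : ∀ s, Sa b (Φ s)) (hnil : ∃ m, ∀ s, Φ s ^ m = 0) (hsum : ∀ v, ∑ s, Φ s v = 0)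
    (hDer : Core.DerR b Φ) (hT : T Φ = T Φ0) (C : St.Core b Φ0) {D : End K C.M}
    (hDB : ∀ v w, BM C (D v) w = BM C v (D w))
    (hDΦ : ∀ s v, D (cp C (Φ s) v) = cp C (Φ s) (D v)) {lam mu : K} (hne : lam ≠ mu)
    (x : D.maxGenEigenspace lam →ₗ[K] D.maxGenEigenspace mu)
    (hx : ∀ r, ∀ v w : D.maxGenEigenspace lam, (w : C.M) = cp C (Φ r) v →
        ((x w : D.maxGenEigenspace mu) : C.M) = cp C (Φ r) (x v : C.M)) : x = 0 := by
  obtain ⟨-, -, -, h3, -⟩ := Core.pair_blocks (B := BM C)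
    (Φ := fun r => cp C (Φ r)) (D := D)
    (Core.NS_BM hB C) (fun r v w => Core.cp_sa C (hΦ r) v w)
    (by
      obtain ⟨m, hm⟩ := hnil
      refine ⟨m, fun r => ?_⟩
      rw [Core.cp_pow C (pres_of_T hΦ hT r), hm r]
      apply LinearMap.ext
      intro v
      apply Subtype.ext
      change C.π ((0 : End K V) v) = 0
      rw [LinearMap.zero_apply, map_zero])
    (by
      intro v
      apply Subtype.ext
      rw [Submodule.coe_sum]
      change ∑ r, C.π (Φ r v) = 0
      rw [← map_sum, hsum, map_zero])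
    (fun v h => cp_ker_of_T hΦ hT C v h) (der_of_T hB hΦ hDer hT C) hDB hDΦ
    (Module.End.iSup_maxGenEigenspace_eq_top _) hne
  have h4 : x ∈ (⊥ : Submodule K (D.maxGenEigenspace lam →ₗ[K] D.maxGenEigenspace mu)) := by
    rw [← h3, Core.mem_InterAll]
    intro r v
    apply Subtype.ext
    exact hx r v _ rfl
  exact (Submodule.mem_bot K).1 h4

/-- `A`-linear maps from a block of the core into the core have values in the block. -/
theorem hom_core [FiniteDimensional K V] [IsAlgClosed K] [CharZero K] [Fintype κ] (hB : NS b)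
    (hΦ : ∀ s, Sa b (Φ s)) (hnil : ∃ m, ∀ s, Φ s ^ m = 0) (hsum : ∀ v, ∑ s, Φ s v = 0)
    (hDer : Core.DerR b Φ) (hT : T Φ = T Φ0) (C : St.Core b Φ0) {D : End K C.M}
    (hDB : ∀ v w, BM C (D v) w = BM C v (D w))
    (hDΦ : ∀ s v, D (cp C (Φ s) v) = cp C (Φ s) (D v)) {nu : K} (x : C.M →ₗ[K] C.M)
    (hx : ∀ r, ∀ v ∈ D.maxGenEigenspace nu, x (cp C (Φ r) v) = cp C (Φ r) (x v)) {m : C.M}
    (hm : m ∈ D.maxGenEigenspace nu) : x m ∈ D.maxGenEigenspace nu := by
  have htop : ⨆ ν, D.maxGenEigenspace ν = ⊤ := Module.End.iSup_maxGenEigenspace_eq_top _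
  -- the components
  have hcomp : ∀ mu, nu ≠ mu → x m ∈ Core.co D mu := by
    intro mu hne
    have hc := Core.gen_isCompl htop mu
    set pr := Submodule.projectionOnto _ _ hc with hpr
    have hprl : ∀ w : D.maxGenEigenspace mu, pr (w : C.M) = w := fun w =>
      Submodule.projectionOnto_apply_left hc w
    have hprz : ∀ w : C.M, pr w = 0 ↔ w ∈ Core.co D mu := fun w =>
      Submodule.projectionOnto_apply_eq_zero_iff hc
    have hzero := inter_zero hB hΦ hnil hsum hDer hT C hDB hDΦ hne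
      ((pr ∘ₗ x).domRestrict (D.maxGenEigenspace nu)) (by
      intro r v w hw
      have h1 : x (w : C.M) = cp C (Φ r) (x (v : C.M)) := by rw [hw]; exact hx r v v.2
      rw [LinearMap.domRestrict_apply, LinearMap.domRestrict_apply, LinearMap.comp_apply,
        LinearMap.comp_apply, h1]
      -- `pr` commutes with `cp Φ`
      have h2 : ∀ u : C.M, ((pr (cp C (Φ r) u) : D.maxGenEigenspace mu) : C.M) =
          cp C (Φ r) ((pr u : D.maxGenEigenspace mu) : C.M) := by
        intro u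
        have hu : u = (pr u : C.M) + (u - (pr u : C.M)) := by abel
        have hu2 : u - (pr u : C.M) ∈ Core.co D mu := by
          rw [← hprz, map_sub, hprl, sub_self]
        conv_lhs => rw [hu, map_add, map_add]
        have h3 : pr (cp C (Φ r) (u - (pr u : C.M))) = 0 :=
          (hprz _).2 (Core.co_stable (hDΦ r) mu _ hu2)
        have h4 : pr (cp C (Φ r) (pr u : C.M)) =
            ⟨cp C (Φ r) (pr u : C.M), Core.gen_stable (hDΦ r) mu _ (pr u).2⟩ :=
          hprl ⟨cp C (Φ r) (pr u : C.M), Core.gen_stable (hDΦ r) mu _ (pr u).2⟩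
        rw [h3, add_zero, h4]
      exact h2 _)
    rw [← hprz]
    exact LinearMap.congr_fun hzero ⟨m, hm⟩
  -- decompose
  have hxm : x m ∈ ⨆ ν, D.maxGenEigenspace ν := by rw [htop]; exact Submodule.mem_top
  obtain ⟨f, hf, hfs⟩ := (Submodule.mem_iSup_iff_exists_finsupp _ _).1 hxm
  have hfz : ∀ mu, nu ≠ mu → f mu = 0 := by
    intro mu hne
    have h1 := hcomp mu hne
    have hdis := (Core.gen_isCompl htop mu).disjoint
    have h2 : f mu ∈ Core.co D mu := by
      classical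
      have h3 : f mu = x m - ∑ ν ∈ f.support.erase mu, f ν := by
        rw [← hfs, Finsupp.sum]
        by_cases hmem : mu ∈ f.support
        · rw [← Finset.add_sum_erase _ _ hmem, add_sub_cancel_right]
        · rw [Finset.erase_eq_of_notMem hmem, sub_self, Finsupp.notMem_support_iff.1 hmem]
      rw [h3]
      refine Submodule.sub_mem _ h1 (Submodule.sum_mem _ fun ν hν => ?_)
      exact Submodule.mem_iSup_of_mem ν
        (Submodule.mem_iSup_of_mem (Finset.ne_of_mem_erase hν) (hf ν))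
    exact (Submodule.disjoint_def.1 hdis) _ (hf mu) h2
  rw [← hfs, Finsupp.sum]
  refine Submodule.sum_mem _ fun ν _ => ?_
  by_cases h : nu = ν
  · subst h; exact hf nu
  · rw [hfz ν h]; exact Submodule.zero_mem _

/-- factorisation through a linear map -/
theorem factor {P M X : Type*} [AddCommGroup P] [Module K P] [AddCommGroup M] [Module K M]
    [AddCommGroup X] [Module K X] (f : P →ₗ[K] M) (z : P →ₗ[K] X)
    (h : ∀ p, f p = 0 → z p = 0) : ∃ x : M →ₗ[K] X, ∀ p, x (f p) = z p := by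
  have hle : LinearMap.ker f ≤ LinearMap.ker z := fun p hp =>
    LinearMap.mem_ker.2 (h p (LinearMap.mem_ker.1 hp))
  obtain ⟨g, hg⟩ := LinearMap.exists_leftInverse_of_injective
    ((LinearMap.ker f).liftQ f le_rfl) (by
      rw [Submodule.ker_liftQ_eq_bot _ _ _ le_rfl])
  refine ⟨((LinearMap.ker f).liftQ z hle) ∘ₗ g, fun p => ?_⟩
  have h1 := LinearMap.congr_fun hg ((LinearMap.ker f).mkQ p)
  rw [LinearMap.comp_apply, Submodule.mkQ_apply, Submodule.liftQ_apply, LinearMap.id_apply] at h1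
  rw [LinearMap.comp_apply, h1, Submodule.liftQ_apply]

/-- **(Hom)**, abstract: `P ≤ Tᗮ` stable with `π P = M_ν`; every `A`-linear `z : P → C.M` has
values in `M_ν`. -/
theorem hom_abs [FiniteDimensional K V] [IsAlgClosed K] [CharZero K] [Fintype κ] (hB : NS b)
    (hΦ : ∀ s, Sa b (Φ s)) (hnil : ∃ m, ∀ s, Φ s ^ m = 0) (hsum : ∀ v, ∑ s, Φ s v = 0)
    (hDer : Core.DerR b Φ) (hT : T Φ = T Φ0) (C : St.Core b Φ0) {D : End K C.M}
    (hDB : ∀ v w, BM C (D v) w = BM C v (D w))
    (hDΦ : ∀ s v, D (cp C (Φ s) v) = cp C (Φ s) (D v)) {nu : K}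
    {P : Submodule K V} (hP : P ≤ Tp b Φ0) (hst : ∀ r, ∀ p ∈ P, Φ r p ∈ P)
    (hsurj : ∀ m ∈ D.maxGenEigenspace nu, ∃ p ∈ P, CP.pM C p = m)
    (hπ : ∀ p ∈ P, CP.pM C p ∈ D.maxGenEigenspace nu)
    (z : P →ₗ[K] C.M)
    (hz : ∀ r, ∀ p p' : P, (p' : V) = Φ r p → z p' = cp C (Φ r) (z p))
    (p : P) : z p ∈ D.maxGenEigenspace nu := by
  -- the kernel
  have hk : ∀ m, ∀ p : P, (p : V) ∈ Nk Φ m → z p = 0 := by
    intro m
    induction m with
    | zero =>
      intro p hp
      rw [mem_Nk_zero] at hp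
      have : p = 0 := Subtype.ext hp
      rw [this, map_zero]
    | succ m ih =>
      intro p hp
      apply cp_ker_of_T hΦ hT C
      intro r
      rw [← hz r p ⟨_, hst r _ p.2⟩ rfl]
      exact ih _ (mem_Nk_succ.1 hp r)
  obtain ⟨x, hx⟩ := factor ((CP.pM C).domRestrict P) z (by
    intro p hp
    have h1 := (CP.pM_eq_zero C (hP p.2)).1 hp
    rw [← hT] at h1
    obtain ⟨m, hm⟩ := mem_T.1 h1
    exact hk m p hm)
  rw [← hx p]
  refine hom_core hB hΦ hnil hsum hDer hT C hDB hDΦ x ?_ (hπ p p.2)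
  intro r v hv
  obtain ⟨q, hq, rfl⟩ := hsurj v hv
  have h2 : cp C (Φ r) (CP.pM C q) = CP.pM C (Φ r q) := by
    apply Subtype.ext
    rw [CP.pM_coe, cp_coe, CP.pM_coe]
    exact Core.pi_pres C (pres_of_T hΦ hT r) (hP hq)
  rw [h2]
  have h3 := hx ⟨q, hq⟩
  have h4 := hx ⟨Φ r q, hst r q hq⟩
  rw [LinearMap.domRestrict_apply] at h3 h4
  change x (CP.pM C q) = _ at h3
  change x (CP.pM C (Φ r q)) = _ at h4
  rw [h3, h4]
  exact hz r ⟨q, hq⟩ _ rfl

end abstract

section

variable {F G : Matrix ι δ K}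

theorem sum_Ph (hD : Data k arm J B N W) {H : Matrix ι δ K} (hH : H ∈ N ⊓ W) (v : ι → K) :
    ∑ r, DerG.Ph arm J B H r v = 0 := by
  simp only [DerG.Ph_apply]
  rw [← Matrix.sum_mulVec]
  unfold Phi
  rw [← Finset.sum_mul, FO.sum_M, hD.W_iso _ hH.2 _ hH.2, Matrix.zero_mul, zero_mulVec]

/-- **(Hom)** at `H = F + s G` (`s ∈ K` arbitrary with `H` generic) for a core of `F`. -/
theorem hom [IsAlgClosed K] [CharZero K] (hD : Data k arm J B N W)
    (hF : Generic k arm N W F) (hG : G ∈ N ⊓ W) {s : K} (hH : Generic k arm N W (F + s • G))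
    (hnil : ∃ m, ∀ r, DerG.Ph arm J B (F + s • G) r ^ m = 0)
    (C : St.Core (DerG.BJ J) (DerG.Ph arm J B F)) {D : End K C.M}
    (hDB : ∀ v w, BM C (D v) w = BM C v (D w))
    (hDΦ : ∀ r v, D (cp C (DerG.Ph arm J B F r) v) = cp C (DerG.Ph arm J B F r) (D v))
    (hrel : ∀ r v, cp C (toLin' (Psi arm J B F G r)) v = cp C (DerG.Ph arm J B F r) (D v))
    {nu : K} {P : Submodule K (ι → K)} (hP : P ≤ Tp (DerG.BJ J) (DerG.Ph arm J B F))
    (hst : ∀ r, ∀ p ∈ P, DerG.Ph arm J B (F + s • G) r p ∈ P)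
    (hsurj : ∀ m ∈ D.maxGenEigenspace nu, ∃ p ∈ P, CP.pM C p = m)
    (hπ : ∀ p ∈ P, CP.pM C p ∈ D.maxGenEigenspace nu)
    (z : P →ₗ[K] C.M)
    (hz : ∀ r, ∀ p p' : P, (p' : ι → K) = DerG.Ph arm J B (F + s • G) r p →
      z p' = cp C (DerG.Ph arm J B (F + s • G) r) (z p))
    (p : P) : z p ∈ D.maxGenEigenspace nu :=
  hom_abs (ns_BJ hD.J_symm hD.J_unit) (sa_Ph hD hH.mem) hnil (sum_Ph hD hH.mem)
    (DerG.derR hD hH) (T_eq hD hF hH) C hDB
    (fun r v => cp_H_comm C hD hF hG hDΦ hrel s r v) hP hst hsurj hπ z hz p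


end

end Crest.Agent.R172.Pt
end

-- ▼ part R172/PtFr
section

/-!
Row 172 (S0260), TAME node (T0), arbitrary radical and arbitrary `D`: the fields `hom`, `killV`, `wk`
of the frame `RD.Fr`, general `J, B, N, W`; the core is a core of `(b, Φ0)` with `b = BJ J`,
`Φ0 = DerG.Ph arm J B F` (equalities as hypotheses).
-/

set_option autoImplicit false
set_option linter.unusedSectionVars false

namespace Crest.Agent.R172.PtFr

open Matrix Module Crest.Agent.R172.FO Crest.Agent.R172.St Crest.Agent.R172.QN Crest.Agent.R172.Pt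
open Crest.Agent.R172.Core (NS BM cp Pres cp_coe)

variable {ι : Type*} [Fintype ι] [DecidableEq ι] {δ : Type*} [Fintype δ] [DecidableEq δ]
variable {k K : Type*} [Field k] [Field K] [Algebra k K]
variable {arm : δ → Fin 3} {J : Matrix ι ι K} {B : Matrix δ δ K}
  {N W : Submodule K (Matrix ι δ K)} {F G : Matrix ι δ K}
variable {b : LinearMap.BilinForm K (ι → K)} {Φ0 : Fin 3 → End K (ι → K)}

/-- `A` commuting with `Φ_s(F) (1+tD)²` preserves the blocks of `D`. -/
theorem comm_block [IsAlgClosed K] [CharZero K] (hD : Data k arm J B N W)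
    (hb : b = DerG.BJ J) (hΦ0 : Φ0 = DerG.Ph arm J B F)
    (hF : Generic k arm N W F) (hG : G ∈ N ⊓ W) {t : K} (hH : Generic k arm N W (F + t • G))
    (hnil : ∃ m, ∀ r, DerG.Ph arm J B (F + t • G) r ^ m = 0)
    (C : St.Core b Φ0) {D : End K C.M}
    (hDB : ∀ v w, BM C (D v) w = BM C v (D w))
    (hDΦ : ∀ r v, D (cp C (Φ0 r) v) = cp C (Φ0 r) (D v))
    (hrel : ∀ r v, cp C (toLin' (Psi arm J B F G r)) v = cp C (Φ0 r) (D v))
    {A : End K C.M} (hA : ∀ s x, A (cp C (Φ0 s) ((1 + t • D) ((1 + t • D) x))) =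
      cp C (Φ0 s) ((1 + t • D) ((1 + t • D) (A x)))) {lam : K} {x : C.M}
    (hx : x ∈ D.maxGenEigenspace lam) : A x ∈ D.maxGenEigenspace lam := by
  subst hb hΦ0
  refine hom_core (Φ := DerG.Ph arm J B (F + t • G)) (ns_BJ hD.J_symm hD.J_unit)
    (sa_Ph hD hH.mem) hnil (sum_Ph hD hH.mem) (DerG.derR hD hH) (T_eq hD hF hH) C hDB
    (fun r v => cp_H_comm C hD hF hG hDΦ hrel t r v) A ?_ hx
  intro r v _
  rw [cp_H C hD hF hG hDΦ hrel, cp_H C hD hF hG hDΦ hrel]
  exact hA r v

/-- **field `hom`** -/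
theorem hom_orth [IsAlgClosed K] [CharZero K] (hD : Data k arm J B N W)
    (hb : b = DerG.BJ J) (hΦ0 : Φ0 = DerG.Ph arm J B F)
    (hF : Generic k arm N W F) (hG : G ∈ N ⊓ W) {t : K} (hH : Generic k arm N W (F + t • G))
    (hnil : ∃ m, ∀ r, DerG.Ph arm J B (F + t • G) r ^ m = 0)
    (C : St.Core b Φ0) {D : End K C.M}
    (hDB : ∀ v w, BM C (D v) w = BM C v (D w))
    (hDΦ : ∀ r v, D (cp C (Φ0 r) v) = cp C (Φ0 r) (D v))
    (hrel : ∀ r v, cp C (toLin' (Psi arm J B F G r)) v = cp C (Φ0 r) (D v))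
    {A : End K C.M} (hA : ∀ s x, A (cp C (Φ0 s) ((1 + t • D) ((1 + t • D) x))) =
      cp C (Φ0 s) ((1 + t • D) ((1 + t • D) (A x)))) {lam mu : K} (hne : lam ≠ mu) {x y : C.M}
    (hx : x ∈ D.maxGenEigenspace lam) (hy : y ∈ D.maxGenEigenspace mu) : BM C (A x) y = 0 :=
  Core.gen_ortho hDB hne _
    (comm_block hD hb hΦ0 hF hG hH hnil C hDB hDΦ hrel hA hx) y hy




end Crest.Agent.R172.PtFr
end

-- ▼ part R172/RDfrB
section

/-!
Row 172 (S0260), (T0), any radical, any `D`: the input `RDfrA.Tin` from the total universal cover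
`RDTot.Tot`.
-/

set_option autoImplicit false
set_option linter.unusedSectionVars false
set_option maxHeartbeats 800000

namespace Crest.Agent.R172.RDfrB

open Module Matrix Crest.AlgebraR.SpinSaturation Crest.Agent.R172.SoGrade
  Crest.Agent.R172.CF
open Crest.Agent.R172.Gen (Jm Ix emb Ent ent)
open Crest.Agent.R172.ThX Crest.Agent.R172.CSys
open Crest.Agent.R172.Core (NS cp BM Tame Pres)
open Crest.Agent.R172.CP (pM PP Nums)
open Crest.Agent.R172.N5 (Ph)
open Crest.Agent.R172.RDTot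

variable {n : ℕ} {a : Fin 3 → Fin n → ℤ} {c : Cfg n a} {K : Type} [Field K] [Algebra ℂ K]
variable {N W : Submodule K (Matrix (Ix n) c.δ K)} {F G : Matrix (Ix n) c.δ K}
variable {C : St.Core (BV n K) (Ph F)} {τ : Module.End K C.M} {l : Fin 3 → ℕ}

/-- the parameters -/
def TT {m : ℕ} (lam : Fin m → K) : Set ℂ := {t | t ≠ 0 ∧ ∀ i, 1 + algebraMap ℂ K t * lam i ≠ 0}

theorem TT_inf {m : ℕ} (lam : Fin m → K) : (TT lam).Infinite := by
  have h1 : ({0} ∪ ⋃ i, {t : ℂ | 1 + algebraMap ℂ K t * lam i = 0}).Finite := by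
    refine (Set.finite_singleton (0 : ℂ)).union (Set.finite_iUnion fun i => ?_)
    refine Set.Subsingleton.finite fun t ht t' ht' => ?_
    have e1 : 1 + algebraMap ℂ K t * lam i = 0 := ht
    have e2 : 1 + algebraMap ℂ K t' * lam i = 0 := ht'
    have hl : lam i ≠ 0 := by
      intro h0
      rw [h0, mul_zero, add_zero] at e1
      exact one_ne_zero e1
    have e3 : (algebraMap ℂ K t - algebraMap ℂ K t') * lam i = 0 := by
      linear_combination e1 - e2
    have e4 := (mul_eq_zero.1 e3).resolve_right hl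
    exact (algebraMap ℂ K).injective (sub_eq_zero.1 e4)
  refine (h1.infinite_compl).mono fun t ht => ?_
  rw [Set.mem_compl_iff, Set.mem_union, not_or] at ht
  refine ⟨fun h0 => ht.1 (by rw [h0]; rfl), fun i hi => ht.2 ?_⟩
  rw [Set.mem_iUnion]
  exact ⟨i, hi⟩

theorem nil_restrict {V : Type*} [AddCommGroup V] [Module K V] [FiniteDimensional K V]
    (f : End K V) (ν : K) (h : ∀ x ∈ f.maxGenEigenspace ν, f x ∈ f.maxGenEigenspace ν) :
    ∃ j : ℕ, (f.restrict h - ν • (1 : End K (f.maxGenEigenspace ν))) ^ j = 0 := by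
  refine ⟨finrank K V, LinearMap.ext fun v => Subtype.ext ?_⟩
  have h1 : ∀ (j : ℕ) (v : f.maxGenEigenspace ν),
      ((((f.restrict h - ν • (1 : End K (f.maxGenEigenspace ν))) ^ j) v :
        f.maxGenEigenspace ν) : V) = ((f - ν • (1 : End K V)) ^ j) v := by
    intro j
    induction j with
    | zero => intro v; rfl
    | succ j ih =>
      intro v
      rw [pow_succ, Module.End.mul_apply, ih, pow_succ, Module.End.mul_apply]
      rfl
  rw [h1]
  have h2 : ∀ w : V, w ∈ f.maxGenEigenspace ν → ((f - ν • (1 : End K V)) ^ finrank K V) w = 0 := by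
    intro w hw
    rw [Module.End.maxGenEigenspace_eq_genEigenspace_finrank,
      Module.End.mem_genEigenspace_nat] at hw
    exact hw
  exact h2 _ v.2

section tot

variable {m : ℕ} {X : Fin m → Type} [∀ i, AddCommGroup (X i)] [∀ i, Module K (X i)]

/-- the projectors of the total cover -/
def EE (K : Type) [Field K] {m : ℕ} (X : Fin m → Type) [∀ i, AddCommGroup (X i)]
    [∀ i, Module K (X i)] (i : Fin m) : End K (∀ i, X i) :=
  LinearMap.single K X i ∘ₗ LinearMap.proj i

theorem EE_apply (i : Fin m) (x : ∀ i, X i) : EE K X i x = Pi.single i (x i) := rfl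

theorem EE_same (i : Fin m) (x : ∀ i, X i) : EE K X i x i = x i := by
  change (Pi.single i (x i) : ∀ i, X i) i = x i
  rw [Pi.single_eq_same]

theorem EE_ne {i j : Fin m} (h : j ≠ i) (x : ∀ i, X i) : EE K X i x j = 0 := by
  change (Pi.single i (x i) : ∀ i, X i) j = 0
  rw [Pi.single_eq_of_ne h]

variable {hl : Nums C τ l} {lam : Fin m → K} {e : Fin m → End K C.M}
  {A : ∀ i, Fin 3 → End K (X i)} {D : ∀ i, End K (X i)}
  {pr : ∀ i, X i →ₗ[K] (τ.maxGenEigenspace (lam i))} {ll : ∀ i, X i →ₗ[K] (Ix n → K)} {h : ℕ}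

theorem EE_idem (i : Fin m) (x : ∀ i, X i) : EE K X i (EE K X i x) = EE K X i x := by
  rw [EE_apply i (EE K X i x), EE_same, EE_apply]

theorem EE_orth (i j : Fin m) (hij : i ≠ j) (x : ∀ i, X i) : EE K X i (EE K X j x) = 0 := by
  rw [EE_apply, EE_ne hij, Pi.single_zero]

theorem EE_sum (x : ∀ i, X i) : ∑ i, EE K X i x = x := by
  simp only [EE_apply]
  exact Finset.univ_sum_single x

theorem EE_AA (i : Fin m) (s : Fin 3) (x : ∀ i, X i) :
    EE K X i (AA A s x) = AA A s (EE K X i x) := by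
  funext j
  by_cases hj : j = i
  · subst hj
    rw [EE_same, AA_apply, AA_apply, EE_same]
  · rw [EE_ne hj, AA_apply, EE_ne hj, map_zero]

theorem EE_DD (i : Fin m) (x : ∀ i, X i) : EE K X i (DD D x) = DD D (EE K X i x) := by
  funext j
  by_cases hj : j = i
  · subst hj
    rw [EE_same, DD_apply, DD_apply, EE_same]
  · rw [EE_ne hj, DD_apply, EE_ne hj, map_zero]

theorem QQ_EE (i : Fin m) (x : ∀ i, X i) :
    QQ pr (EE K X i x) = ((pr i (x i) : τ.maxGenEigenspace (lam i)) : C.M) := by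
  rw [QQ_apply, Finset.sum_eq_single i]
  · rw [EE_same]
  · intro j _ hj
    rw [EE_ne hj, map_zero]
    rfl
  · intro hi
    exact absurd (Finset.mem_univ i) hi

theorem AA_pow (s : Fin 3) (k : ℕ) (x : ∀ i, X i) (i : Fin m) :
    (AA A s ^ k) x i = (A i s ^ k) (x i) := by
  induction k with
  | zero => rfl
  | succ k ih => rw [pow_succ', Module.End.mul_apply, AA_apply, ih, pow_succ',
      Module.End.mul_apply]

variable (H : Tot N W F G C τ hl lam e A D pr ll h)
include H

theorem BM_EE (i : Fin m) (x y : ∀ i, X i) :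
    BM C (QQ pr (EE K X i x)) (QQ pr y) =
      BM C ((pr i (x i) : τ.maxGenEigenspace (lam i)) : C.M) ((pr i (y i) :) : C.M) := by
  rw [QQ_EE, QQ_apply, map_sum, Finset.sum_eq_single i]
  · intro j _ hj
    exact H.orth hj.symm _ _
  · intro hi
    exact absurd (Finset.mem_univ i) hi

theorem BM_symm (v w : C.M) : BM C v w = BM C w v := (Core.NS_BM BV_ns C).symm v w

theorem tin [IsAlgClosed K] [CharZero K] (hD : FO.Data ℂ c.arm (Jm n K) (c.B K) N W)
    (hnil : ∀ H ∈ N ⊓ W, ∃ k, ∀ s,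
      MM (pU c K) (adjU c K) (Matrix.toLin' H) (Matrix.toLin' H) s ^ k = 0)
    (hG : FO.GenOver ℂ c.arm N W F G) (hT : TameAt F G C τ) :
    RDfrA.Tin ℂ c.arm (Jm n K) (c.B K) F G (AA A) (DD D) (LL ll) (QQ pr) (BM C)
      (fun s => cp C (Ph F s)) τ (EE K X) lam l (TT lam) := by
  classical
  have hsa : ∀ s, St.Sa (BV n K) (Ph F s) := N5.Ph_sa hD hG.mem
  have hfin := H.fin
  refine
    { cov := H.acov hD hG.mem
      sumA := LinearMap.ext fun x => ?_
      ns := Core.NS_BM BV_ns C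
      onto := H.QQ_surj
      form := fun x y => ?_
      qA := H.QQ_AA
      qD := H.QQ_DD
      sa := fun s v w => Core.cp_sa C (hsa s) v w
      nil := ⟨h, fun w hw x hx => H.words w hw x hx⟩
      idem := EE_idem
      orth := EE_orth
      sumE := EE_sum
      EA := EE_AA
      ED := EE_DD
      Esa := fun i x y => ?_
      nilE := fun i => ?_
      lamInj := H.spec.inj
      two := fun i => ?_
      inf := TT_inf lam
      ne0 := fun h0 => h0.1 rfl
      good := fun t ht i => ht.2 i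
      hom := ?_
      lpos := hl.one_le
      lsum := hl.sum
      lnil := hl.nilM
      free := hl.freeM
      top := ?_
      gen := ?_ }
  · rw [LinearMap.sum_apply]
    exact H.sumA x
  · rw [← H.form, BV_apply]
  · have e1 := BM_EE H i x y
    have e2 := BM_EE H i y x
    rw [e1, BM_symm H (QQ pr x), e2, BM_symm H]
  · -- nilE
    have hD0 := nil_restrict τ (lam i) (mapsD τ (lam i))
    obtain ⟨j, hj⟩ := hD0
    have h3 := (H.fam.st i).nilD (lam i) j hj
    refine ⟨j, fun x => ?_⟩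
    have h4 : ∀ (r : ℕ) (y : ∀ i, X i) (i' : Fin m),
        (((DD D - lam i • (1 : End K (∀ i, X i))) ^ r) y) i' =
          ((D i' - lam i • (1 : End K (X i'))) ^ r) (y i') := by
      intro r
      induction r with
      | zero => intro y i'; rfl
      | succ r ih =>
        intro y i'
        rw [pow_succ, Module.End.mul_apply, ih, pow_succ, Module.End.mul_apply]
        rfl
    funext i'
    rw [h4]
    by_cases hi : i' = i
    · subst hi
      rw [EE_same, h3]
      rfl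
    · rw [EE_ne hi, map_zero]
      rfl
  · -- two
    obtain ⟨⟨mu, nu, hne, h1, h2⟩, -⟩ := hT.tame
    obtain ⟨i1, hi1⟩ := H.spec.all mu h1
    obtain ⟨i2, hi2⟩ := H.spec.all nu h2
    by_cases hi : i1 = i
    · refine ⟨i2, fun h0 => hne ?_⟩
      rw [← hi1, ← hi2, hi, h0]
    · exact ⟨i1, hi⟩
  · -- hom
    intro t ht C' hC i j hij x y
    rw [QQ_EE, QQ_EE]
    have hH : FO.Generic ℂ c.arm N W (F + algebraMap ℂ K t • G) := hG.generic_add t
    obtain ⟨k, hk⟩ := hnil _ hH.mem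
    refine PtFr.hom_orth (t := algebraMap ℂ K t) hD BV_eq (MM_eq F) hG.generic hG.memG hH
      ⟨k, fun r => ?_⟩ C hT.sa hT.comm ?_ (A := C') hC (fun h0 => hij (H.spec.inj h0))
      (pr i (x i)).2 (pr j (y j)).2
    · rw [← MM_eq]; exact hk r
    · intro r v
      have e : MM (pU c K) (adjU c K) (Matrix.toLin' F) (Matrix.toLin' G) r =
          Matrix.toLin' (QN.Psi c.arm (Jm n K) (c.B K) F G r) := by
        refine LinearMap.ext fun w => ?_
        rw [MM_toLin, Matrix.toLin'_apply, QN.Psi]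
      rw [← e]
      exact hT.rel r v
  · -- top
    intro i s
    have hker : ∀ v : C.M, (∀ s, cp C (Ph F s) v = 0) → v = 0 := fun v hv =>
      Core.cp_ker hsa C v hv
    obtain ⟨p, hp⟩ := (H.pside i hker).pow_not s
    have hv : ((pr i ((A i s ^ (l s - 1)) p) : τ.maxGenEigenspace (lam i)) : C.M) ≠ 0 := by
      intro h0
      exact hp (LinearMap.mem_ker.2 (Subtype.ext h0))
    by_contra hcon
    push Not at hcon
    apply hv
    refine (Core.NS_BM BV_ns C).nd _ fun w => ?_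
    obtain ⟨y, rfl⟩ := H.QQ_surj w
    have h1 := hcon y (Pi.single i p)
    rw [BM_EE H] at h1
    have h2 : (AA A s ^ (l s - 1)) (EE K X i (Pi.single i p)) i = (A i s ^ (l s - 1)) p := by
      rw [AA_pow, EE_same, Pi.single_eq_same]
    rw [h2] at h1
    have h3 : BM C ((pr i ((A i s ^ (l s - 1)) p) : τ.maxGenEigenspace (lam i)) : C.M)
        (QQ pr y) = BM C ((pr i ((A i s ^ (l s - 1)) p) :) : C.M) ((pr i (y i) :) : C.M) := by
      have := BM_EE H i (Pi.single i ((A i s ^ (l s - 1)) p)) y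
      rw [QQ_EE, Pi.single_eq_same] at this
      exact this
    rw [h3, BM_symm H]
    exact h1
  · -- gen
    intro i S hS hS2 u hu
    have hker : ∀ v : C.M, (∀ s, cp C (Ph F s) v = 0) → v = 0 := fun v hv =>
      Core.cp_ker hsa C v hv
    have hsing : ∀ p : X i, EE K X i (Pi.single i p) = Pi.single i p := by
      intro p
      rw [EE_apply, Pi.single_eq_same]
    have hAs : ∀ s (p : X i), AA A s (Pi.single i p) = Pi.single i (A i s p) := by
      intro s p
      rw [← hsing, ← EE_AA, EE_apply, AA_apply, Pi.single_eq_same]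
    have hAp : ∀ s (k : ℕ) (p : X i), (AA A s ^ k) (Pi.single i p) =
        Pi.single i ((A i s ^ k) p) := by
      intro s k
      induction k with
      | zero => intro p; rfl
      | succ k ih =>
        intro p
        rw [pow_succ, Module.End.mul_apply, hAs, ih, pow_succ, Module.End.mul_apply]
    have h1 := (H.pside i hker).gen (S.comap (LinearMap.single K X i)) (fun t v hv => by
      rw [Submodule.mem_comap, LinearMap.single_apply] at hv ⊢
      rw [← hAs]
      exact hS t _ hv) (fun s p => by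
      rw [Submodule.mem_comap, LinearMap.single_apply, ← hAp]
      have := hS2 s (Pi.single i p)
      rwa [hsing] at this)
    have h2 : pr i (u i) = 0 := by
      have h3 := hu
      rw [QQ_EE] at h3
      exact Subtype.ext h3
    have h4 := h1 (LinearMap.mem_ker.2 h2)
    rw [Submodule.mem_comap, LinearMap.single_apply] at h4
    rw [EE_apply]
    exact h4

end tot

end Crest.Agent.R172.RDfrB
end

-- ▼ part R172/CovM
section

/-!
Row 172: the dictionary between tensors `X₂ ⊗ X₁` and matrices in bases of `X₂`, `X₁`, used to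
translate the matrix form of the derivative relations (frames) to the tensor form of the span
lemmas.
-/

set_option autoImplicit false
set_option linter.unusedSectionVars false

namespace Crest.Agent.R172.CovM

open Module TensorProduct Matrix Crest.Agent.R172.CovF Crest.Agent.R172.Dual

variable {K : Type*} [Field K] {X₂ X₁ : Type*} [AddCommGroup X₂] [Module K X₂]
  [AddCommGroup X₁] [Module K X₁] {a₂ a₁ : ℕ}
  (b₂ : Module.Basis (Fin a₂) K X₂) (b₁ : Module.Basis (Fin a₁) K X₁)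

/-- tensors as matrices -/
noncomputable def mt : X₂ ⊗[K] X₁ →ₗ[K] Matrix (Fin a₂) (Fin a₁) K :=
  TensorProduct.lift (LinearMap.mk₂ K (fun x y => vecMulVec (b₂.equivFun x) (b₁.equivFun y))
    (fun x x' y => by rw [map_add, add_vecMulVec])
    (fun c x y => by rw [map_smul, smul_vecMulVec])
    (fun x y y' => by rw [map_add, vecMulVec_add])
    (fun c x y => by rw [map_smul, vecMulVec_smul]))

theorem mt_tmul (x : X₂) (y : X₁) :
    mt b₂ b₁ (x ⊗ₜ y) = vecMulVec (b₂.equivFun x) (b₁.equivFun y) := rfl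

theorem mt_apply (z : X₂ ⊗[K] X₁) (i : Fin a₂) (j : Fin a₁) :
    mt b₂ b₁ z i j = (b₂.tensorProduct b₁).repr z (i, j) := by
  induction z using TensorProduct.induction_on with
  | zero => simp
  | tmul x y =>
    rw [mt_tmul, vecMulVec_apply, Module.Basis.tensorProduct_repr_tmul_apply, smul_eq_mul,
      mul_comm]
    simp [Module.Basis.equivFun_apply, mul_comm]
  | add x y hx hy => rw [map_add, Matrix.add_apply, hx, hy, map_add]; rfl

theorem mt_injective : Function.Injective (mt b₂ b₁) := by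
  intro z z' h
  apply (b₂.tensorProduct b₁).repr.injective
  ext ⟨i, j⟩
  rw [← mt_apply, ← mt_apply, h]

theorem mt_surjective : Function.Surjective (mt b₂ b₁) := by
  intro A
  refine ⟨∑ i, ∑ j, A i j • (b₂ i ⊗ₜ b₁ j), ?_⟩
  ext i j
  rw [map_sum]
  simp only [map_sum, map_smul, mt_tmul]
  rw [Matrix.sum_apply]
  simp only [Matrix.sum_apply, Matrix.smul_apply, vecMulVec_apply, smul_eq_mul,
    Module.Basis.equivFun_apply, Module.Basis.repr_self]
  rw [Finset.sum_eq_single i, Finset.sum_eq_single j]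
  · simp
  · intro l _ hl
    simp [Finsupp.single_apply, hl]
  · intro h; exact absurd (Finset.mem_univ j) h
  · intro l _ hl
    refine Finset.sum_eq_zero fun m _ => ?_
    simp [Finsupp.single_apply, hl]
  · intro h; exact absurd (Finset.mem_univ i) h

/-- operators on the left factor -/
theorem mt_rTensor (S : End K X₂) (z : X₂ ⊗[K] X₁) :
    mt b₂ b₁ (LinearMap.rTensor X₁ S z) = LinearMap.toMatrix b₂ b₂ S * mt b₂ b₁ z := by
  induction z using TensorProduct.induction_on with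
  | zero => simp
  | tmul x y =>
    rw [LinearMap.rTensor_tmul, mt_tmul, mt_tmul, mul_vecMulVec, toMatrix_equivFun]
  | add x y hx hy => rw [map_add, map_add, hx, hy, map_add, Matrix.mul_add]

/-- operators on the right factor -/
theorem mt_lTensor (T : End K X₁) (z : X₂ ⊗[K] X₁) :
    mt b₂ b₁ (LinearMap.lTensor X₂ T z) = mt b₂ b₁ z * (LinearMap.toMatrix b₁ b₁ T)ᵀ := by
  induction z using TensorProduct.induction_on with
  | zero => simp
  | tmul x y =>
    rw [LinearMap.lTensor_tmul, mt_tmul, mt_tmul, vecMulVec_mul, vecMul_transpose,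
      toMatrix_equivFun]
  | add x y hx hy => rw [map_add, map_add, hx, hy, map_add, Matrix.add_mul]

theorem mt_map (S : End K X₂) (T : End K X₁) (z : X₂ ⊗[K] X₁) :
    mt b₂ b₁ (TensorProduct.map S T z) =
      LinearMap.toMatrix b₂ b₂ S * mt b₂ b₁ z * (LinearMap.toMatrix b₁ b₁ T)ᵀ := by
  induction z using TensorProduct.induction_on with
  | zero => simp
  | tmul x y =>
    rw [TensorProduct.map_tmul, mt_tmul, mt_tmul, mul_vecMulVec, vecMulVec_mul, vecMul_transpose,
      toMatrix_equivFun, toMatrix_equivFun]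
  | add x y hx hy => rw [map_add, map_add, hx, hy, map_add, Matrix.mul_add, Matrix.add_mul]





section frame

variable {ι : Type*} [Fintype ι] [DecidableEq ι] {δ : Type*} [Fintype δ] [DecidableEq δ]








end frame

end Crest.Agent.R172.CovM
end

-- ▼ part R172/HexM
section

/-!
Row 172 (S0260), T0 with arbitrary radical and arbitrary `D`: the field `hexS` of `RD.Fr`
(corrections of scalar exact families, matrix form) from `HexU.HEX` (tensor form).
-/

set_option autoImplicit false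
set_option linter.unusedSectionVars false

namespace Crest.Agent.R172.HexM

open Module TensorProduct Matrix Crest.Agent.R172.CovM
open Crest.Agent.R172.RJM (RT TR DD Ex ev Cor ev_tmul)
open Crest.Agent.R172.HexU (HEX)

variable {K : Type*} [Field K]

section ker

variable {P2 P1 Q2 Q1 : Type*} [AddCommGroup P2] [Module K P2] [AddCommGroup P1] [Module K P1]
  [AddCommGroup Q2] [Module K Q2] [AddCommGroup Q1] [Module K Q1]

theorem ev_injective [FiniteDimensional K Q2] (g : Q2 →ₗ[K] Q2 →ₗ[K] K)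
    (hg : ∀ q, (∀ q', g q q' = 0) → q = 0) :
    Function.Injective (ev g : Q2 ⊗[K] Q1 →ₗ[K] (Q2 →ₗ[K] Q1)) := by
  have e : ∀ z, ev g z = dualTensorHom K Q2 Q1 (LinearMap.rTensor Q1 g z) := by
    intro z
    induction z using TensorProduct.induction_on with
    | zero => simp
    | tmul a b =>
      ext q
      rw [ev_tmul, LinearMap.rTensor_tmul]
      rfl
    | add a b ha hb => rw [map_add, ha, hb, map_add, map_add]
  have h1 : Function.Injective g := by
    rw [← LinearMap.ker_eq_bot, LinearMap.ker_eq_bot']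
    intro q hq
    exact hg q fun q' => by rw [hq]; rfl
  intro z z' h
  rw [e, e] at h
  exact Module.Flat.rTensor_preserves_injective_linearMap g h1 (dualTensorHom_bijective.1 h)

theorem mem_RT_TR (pr2 : P2 →ₗ[K] Q2) (pr1 : P1 →ₗ[K] Q1) (h2 : Function.Surjective pr2)
    (h1 : Function.Surjective pr1) (w : P2 ⊗[K] P1) (hw : TensorProduct.map pr2 pr1 w = 0) :
    w ∈ (RT (LinearMap.ker pr2) ⊔ TR (LinearMap.ker pr1) : Submodule K (P2 ⊗[K] P1)) := by
  have e2 : Function.Exact (LinearMap.ker pr2).subtype pr2 := by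
    intro y
    simp
  have e1 : Function.Exact (LinearMap.ker pr1).subtype pr1 := by
    intro y
    simp
  have h := TensorProduct.map_ker e2 h2 e1 h1
  have hw' : w ∈ LinearMap.ker (TensorProduct.map pr2 pr1) := hw
  rw [h] at hw'
  obtain ⟨a, ha, b, hb, rfl⟩ := Submodule.mem_sup.1 hw'
  refine Submodule.add_mem _ (Submodule.mem_sup_right ?_) (Submodule.mem_sup_left ?_)
  · obtain ⟨z, rfl⟩ := ha
    clear hw hw' h
    induction z using TensorProduct.induction_on with
    | zero => rw [map_zero]; exact Submodule.zero_mem _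
    | tmul x y =>
      rw [LinearMap.lTensor_tmul]
      exact Submodule.subset_span ⟨x, _, y.2, rfl⟩
    | add x y hx hy => rw [map_add]; exact Submodule.add_mem _ hx hy
  · obtain ⟨z, rfl⟩ := hb
    clear hw hw' h
    induction z using TensorProduct.induction_on with
    | zero => rw [map_zero]; exact Submodule.zero_mem _
    | tmul x y =>
      rw [LinearMap.rTensor_tmul]
      exact Submodule.subset_span ⟨_, x.2, y, rfl⟩
    | add x y hx hy => rw [map_add]; exact Submodule.add_mem _ hx hy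

theorem ev_map (g : Q2 →ₗ[K] Q2 →ₗ[K] K) (pr2 : P2 →ₗ[K] Q2) (pr1 : P1 →ₗ[K] Q1)
    (w : P2 ⊗[K] P1) (u : P2) :
    ev g (TensorProduct.map pr2 pr1 w) (pr2 u) = pr1 (ev (g.compl₁₂ pr2 pr2) w u) := by
  induction w using TensorProduct.induction_on with
  | zero => simp
  | tmul a b => rw [TensorProduct.map_tmul, ev_tmul, ev_tmul, map_smul]; rfl
  | add a b ha hb => simp only [map_add, LinearMap.add_apply, ha, hb]

theorem mem_RT_TR' [FiniteDimensional K Q2] (g : Q2 →ₗ[K] Q2 →ₗ[K] K)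
    (hg : ∀ q, (∀ q', g q q' = 0) → q = 0)
    (pr2 : P2 →ₗ[K] Q2) (pr1 : P1 →ₗ[K] Q1) (h2 : Function.Surjective pr2)
    (h1 : Function.Surjective pr1) (w : P2 ⊗[K] P1)
    (hw : ∀ u, pr1 (ev (g.compl₁₂ pr2 pr2) w u) = 0) :
    w ∈ (RT (LinearMap.ker pr2) ⊔ TR (LinearMap.ker pr1) : Submodule K (P2 ⊗[K] P1)) := by
  refine mem_RT_TR pr2 pr1 h2 h1 w ?_
  apply ev_injective g hg
  rw [map_zero]
  ext q
  obtain ⟨u, rfl⟩ := h2 q
  rw [ev_map, hw, LinearMap.zero_apply]

end ker

variable {X : Type*} [AddCommGroup X] [Module K X] {m : Type*} [DecidableEq m]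
  {Xi : m → Type*} [∀ i, AddCommGroup (Xi i)] [∀ i, Module K (Xi i)]
  {X0 : m → Type*} [∀ i, AddCommGroup (X0 i)] [∀ i, Module K (X0 i)]
  {M : Type*} [AddCommGroup M] [Module K M]

/-- the block structure of a total cover, with its form -/
structure Blk (AA : Fin 3 → End K X) (A : ∀ i, Fin 3 → End K (Xi i))
    (inn : ∀ i, Xi i →ₗ[K] X) (pj : ∀ i, X →ₗ[K] Xi i)
    (pr : ∀ i, Xi i →ₗ[K] X0 i) (g0 : ∀ i, X0 i →ₗ[K] X0 i →ₗ[K] K)
    (gX : X →ₗ[K] X →ₗ[K] K) (q : X →ₗ[K] M) : Prop where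
  pi : ∀ i x, pj i (inn i x) = x
  pA : ∀ i s x, pj i (AA s x) = A i s (pj i x)
  Ai : ∀ i s x, AA s (inn i x) = inn i (A i s x)
  surj : ∀ i, Function.Surjective (pr i)
  ns : ∀ i x, (∀ y, g0 i x y = 0) → x = 0
  ns' : ∀ i x, (∀ y, g0 i y x = 0) → x = 0
  gl : ∀ i x y, gX (inn i x) y = g0 i (pr i x) (pr i (pj i y))
  gr : ∀ i x y, gX y (inn i x) = g0 i (pr i (pj i y)) (pr i x)
  adj : ∀ i s x y, g0 i (pr i (A i s x)) (pr i y) = g0 i (pr i x) (pr i (A i s y))
  qr : ∀ i x, pr i x = 0 → q (inn i x) = 0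

variable {AA : Fin 3 → End K X} {A : ∀ i, Fin 3 → End K (Xi i)}
    {inn : ∀ i, Xi i →ₗ[K] X} {pj : ∀ i, X →ₗ[K] Xi i}
    {pr : ∀ i, Xi i →ₗ[K] X0 i} {g0 : ∀ i, X0 i →ₗ[K] X0 i →ₗ[K] K}
    {gX : X →ₗ[K] X →ₗ[K] K} {q : X →ₗ[K] M}

/-- the operator of a tensor -/
theorem ev_total (h : Blk AA A inn pj pr g0 gX q) (i j : m) (z : X ⊗[K] X) (v : X) :
    ev gX (TensorProduct.map (inn j ∘ₗ pj j) (inn i ∘ₗ pj i) z) v =
      inn i (ev ((g0 j).compl₁₂ (pr j) (pr j)) (TensorProduct.map (pj j) (pj i) z) (pj j v)) := by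
  induction z using TensorProduct.induction_on with
  | zero => simp
  | tmul a b =>
    rw [TensorProduct.map_tmul, TensorProduct.map_tmul, ev_tmul, ev_tmul, map_smul]
    congr 1
    exact h.gl j (pj j a) v
  | add a b ha hb => simp only [map_add, LinearMap.add_apply, ha, hb]

theorem ev_blk (h : Blk AA A inn pj pr g0 gX q) (i j : m) (z : X ⊗[K] X) (u : Xi j) :
    pj i (ev gX z (inn j u)) =
      ev ((g0 j).compl₁₂ (pr j) (pr j)) (TensorProduct.map (pj j) (pj i) z) u := by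
  induction z using TensorProduct.induction_on with
  | zero => simp
  | tmul a b =>
    rw [TensorProduct.map_tmul, ev_tmul, ev_tmul, map_smul]
    congr 1
    exact h.gr j u a
  | add a b ha hb => simp only [map_add, LinearMap.add_apply, ha, hb]

theorem map_def (h : Blk AA A inn pj pr g0 gX q) (i j : m) (c : K) (t : Fin 3) (z : X ⊗[K] X) :
    DD (A i) (A j) c t (TensorProduct.map (pj j) (pj i) z) =
      TensorProduct.map (pj j) (pj i)
        (LinearMap.lTensor X (AA t) z - c • LinearMap.rTensor X (AA t) z) := by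
  induction z using TensorProduct.induction_on with
  | zero => simp
  | tmul a b =>
    simp only [DD, LinearMap.sub_apply, LinearMap.smul_apply, LinearMap.lTensor_tmul,
      LinearMap.rTensor_tmul, map_sub, map_smul, TensorProduct.map_tmul, h.pA]
  | add a b ha hb =>
    rw [map_add, map_add, ha, hb, ← map_add]
    congr 1
    simp only [map_add, smul_add]
    abel

theorem mulVec_ev {a : ℕ} (b : Module.Basis (Fin a) K X) {g : Matrix (Fin a) (Fin a) K}
    (hg : ∀ x y, b.equivFun x ⬝ᵥ (g *ᵥ b.equivFun y) = gX x y) (z : X ⊗[K] X) (v : X) :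
    ((mt b b z)ᵀ * g) *ᵥ b.equivFun v = b.equivFun (ev gX z v) := by
  induction z using TensorProduct.induction_on with
  | zero => simp
  | tmul x y =>
    rw [mt_tmul, ev_tmul, ← Matrix.mulVec_mulVec, transpose_vecMulVec, map_smul]
    rw [Matrix.vecMulVec_mulVec, hg]
    ext k
    simp [mul_comm]
  | add x y hx hy =>
    rw [map_add, transpose_add, Matrix.add_mul, Matrix.add_mulVec, hx, hy, map_add,
      LinearMap.add_apply, map_add]

theorem mulVec_toMatrix {a : ℕ} (b : Module.Basis (Fin a) K X) (S : End K X) (v : X) :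
    LinearMap.toMatrix b b S *ᵥ b.equivFun v = b.equivFun (S v) :=
  LinearMap.toMatrix_mulVec_repr b b S v

theorem ext_eq {a : ℕ} (b : Module.Basis (Fin a) K X) {S S' : Matrix (Fin a) (Fin a) K}
    (h : ∀ v, S *ᵥ b.equivFun v = S' *ᵥ b.equivFun v) : S = S' := by
  apply Matrix.ext_of_mulVec_single
  intro i
  have := h (b.equivFun.symm (Pi.single i 1))
  rwa [LinearEquiv.apply_symm_apply] at this

/-- **the correction `b`** -/
theorem hexB (h : Blk AA A inn pj pr g0 gX q) [∀ i, FiniteDimensional K (X0 i)]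
    {i j : m} {c : K} (_hc : c ≠ 0)
    (hex : HEX (A i) (A j) (LinearMap.ker (pr i)) (LinearMap.ker (pr j))
      ((g0 j).compl₁₂ (pr j) (pr j)) 1 c)
    {a : ℕ} (b : Module.Basis (Fin a) K X) {g : Matrix (Fin a) (Fin a) K}
    (hg : ∀ x y, b.equivFun x ⬝ᵥ (g *ᵥ b.equivFun y) = gX x y) (hgs : gᵀ = g)
    {al : Fin 3 → Matrix (Fin a) (Fin a) K} (hal : ∀ s, al s = LinearMap.toMatrix b b (AA s))
    {e : m → Matrix (Fin a) (Fin a) K}
    (he : ∀ i, e i = LinearMap.toMatrix b b (inn i ∘ₗ pj i))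
    {π : (Fin a → K) →ₗ[K] M} (hπ : ∀ x, π (b.equivFun x) = q x)
    (x : Fin 3 → Matrix (Fin a) (Fin a) K)
    (hx : ∀ r, e j * x r * (e i)ᵀ = x r) (hsum : ∑ r, (x r * (al r)ᵀ - c • (al r * x r)) = 0)
    (harm : ∀ r, g * (x r * (al r)ᵀ - c • (al r * x r)) * g = 0) :
    ∃ bb : Matrix (Fin a) (Fin a) K, e i * bb * e j = bb ∧ (∀ u, π (bb *ᵥ u) = 0) ∧
      (∀ r, al r * (bb + (x r)ᵀ * g) = c • ((bb + (x r)ᵀ * g) * al r)) := by
  choose z hz using fun r => mt_surjective b b (x r)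
  set y : Fin 3 → X ⊗[K] X := fun t =>
    LinearMap.lTensor X (AA t) (z t) - c • LinearMap.rTensor X (AA t) (z t) with hy
  have hmy : ∀ t, mt b b (y t) = x t * (al t)ᵀ - c • (al t * x t) := by
    intro t
    rw [hy]
    dsimp only
    rw [map_sub, map_smul, mt_lTensor, mt_rTensor, hz, hal]
  have hzE : ∀ r, TensorProduct.map (inn j ∘ₗ pj j) (inn i ∘ₗ pj i) (z r) = z r := by
    intro r
    apply mt_injective b b
    rw [mt_map, hz, ← he, ← he, hx]
  set zz : Fin 3 → Xi j ⊗[K] Xi i := fun t => TensorProduct.map (pj j) (pj i) (z t) with hzz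
  have hexz : Ex (A i) (A j) (LinearMap.ker (pr i)) (LinearMap.ker (pr j)) c zz := by
    refine ⟨?_, fun t => ?_⟩
    · have h0 : ∑ t, y t = 0 := by
        apply mt_injective b b
        rw [map_sum, map_zero, ← hsum]
        exact Finset.sum_congr rfl fun t _ => hmy t
      have h1 : ∀ t, DD (A i) (A j) c t (zz t) = TensorProduct.map (pj j) (pj i) (y t) :=
        fun t => map_def h i j c t (z t)
      simp only [h1]
      rw [← map_sum, h0, map_zero]
    · have h1 : DD (A i) (A j) c t (zz t) = TensorProduct.map (pj j) (pj i) (y t) :=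
        map_def h i j c t (z t)
      rw [h1]
      refine mem_RT_TR' (g0 j) (h.ns j) (pr j) (pr i) (h.surj j) (h.surj i) _ ?_
      intro u
      apply h.ns' i
      intro w0
      obtain ⟨w, rfl⟩ := h.surj i w0
      rw [← ev_blk h, ← h.gl, ← hg, ← mulVec_ev b hg, hmy, Matrix.mulVec_mulVec,
        ← Matrix.mul_assoc]
      have h3 : g * (x t * (al t)ᵀ - c • (al t * x t))ᵀ * g = 0 := by
        have h4 := congrArg Matrix.transpose (harm t)
        rw [transpose_mul, transpose_mul, hgs, transpose_zero, ← Matrix.mul_assoc] at h4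
        exact h4
      rw [h3, Matrix.zero_mulVec, dotProduct_zero]
  obtain ⟨β, hβ⟩ := hex zz hexz
  have hev : ∀ r v, ev gX (z r) v =
      inn i (ev ((g0 j).compl₁₂ (pr j) (pr j)) (zz r) (pj j v)) := by
    intro r v
    rw [← ev_total h, hzE]
  refine ⟨-LinearMap.toMatrix b b (inn i ∘ₗ β ∘ₗ pj j), ?_, ?_, ?_⟩
  · rw [he, he, Matrix.mul_neg, Matrix.neg_mul, ← LinearMap.toMatrix_mul, ← LinearMap.toMatrix_mul]
    congr 2
    ext v
    simp [h.pi]
  · intro u
    obtain ⟨u', rfl⟩ := b.equivFun.surjective u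
    rw [Matrix.neg_mulVec, mulVec_toMatrix, map_neg, hπ, neg_eq_zero]
    exact h.qr i _ (hβ.mem _)
  · intro r
    apply ext_eq b
    intro v
    have e1 : ∀ v : X, (-LinearMap.toMatrix b b (inn i ∘ₗ β ∘ₗ pj j) + (x r)ᵀ * g) *ᵥ
        b.equivFun v = b.equivFun (inn i (ev ((g0 j).compl₁₂ (pr j) (pr j)) (zz r) (pj j v) -
          β (pj j v))) := by
      intro v
      rw [Matrix.add_mulVec, Matrix.neg_mulVec, mulVec_toMatrix, ← hz r, mulVec_ev b hg, hev,
        ← map_neg, ← map_add]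
      congr 1
      rw [map_sub]
      simp only [LinearMap.comp_apply]
      abel
    rw [← Matrix.mulVec_mulVec, e1, hal, mulVec_toMatrix, Matrix.smul_mulVec,
      ← Matrix.mulVec_mulVec, mulVec_toMatrix, e1, h.Ai, ← map_smul, ← map_smul]
    congr 2
    rw [h.pA, map_sub]
    have h5 := hβ.eq r (pj j v)
    rw [one_mul] at h5
    rw [smul_sub]
    rw [sub_eq_sub_iff_add_eq_add] at h5 ⊢
    rw [← h5, add_comm]

/-- **the field `hexS`** -/
theorem hexS (h : Blk AA A inn pj pr g0 gX q) [∀ i, FiniteDimensional K (X0 i)]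
    (hex : ∀ i j, ∀ c : K, c ≠ 0 → HEX (A i) (A j) (LinearMap.ker (pr i)) (LinearMap.ker (pr j))
      ((g0 j).compl₁₂ (pr j) (pr j)) 1 c)
    {a : ℕ} (b : Module.Basis (Fin a) K X) {g : Matrix (Fin a) (Fin a) K}
    (hg : ∀ x y, b.equivFun x ⬝ᵥ (g *ᵥ b.equivFun y) = gX x y) (hgs : gᵀ = g)
    {al : Fin 3 → Matrix (Fin a) (Fin a) K} (hal : ∀ s, al s = LinearMap.toMatrix b b (AA s))
    {e : m → Matrix (Fin a) (Fin a) K}
    (he : ∀ i, e i = LinearMap.toMatrix b b (inn i ∘ₗ pj i))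
    {π : (Fin a → K) →ₗ[K] M} (hπ : ∀ x, π (b.equivFun x) = q x)
    (i j : m) (c : K) (hc : c ≠ 0)
    (x : Fin 3 → Matrix (Fin a) (Fin a) K)
    (hx : ∀ r, e j * x r * (e i)ᵀ = x r) (hsum : ∑ r, (x r * (al r)ᵀ - c • (al r * x r)) = 0)
    (harm : ∀ r, g * (x r * (al r)ᵀ - c • (al r * x r)) * g = 0) :
    ∃ bb kk : Matrix (Fin a) (Fin a) K, e i * bb * e j = bb ∧ e j * kk * e i = kk ∧
      (∀ u, π (bb *ᵥ u) = 0) ∧ (∀ u, π (kk *ᵥ u) = 0) ∧
      (∀ r, al r * (bb + (x r)ᵀ * g) = c • ((bb + (x r)ᵀ * g) * al r)) ∧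
      (∀ r, (kk - x r * g) * al r = c • (al r * (kk - x r * g))) := by
  obtain ⟨bb, h1, h2, h3⟩ := hexB h hc (hex i j c hc) b hg hgs hal he hπ x hx hsum harm
  have hc' : c⁻¹ ≠ 0 := inv_ne_zero hc
  have ht : ∀ r, (x r)ᵀ * (al r)ᵀ - c⁻¹ • (al r * (x r)ᵀ) =
      -(c⁻¹ • (x r * (al r)ᵀ - c • (al r * x r))ᵀ) := by
    intro r
    rw [transpose_sub, transpose_smul, transpose_mul, transpose_mul, transpose_transpose,
      smul_sub, smul_smul, inv_mul_cancel₀ hc, one_smul]
    abel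
  obtain ⟨b2, k1, k2, k3⟩ := hexB h hc' (hex j i c⁻¹ hc') b hg hgs hal he hπ (fun r => (x r)ᵀ)
    (fun r => by
      have := congrArg Matrix.transpose (hx r)
      rw [transpose_mul, transpose_mul, transpose_transpose, ← Matrix.mul_assoc] at this
      exact this)
    (by
      simp only [ht]
      rw [Finset.sum_neg_distrib, ← Finset.smul_sum, ← transpose_sum, hsum, transpose_zero,
        smul_zero, neg_zero])
    (fun r => by
      rw [ht]
      have h4 := congrArg Matrix.transpose (harm r)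
      rw [transpose_mul, transpose_mul, hgs, transpose_zero, ← Matrix.mul_assoc] at h4
      rw [Matrix.mul_neg, Matrix.neg_mul, Matrix.mul_smul, Matrix.smul_mul, h4, smul_zero,
        neg_zero])
  refine ⟨bb, -b2, h1, ?_, h2, ?_, h3, ?_⟩
  · rw [Matrix.mul_neg, Matrix.neg_mul, k1]
  · intro u
    rw [Matrix.neg_mulVec, map_neg, k2, neg_zero]
  · intro r
    have h5 := k3 r
    rw [transpose_transpose] at h5
    have h6 : -b2 - x r * g = -(b2 + x r * g) := by abel
    rw [h6, Matrix.neg_mul, Matrix.mul_neg, h5, smul_neg, smul_smul, mul_inv_cancel₀ hc, one_smul]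

end Crest.Agent.R172.HexM
end

-- ▼ part R172/RDfr

/-!
Row 172 (S0260), (T0), any radical, any `D`: **`RD.ExFr`**, the frame of the universal cover exists.
-/

set_option autoImplicit false
set_option linter.unusedSectionVars false
set_option maxHeartbeats 800000

namespace Crest.Agent.R172.RDfr

open Module Matrix Crest.AlgebraR.SpinSaturation Crest.Agent.R172.SoGrade
  Crest.Agent.R172.CF
open Crest.Agent.R172.Gen (Jm Ix emb Ent ent)
open Crest.Agent.R172.ThX Crest.Agent.R172.CSys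
open Crest.Agent.R172.Core (NS cp BM Tame Pres)
open Crest.Agent.R172.CP (pM PP Nums)
open Crest.Agent.R172.N5 (Ph)
open Crest.Agent.R172.RDTot Crest.Agent.R172.RDfrB

variable {n : ℕ} {a : Fin 3 → Fin n → ℤ} {c : Cfg n a} {K : Type} [Field K] [Algebra ℂ K]
variable {N W : Submodule K (Matrix (Ix n) c.δ K)} {F G : Matrix (Ix n) c.δ K}
variable {C : St.Core (BV n K) (Ph F)} {τ : Module.End K C.M} {l : Fin 3 → ℕ}

section tot

variable {m : ℕ} {X : Fin m → Type} [∀ i, AddCommGroup (X i)] [∀ i, Module K (X i)]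
variable {hl : Nums C τ l} {lam : Fin m → K} {e : Fin m → End K C.M}
  {A : ∀ i, Fin 3 → End K (X i)} {D : ∀ i, End K (X i)}
  {pr : ∀ i, X i →ₗ[K] (τ.maxGenEigenspace (lam i))} {ll : ∀ i, X i →ₗ[K] (Ix n → K)} {h : ℕ}

/-- the form of a block -/
noncomputable def g0 (C : St.Core (BV n K) (Ph F)) (τ : Module.End K C.M) (lam : Fin m → K)
    (i : Fin m) :
    (τ.maxGenEigenspace (lam i)) →ₗ[K] (τ.maxGenEigenspace (lam i)) →ₗ[K] K :=
  (BM C).compl₁₂ (τ.maxGenEigenspace (lam i)).subtype (τ.maxGenEigenspace (lam i)).subtype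

theorem g0_apply (i : Fin m) (x y : τ.maxGenEigenspace (lam i)) :
    g0 C τ lam i x y = BM C (x : C.M) (y : C.M) := rfl

/-- the form of the total cover -/
noncomputable def gX (pr : ∀ i, X i →ₗ[K] (τ.maxGenEigenspace (lam i))) :
    (∀ i, X i) →ₗ[K] (∀ i, X i) →ₗ[K] K :=
  (BM C).compl₁₂ (QQ pr) (QQ pr)


theorem QQ_single (i : Fin m) (x : X i) :
    QQ pr (Pi.single i x) = ((pr i x : τ.maxGenEigenspace (lam i)) : C.M) := by
  have h1 := QQ_EE (pr := pr) i (Pi.single i x)
  rw [EE_apply, Pi.single_eq_same] at h1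
  exact h1

theorem AA_single (s : Fin 3) (i : Fin m) (x : X i) :
    AA A s (Pi.single i x) = Pi.single i (A i s x) := by
  have h1 := EE_AA (A := A) i s (Pi.single i x)
  rw [EE_apply, EE_apply, AA_apply, Pi.single_eq_same] at h1
  exact h1.symm

theorem adj0 (hD : FO.Data ℂ c.arm (Jm n K) (c.B K) N W) (hF : F ∈ N ⊓ W)
    (hl : Nums C τ l) (i : Fin m) (s : Fin 3) (x y : τ.maxGenEigenspace (lam i)) :
    g0 C τ lam i (A0 hl (lam i) s x) y = g0 C τ lam i x (A0 hl (lam i) s y) :=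
  Core.cp_sa C (N5.Ph_sa hD hF s) (x : C.M) (y : C.M)

variable (H : Tot N W F G C τ hl lam e A D pr ll h)
include H

theorem ns0 (i : Fin m) (x : τ.maxGenEigenspace (lam i))
    (hx : ∀ y : τ.maxGenEigenspace (lam i), BM C (x : C.M) (y : C.M) = 0) : x = 0 := by
  refine Subtype.ext ((Core.NS_BM BV_ns C).nd _ fun w => ?_)
  have h1 : (x : C.M) = e i x := (H.spec.fix i _ x.2).symm
  rw [h1, H.spec.sa]
  exact hx ⟨e i w, H.spec.mem i w⟩

theorem blk (hD : FO.Data ℂ c.arm (Jm n K) (c.B K) N W) (hF : F ∈ N ⊓ W) :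
    HexM.Blk (AA A) A (fun i => LinearMap.single K X i) (fun i => LinearMap.proj i) pr
      (g0 C τ lam) (gX pr) (QQ pr) where
  pi i x := by
    rw [LinearMap.single_apply, LinearMap.proj_apply, Pi.single_eq_same]
  pA i s x := rfl
  Ai i s x := AA_single s i x
  surj i := (H.fam.st i).surj
  ns i x hx := ns0 H i x hx
  ns' i x hx := ns0 H i x fun y => by rw [BM_symm H]; exact hx y
  gl i x y := by
    have h1 := BM_EE H i (Pi.single i x) y
    rw [EE_apply, Pi.single_eq_same] at h1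
    exact h1
  gr i x y := by
    have h1 := BM_EE H i (Pi.single i x) y
    rw [EE_apply, Pi.single_eq_same, BM_symm H] at h1
    rw [g0_apply, BM_symm H ((pr i ((LinearMap.proj i) y) : τ.maxGenEigenspace (lam i)) : C.M)]
    exact h1
  adj i s x y := by
    rw [(H.fam.st i).prA, (H.fam.st i).prA]
    exact adj0 hD hF hl i s _ _
  qr i x hx := by
    rw [LinearMap.single_apply, QQ_single, hx]
    rfl

end tot

/-- **the frame of the universal cover exists** -/
theorem exFr : RD.ExFr := by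
  intro n a c K _ _ _ _ N W hD hnil hsum hK F G hG C τ hT
  classical
  obtain ⟨l, hl⟩ := CP.nums_of_tame BV_ns (N5.Ph_sa hD hG.mem) C hT.sa hT.comm
    (Module.End.iSup_maxGenEigenspace_eq_top τ) hT.tame
  obtain ⟨m, lam, e, X, i1, i2, A, D, pr, ll, h, H⟩ := exists_tot hD hG.mem hG.memG hT hl
  have htin := tin H hD hnil hG hT
  obtain ⟨T, hTadj⟩ := RDfrA.exists_adj (Core.NS_BM BV_ns C)
  have hfin := H.fin
  obtain ⟨a0, b, bl, hb⟩ := RDfrA.exists_basis htin.idem htin.orth htin.sumE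
  refine ⟨Fin a0, inferInstance, inferInstance, Fin m, inferInstance, inferInstance, _, _, _, T,
    _, _, lam, l, TT lam, RDfrA.fr_of hD hG hG.memG htin hTadj b hb ?_⟩
  intro i j _ c' hc x hx hs harm
  refine HexM.hexS (blk H hD hG.mem) (fun i j c' hc' => H.fam.hex i j (g0 C τ lam j) 1 c'
    (fun t p p' => by rw [one_mul]; exact adj0 hD hG.mem hl j t p p') (by rwa [one_mul]))
    b ?_ ?_ (fun _ => rfl) (fun _ => rfl) ?_ i j c' hc x hx hs harm
  · intro x y
    rw [Matrix.mul_assoc, ← mulVec_mulVec, ← mulVec_mulVec, ← RDfrA.dtr, CovF.fr_repr,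
      CovF.fr_repr, ← BV_apply, H.form]
    rfl
  · rw [transpose_mul, transpose_mul, transpose_transpose, hD.J_symm, Matrix.mul_assoc]
  · intro x
    simp

end Crest.Agent.R172.RDfr
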