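import Crest.Agent.R172.Dual3
import Crest.Agent.R172.RDP

-- ▼ part R172/DualD
section

/-!
Row 172 (S0260), tame case, non-semisimple `D`: transfer from the operator `q = c₂ c₁⁻¹` to scalars.

* `pencil`: for all but finitely many `c`, every `x` with `L0 x = c • L1 x` is the value at `c` of a
  polynomial family `Y` with `(L0 - X L1) Y = 0`.
* `transfer`: relations known on the families `X` with `L0 (c₁² X) = L1 (c₂² X)`,
  `c_i = 1 + t (la_i + nilpotent)`, hold for the families exact for scalar `c`, both parts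
  separately.
* `span_exactD`: corollary with the duality lemma.
-/

set_option autoImplicit false
set_option linter.unusedSectionVars false

namespace Crest.Agent.R172.Dual

open Module Polynomial TensorProduct

section polyfun

variable {K : Type*} [Field K] {V W : Type*} [AddCommGroup V] [Module K V]
  [AddCommGroup W] [Module K W]

/-- polynomial functions with values in a vector space -/
def PF (f : K → V) : Prop :=
  ∃ (n : ℕ) (Y : ℕ → V), (∀ k, n ≤ k → Y k = 0) ∧ ∀ c, f c = ∑ k ∈ Finset.range n, c ^ k • Y k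

theorem sum_range_of_le {Y : ℕ → V} {n m : ℕ} (hY : ∀ k, n ≤ k → Y k = 0) (h : n ≤ m) (c : K) :
    ∑ k ∈ Finset.range m, c ^ k • Y k = ∑ k ∈ Finset.range n, c ^ k • Y k := by
  symm
  refine Finset.sum_subset (Finset.range_mono h) fun k _ hk => ?_
  rw [hY k (by simpa using hk), smul_zero]

theorem PF.add {f g : K → V} (hf : PF f) (hg : PF g) : PF (fun c => f c + g c) := by
  obtain ⟨n, Y, hY, hf⟩ := hf
  obtain ⟨m, Z, hZ, hg⟩ := hg
  refine ⟨max n m, fun k => Y k + Z k, fun k hk => ?_, fun c => ?_⟩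
  · show Y k + Z k = 0
    rw [hY k (le_trans (le_max_left _ _) hk), hZ k (le_trans (le_max_right _ _) hk), add_zero]
  · show f c + g c = _
    rw [hf, hg, ← sum_range_of_le hY (le_max_left n m) c, ← sum_range_of_le hZ (le_max_right n m) c,
      ← Finset.sum_add_distrib]
    simp only [smul_add]

theorem PF.zero : PF (fun _ : K => (0 : V)) := ⟨0, fun _ => 0, fun _ _ => rfl, fun c => by simp⟩

theorem PF.sum {ι : Type*} (s : Finset ι) {f : ι → K → V} (hf : ∀ i ∈ s, PF (f i)) :
    PF (fun c => ∑ i ∈ s, f i c) := by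
  classical
  induction s using Finset.induction_on with
  | empty => simpa using (PF.zero : PF (fun _ : K => (0 : V)))
  | insert a s ha ih =>
    have h1 := (hf a (Finset.mem_insert_self _ _)).add
      (ih fun b hb => hf b (Finset.mem_insert_of_mem hb))
    simpa only [Finset.sum_insert ha] using h1

theorem PF.mono (k : ℕ) (v : V) : PF (fun c : K => c ^ k • v) := by
  refine ⟨k + 1, fun j => if j = k then v else 0, fun j hj => if_neg (by omega), fun c => ?_⟩
  show c ^ k • v = ∑ j ∈ Finset.range (k + 1), c ^ j • (if j = k then v else 0)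
  rw [Finset.sum_eq_single k]
  · rw [if_pos rfl]
  · intro j _ hj
    rw [if_neg hj, smul_zero]
  · intro hk
    exact absurd (Finset.mem_range.2 (Nat.lt_succ_self k)) hk

theorem PF.poly (p : K[X]) (v : V) : PF (fun c => p.eval c • v) := by
  have h1 : (fun c => p.eval c • v) = fun c => ∑ k ∈ p.support, c ^ k • (p.coeff k • v) := by
    funext c
    rw [eval_eq_sum, Polynomial.sum, Finset.sum_smul]
    refine Finset.sum_congr rfl fun k _ => ?_
    rw [smul_smul, mul_comm]
  rw [h1]
  exact PF.sum _ fun k _ => PF.mono k _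

theorem coeff_zero_of {Z : ℕ → V} {n : ℕ} {Λ : Set K} (hΛ : Λ.Infinite)
    (h : ∀ c ∈ Λ, ∑ k ∈ Finset.range n, c ^ k • Z k = 0) : ∀ k < n, Z k = 0 := by
  intro k hk
  by_contra hne
  obtain ⟨φ, hφ⟩ : ∃ φ : Dual K V, φ (Z k) ≠ 0 := by
    by_contra hcon
    push Not at hcon
    exact hne ((Module.forall_dual_apply_eq_zero_iff K (Z k)).1 hcon)
  have h1 : (∑ j ∈ Finset.range n, C (φ (Z j)) * X ^ j : K[X]) = 0 := by
    refine eq_zero_of_infinite_isRoot _ (hΛ.mono fun c hc => ?_)
    show eval c _ = 0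
    rw [eval_finsetSum]
    have h2 := congrArg φ (h c hc)
    rw [map_sum, map_zero] at h2
    rw [← h2]
    refine Finset.sum_congr rfl fun j _ => ?_
    rw [map_smul, eval_mul, eval_C, eval_pow, eval_X, smul_eq_mul, mul_comm]
  have h2 := congrArg (fun r : K[X] => r.coeff k) h1
  simp only [finsetSum_coeff, coeff_C_mul, coeff_X_pow, coeff_zero] at h2
  rw [Finset.sum_eq_single k] at h2
  · exact hφ (by simpa using h2)
  · intro j _ hj
    rw [if_neg (Ne.symm hj), mul_zero]
  · intro hk'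
    exact absurd (Finset.mem_range.2 hk) hk'

end polyfun

section pencil

variable {K : Type*} [Field K] {V W : Type*} [AddCommGroup V] [Module K V]
  [AddCommGroup W] [Module K W]

/-- polynomial solution of the pencil `L0 - X L1` -/
structure Chain (L0 L1 : V →ₗ[K] W) (n : ℕ) (Y : ℕ → V) : Prop where
  zero : L0 (Y 0) = 0
  succ : ∀ k, L0 (Y (k + 1)) = L1 (Y k)
  fin : ∀ k, n ≤ k → Y k = 0

/-- **pencil lemma**: for almost all `c`, exact families are values of polynomial ones -/
theorem pencil [FiniteDimensional K V] [Infinite K] (L0 L1 : V →ₗ[K] W) :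
    ∃ S : Set K, S.Finite ∧ ∀ c ∉ S, ∀ x, L0 x = c • L1 x →
      ∃ (n : ℕ) (Y : ℕ → V), Chain L0 L1 n Y ∧ x = ∑ k ∈ Finset.range n, c ^ k • Y k := by
  classical
  set L : K → V →ₗ[K] W := fun c => L0 - c • L1 with hL
  have hLx : ∀ c x, L c x = L0 x - c • L1 x := fun c x => rfl
  -- maximal rank
  obtain ⟨c0, hc0⟩ : ∃ c0, ∀ c, finrank K (LinearMap.range (L c)) ≤
      finrank K (LinearMap.range (L c0)) := by
    let A : Set ℕ := Set.range fun c => finrank K (LinearMap.range (L c))
    have hne : A.Nonempty := ⟨_, 0, rfl⟩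
    have hb : BddAbove A := by
      refine ⟨finrank K V, ?_⟩
      rintro _ ⟨c, rfl⟩
      exact LinearMap.finrank_range_le _
    obtain ⟨c0, hc0⟩ := Nat.sSup_mem hne hb
    refine ⟨c0, fun c => ?_⟩
    have h1 : finrank K (LinearMap.range (L c)) ≤ sSup A := le_csSup hb ⟨c, rfl⟩
    have h2 : finrank K (LinearMap.range (L c0)) = sSup A := hc0
    rw [h2]
    exact h1
  set R0 := LinearMap.range (L c0) with hR0
  obtain ⟨s, hs⟩ := (L c0).rangeRestrict.exists_rightInverse_of_surjective
    (LinearMap.range_rangeRestrict _)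
  obtain ⟨p, hp⟩ := R0.subtype.exists_leftInverse_of_injective (Submodule.ker_subtype _)
  set G : K → End K R0 := fun c => p ∘ₗ L c ∘ₗ s with hG
  have hG0 : G c0 = 1 := by
    have h1 : (L c0) ∘ₗ s = R0.subtype := by
      refine LinearMap.ext fun y => ?_
      have h2 := LinearMap.congr_fun hs y
      exact congrArg Subtype.val h2
    show p ∘ₗ (L c0 ∘ₗ s) = 1
    rw [h1, hp]
    rfl
  let b := Module.finBasis K R0
  set g0 := LinearMap.toMatrix b b (p ∘ₗ L0 ∘ₗ s) with hg0
  set g1 := LinearMap.toMatrix b b (p ∘ₗ L1 ∘ₗ s) with hg1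
  have hGm : ∀ c, LinearMap.toMatrix b b (G c) = g0 - c • g1 := by
    intro c
    rw [hg0, hg1, ← map_smul, ← map_sub]
    congr 1
    ext x
    simp [hG, hL]
  let GX : Matrix _ _ K[X] := g0.map C - (X : K[X]) • g1.map C
  have hev : ∀ c, (evalRingHom c).mapMatrix GX = LinearMap.toMatrix b b (G c) := by
    intro c
    rw [hGm]
    ext i j
    simp [GX]
    exact mul_comm _ _
  set δ : K[X] := GX.det with hδ
  have hδe : ∀ c, δ.eval c = (LinearMap.toMatrix b b (G c)).det := by
    intro c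
    rw [← hev c, ← RingHom.map_det]
    rfl
  have hadj : ∀ c i j, (GX.adjugate i j).eval c =
      (LinearMap.toMatrix b b (G c)).adjugate i j := by
    intro c i j
    rw [← hev c, ← RingHom.map_adjugate]
    rfl
  have hδ0 : δ ≠ 0 := by
    intro h0
    have h1 := hδe c0
    rw [h0, eval_zero, hG0] at h1
    rw [show LinearMap.toMatrix b b (1 : End K R0) = 1 from LinearMap.toMatrix_one b] at h1
    simp at h1
  have hfin : {c : K | δ.eval c = 0}.Finite := by
    have := δ.roots.toFinset.finite_toSet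
    refine this.subset fun c hc => ?_
    simp only [Finset.mem_coe, Multiset.mem_toFinset, mem_roots hδ0]
    exact hc
  have hinf : {c : K | δ.eval c ≠ 0}.Infinite := by
    have := hfin.infinite_compl
    exact this
  -- kernel of `p ∘ L c` for good `c`
  have hker : ∀ c, δ.eval c ≠ 0 → ∀ x, p (L c x) = 0 → L c x = 0 := by
    intro c hc x hx
    have hu : Function.Surjective (G c) := by
      have h1 : IsUnit (LinearMap.toMatrix b b (G c)).det := by
        rw [← hδe]; exact isUnit_iff_ne_zero.2 hc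
      have h2 : IsUnit (G c) := by
        rw [LinearMap.det_toMatrix] at h1
        exact (LinearMap.isUnit_iff_isUnit_det _).2 h1
      exact ((Module.End.isUnit_iff _).1 h2).2
    let f : LinearMap.range (L c) →ₗ[K] R0 := p ∘ₗ (LinearMap.range (L c)).subtype
    have hf : Function.Surjective f := by
      intro y
      obtain ⟨z, hz⟩ := hu y
      exact ⟨⟨L c (s z), ⟨_, rfl⟩⟩, hz⟩
    have hfr : finrank K (LinearMap.range (L c)) = finrank K R0 := by
      refine le_antisymm (hc0 c) ?_
      exact LinearMap.finrank_le_finrank_of_surjective hf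
    have hinj : Function.Injective f :=
      (LinearMap.injective_iff_surjective_of_finrank_eq_finrank hfr).2 hf
    have h3 : (⟨L c x, ⟨x, rfl⟩⟩ : LinearMap.range (L c)) = 0 := by
      apply hinj
      rw [map_zero]
      exact hx
    exact congrArg Subtype.val h3
  refine ⟨{c | δ.eval c = 0}, hfin, fun c1 hc1 x hx => ?_⟩
  -- the polynomial family
  set w0 : R0 := p (L0 x) with hw0
  set w1 : R0 := p (L1 x) with hw1
  set Ad : K → End K R0 := fun c =>
    Matrix.toLin b b (LinearMap.toMatrix b b (G c)).adjugate with hAd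
  have hGAd : ∀ c y, G c (Ad c y) = δ.eval c • y := by
    intro c y
    have h1 : G c = Matrix.toLin b b (LinearMap.toMatrix b b (G c)) :=
      (Matrix.toLin_toMatrix b b (G c)).symm
    have h2 : (Matrix.toLin b b (LinearMap.toMatrix b b (G c))) (Ad c y) = δ.eval c • y := by
      rw [hAd, ← LinearMap.comp_apply, ← Matrix.toLin_mul, Matrix.mul_adjugate, ← hδe, map_smul,
        Matrix.toLin_one]
      rfl
    rw [← h1] at h2
    exact h2
  have hF : PF (fun c => δ.eval c • x - s (Ad c (p (L c x)))) := by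
    have h1 : ∀ c, s (Ad c (p (L c x))) = ∑ j, ∑ i,
        (GX.adjugate i j * (C (b.repr w0 j) - X * C (b.repr w1 j))).eval c • s (b i) := by
      intro c
      have h2 : p (L c x) = ∑ j, (b.repr w0 j - c * b.repr w1 j) • b j := by
        have h3 : p (L c x) = w0 - c • w1 := by
          rw [hLx, map_sub, map_smul]
        rw [h3]
        conv_lhs => rw [← b.sum_repr w0, ← b.sum_repr w1]
        rw [Finset.smul_sum, ← Finset.sum_sub_distrib]
        refine Finset.sum_congr rfl fun j _ => ?_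
        rw [sub_smul, smul_smul]
      rw [h2, map_sum, map_sum]
      refine Finset.sum_congr rfl fun j _ => ?_
      rw [map_smul, map_smul, hAd, Matrix.toLin_self, map_sum, Finset.smul_sum]
      refine Finset.sum_congr rfl fun i _ => ?_
      rw [map_smul, smul_smul]
      congr 1
      rw [eval_mul, hadj, eval_sub, eval_mul, eval_C, eval_C, eval_X, mul_comm]
    have h2 : (fun c => δ.eval c • x - s (Ad c (p (L c x)))) = fun c => δ.eval c • x +
        ∑ j, ∑ i, (-(GX.adjugate i j * (C (b.repr w0 j) - X * C (b.repr w1 j)))).eval c •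
          s (b i) := by
      funext c
      rw [h1 c, sub_eq_add_neg, ← Finset.sum_neg_distrib]
      congr 1
      refine Finset.sum_congr rfl fun j _ => ?_
      rw [← Finset.sum_neg_distrib]
      refine Finset.sum_congr rfl fun i _ => ?_
      rw [eval_neg, neg_smul]
    rw [h2]
    exact (PF.poly δ x).add (PF.sum _ fun j _ => PF.sum _ fun i _ => PF.poly _ _)
  obtain ⟨n, Y, hY, hf⟩ := hF
  have hgood : ∀ c, δ.eval c ≠ 0 → L c (∑ k ∈ Finset.range n, c ^ k • Y k) = 0 := by
    intro c hc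
    refine hker c hc _ ?_
    rw [← hf c, map_sub, map_sub, map_smul, map_smul]
    have h1 : p (L c (s (Ad c (p (L c x))))) = G c (Ad c (p (L c x))) := rfl
    rw [h1, hGAd, sub_self]
  -- coefficients
  let Z : ℕ → W := fun k => L0 (Y k) - (match k with | 0 => 0 | k + 1 => L1 (Y k))
  have hZ : ∀ k < n + 1, Z k = 0 := by
    refine coeff_zero_of hinf fun c hc => ?_
    have h1 := hgood c hc
    rw [hLx, map_sum, map_sum, Finset.smul_sum] at h1
    have h2 : ∑ k ∈ Finset.range (n + 1), c ^ k • Z k =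
        ∑ k ∈ Finset.range (n + 1), c ^ k • L0 (Y k) -
        ∑ k ∈ Finset.range (n + 1), c ^ k • (match k with | 0 => 0 | k + 1 => L1 (Y k) : W) := by
      rw [← Finset.sum_sub_distrib]
      refine Finset.sum_congr rfl fun k _ => ?_
      rw [← smul_sub]
    rw [h2, Finset.sum_range_succ, hY n le_rfl, map_zero, smul_zero, add_zero,
      Finset.sum_range_succ' _ n]
    simp only [smul_zero, add_zero]
    rw [← h1]
    congr 1
    · exact Finset.sum_congr rfl fun k _ => (map_smul L0 _ _).symm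
    · refine Finset.sum_congr rfl fun k _ => ?_
      rw [map_smul, smul_smul, pow_succ, mul_comm]
  have hch : Chain L0 L1 n Y := by
    refine ⟨?_, fun k => ?_, hY⟩
    · have := hZ 0 (Nat.succ_pos n)
      simpa [Z] using this
    · by_cases hk : k < n
      · have := hZ (k + 1) (by omega)
        exact sub_eq_zero.1 this
      · rw [hY k (by omega), hY (k + 1) (by omega), map_zero, map_zero]
  have hx1 : δ.eval c1 • x = ∑ k ∈ Finset.range n, c1 ^ k • Y k := by
    rw [← hf c1]
    have h1 : L c1 x = 0 := by rw [hLx, hx, sub_self]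
    show δ.eval c1 • x = δ.eval c1 • x - s (Ad c1 (p (L c1 x)))
    rw [h1, map_zero, map_zero, map_zero, sub_zero]
  refine ⟨n, fun k => (δ.eval c1)⁻¹ • Y k, ⟨?_, fun k => ?_, fun k hk => ?_⟩, ?_⟩
  · rw [map_smul, hch.zero, smul_zero]
  · rw [map_smul, map_smul, hch.succ]
  · show (δ.eval c1)⁻¹ • Y k = 0
    rw [hY k hk, smul_zero]
  · have h1 : x = (δ.eval c1)⁻¹ • (δ.eval c1 • x) := by
      rw [smul_smul, inv_mul_cancel₀ hc1, one_smul]
    rw [h1, hx1, Finset.smul_sum]
    refine Finset.sum_congr rfl fun k _ => ?_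
    rw [smul_comm]

end pencil

section transfer

variable {K : Type*} [Field K] {V W : Type*} [AddCommGroup V] [Module K V]
  [AddCommGroup W] [Module K W]

/-- Nakayama for one nilpotent operator -/
theorem nak1 {g : End K V} (hg : IsNilpotent g) {F T : Submodule K V}
    (hT : ∀ x ∈ T, g x ∈ T) (h : F ≤ T ⊔ F.map g) : F ≤ T := by
  have h1 : ∀ k, F ≤ T ⊔ F.map (g ^ k) := by
    intro k
    induction k with
    | zero =>
      rw [pow_zero]
      intro x hx
      exact Submodule.mem_sup_right ⟨x, hx, rfl⟩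
    | succ k ih =>
      intro x hx
      obtain ⟨a, ha, b, ⟨y, hy, rfl⟩, rfl⟩ := Submodule.mem_sup.1 (ih hx)
      obtain ⟨a', ha', b', ⟨y', hy', rfl⟩, hyy⟩ := Submodule.mem_sup.1 (h hy)
      have hTk : ∀ k : ℕ, ∀ x ∈ T, (g ^ k) x ∈ T := by
        intro k
        induction k with
        | zero => intro x hx; exact hx
        | succ k ih => intro x hx; rw [pow_succ]; exact ih _ (hT x hx)
      rw [← hyy, map_add, ← add_assoc]
      refine Submodule.add_mem_sup (T.add_mem ha (hTk k _ ha')) ⟨y', hy', ?_⟩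
      rw [pow_succ]
      rfl
  obtain ⟨k, hk⟩ := hg
  have h2 := h1 k
  rw [hk, Submodule.map_zero, sup_bot_eq] at h2
  exact h2

/-- Nakayama for two commuting nilpotent operators -/
theorem nak2 {a b : End K V} (hab : ∀ x, a (b x) = b (a x)) (ha : IsNilpotent a)
    (hb : IsNilpotent b) {F S : Submodule K V}
    (hFb : ∀ x ∈ F, b x ∈ F) (hSa : ∀ x ∈ S, a x ∈ S) (hSb : ∀ x ∈ S, b x ∈ S)
    (h : F ≤ S ⊔ F.map a ⊔ F.map b) : F ≤ S := by
  refine nak1 ha hSa (nak1 hb ?_ h)
  intro x hx
  obtain ⟨y, hy, z, ⟨w, hw, rfl⟩, rfl⟩ := Submodule.mem_sup.1 hx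
  rw [map_add, ← hab]
  exact Submodule.add_mem_sup (hSb y hy) ⟨b w, hFb w hw, rfl⟩

theorem pow_sub_mem {g : End K V} {N D : Submodule K V} {ξ : K} (hD : ∀ x ∈ D, g x ∈ D)
    (h : ∀ y ∈ N, g y - ξ • y ∈ D) (m : ℕ) : ∀ y ∈ N, (g ^ m) y - ξ ^ m • y ∈ D := by
  induction m with
  | zero => intro y _; simp
  | succ m ih =>
    intro y hy
    have h1 : (g ^ (m + 1)) y - ξ ^ (m + 1) • y =
        g ((g ^ m) y - ξ ^ m • y) + ξ ^ m • (g y - ξ • y) := by
      rw [pow_succ' g, Module.End.mul_apply, map_sub, map_smul, smul_sub, smul_smul, pow_succ ξ]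
      abel
    rw [h1]
    exact D.add_mem (hD _ (ih y hy)) (D.smul_mem _ (h y hy))

/-- **Transfer** from the operator `q = c₂ c₁⁻¹` (`c₁ = 1 + t (la1 + b)`, `c₂ = 1 + t (la2 + a)`,
`a, b` nilpotent) to scalars, for an arbitrary linear pencil `L0 - c L1`. -/
theorem transfer [FiniteDimensional K V] (L0 L1 : V →ₗ[K] W) {a b : End K V}
    (hab : Commute a b) (ha : IsNilpotent a) (hb : IsNilpotent b)
    (hLa : ∀ y z, L0 y = L1 z → L0 (a y) = L1 (a z))
    (hLb : ∀ y z, L0 y = L1 z → L0 (b y) = L1 (b z))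
    {la1 la2 : K} (hla : la1 ≠ la2) {𝒯 : Set K} (h𝒯 : 𝒯.Infinite) (c1 c2 : K → End K V)
    (hc1 : ∀ t x, c1 t x = (1 + t * la1) • x + t • b x)
    (hc2 : ∀ t x, c2 t x = (1 + t * la2) • x + t • a x) :
    ∃ S : Set K, S.Finite ∧ ∀ c ∉ S, ∀ x, L0 x = c • L1 x → ∀ M : Submodule K (V × V),
      (∀ t ∈ 𝒯, ∀ X, L0 (c1 t (c1 t X)) = L1 (c2 t (c2 t X)) → (c1 t X, c2 t X) ∈ M) →
      (x, 0) ∈ M ∧ (0, x) ∈ M := by
  classical
  have : Infinite K := Set.infinite_univ_iff.1 (h𝒯.mono (Set.subset_univ _))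
  obtain ⟨S, hS, hpen⟩ := pencil L0 L1
  refine ⟨S, hS, fun c hc x hx M hM => ?_⟩
  have hab' : ∀ x, a (b x) = b (a x) := fun x => LinearMap.congr_fun hab x
  -- polynomial coefficients
  let gen : Set V := {y | ∃ (n : ℕ) (Y : ℕ → V) (k : ℕ), Chain L0 L1 n Y ∧ y = Y k}
  let LL : Submodule K V := Submodule.span K gen
  have hstep : ∀ (g : End K V), (∀ y z, L0 y = L1 z → L0 (g y) = L1 (g z)) →
      ∀ n Y, Chain L0 L1 n Y → Chain L0 L1 n fun k => g (Y k) := by
    intro g hg n Y hY
    refine ⟨?_, fun k => hg _ _ (hY.succ k), fun k hk => ?_⟩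
    · have := hg (Y 0) 0 (by rw [hY.zero, map_zero])
      rwa [map_zero, map_zero] at this
    · show g (Y k) = 0
      rw [hY.fin k hk, map_zero]
  have hLL : ∀ (g : End K V), (∀ y z, L0 y = L1 z → L0 (g y) = L1 (g z)) →
      ∀ y ∈ LL, g y ∈ LL := by
    intro g hg y hy
    refine Submodule.span_induction ?_ ?_ ?_ ?_ hy
    · rintro _ ⟨n, Y, k, hY, rfl⟩
      exact Submodule.subset_span ⟨n, _, k, hstep g hg n Y hY, rfl⟩
    · rw [map_zero]; exact LL.zero_mem
    · intro x y _ _ h1 h2; rw [map_add]; exact LL.add_mem h1 h2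
    · intro r x _ h1; rw [map_smul]; exact LL.smul_mem _ h1
  have hxL : x ∈ LL := by
    obtain ⟨n, Y, hY, hxY⟩ := hpen c hc x hx
    rw [hxY]
    exact Submodule.sum_mem _ fun k _ => LL.smul_mem _ (Submodule.subset_span ⟨n, Y, k, hY, rfl⟩)
  -- good operators
  have hg1 : ∀ t y z, L0 y = L1 z → L0 (c1 t y) = L1 (c1 t z) := by
    intro t y z h
    rw [hc1, hc1, map_add, map_add, map_smul, map_smul, map_smul, map_smul, h, hLb y z h]
  have hg2 : ∀ t y z, L0 y = L1 z → L0 (c2 t y) = L1 (c2 t z) := by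
    intro t y z h
    rw [hc2, hc2, map_add, map_add, map_smul, map_smul, map_smul, map_smul, h, hLa y z h]
  have hgp : ∀ (g : End K V), (∀ y z, L0 y = L1 z → L0 (g y) = L1 (g z)) → ∀ m : ℕ,
      ∀ y z, L0 y = L1 z → L0 ((g ^ m) y) = L1 ((g ^ m) z) := by
    intro g hg m
    induction m with
    | zero => intro y z h; exact h
    | succ m ih =>
      intro y z h
      rw [pow_succ', Module.End.mul_apply, Module.End.mul_apply]
      exact hg _ _ (ih y z h)
  have hc12 : ∀ t, Commute (c1 t) (c2 t) := by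
    intro t
    refine LinearMap.ext fun y => ?_
    show c1 t (c2 t y) = c2 t (c1 t y)
    simp only [hc1, hc2, map_add, map_smul, hab', smul_add, smul_smul]
    rw [mul_comm (1 + t * la1) (1 + t * la2), mul_comm (1 + t * la1) t, mul_comm t (1 + t * la2)]
    abel
  have hac1 : ∀ t y, a (c1 t y) = c1 t (a y) := by
    intro t y
    rw [hc1, hc1, map_add, map_smul, map_smul, hab']
  have hac2 : ∀ t y, a (c2 t y) = c2 t (a y) := by
    intro t y
    rw [hc2, hc2, map_add, map_smul, map_smul]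
  have hbc1 : ∀ t y, b (c1 t y) = c1 t (b y) := by
    intro t y
    rw [hc1, hc1, map_add, map_smul, map_smul]
  have hbc2 : ∀ t y, b (c2 t y) = c2 t (b y) := by
    intro t y
    rw [hc2, hc2, map_add, map_smul, map_smul, hab']
  -- the span
  let gS : Set (V × V) := {p | ∃ t ∈ 𝒯, ∃ X, L0 (c1 t (c1 t X)) = L1 (c2 t (c2 t X)) ∧
    p = (c1 t X, c2 t X)}
  let SS : Submodule K (V × V) := Submodule.span K gS
  have hSM : SS ≤ M := by
    refine Submodule.span_le.2 ?_
    rintro _ ⟨t, ht, X, hX, rfl⟩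
    exact hM t ht X hX
  let a2 : End K (V × V) := LinearMap.prodMap a a
  let b2 : End K (V × V) := LinearMap.prodMap b b
  have ha2 : IsNilpotent a2 := by
    obtain ⟨n, hn⟩ := ha
    refine ⟨n, ?_⟩
    have h1 : ∀ m : ℕ, a2 ^ m = LinearMap.prodMap (a ^ m) (a ^ m) := by
      intro m
      induction m with
      | zero => rfl
      | succ m ih => rw [pow_succ, ih, pow_succ]; rfl
    rw [h1, hn]
    refine LinearMap.ext fun p => ?_
    rfl
  have hb2 : IsNilpotent b2 := by
    obtain ⟨n, hn⟩ := hb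
    refine ⟨n, ?_⟩
    have h1 : ∀ m : ℕ, b2 ^ m = LinearMap.prodMap (b ^ m) (b ^ m) := by
      intro m
      induction m with
      | zero => rfl
      | succ m ih => rw [pow_succ, ih, pow_succ]; rfl
    rw [h1, hn]
    refine LinearMap.ext fun p => ?_
    rfl
  have hSa : ∀ p ∈ SS, a2 p ∈ SS := by
    intro p hp
    refine Submodule.span_induction ?_ ?_ ?_ ?_ hp
    · rintro _ ⟨t, ht, X, hX, rfl⟩
      refine Submodule.subset_span ⟨t, ht, a X, ?_, ?_⟩
      · rw [← hac1, ← hac1, ← hac2, ← hac2]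
        exact hLa _ _ hX
      · show (a (c1 t X), a (c2 t X)) = _
        rw [hac1, hac2]
    · rw [map_zero]; exact SS.zero_mem
    · intro x y _ _ h1 h2; rw [map_add]; exact SS.add_mem h1 h2
    · intro r x _ h1; rw [map_smul]; exact SS.smul_mem _ h1
  have hSb : ∀ p ∈ SS, b2 p ∈ SS := by
    intro p hp
    refine Submodule.span_induction ?_ ?_ ?_ ?_ hp
    · rintro _ ⟨t, ht, X, hX, rfl⟩
      refine Submodule.subset_span ⟨t, ht, b X, ?_, ?_⟩
      · rw [← hbc1, ← hbc1, ← hbc2, ← hbc2]
        exact hLb _ _ hX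
      · show (b (c1 t X), b (c2 t X)) = _
        rw [hbc1, hbc2]
    · rw [map_zero]; exact SS.zero_mem
    · intro x y _ _ h1 h2; rw [map_add]; exact SS.add_mem h1 h2
    · intro r x _ h1; rw [map_smul]; exact SS.smul_mem _ h1
  let NN : Submodule K (V × V) := LL.prod LL
  have hNN : NN ≤ SS := by
    refine nak2 (a := a2) (b := b2) (fun p => ?_) ha2 hb2 ?_ hSa hSb ?_
    · show (a (b p.1), a (b p.2)) = (b (a p.1), b (a p.2))
      rw [hab', hab']
    · intro p hp
      exact ⟨hLL b hLb _ hp.1, hLL b hLb _ hp.2⟩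
    · set T : Submodule K (V × V) := SS ⊔ NN.map a2 ⊔ NN.map b2 with hT
      let D : Submodule K V := LL.map a ⊔ LL.map b
      have hDT1 : ∀ y ∈ D, ((y, 0) : V × V) ∈ T := by
        intro y hy
        obtain ⟨_, ⟨u, hu, rfl⟩, _, ⟨v, hv, rfl⟩, rfl⟩ := Submodule.mem_sup.1 hy
        have h1 : ((a u + b v, 0) : V × V) = a2 (u, 0) + b2 (v, 0) := by
          show _ = ((a u, a 0) + (b v, b 0) : V × V)
          rw [map_zero, map_zero, Prod.mk_add_mk, add_zero]
        rw [h1]
        refine T.add_mem ?_ ?_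
        · exact Submodule.mem_sup_left (Submodule.mem_sup_right ⟨(u, 0), ⟨hu, LL.zero_mem⟩, rfl⟩)
        · exact Submodule.mem_sup_right ⟨(v, 0), ⟨hv, LL.zero_mem⟩, rfl⟩
      have hDT2 : ∀ y ∈ D, ((0, y) : V × V) ∈ T := by
        intro y hy
        obtain ⟨_, ⟨u, hu, rfl⟩, _, ⟨v, hv, rfl⟩, rfl⟩ := Submodule.mem_sup.1 hy
        have h1 : ((0, a u + b v) : V × V) = a2 (0, u) + b2 (0, v) := by
          show _ = ((a 0, a u) + (b 0, b v) : V × V)
          rw [map_zero, map_zero, Prod.mk_add_mk, add_zero]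
        rw [h1]
        refine T.add_mem ?_ ?_
        · exact Submodule.mem_sup_left (Submodule.mem_sup_right ⟨(0, u), ⟨LL.zero_mem, hu⟩, rfl⟩)
        · exact Submodule.mem_sup_right ⟨(0, v), ⟨LL.zero_mem, hv⟩, rfl⟩
      have hDg : ∀ g : End K V, (∀ y, a (g y) = g (a y)) → (∀ y, b (g y) = g (b y)) →
          (∀ y ∈ LL, g y ∈ LL) → ∀ y ∈ D, g y ∈ D := by
        intro g h1 h2 h3 y hy
        obtain ⟨_, ⟨u, hu, rfl⟩, _, ⟨v, hv, rfl⟩, rfl⟩ := Submodule.mem_sup.1 hy
        rw [map_add, ← h1, ← h2]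
        exact Submodule.add_mem_sup ⟨_, h3 u hu, rfl⟩ ⟨_, h3 v hv, rfl⟩
      have hD1 : ∀ t, ∀ y ∈ D, c1 t y ∈ D := fun t =>
        hDg _ (hac1 t) (hbc1 t) (hLL _ (hg1 t))
      have hD2 : ∀ t, ∀ y ∈ D, c2 t y ∈ D := fun t =>
        hDg _ (hac2 t) (hbc2 t) (hLL _ (hg2 t))
      have hD2p : ∀ t (m : ℕ), ∀ y ∈ D, ((c2 t) ^ m) y ∈ D := by
        intro t m
        induction m with
        | zero => intro y hy; exact hy
        | succ m ih => intro y hy; rw [pow_succ]; exact ih _ (hD2 t y hy)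
      have hm1 : ∀ t, ∀ y ∈ LL, c1 t y - (1 + t * la1) • y ∈ D := by
        intro t y hy
        rw [hc1, add_sub_cancel_left]
        exact D.smul_mem _ (Submodule.mem_sup_right ⟨y, hy, rfl⟩)
      have hm2 : ∀ t, ∀ y ∈ LL, c2 t y - (1 + t * la2) • y ∈ D := by
        intro t y hy
        rw [hc2, add_sub_cancel_left]
        exact D.smul_mem _ (Submodule.mem_sup_left ⟨y, hy, rfl⟩)
      have hmm : ∀ t (i j : ℕ), ∀ y ∈ LL, ((c2 t) ^ i) (((c1 t) ^ j) y) -
          ((1 + t * la2) ^ i * (1 + t * la1) ^ j) • y ∈ D := by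
        intro t i j y hy
        have h1 := pow_sub_mem (hD1 t) (hm1 t) j y hy
        have h2 := pow_sub_mem (hD2 t) (hm2 t) i y hy
        have h3 : ((c2 t) ^ i) (((c1 t) ^ j) y) - ((1 + t * la2) ^ i * (1 + t * la1) ^ j) • y =
            ((c2 t) ^ i) (((c1 t) ^ j) y - (1 + t * la1) ^ j • y) +
            (1 + t * la1) ^ j • (((c2 t) ^ i) y - (1 + t * la2) ^ i • y) := by
          rw [map_sub, map_smul, smul_sub, smul_smul, mul_comm ((1 + t * la2) ^ i)]
          abel
        rw [h3]
        exact D.add_mem (hD2p t i _ h1) (D.smul_mem _ h2)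
      -- the main step
      have key : ∀ (n : ℕ) (Y : ℕ → V), Chain L0 L1 n Y → ∀ k,
          ((Y k, 0) : V × V) ∈ T ∧ ((0, Y k) : V × V) ∈ T := by
        intro n Y hY
        have hYL : ∀ k, Y k ∈ LL := fun k => Submodule.subset_span ⟨n, Y, k, hY, rfl⟩
        -- membership of the scalar combination
        have hmem : ∀ t ∈ 𝒯, ((∑ k ∈ Finset.range n,
              ((1 + t * la2) ^ (2 * k) * (1 + t * la1) ^ (2 * (n - k) + 1)) • Y k,
            ∑ k ∈ Finset.range n,
              ((1 + t * la2) ^ (2 * k + 1) * (1 + t * la1) ^ (2 * (n - k))) • Y k) : V × V) ∈ T := by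
          intro t ht
          let X : V := ∑ k ∈ Finset.range n, ((c2 t) ^ (2 * k)) (((c1 t) ^ (2 * (n - k))) (Y k))
          have e1 : ∀ m : ℕ, ((c1 t) ^ m) X = ∑ k ∈ Finset.range n,
              ((c2 t) ^ (2 * k)) (((c1 t) ^ (2 * (n - k) + m)) (Y k)) := by
            intro m
            rw [map_sum]
            refine Finset.sum_congr rfl fun k _ => ?_
            have h1 := LinearMap.congr_fun ((hc12 t).pow_pow m (2 * k)).eq
              (((c1 t) ^ (2 * (n - k))) (Y k))
            rw [Module.End.mul_apply, Module.End.mul_apply] at h1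
            rw [h1, ← Module.End.mul_apply ((c1 t) ^ m), ← pow_add, add_comm m]
          have e2 : ∀ m : ℕ, ((c2 t) ^ m) X = ∑ k ∈ Finset.range n,
              ((c2 t) ^ (2 * k + m)) (((c1 t) ^ (2 * (n - k))) (Y k)) := by
            intro m
            rw [map_sum]
            refine Finset.sum_congr rfl fun k _ => ?_
            rw [← Module.End.mul_apply ((c2 t) ^ m), ← pow_add, add_comm m]
          have hX : L0 (c1 t (c1 t X)) = L1 (c2 t (c2 t X)) := by
            have h1 : c1 t (c1 t X) = ((c1 t) ^ 2) X := by rw [pow_two]; rfl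
            have h2 : c2 t (c2 t X) = ((c2 t) ^ 2) X := by rw [pow_two]; rfl
            rw [h1, h2, e1, e2, map_sum, map_sum]
            let f : ℕ → W := fun k => L0 (((c2 t) ^ (2 * k)) (((c1 t) ^ (2 * (n - k) + 2)) (Y k)))
            have hgg : ∀ i j : ℕ, ∀ y z, L0 y = L1 z →
                L0 (((c2 t) ^ i) (((c1 t) ^ j) y)) = L1 (((c2 t) ^ i) (((c1 t) ^ j) z)) := by
              intro i j y z h
              exact hgp _ (hg2 t) i _ _ (hgp _ (hg1 t) j _ _ h)
            have hf0 : f 0 = 0 := by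
              have := hgg (2 * 0) (2 * (n - 0) + 2) (Y 0) 0 (by rw [hY.zero, map_zero])
              rw [map_zero, map_zero, map_zero] at this
              exact this
            have hfn : f n = 0 := by
              show L0 (((c2 t) ^ (2 * n)) (((c1 t) ^ (2 * (n - n) + 2)) (Y n))) = 0
              rw [hY.fin n le_rfl, map_zero, map_zero, map_zero]
            have h3 : ∑ k ∈ Finset.range n, f k = ∑ k ∈ Finset.range n, f (k + 1) := by
              have h4 := Finset.sum_range_succ f n
              have h5 := Finset.sum_range_succ' f n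
              rw [hfn, add_zero] at h4
              rw [hf0, add_zero] at h5
              rw [← h4, h5]
            refine h3.trans (Finset.sum_congr rfl fun k hk => ?_)
            have hk' := Finset.mem_range.1 hk
            have h6 := hgg (2 * k + 2) (2 * (n - k)) (Y (k + 1)) (Y k) (hY.succ k)
            rw [← h6]
            show L0 (((c2 t) ^ (2 * (k + 1))) (((c1 t) ^ (2 * (n - (k + 1)) + 2)) (Y (k + 1)))) = _
            rw [show 2 * (k + 1) = 2 * k + 2 by ring,
              show 2 * (n - (k + 1)) + 2 = 2 * (n - k) by omega]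
          have hXS : ((c1 t X, c2 t X) : V × V) ∈ T :=
            Submodule.mem_sup_left (Submodule.mem_sup_left
              (Submodule.subset_span ⟨t, ht, X, hX, rfl⟩))
          have h1 : c1 t X - ∑ k ∈ Finset.range n,
              ((1 + t * la2) ^ (2 * k) * (1 + t * la1) ^ (2 * (n - k) + 1)) • Y k ∈ D := by
            have := e1 1
            rw [pow_one] at this
            rw [this, ← Finset.sum_sub_distrib]
            exact Submodule.sum_mem _ fun k _ => hmm t _ _ _ (hYL k)
          have h2 : c2 t X - ∑ k ∈ Finset.range n,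
              ((1 + t * la2) ^ (2 * k + 1) * (1 + t * la1) ^ (2 * (n - k))) • Y k ∈ D := by
            have := e2 1
            rw [pow_one] at this
            rw [this, ← Finset.sum_sub_distrib]
            exact Submodule.sum_mem _ fun k _ => hmm t _ _ _ (hYL k)
          have h3 := T.sub_mem (T.sub_mem hXS (hDT1 _ h1)) (hDT2 _ h2)
          rw [Prod.mk_sub_mk, Prod.mk_sub_mk, sub_sub_cancel, sub_zero, sub_zero,
            sub_sub_cancel] at h3
          exact h3
        -- Vandermonde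
        have hfun : ∀ φ : (V × V) →ₗ[K] K, (∀ p ∈ T, φ p = 0) → ∀ k,
            φ (Y k, 0) = 0 ∧ φ (0, Y k) = 0 := by
          intro φ hφ k
          by_cases hk : n ≤ k
          · rw [hY.fin k hk]
            have : ((0, 0) : V × V) = 0 := rfl
            rw [this, map_zero]
            exact ⟨rfl, rfl⟩
          let 𝒯' : Set K := 𝒯 \ ({t | 1 + t * la1 = 0} ∪ {t | 1 + t * la2 = 0})
          have hfin1 : ∀ la : K, {t : K | 1 + t * la = 0}.Finite := by
            intro la
            refine Set.Subsingleton.finite fun s hs t ht => ?_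
            have hs' : 1 + s * la = 0 := hs
            have ht' : 1 + t * la = 0 := ht
            have hla0 : la ≠ 0 := by
              rintro rfl
              rw [mul_zero, add_zero] at hs'
              exact one_ne_zero hs'
            exact mul_right_cancel₀ hla0 (by linear_combination hs' - ht')
          have h𝒯' : 𝒯'.Infinite := h𝒯.sdiff ((hfin1 la1).union (hfin1 la2))
          let ρ : K → K := fun t => (1 + t * la2) / (1 + t * la1)
          have hρi : Set.InjOn ρ 𝒯' := by
            intro s hs t ht hst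
            have hs1 : 1 + s * la1 ≠ 0 := fun h => hs.2 (Or.inl h)
            have ht1 : 1 + t * la1 ≠ 0 := fun h => ht.2 (Or.inl h)
            have h1 : (1 + s * la2) / (1 + s * la1) = (1 + t * la2) / (1 + t * la1) := hst
            rw [div_eq_div_iff hs1 ht1] at h1
            have h2 : (s - t) * (la2 - la1) = 0 := by linear_combination h1
            rcases mul_eq_zero.1 h2 with h3 | h3
            · exact sub_eq_zero.1 h3
            · exact absurd (sub_eq_zero.1 h3).symm hla
          have hΛ : (ρ '' 𝒯').Infinite := h𝒯'.image hρi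
          have hΛ0 : (0 : K) ∉ ρ '' 𝒯' := by
            rintro ⟨t, ht, h0⟩
            have ht1 : 1 + t * la1 ≠ 0 := fun h => ht.2 (Or.inl h)
            have ht2 : 1 + t * la2 ≠ 0 := fun h => ht.2 (Or.inr h)
            exact (div_ne_zero ht2 ht1) h0
          have hpw := powers2 hΛ hΛ0 (l := n) (fun k => φ (Y k, 0)) (fun k => φ (0, Y k))
            Neg.zero (Pos.const 0) (by
              rintro _ ⟨t, ht, rfl⟩
              have ht1 : 1 + t * la1 ≠ 0 := fun h => ht.2 (Or.inl h)
              have h1 := hφ _ (hmem t ht.1)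
              have h2 : (((∑ k ∈ Finset.range n,
                  ((1 + t * la2) ^ (2 * k) * (1 + t * la1) ^ (2 * (n - k) + 1)) • Y k,
                ∑ k ∈ Finset.range n,
                  ((1 + t * la2) ^ (2 * k + 1) * (1 + t * la1) ^ (2 * (n - k))) • Y k) : V × V)) =
                ∑ k ∈ Finset.range n,
                  (((1 + t * la2) ^ (2 * k) * (1 + t * la1) ^ (2 * (n - k) + 1)) •
                    ((Y k, 0) : V × V) +
                  ((1 + t * la2) ^ (2 * k + 1) * (1 + t * la1) ^ (2 * (n - k))) •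
                    ((0, Y k) : V × V)) := by
                refine Prod.ext ?_ ?_
                · rw [Prod.fst_sum]
                  dsimp only
                  refine Finset.sum_congr rfl fun k _ => ?_
                  simp
                · rw [Prod.snd_sum]
                  dsimp only
                  refine Finset.sum_congr rfl fun k _ => ?_
                  simp
              rw [h2, map_sum] at h1
              have h3 : (1 + t * la1) ^ (2 * n + 1) * (∑ j ∈ Finset.range n,
                  (ρ t) ^ (2 * j) * (φ (Y j, 0) + ρ t * φ (0, Y j))) = 0 := by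
                rw [← h1, Finset.mul_sum]
                refine Finset.sum_congr rfl fun k hk => ?_
                have hk' := Finset.mem_range.1 hk
                rw [map_add, map_smul, map_smul, smul_eq_mul, smul_eq_mul]
                have hρt : ρ t * (1 + t * la1) = 1 + t * la2 := div_mul_cancel₀ _ ht1
                rw [← hρt]
                have e : 2 * n + 1 = 2 * k + (2 * (n - k) + 1) := by omega
                rw [e, pow_add, mul_pow, mul_pow, pow_succ (1 + t * la1) (2 * (n - k)),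
                  pow_succ (ρ t) (2 * k), pow_succ (1 + t * la1) (2 * k)]
                ring
              have h4 := (mul_eq_zero.1 h3).resolve_left (pow_ne_zero _ ht1)
              rw [h4]
              simp)
          exact hpw.1 k (by omega)
        intro k
        constructor
        · by_contra hn
          obtain ⟨φ, h1, h2⟩ := Submodule.exists_le_ker_of_notMem hn
          exact h1 (hfun φ (fun p hp => h2 hp) k).1
        · by_contra hn
          obtain ⟨φ, h1, h2⟩ := Submodule.exists_le_ker_of_notMem hn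
          exact h1 (hfun φ (fun p hp => h2 hp) k).2
      have hL12 : ∀ y ∈ LL, ((y, 0) : V × V) ∈ T ∧ ((0, y) : V × V) ∈ T := by
        intro y hy
        refine Submodule.span_induction ?_ ?_ ?_ ?_ hy
        · rintro _ ⟨n, Y, k, hY, rfl⟩
          exact key n Y hY k
        · exact ⟨T.zero_mem, T.zero_mem⟩
        · intro x y _ _ h1 h2
          have e1 : ((x + y, 0) : V × V) = (x, 0) + (y, 0) := by simp
          have e2 : ((0, x + y) : V × V) = (0, x) + (0, y) := by simp
          rw [e1, e2]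
          exact ⟨T.add_mem h1.1 h2.1, T.add_mem h1.2 h2.2⟩
        · intro r x _ h1
          have e1 : ((r • x, 0) : V × V) = r • (x, 0) := by simp
          have e2 : ((0, r • x) : V × V) = r • (0, x) := by simp
          rw [e1, e2]
          exact ⟨T.smul_mem _ h1.1, T.smul_mem _ h1.2⟩
      rintro ⟨y, z⟩ hp
      have e : ((y, z) : V × V) = (y, 0) + (0, z) := by simp
      rw [e]
      exact T.add_mem (hL12 y hp.1).1 (hL12 z hp.2).2
  exact ⟨hSM (hNN ⟨hxL, LL.zero_mem⟩), hSM (hNN ⟨LL.zero_mem, hxL⟩)⟩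

end transfer

section exactD

variable {K : Type*} [Field K] {P1 P2 : Type*} [AddCommGroup P1] [Module K P1]
  [AddCommGroup P2] [Module K P2] {τ : Type*} [Fintype τ]











end exactD

end Crest.Agent.R172.Dual
end

-- ▼ part R172/RDhalves267

/-!
Row 172 (S0260), (T0): RD2 `halves` (transfer of FIRST to scalar exact decorated families), given
FIRST (`first` of the skeleton) as hypothesis.
-/

set_option maxHeartbeats 400000
set_option autoImplicit false
set_option linter.unusedSectionVars false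

namespace Crest.Agent.R172.RDh267

open Matrix Module TensorProduct Crest.Agent.R172.FO Crest.Agent.R172.FrmB Crest.Agent.R172.RD
open Crest.Agent.R172.Core (NS Tame)
open Crest.Agent.R172.PL (Wk)

variable {ι : Type*} [Fintype ι] [DecidableEq ι] {δ : Type*} [Fintype δ] [DecidableEq δ]
variable {n : Type*} [Fintype n] [DecidableEq n]
variable {k K : Type*} [Field k] [Field K] [Algebra k K]
variable {M : Type*} [AddCommGroup M] [Module K M]
variable {m : Type*} [Fintype m] [DecidableEq m]

/-- solving `(c₂ - c₁) X = Y` inside a stable subspace -/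
theorem solve {V : Type*} [AddCommGroup V] [Module K V] [FiniteDimensional K V] {a b : End K V}
    (hab : Commute a b) (ha : IsNilpotent a) (hb : IsNilpotent b) {la1 la2 s : K} (hs0 : s ≠ 0)
    (hla : la1 ≠ la2) (E : Submodule K V) (hEa : ∀ X ∈ E, a X ∈ E) (hEb : ∀ X ∈ E, b X ∈ E)
    (Y : V) (hY : Y ∈ E) :
    ∃ X ∈ E, ((1 + s * la2) • X + s • a X) - ((1 + s * la1) • X + s • b X) = Y := by
  have hd : la2 - la1 ≠ 0 := sub_ne_zero.2 (Ne.symm hla)
  have hval : ∀ X : V, ((1 + s * la2) • X + s • a X) - ((1 + s * la1) • X + s • b X) =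
      s • ((la2 - la1) • X - (b X - a X)) := by
    intro X
    rw [smul_sub, smul_sub, smul_smul, add_smul, add_smul, mul_sub, sub_smul]
    abel
  have hEd : ∀ X ∈ E, s • ((la2 - la1) • X - (b X - a X)) ∈ E := fun X hX =>
    E.smul_mem _ (E.sub_mem (E.smul_mem _ hX) (E.sub_mem (hEb X hX) (hEa X hX)))
  let f : End K V := s • ((la2 - la1) • (1 : End K V) - (b - a))
  have hf : ∀ X, f X = s • ((la2 - la1) • X - (b X - a X)) := fun X => rfl
  let dd : E →ₗ[K] E := f.restrict fun X hX => by rw [hf]; exact hEd X hX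
  have hdi : Function.Injective dd := by
    rw [injective_iff_map_eq_zero]
    intro X hX
    have h1 : s • ((la2 - la1) • (X : V) - (b (X : V) - a (X : V))) = 0 :=
      congrArg Subtype.val hX
    have h2 : (la2 - la1) • (X : V) = b (X : V) - a (X : V) := by
      rcases smul_eq_zero.1 h1 with h3 | h3
      · exact absurd h3 hs0
      · exact sub_eq_zero.1 h3
    have hnil : IsNilpotent ((la2 - la1)⁻¹ • (b - a)) := by
      have h4 : IsNilpotent (b - a) := Commute.isNilpotent_sub hab.symm hb ha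
      exact h4.smul _
    have h1 : (X : V) = ((la2 - la1)⁻¹ • (b - a)) (X : V) := by
      rw [LinearMap.smul_apply, LinearMap.sub_apply, ← h2, smul_smul, inv_mul_cancel₀ hd,
        one_smul]
    obtain ⟨q, hq⟩ := hnil
    have h5 : ∀ q : ℕ, (X : V) = (((la2 - la1)⁻¹ • (b - a)) ^ q) (X : V) := by
      intro q
      induction q with
      | zero => simp
      | succ q ih => rw [pow_succ, End.mul_apply, ← h1, ← ih]
    apply Subtype.ext
    rw [h5 q, hq, LinearMap.zero_apply]
    rfl
  obtain ⟨X, hX⟩ := (LinearMap.injective_iff_surjective.1 hdi) ⟨Y, hY⟩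
  refine ⟨X, X.2, ?_⟩
  rw [hval]
  exact congrArg Subtype.val hX

/-- decorated families -/
abbrev Tr (n K : Type*) : Type _ := (Fin 3 → Matrix n n K) × Matrix n n K × Matrix n n K

/-- action on the `U_j` side -/
def opA (A : Matrix n n K) : End K (Tr n K) where
  toFun X := (fun r => A * X.1 r, X.2.1 * A, A * X.2.2)
  map_add' X Y := by
    ext1
    · funext r; simp [mul_add]
    · ext1 <;> simp [mul_add, add_mul]
  map_smul' c X := by
    ext1
    · funext r; simp
    · ext1 <;> simp

/-- action on the `U_i` side -/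
def opB (A : Matrix n n K) : End K (Tr n K) where
  toFun X := (fun r => X.1 r * Aᵀ, A * X.2.1, X.2.2 * A)
  map_add' X Y := by
    ext1
    · funext r; simp [add_mul]
    · ext1 <;> simp [mul_add, add_mul]
  map_smul' c X := by
    ext1
    · funext r; simp
    · ext1 <;> simp

theorem opA_apply (A : Matrix n n K) (X : Tr n K) :
    opA A X = (fun r => A * X.1 r, X.2.1 * A, A * X.2.2) := rfl

theorem opB_apply (A : Matrix n n K) (X : Tr n K) :
    opB A X = (fun r => X.1 r * Aᵀ, A * X.2.1, X.2.2 * A) := rfl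

theorem opA_opB (A A' : Matrix n n K) (X : Tr n K) : opA A (opB A' X) = opB A' (opA A X) := by
  rw [opA_apply, opB_apply, opA_apply, opB_apply]
  simp only [Matrix.mul_assoc]

theorem opA_mul (A A' : Matrix n n K) (X : Tr n K) (h : A * A' = A' * A) :
    opA A (opA A' X) = opA (A * A') X := by
  refine Prod.ext (funext fun r => ?_) (Prod.ext ?_ ?_)
  · show A * (A' * X.1 r) = A * A' * X.1 r
    rw [Matrix.mul_assoc]
  · show X.2.1 * A' * A = X.2.1 * (A * A')
    rw [Matrix.mul_assoc, h]
  · show A * (A' * X.2.2) = A * A' * X.2.2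
    rw [Matrix.mul_assoc]

theorem opB_mul (A A' : Matrix n n K) (X : Tr n K) (h : A * A' = A' * A) :
    opB A (opB A' X) = opB (A * A') X := by
  refine Prod.ext (funext fun r => ?_) (Prod.ext ?_ ?_)
  · show X.1 r * A'ᵀ * Aᵀ = X.1 r * (A * A')ᵀ
    rw [Matrix.mul_assoc, ← Matrix.transpose_mul]
  · show A * (A' * X.2.1) = A * A' * X.2.1
    rw [Matrix.mul_assoc]
  · show X.2.2 * A' * A = X.2.2 * (A * A')
    rw [Matrix.mul_assoc, h]

theorem opA_one (X : Tr n K) : opA (1 : Matrix n n K) X = X := by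
  rw [opA_apply]; simp

theorem opB_one (X : Tr n K) : opB (1 : Matrix n n K) X = X := by
  rw [opB_apply]; simp

theorem opA_lin (c t : K) (A : Matrix n n K) (X : Tr n K) :
    opA (c • (1 : Matrix n n K) + t • A) X = c • X + t • opA A X := by
  rw [opA_apply, opA_apply]
  ext1
  · funext r; simp [add_mul]
  · ext1 <;> simp [mul_add, add_mul]

theorem opB_lin (c t : K) (A : Matrix n n K) (X : Tr n K) :
    opB (c • (1 : Matrix n n K) + t • A) X = c • X + t • opB A X := by
  rw [opB_apply, opB_apply]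
  ext1
  · funext r; simp [mul_add]
  · ext1 <;> simp [mul_add, add_mul]

/-- the block conditions -/
def VV (π : (n → K) →ₗ[K] M) (e : m → Matrix n n K) (i j : m) : Submodule K (Tr n K) where
  carrier := {X | (∀ r, e j * X.1 r * (e i)ᵀ = X.1 r) ∧ e i * X.2.1 * e j = X.2.1 ∧
    e j * X.2.2 * e i = X.2.2 ∧ (∀ u, π (X.2.1 *ᵥ u) = 0) ∧ ∀ u, π (X.2.2 *ᵥ u) = 0}
  add_mem' := by
    rintro X Y ⟨a1, a2, a3, a4, a5⟩ ⟨b1, b2, b3, b4, b5⟩
    refine ⟨fun r => ?_, ?_, ?_, fun u => ?_, fun u => ?_⟩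
    · rw [Prod.fst_add, Pi.add_apply, mul_add, add_mul, a1, b1]
    · rw [Prod.snd_add, Prod.fst_add, mul_add, add_mul, a2, b2]
    · rw [Prod.snd_add, Prod.snd_add, mul_add, add_mul, a3, b3]
    · rw [Prod.snd_add, Prod.fst_add, add_mulVec, map_add, a4, b4, add_zero]
    · rw [Prod.snd_add, Prod.snd_add, add_mulVec, map_add, a5, b5, add_zero]
  zero_mem' := by
    refine ⟨fun r => ?_, ?_, ?_, fun u => ?_, fun u => ?_⟩ <;> simp
  smul_mem' := by
    rintro c X ⟨a1, a2, a3, a4, a5⟩
    refine ⟨fun r => ?_, ?_, ?_, fun u => ?_, fun u => ?_⟩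
    · rw [Prod.smul_fst, Pi.smul_apply, mul_smul_comm, smul_mul_assoc, a1]
    · rw [Prod.smul_snd, Prod.smul_fst, mul_smul_comm, smul_mul_assoc, a2]
    · rw [Prod.smul_snd, Prod.smul_snd, mul_smul_comm, smul_mul_assoc, a3]
    · rw [Prod.smul_snd, Prod.smul_fst, smul_mulVec, map_smul, a4, smul_zero]
    · rw [Prod.smul_snd, Prod.smul_snd, smul_mulVec, map_smul, a5, smul_zero]

theorem VV_opA {π : (n → K) →ₗ[K] M} {e : m → Matrix n n K} {i j : m} {A : Matrix n n K}
    (hA : ∀ l, e l * A = A * e l) (hπ : ∀ v, π v = 0 → π (A *ᵥ v) = 0) {X : Tr n K}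
    (hX : X ∈ VV π e i j) : opA A X ∈ VV π e i j := by
  obtain ⟨a1, a2, a3, a4, a5⟩ := hX
  rw [opA_apply]
  refine ⟨fun r => ?_, ?_, ?_, fun u => ?_, fun u => ?_⟩
  · simp only
    rw [← Matrix.mul_assoc, hA, Matrix.mul_assoc A, Matrix.mul_assoc A, a1]
  · simp only
    rw [← Matrix.mul_assoc, Matrix.mul_assoc, ← hA, ← Matrix.mul_assoc, a2]
  · simp only
    rw [← Matrix.mul_assoc, hA, Matrix.mul_assoc A, Matrix.mul_assoc A, a3]
  · simp only
    rw [← mulVec_mulVec]
    exact a4 _
  · simp only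
    rw [← mulVec_mulVec]
    exact hπ _ (a5 u)

theorem VV_opB {π : (n → K) →ₗ[K] M} {e : m → Matrix n n K} {i j : m} {A : Matrix n n K}
    (hA : ∀ l, e l * A = A * e l) (hπ : ∀ v, π v = 0 → π (A *ᵥ v) = 0) {X : Tr n K}
    (hX : X ∈ VV π e i j) : opB A X ∈ VV π e i j := by
  obtain ⟨a1, a2, a3, a4, a5⟩ := hX
  rw [opB_apply]
  refine ⟨fun r => ?_, ?_, ?_, fun u => ?_, fun u => ?_⟩
  · simp only
    rw [← Matrix.mul_assoc, Matrix.mul_assoc, ← Matrix.transpose_mul, hA, Matrix.transpose_mul,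
      ← Matrix.mul_assoc, a1]
  · simp only
    rw [← Matrix.mul_assoc, hA, Matrix.mul_assoc A, Matrix.mul_assoc A, a2]
  · simp only
    rw [← Matrix.mul_assoc, Matrix.mul_assoc, ← hA, ← Matrix.mul_assoc, a3]
  · simp only
    rw [← mulVec_mulVec]
    exact hπ _ (a4 u)
  · simp only
    rw [← mulVec_mulVec]
    exact a5 _

/-- target of the pencil -/
abbrev Tg (n K : Type*) : Type _ :=
  Matrix n n K × (Fin 3 → Matrix n n K) × (Fin 3 → Matrix n n K) × (Fin 3 → Matrix n n K)

def L0 (g : Matrix n n K) (al : Fin 3 → Matrix n n K) : Tr n K →ₗ[K] Tg n K where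
  toFun X := (∑ r, X.1 r * (al r)ᵀ, fun r => g * (X.1 r * (al r)ᵀ) * g,
    fun r => al r * (X.2.1 + (X.1 r)ᵀ * g), fun r => (X.2.2 - X.1 r * g) * al r)
  map_add' X Y := by
    refine Prod.ext ?_ (Prod.ext ?_ (Prod.ext ?_ ?_))
    · simp [add_mul, Finset.sum_add_distrib]
    · funext r; simp [add_mul, mul_add]
    · funext r; simp only [Prod.snd_add, Prod.fst_add, Pi.add_apply, transpose_add]; noncomm_ring
    · funext r; simp only [Prod.snd_add, Prod.fst_add, Pi.add_apply]; noncomm_ring
  map_smul' c X := by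
    refine Prod.ext ?_ (Prod.ext ?_ (Prod.ext ?_ ?_))
    · simp [Finset.smul_sum]
    · funext r; simp
    · funext r; simp [mul_add]
    · funext r; simp [sub_mul, smul_sub]

def L1 (g : Matrix n n K) (al : Fin 3 → Matrix n n K) : Tr n K →ₗ[K] Tg n K where
  toFun X := (∑ r, al r * X.1 r, fun r => g * (al r * X.1 r) * g,
    fun r => (X.2.1 + (X.1 r)ᵀ * g) * al r, fun r => al r * (X.2.2 - X.1 r * g))
  map_add' X Y := by
    refine Prod.ext ?_ (Prod.ext ?_ (Prod.ext ?_ ?_))
    · simp [mul_add, Finset.sum_add_distrib]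
    · funext r; simp [add_mul, mul_add]
    · funext r; simp only [Prod.snd_add, Prod.fst_add, Pi.add_apply, transpose_add]; noncomm_ring
    · funext r; simp only [Prod.snd_add, Prod.fst_add, Pi.add_apply]; noncomm_ring
  map_smul' c X := by
    refine Prod.ext ?_ (Prod.ext ?_ (Prod.ext ?_ ?_))
    · simp [Finset.smul_sum]
    · funext r; simp
    · funext r; simp [add_mul]
    · funext r; simp [mul_sub, smul_sub]

theorem LL_iff {g : Matrix n n K} {al : Fin 3 → Matrix n n K} {X Y : Tr n K} :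
    L0 g al X = L1 g al Y ↔ (∑ r, X.1 r * (al r)ᵀ = ∑ r, al r * Y.1 r) ∧
      (∀ r, g * (X.1 r * (al r)ᵀ) * g = g * (al r * Y.1 r) * g) ∧
      (∀ r, al r * (X.2.1 + (X.1 r)ᵀ * g) = (Y.2.1 + (Y.1 r)ᵀ * g) * al r) ∧
      ∀ r, (X.2.2 - X.1 r * g) * al r = al r * (Y.2.2 - Y.1 r * g) := by
  constructor
  · intro h
    have h1 := congrArg Prod.fst h
    have h2 := congrArg (fun z => z.2.1) h
    have h3 := congrArg (fun z => z.2.2.1) h
    have h4 := congrArg (fun z => z.2.2.2) h
    exact ⟨h1, fun r => congrFun h2 r, fun r => congrFun h3 r, fun r => congrFun h4 r⟩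
  · rintro ⟨h1, h2, h3, h4⟩
    exact Prod.ext h1 (Prod.ext (funext h2) (Prod.ext (funext h3) (funext h4)))

theorem LL_opA {g : Matrix n n K} {al : Fin 3 → Matrix n n K} {A : Matrix n n K}
    (hal : ∀ r, A * al r = al r * A) (hg : g * A = Aᵀ * g) {X Y : Tr n K}
    (h : L0 g al X = L1 g al Y) : L0 g al (opA A X) = L1 g al (opA A Y) := by
  rw [LL_iff] at h ⊢
  obtain ⟨h1, h2, h3, h4⟩ := h
  rw [opA_apply, opA_apply]
  refine ⟨?_, fun r => ?_, fun r => ?_, fun r => ?_⟩
  · simp only [Matrix.mul_assoc]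
    rw [← Matrix.mul_sum, h1, Matrix.mul_sum]
    refine Finset.sum_congr rfl fun r _ => ?_
    rw [← Matrix.mul_assoc, hal, Matrix.mul_assoc]
  · simp only
    have e1 : g * (A * X.1 r * (al r)ᵀ) * g = Aᵀ * (g * (X.1 r * (al r)ᵀ) * g) := by
      calc _ = (g * A) * (X.1 r * (al r)ᵀ) * g := by simp only [Matrix.mul_assoc]
        _ = _ := by rw [hg]; simp only [Matrix.mul_assoc]
    have e2 : g * (al r * (A * Y.1 r)) * g = Aᵀ * (g * (al r * Y.1 r) * g) := by
      calc _ = g * (al r * A) * Y.1 r * g := by simp only [Matrix.mul_assoc]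
        _ = (g * A) * al r * Y.1 r * g := by rw [← hal]; simp only [Matrix.mul_assoc]
        _ = _ := by rw [hg]; simp only [Matrix.mul_assoc]
    rw [e1, e2, h2]
  · simp only
    have e1 : al r * (X.2.1 * A + (A * X.1 r)ᵀ * g) = al r * (X.2.1 + (X.1 r)ᵀ * g) * A := by
      rw [Matrix.transpose_mul, Matrix.mul_assoc (X.1 r)ᵀ, ← hg]
      noncomm_ring
    have e2 : (Y.2.1 * A + (A * Y.1 r)ᵀ * g) * al r = (Y.2.1 + (Y.1 r)ᵀ * g) * al r * A := by
      rw [Matrix.transpose_mul, Matrix.mul_assoc (Y.1 r)ᵀ, ← hg,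
        show Y.2.1 * A + (Y.1 r)ᵀ * (g * A) = (Y.2.1 + (Y.1 r)ᵀ * g) * A by noncomm_ring,
        Matrix.mul_assoc, hal, Matrix.mul_assoc]
    rw [e1, e2, h3]
  · simp only
    have e1 : (A * X.2.2 - A * X.1 r * g) * al r = A * ((X.2.2 - X.1 r * g) * al r) := by
      noncomm_ring
    have e2 : al r * (A * Y.2.2 - A * Y.1 r * g) = A * (al r * (Y.2.2 - Y.1 r * g)) := by
      rw [show A * Y.2.2 - A * Y.1 r * g = A * (Y.2.2 - Y.1 r * g) by noncomm_ring,
        ← Matrix.mul_assoc, ← hal, Matrix.mul_assoc]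
    rw [e1, e2, h4]

theorem LL_opB {g : Matrix n n K} {al : Fin 3 → Matrix n n K} {A : Matrix n n K}
    (hal : ∀ r, A * al r = al r * A) (hg : g * A = Aᵀ * g) {X Y : Tr n K}
    (h : L0 g al X = L1 g al Y) : L0 g al (opB A X) = L1 g al (opB A Y) := by
  rw [LL_iff] at h ⊢
  obtain ⟨h1, h2, h3, h4⟩ := h
  rw [opB_apply, opB_apply]
  have halT : ∀ r, Aᵀ * (al r)ᵀ = (al r)ᵀ * Aᵀ := fun r => by
    rw [← Matrix.transpose_mul, ← hal, Matrix.transpose_mul]
  refine ⟨?_, fun r => ?_, fun r => ?_, fun r => ?_⟩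
  · simp only
    have e1 : ∑ r, X.1 r * Aᵀ * (al r)ᵀ = (∑ r, X.1 r * (al r)ᵀ) * Aᵀ := by
      rw [Matrix.sum_mul]
      refine Finset.sum_congr rfl fun r _ => ?_
      rw [Matrix.mul_assoc, halT, ← Matrix.mul_assoc]
    have e2 : ∑ r, al r * (Y.1 r * Aᵀ) = (∑ r, al r * Y.1 r) * Aᵀ := by
      rw [Matrix.sum_mul]
      refine Finset.sum_congr rfl fun r _ => ?_
      rw [← Matrix.mul_assoc]
    rw [e1, e2, h1]
  · simp only
    have e1 : g * (X.1 r * Aᵀ * (al r)ᵀ) * g = g * (X.1 r * (al r)ᵀ) * g * A := by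
      rw [Matrix.mul_assoc (X.1 r), halT]
      calc _ = g * (X.1 r * (al r)ᵀ) * (Aᵀ * g) := by simp only [Matrix.mul_assoc]
        _ = _ := by rw [← hg]; simp only [Matrix.mul_assoc]
    have e2 : g * (al r * (Y.1 r * Aᵀ)) * g = g * (al r * Y.1 r) * g * A := by
      calc _ = g * (al r * Y.1 r) * (Aᵀ * g) := by simp only [Matrix.mul_assoc]
        _ = _ := by rw [← hg]; simp only [Matrix.mul_assoc]
    rw [e1, e2, h2]
  · simp only
    have e1 : al r * (A * X.2.1 + (X.1 r * Aᵀ)ᵀ * g) = A * (al r * (X.2.1 + (X.1 r)ᵀ * g)) := by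
      rw [Matrix.transpose_mul, Matrix.transpose_transpose,
        show A * X.2.1 + A * (X.1 r)ᵀ * g = A * (X.2.1 + (X.1 r)ᵀ * g) by noncomm_ring,
        ← Matrix.mul_assoc, ← hal, Matrix.mul_assoc]
    have e2 : (A * Y.2.1 + (Y.1 r * Aᵀ)ᵀ * g) * al r = A * ((Y.2.1 + (Y.1 r)ᵀ * g) * al r) := by
      rw [Matrix.transpose_mul, Matrix.transpose_transpose]
      noncomm_ring
    rw [e1, e2, h3]
  · simp only
    have e1 : (X.2.2 * A - X.1 r * Aᵀ * g) * al r = (X.2.2 - X.1 r * g) * al r * A := by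
      rw [Matrix.mul_assoc (X.1 r), ← hg,
        show X.2.2 * A - X.1 r * (g * A) = (X.2.2 - X.1 r * g) * A by noncomm_ring,
        Matrix.mul_assoc, hal, Matrix.mul_assoc]
    have e2 : al r * (Y.2.2 * A - Y.1 r * Aᵀ * g) = al r * (Y.2.2 - Y.1 r * g) * A := by
      rw [Matrix.mul_assoc (Y.1 r), ← hg]
      noncomm_ring
    rw [e1, e2, h4]

section RSS

variable {arm : δ → Fin 3} {J : Matrix ι ι K} {B : Matrix δ δ K}
  {N W : Submodule K (Matrix ι δ K)} {F G : Matrix ι δ K} {p : Matrix ι n K}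
  {al : Fin 3 → Matrix n n K} {tau : Matrix n n K}
  {β : LinearMap.BilinForm K M} {T : Module.End K M →ₗ[K] Module.End K M}
  {Ψ : Fin 3 → Module.End K M} {D : Module.End K M} {π : (n → K) →ₗ[K] M}
  {e : m → Matrix n n K} {lam : m → K} {l : Fin 3 → ℕ} {TT : Set k}

theorem off_add (A A' : Matrix n n K) : off e (A + A') = off e A + off e A' := by
  unfold off
  simp only [mul_add, add_mul, Finset.sum_add_distrib]
  abel

theorem off_smul (c : K) (A : Matrix n n K) : off e (c • A) = c • off e A := by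
  unfold off
  simp only [mul_smul_comm, smul_mul_assoc, ← Finset.smul_sum, smul_sub]

variable (arm J B N W F p T Ψ π e) in
/-- `RS` as a submodule -/
def RSS : Submodule K ((Fin 3 → Matrix n n K) × Matrix n n K × (Fin 3 → Matrix n n K)) where
  carrier := {v | RS arm J B N W F p T Ψ π e v.1 v.2.1 v.2.2}
  add_mem' := by
    rintro X Y ⟨w, z, μ, h1, h2, h3, h4, h5, h6, h7⟩ ⟨w', z', μ', h1', h2', h3', h4', h5', h6', h7'⟩
    refine ⟨w + w', z + z', fun r => μ r + μ' r, W.add_mem h1 h1', ?_, ?_, fun r => ?_,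
      Submodule.add_mem _ h5 h5', ?_, fun r => ?_⟩
    · rw [Prod.fst_add, show (X.1 + Y.1) = fun r => X.1 r + Y.1 r from rfl, io_add,
        show io arm J F p X.1 + io arm J F p Y.1 - (w + w') =
          (io arm J F p X.1 - w) + (io arm J F p Y.1 - w') by abel]
      exact N.add_mem h2 h2'
    · rw [Matrix.transpose_add, Matrix.add_mul, Matrix.add_mul, h3, h3', Matrix.mul_add]
    · rw [Matrix.add_mul, Matrix.add_mul, Matrix.add_mul, h4, h4', ← Matrix.mul_add]
    · rw [off_add, h6, h6']; rfl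
    · rw [off_add, h7, h7']; rfl
  zero_mem' := by
    refine ⟨0, 0, fun _ => 0, W.zero_mem, ?_, ?_, fun r => ?_, Submodule.zero_mem _, ?_,
      fun r => ?_⟩
    · have : io arm J F p (fun _ => (0 : Matrix n n K)) = 0 := by
        have h0 := io_smul (arm := arm) (J := J) (F := F) (p := p) (0 : K)
          (0 : Fin 3 → Matrix n n K)
        simpa using h0
      show io arm J F p (fun _ => (0 : Matrix n n K)) - 0 ∈ N
      rw [this, sub_zero]
      exact N.zero_mem
    · simp
    · simp
    · simp [off]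
    · simp [off]
  smul_mem' := by
    rintro c X ⟨w, z, μ, h1, h2, h3, h4, h5, h6, h7⟩
    refine ⟨c • w, c • z, fun r => c • μ r, W.smul_mem c h1, ?_, ?_, fun r => ?_,
      Submodule.smul_mem _ c h5, ?_, fun r => ?_⟩
    · rw [Prod.smul_fst, show (c • X.1) = fun r => c • X.1 r from rfl, io_smul, ← smul_sub]
      exact N.smul_mem c h2
    · rw [Matrix.transpose_smul, Matrix.smul_mul, Matrix.smul_mul, h3, Matrix.mul_smul]
    · rw [Matrix.smul_mul, Matrix.smul_mul, Matrix.smul_mul, h4, ← Matrix.mul_smul]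
    · rw [off_smul, h6]; rfl
    · rw [off_smul, h7]; rfl

/-- the two symbols -/
def Sy (al : Fin 3 → Matrix n n K) : Tr n K × Tr n K →ₗ[K]
    ((Fin 3 → Matrix n n K) × Matrix n n K × (Fin 3 → Matrix n n K)) where
  toFun V := (fun r => V.1.1 r + (V.2.1 r)ᵀ, -V.1.2.1 + V.2.2.2,
    fun r => V.1.2.2 * al r - V.2.2.1 * al r)
  map_add' X Y := by
    refine Prod.ext ?_ (Prod.ext ?_ ?_)
    · funext r; simp; abel
    · simp; abel
    · funext r; simp [add_mul]; abel
  map_smul' c X := by
    refine Prod.ext ?_ (Prod.ext ?_ ?_)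
    · funext r; simp
    · simp
    · funext r; simp [smul_sub]

theorem halves_of [CharZero K] (h : Fr k arm J B N W F G p al tau β T Ψ D π e lam l TT)
    {i j : m} (hij : i ≠ j)
    (hfirst : ∀ {t : k} (_ : t ∈ TT) {kap kai : Matrix n n K}
      (_ : FC.Par k arm J B N W F G p tau (algebraMap k K t) kap kai)
      {x : Fin 3 → Matrix n n K} {b kk : Matrix n n K}
      (_ : Dec (pᵀ * J * p) π e i j (fun r => al r * (kap * kap)) (fun r => al r * (kap * kap)) x
        b kk),
      RS arm J B N W F p T Ψ π e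
        (fun r => kai * (x r - (x r)ᵀ) * kapᵀ - (x r - (x r)ᵀ))
        ((b - kap * b * kai) + (kk - kap * kk * kai))
        (fun r => (kai * b * kap - b) * al r + (kai * kk * kap - kk) * al r)) :
    ∃ S : Set K, S.Finite ∧ ∀ c ∉ S, ∀ (x : Fin 3 → Matrix n n K)
      (b kk : Matrix n n K),
      Dec (pᵀ * J * p) π e i j (fun r => al r) (fun r => c • al r) x b kk →
      RS arm J B N W F p T Ψ π e x (-b) (fun r => kk * al r) ∧
      RS arm J B N W F p T Ψ π e (fun r => (x r)ᵀ) kk (fun r => -(b * al r)) := by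
  classical
  have hlam : lam i ≠ lam j := fun hh => hij (h.lamInj hh)
  obtain ⟨g, hgdef⟩ : ∃ g, g = pᵀ * J * p := ⟨_, rfl⟩
  have htg : g * tau = tauᵀ * g := by rw [hgdef]; exact h.ctx.tau_sa
  -- `tau - la` operators
  have key : ∀ la : K, (∀ r, (tau - la • (1 : Matrix n n K)) * al r =
      al r * (tau - la • (1 : Matrix n n K))) ∧
      g * (tau - la • (1 : Matrix n n K)) = (tau - la • (1 : Matrix n n K))ᵀ * g ∧
      (∀ l, e l * (tau - la • (1 : Matrix n n K)) = (tau - la • (1 : Matrix n n K)) * e l) ∧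
      ∀ v, π v = 0 → π ((tau - la • (1 : Matrix n n K)) *ᵥ v) = 0 := by
    intro la
    refine ⟨fun r => ?_, ?_, fun l => ?_, fun v hv => ?_⟩
    · rw [sub_mul, mul_sub, h.ctx.comm]; simp
    · rw [mul_sub, transpose_sub, sub_mul, htg]; simp
    · rw [sub_mul, mul_sub, h.etau]; simp
    · rw [sub_mulVec, map_sub, h.ptau, hv, map_zero, smul_mulVec, one_mulVec, map_smul, hv,
        smul_zero, sub_zero]
  obtain ⟨Ni, hNi⟩ : ∃ Ni, Ni = tau - lam i • (1 : Matrix n n K) := ⟨_, rfl⟩
  obtain ⟨Nj, hNj⟩ : ∃ Nj, Nj = tau - lam j • (1 : Matrix n n K) := ⟨_, rfl⟩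
  obtain ⟨ki1, ki2, ki3, ki4⟩ := key (lam i)
  obtain ⟨kj1, kj2, kj3, kj4⟩ := key (lam j)
  rw [← hNi] at ki1 ki2 ki3 ki4
  rw [← hNj] at kj1 kj2 kj3 kj4
  let V := VV π e i j
  let a : End K V := (opA Nj).restrict fun X hX => VV_opA kj3 kj4 hX
  let b' : End K V := (opB Ni).restrict fun X hX => VV_opB ki3 ki4 hX
  have ha_coe : ∀ X : V, ((a X : V) : Tr n K) = opA Nj X := fun X => rfl
  have hb_coe : ∀ X : V, ((b' X : V) : Tr n K) = opB Ni X := fun X => rfl
  have hab : Commute a b' := by
    refine LinearMap.ext fun X => Subtype.ext ?_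
    rw [End.mul_apply, End.mul_apply, ha_coe, hb_coe, hb_coe, ha_coe, opA_opB]
  -- nilpotency
  have hpow : ∀ (A : Matrix n n K) (q : ℕ) (X : Tr n K), ((opA A) ^ q) X =
      (fun r => A ^ q * X.1 r, X.2.1 * A ^ q, A ^ q * X.2.2) := by
    intro A q
    induction q with
    | zero => intro X; simp
    | succ q ih =>
      intro X
      rw [pow_succ', End.mul_apply, ih, opA_apply, pow_succ']
      simp only [Matrix.mul_assoc]
      refine Prod.ext rfl (Prod.ext ?_ rfl)
      simp only
      rw [← pow_succ, ← pow_succ']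
  have hpowB : ∀ (A : Matrix n n K) (q : ℕ) (X : Tr n K), ((opB A) ^ q) X =
      (fun r => X.1 r * (A ^ q)ᵀ, A ^ q * X.2.1, X.2.2 * A ^ q) := by
    intro A q
    induction q with
    | zero => intro X; simp
    | succ q ih =>
      intro X
      rw [pow_succ', End.mul_apply, ih, opB_apply]
      refine Prod.ext ?_ (Prod.ext ?_ ?_)
      · funext r
        simp only
        rw [Matrix.mul_assoc, ← Matrix.transpose_mul, ← pow_succ']
      · simp only
        rw [← Matrix.mul_assoc, ← pow_succ']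
      · simp only
        rw [Matrix.mul_assoc, ← pow_succ]
  have hnilE : ∀ (o : m) (A : Matrix n n K), A = tau - lam o • (1 : Matrix n n K) →
      ∃ q : ℕ, A ^ q * e o = 0 := by
    intro o A hA
    obtain ⟨q, hq⟩ := h.nil o
    have hc : e o * A = A * e o := by rw [hA]; exact (key (lam o)).2.2.1 o
    have hp : ∀ q : ℕ, (A * e o) ^ (q + 1) = A ^ (q + 1) * e o := by
      intro q
      induction q with
      | zero => simp
      | succ q ih =>
        rw [pow_succ, ih]
        calc A ^ (q + 1) * e o * (A * e o) = A ^ (q + 1) * (e o * A) * e o := by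
              simp only [Matrix.mul_assoc]
          _ = A ^ (q + 1) * A * (e o * e o) := by rw [hc]; simp only [Matrix.mul_assoc]
          _ = _ := by rw [h.idem, ← pow_succ]
    refine ⟨q + 1, ?_⟩
    rw [← hp, hA, pow_succ, hq, zero_mul]
  have ha_nil : IsNilpotent a := by
    obtain ⟨q, hq⟩ := hnilE j Nj hNj
    refine ⟨q, LinearMap.ext fun X => Subtype.ext ?_⟩
    have h1 : ∀ (q : ℕ) (X : V), (((a ^ q) X : V) : Tr n K) = ((opA Nj) ^ q) (X : Tr n K) := by
      intro q
      induction q with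
      | zero => intro X; simp
      | succ q ih => intro X; rw [pow_succ, End.mul_apply, ih, ha_coe, pow_succ, End.mul_apply]
    obtain ⟨X, hX⟩ := X
    obtain ⟨a1, a2, a3, a4, a5⟩ := hX
    have hcj : Nj ^ q * e j = e j * Nj ^ q := by
      have : Commute (e j) Nj := kj3 j
      exact (this.pow_right q).eq.symm
    rw [h1, hpow]
    show ((fun r => Nj ^ q * X.1 r, X.2.1 * Nj ^ q, Nj ^ q * X.2.2) : Tr n K) = 0
    have z1 : ∀ r, Nj ^ q * X.1 r = 0 := fun r => by
      rw [← a1 r, ← Matrix.mul_assoc, ← Matrix.mul_assoc, hq, zero_mul, zero_mul]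
    have z2 : X.2.1 * Nj ^ q = 0 := by
      rw [← a2, Matrix.mul_assoc, ← hcj, hq, mul_zero]
    have z3 : Nj ^ q * X.2.2 = 0 := by
      rw [← a3, ← Matrix.mul_assoc, ← Matrix.mul_assoc, hq, zero_mul, zero_mul]
    exact Prod.ext (funext z1) (Prod.ext z2 z3)
  have hb_nil : IsNilpotent b' := by
    obtain ⟨q, hq⟩ := hnilE i Ni hNi
    refine ⟨q, LinearMap.ext fun X => Subtype.ext ?_⟩
    have h1 : ∀ (q : ℕ) (X : V), (((b' ^ q) X : V) : Tr n K) = ((opB Ni) ^ q) (X : Tr n K) := by
      intro q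
      induction q with
      | zero => intro X; simp
      | succ q ih => intro X; rw [pow_succ, End.mul_apply, ih, hb_coe, pow_succ, End.mul_apply]
    obtain ⟨X, hX⟩ := X
    obtain ⟨a1, a2, a3, a4, a5⟩ := hX
    have hci : Ni ^ q * e i = e i * Ni ^ q := by
      have : Commute (e i) Ni := ki3 i
      exact (this.pow_right q).eq.symm
    rw [h1, hpowB]
    show ((fun r => X.1 r * (Ni ^ q)ᵀ, Ni ^ q * X.2.1, X.2.2 * Ni ^ q) : Tr n K) = 0
    have z1 : ∀ r, X.1 r * (Ni ^ q)ᵀ = 0 := fun r => by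
      rw [← a1 r, Matrix.mul_assoc, ← Matrix.transpose_mul, hq, Matrix.transpose_zero, mul_zero]
    have z2 : Ni ^ q * X.2.1 = 0 := by
      rw [← a2, ← Matrix.mul_assoc, ← Matrix.mul_assoc, hq, zero_mul, zero_mul]
    have z3 : X.2.2 * Ni ^ q = 0 := by
      rw [← a3, Matrix.mul_assoc, ← hci, hq, mul_zero]
    exact Prod.ext (funext z1) (Prod.ext z2 z3)
  let l0 : V →ₗ[K] Tg n K := (L0 g al).domRestrict V
  let l1 : V →ₗ[K] Tg n K := (L1 g al).domRestrict V
  let c1 : K → End K V := fun t => (1 + t * lam i) • (1 : End K V) + t • b'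
  let c2 : K → End K V := fun t => (1 + t * lam j) • (1 : End K V) + t • a
  have hc1 : ∀ t x, c1 t x = (1 + t * lam i) • x + t • b' x := fun t x => rfl
  have hc2 : ∀ t x, c2 t x = (1 + t * lam j) • x + t • a x := fun t x => rfl
  have hLa : ∀ y z, l0 y = l1 z → l0 (a y) = l1 (a z) := fun y z hyz => LL_opA kj1 kj2 hyz
  have hLb : ∀ y z, l0 y = l1 z → l0 (b' y) = l1 (b' z) := fun y z hyz => LL_opB ki1 ki2 hyz
  have hTT : ((algebraMap k K) '' TT).Infinite := h.inf.image (algebraMap k K).injective.injOn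
  obtain ⟨S, hS, htr⟩ := Dual.transfer l0 l1 hab ha_nil hb_nil hLa hLb hlam hTT c1 c2 hc1 hc2
  refine ⟨S, hS, fun c hc x b kk hx => ?_⟩
  rw [← hgdef] at hx
  let X0 : V := ⟨(x, b, kk), hx.bx, hx.bb, hx.bk, hx.rb, hx.rk⟩
  have hX0 : l0 X0 = c • l1 X0 := by
    have h1 : L0 g al (x, b, kk) = L1 g al (c • (x, b, kk)) := by
      rw [LL_iff]
      refine ⟨?_, fun r => ?_, fun r => ?_, fun r => ?_⟩
      · have := hx.sum
        rw [Finset.sum_sub_distrib, sub_eq_zero] at this
        simpa using this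
      · have := hx.arm r
        rw [mul_sub, sub_mul, sub_eq_zero] at this
        simpa using this
      · have := hx.eb r
        simpa [add_mul, smul_add] using this
      · have := hx.ek r
        simpa [mul_sub, smul_sub] using this
    rw [map_smul] at h1
    exact h1
  let Mm : Submodule K (V × V) := (RSS arm J B N W F p T Ψ π e).comap
    (Sy al ∘ₗ (V.subtype.prodMap V.subtype))
  have hfin := htr c hc X0 hX0 Mm ?_
  · obtain ⟨m1, m2⟩ := hfin
    constructor
    · have h1 : RS arm J B N W F p T Ψ π e (fun r => x r + (0 : Matrix n n K)ᵀ)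
        (-b + 0) (fun r => kk * al r - 0 * al r) := m1
      simpa using h1
    · have h1 : RS arm J B N W F p T Ψ π e (fun r => (0 : Matrix n n K) + (x r)ᵀ)
        (-0 + kk) (fun r => 0 * al r - b * al r) := m2
      simpa using h1
  -- FIRST
  rintro _ ⟨t, ht, rfl⟩ X' hX'
  obtain ⟨kap, kai, hp⟩ := h.par t ht
  obtain ⟨s, hs⟩ : ∃ s, s = algebraMap k K t := ⟨_, rfl⟩
  rw [← hs] at hX' ⊢
  have hs0 : s ≠ 0 := by
    rw [hs]
    intro h0
    have : t = 0 := (algebraMap k K).injective (by rw [h0, map_zero])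
    exact h.ne0 (this ▸ ht)
  have hkap : kap = 1 + s • tau := by rw [hs]; exact hp.kap_eq
  have hkapi : kap = (1 + s * lam i) • (1 : Matrix n n K) + s • Ni := by
    rw [hkap, hNi, smul_sub, add_smul, one_smul, smul_smul]; abel
  have hkapj : kap = (1 + s * lam j) • (1 : Matrix n n K) + s • Nj := by
    rw [hkap, hNj, smul_sub, add_smul, one_smul, smul_smul]; abel
  have hc1o : ∀ X : V, ((c1 s X : V) : Tr n K) = opB kap X := by
    intro X
    rw [hkapi, opB_lin]; rfl
  have hc2o : ∀ X : V, ((c2 s X : V) : Tr n K) = opA kap X := by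
    intro X
    rw [hkapj, opA_lin]; rfl
  -- the exact subspace
  let Et : Submodule K V := LinearMap.ker (l0 ∘ₗ (c1 s) ∘ₗ (c1 s) - l1 ∘ₗ (c2 s) ∘ₗ (c2 s))
  have hEt : ∀ X : V, X ∈ Et ↔ l0 (c1 s (c1 s X)) = l1 (c2 s (c2 s X)) := by
    intro X
    rw [LinearMap.mem_ker, LinearMap.sub_apply, sub_eq_zero]
    rfl
  have ac1 : ∀ X, a (c1 s X) = c1 s (a X) := fun X => by
    rw [hc1, hc1, map_add, map_smul, map_smul]
    congr 2
    exact LinearMap.congr_fun hab X
  have ac2 : ∀ X, a (c2 s X) = c2 s (a X) := fun X => by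
    rw [hc2, hc2, map_add, map_smul, map_smul]
  have bc1 : ∀ X, b' (c1 s X) = c1 s (b' X) := fun X => by
    rw [hc1, hc1, map_add, map_smul, map_smul]
  have bc2 : ∀ X, b' (c2 s X) = c2 s (b' X) := fun X => by
    rw [hc2, hc2, map_add, map_smul, map_smul]
    congr 2
    exact (LinearMap.congr_fun hab X).symm
  have hEa : ∀ X ∈ Et, a X ∈ Et := by
    intro X hX
    rw [hEt] at hX ⊢
    rw [← ac1, ← ac1, ← ac2, ← ac2]
    exact hLa _ _ hX
  have hEb : ∀ X ∈ Et, b' X ∈ Et := by
    intro X hX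
    rw [hEt] at hX ⊢
    rw [← bc1, ← bc1, ← bc2, ← bc2]
    exact hLb _ _ hX
  have hEc1 : ∀ X ∈ Et, c1 s X ∈ Et := fun X hX => by
    rw [hc1]; exact Et.add_mem (Et.smul_mem _ hX) (Et.smul_mem _ (hEb X hX))
  have hEc2 : ∀ X ∈ Et, c2 s X ∈ Et := fun X hX => by
    rw [hc2]; exact Et.add_mem (Et.smul_mem _ hX) (Et.smul_mem _ (hEa X hX))
  -- `c2 - c1` is bijective on `Et`
  obtain ⟨X, hXE, hXd⟩ : ∃ X ∈ Et, c2 s X - c1 s X = -(c1 s (c2 s X')) :=
    solve hab ha_nil hb_nil hs0 hlam Et hEa hEb _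
      (Et.neg_mem (hEc1 _ (hEc2 _ ((hEt X').2 hX'))))
  have hXE' := (hEt X).1 hXE
  -- `Dec` at `t`
  have hkal : ∀ r, kap * al r = al r * kap := fun r => by
    rw [hkap, add_mul, mul_add, smul_mul_assoc, mul_smul_comm, h.ctx.comm, one_mul, mul_one]
  have hkg : g * kap = kapᵀ * g := by
    rw [hkap, mul_add, transpose_add, add_mul, mul_smul_comm, transpose_smul, smul_mul_assoc, htg]
    simp
  have hkk' : kap * kai = 1 := hp.mul
  have hkk'' : kai * kap = 1 := mul_eq_one_comm.1 hp.mul
  obtain ⟨XX, hXXm⟩ := X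
  have hXX1 : L0 g al (opB kap (opB kap XX)) = L1 g al (opA kap (opA kap XX)) := by
    have h1 := hXE'
    have e1 : ((c1 s (c1 s ⟨XX, hXXm⟩) : V) : Tr n K) = opB kap (opB kap XX) := by
      rw [hc1o, hc1o]
    have e2 : ((c2 s (c2 s ⟨XX, hXXm⟩) : V) : Tr n K) = opA kap (opA kap XX) := by
      rw [hc2o, hc2o]
    rw [← e1, ← e2]
    exact h1
  have hdec : Dec g π e i j (fun r => al r * (kap * kap)) (fun r => al r * (kap * kap)) XX.1
      XX.2.1 XX.2.2 := by
    obtain ⟨a1, a2, a3, a4, a5⟩ := hXXm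
    rw [LL_iff] at hXX1
    simp only [opA_apply, opB_apply] at hXX1
    obtain ⟨b1, b2, b3, b4⟩ := hXX1
    have hPT : ∀ r, (al r * (kap * kap))ᵀ = kapᵀ * kapᵀ * (al r)ᵀ := fun r => by
      rw [transpose_mul, transpose_mul]
    have hQ : ∀ r, al r * (kap * kap) = (kap * kap) * al r := fun r => by
      rw [Matrix.mul_assoc, hkal, ← Matrix.mul_assoc kap, hkal, Matrix.mul_assoc]
    refine ⟨a1, a2, a3, a4, a5, ?_, fun r => ?_, fun r => ?_, fun r => ?_⟩
    · rw [Finset.sum_sub_distrib, sub_eq_zero]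
      have h1 : ∑ r, XX.1 r * (al r * (kap * kap))ᵀ = ∑ r, XX.1 r * kapᵀ * kapᵀ * (al r)ᵀ := by
        refine Finset.sum_congr rfl fun r _ => ?_
        rw [hPT]; simp only [Matrix.mul_assoc]
      rw [h1, b1]
      refine Finset.sum_congr rfl fun r _ => ?_
      simp only [Matrix.mul_assoc]
    · rw [mul_sub, sub_mul, sub_eq_zero]
      have h1 := b2 r
      rw [hPT]
      simp only [Matrix.mul_assoc] at h1 ⊢
      exact h1
    · have h1 := b3 r
      simp only [transpose_mul, transpose_transpose] at h1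
      have e1 : al r * (kap * kap) * (XX.2.1 + (XX.1 r)ᵀ * g) =
          al r * (kap * (kap * XX.2.1) + kap * (kap * (XX.1 r)ᵀ) * g) := by noncomm_ring
      have e2 : (XX.2.1 + (XX.1 r)ᵀ * g) * (al r * (kap * kap)) =
          (XX.2.1 * kap * kap + (XX.1 r)ᵀ * kapᵀ * kapᵀ * g) * al r := by
        have e3 : (XX.1 r)ᵀ * kapᵀ * kapᵀ * g = (XX.1 r)ᵀ * g * kap * kap := by
          calc _ = (XX.1 r)ᵀ * kapᵀ * (kapᵀ * g) := by simp only [Matrix.mul_assoc]
            _ = (XX.1 r)ᵀ * kapᵀ * (g * kap) := by rw [hkg]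
            _ = (XX.1 r)ᵀ * (kapᵀ * g) * kap := by simp only [Matrix.mul_assoc]
            _ = (XX.1 r)ᵀ * (g * kap) * kap := by rw [hkg]
            _ = _ := by simp only [Matrix.mul_assoc]
        rw [e3, hQ]
        simp only [Matrix.add_mul, Matrix.mul_assoc]
      rw [e1, e2]
      exact h1
    · have h1 := b4 r
      have e1 : (XX.2.2 - XX.1 r * g) * (al r * (kap * kap)) =
          (XX.2.2 * kap * kap - XX.1 r * kapᵀ * kapᵀ * g) * al r := by
        have e3 : XX.1 r * kapᵀ * kapᵀ * g = XX.1 r * g * kap * kap := by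
          calc _ = XX.1 r * kapᵀ * (kapᵀ * g) := by simp only [Matrix.mul_assoc]
            _ = XX.1 r * kapᵀ * (g * kap) := by rw [hkg]
            _ = XX.1 r * (kapᵀ * g) * kap := by simp only [Matrix.mul_assoc]
            _ = XX.1 r * (g * kap) * kap := by rw [hkg]
            _ = _ := by simp only [Matrix.mul_assoc]
        rw [e3, hQ]
        simp only [Matrix.sub_mul, Matrix.mul_assoc]
      have e2 : al r * (kap * kap) * (XX.2.2 - XX.1 r * g) =
          al r * (kap * (kap * XX.2.2) - kap * (kap * XX.1 r) * g) := by noncomm_ring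
      rw [e1, e2]
      exact h1
  rw [hgdef] at hdec
  have hRS := hfirst ht hp hdec
  -- identify
  have hd : opA kap XX - opB kap XX = -(opB kap (opA kap (X' : Tr n K))) := by
    have h1 := congrArg Subtype.val hXd
    have e1 : ((c2 s ⟨XX, hXXm⟩ - c1 s ⟨XX, hXXm⟩ : V) : Tr n K) = opA kap XX - opB kap XX := by
      rw [Submodule.coe_sub, hc2o, hc1o]
    have e2 : ((-(c1 s (c2 s X')) : V) : Tr n K) = -(opB kap (opA kap (X' : Tr n K))) := by
      rw [Submodule.coe_neg, hc1o, hc2o]
    rw [← e1, ← e2]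
    exact h1
  have hcom : kap * kai = kai * kap := by rw [hkk', hkk'']
  have hA1 : ∀ Z : Tr n K, opA kai (opA kap Z) = Z := fun Z => by
    rw [opA_mul _ _ _ hcom.symm, hkk'', opA_one]
  have hB1 : ∀ Z : Tr n K, opB kai (opB kap Z) = Z := fun Z => by
    rw [opB_mul _ _ _ hcom.symm, hkk'', opB_one]
  have hq1 : opA kai (opB kap XX) - XX = opB kap (X' : Tr n K) := by
    have h1 := congrArg (opA kai) hd
    rw [map_sub, map_neg, hA1, opA_opB kai kap (opA kap (X' : Tr n K)), hA1] at h1
    rw [← neg_sub, h1, neg_neg]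
  have hq2 : XX - opB kai (opA kap XX) = opA kap (X' : Tr n K) := by
    have h1 := congrArg (opB kai) hd
    rw [map_sub, map_neg, hB1, hB1] at h1
    rw [← neg_sub, h1, neg_neg]
  show Sy al (((c1 s X' : V) : Tr n K), ((c2 s X' : V) : Tr n K)) ∈ RSS arm J B N W F p T Ψ π e
  rw [hc1o, hc2o, ← hq1, ← hq2]
  have hval : Sy al (opA kai (opB kap XX) - XX, XX - opB kai (opA kap XX)) =
      ((fun r => kai * (XX.1 r - (XX.1 r)ᵀ) * kapᵀ - (XX.1 r - (XX.1 r)ᵀ),
        (XX.2.1 - kap * XX.2.1 * kai) + (XX.2.2 - kap * XX.2.2 * kai),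
        fun r => (kai * XX.2.1 * kap - XX.2.1) * al r + (kai * XX.2.2 * kap - XX.2.2) * al r) :
        (Fin 3 → Matrix n n K) × Matrix n n K × (Fin 3 → Matrix n n K)) := by
    refine Prod.ext ?_ (Prod.ext ?_ ?_)
    · funext r
      simp only [Sy, LinearMap.coe_mk, AddHom.coe_mk, opA_apply, opB_apply, Prod.fst_sub,
        Pi.sub_apply, transpose_sub, transpose_mul, transpose_transpose]
      noncomm_ring
    · simp only [Sy, LinearMap.coe_mk, AddHom.coe_mk, opA_apply, opB_apply, Prod.fst_sub,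
        Prod.snd_sub]
      noncomm_ring
    · funext r
      simp only [Sy, LinearMap.coe_mk, AddHom.coe_mk, opA_apply, opB_apply, Prod.fst_sub,
        Prod.snd_sub]
      noncomm_ring
  rw [hval]
  exact hRS

/-- **RD2 (halves)**, in the form of the skeleton -/
theorem halves [CharZero K] (h : Fr k arm J B N W F G p al tau β T Ψ D π e lam l TT)
    {i j : m} (hij : i ≠ j) (hf : FirstP k arm J B N W F G p al tau T Ψ π e TT i j) :
    HalvesP arm J B N W F p al T Ψ π e i j :=
  halves_of h hij fun {t} ht {kap kai} hp {x b kk} hx => hf t ht kap kai hp x b kk hx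

end RSS

end Crest.Agent.R172.RDh267
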