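import Crest.Agent.R172.FO2
import Crest.Agent.R172.RDP
import Crest.Agent.R172.RDfirst1
import Mathlib
import Crest.Agent.R172.RD0
import Crest.Agent.R172.Dual1

-- ▼ part R172/BConn895
section

/-!
Row 172 (S0260), T0, arbitrary radical and arbitrary `D`: the connection on the cover may be taken
to be block diagonal + `b` (`b` = the exact off-diagonal corrections), notes of helper719 (21:03),
helper619 (21:01).
-/

set_option autoImplicit false
set_option linter.unusedSectionVars false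

namespace Crest.Agent.R172.BConn

open Matrix Crest.Agent.R172.FO

variable {ι : Type*} [Fintype ι] [DecidableEq ι]
variable {n : Type*} [Fintype n] [DecidableEq n]
variable {β : Type*} [Fintype β] [DecidableEq β]
variable {k K : Type*} [Field k] [Field K] [Algebra k K]
variable {Φ : Fin 3 → Matrix ι ι K} {p : Matrix ι n K} {α : Fin 3 → Matrix n n K}

theorem word_mul (hp : ∀ r, Φ r * p = p * α r) (w : List (Fin 3)) :
    (w.map Φ).prod * p = p * (w.map α).prod := by
  induction w with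
  | nil => simp
  | cons s w ih =>
    rw [List.map_cons, List.prod_cons, List.map_cons, List.prod_cons, Matrix.mul_assoc, ih,
      ← Matrix.mul_assoc, hp, Matrix.mul_assoc]

theorem word_com {e : Matrix n n K} (he : ∀ r, e * α r = α r * e) (w : List (Fin 3)) :
    e * (w.map α).prod = (w.map α).prod * e := by
  induction w with
  | nil => simp
  | cons s w ih =>
    rw [List.map_cons, List.prod_cons, ← Matrix.mul_assoc, he, Matrix.mul_assoc, ih,
      Matrix.mul_assoc]

/-- a map intertwining `α` and `Φ` modulo `im (p e)` with values killed by long words modulo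
`im (p e)` has values in `im (p e)` -/
theorem exists_fac (hp : ∀ r, Φ r * p = p * α r)
    {e : Matrix n n K} (he : ∀ r, e * α r = α r * e) {γ : Fin 3 → Matrix n n K}
    {ρ : Fin 3 → Matrix n n K} (hρ : ∑ r, γ r * ρ r = 1)
    {u : Matrix ι n K} (hu : ∀ r, ∃ ν : Matrix n n K, u * γ r = Φ r * u + p * e * ν) {m : ℕ}
    (hm : ∀ w : List (Fin 3), w.length = m → ∃ ν : Matrix n n K, (w.map Φ).prod * u = p * e * ν) :
    ∃ ν : Matrix n n K, u = p * e * ν := by
  choose ν0 hν0 using hu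
  -- after `j` steps
  have key : ∀ j : ℕ, j ≤ m → ∀ w : List (Fin 3), w.length = m - j →
      ∃ ν : Matrix n n K, (w.map Φ).prod * u = p * e * ν := by
    intro j
    induction j with
    | zero => intro _ w hw; exact hm w (by simpa using hw)
    | succ j ih =>
      intro hj w hw
      have h1 : ∀ r, ∃ ν : Matrix n n K, ((w ++ [r]).map Φ).prod * u = p * e * ν := by
        intro r
        refine ih (by omega) (w ++ [r]) ?_
        rw [List.length_append, hw, List.length_singleton]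
        omega
      choose ν1 hν1 using h1
      refine ⟨∑ r, (ν1 r + (w.map α).prod * ν0 r) * ρ r, ?_⟩
      have e1 : u = ∑ r, (Φ r * u + p * e * ν0 r) * ρ r := by
        calc u = u * ∑ r, γ r * ρ r := by rw [hρ, Matrix.mul_one]
          _ = ∑ r, (u * γ r) * ρ r := by
              rw [Matrix.mul_sum]
              exact Finset.sum_congr rfl fun r _ => (Matrix.mul_assoc _ _ _).symm
          _ = _ := Finset.sum_congr rfl fun r _ => by rw [hν0]
      calc (w.map Φ).prod * u = (w.map Φ).prod * ∑ r, (Φ r * u + p * e * ν0 r) * ρ r := by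
            conv_lhs => rw [e1]
        _ = ∑ r, (w.map Φ).prod * ((Φ r * u + p * e * ν0 r) * ρ r) := Matrix.mul_sum _ _ _
        _ = ∑ r, p * e * ((ν1 r + (w.map α).prod * ν0 r) * ρ r) := by
            refine Finset.sum_congr rfl fun r _ => ?_
            have h2 : (w.map Φ).prod * (Φ r * u) = p * e * ν1 r := by
              rw [← hν1 r, List.map_append, List.prod_append]
              simp [Matrix.mul_assoc]
            have h3 : (w.map Φ).prod * (p * e * ν0 r) = p * e * ((w.map α).prod * ν0 r) := by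
              rw [Matrix.mul_assoc p e, ← Matrix.mul_assoc, word_mul hp, Matrix.mul_assoc p,
                ← Matrix.mul_assoc _ e, ← word_com he]
              simp only [Matrix.mul_assoc]
            rw [← Matrix.mul_assoc ((w.map Φ).prod), Matrix.mul_add, h2, h3, ← Matrix.mul_add,
              Matrix.mul_assoc]
        _ = _ := by rw [Matrix.mul_sum]
  obtain ⟨ν, hν⟩ := key m le_rfl [] (by simp)
  exact ⟨ν, by simpa using hν⟩


/-- **the connection may be taken block diagonal + `b`.** -/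
theorem exists_conn {d : Derivation k K K} (hp : ∀ r, Φ r * p = p * α r)
    {ρ : Fin 3 → Matrix n n K} (hρ : ∑ r, α r * ρ r = 1)
    {e : β → Matrix n n K} (he : ∀ i r, e i * α r = α r * e i) (idem : ∀ i, e i * e i = e i)
    (orth : ∀ i j, i ≠ j → e i * e j = 0) (hsum : ∑ i, e i = 1) (hde : ∀ i, (e i).map d = 0)
    {g : Matrix n n K} (hge : ∀ i, g * e i = (e i)ᵀ * g) {θ : Matrix n n K}
    (hθ : p.map d = p * θ) {c : Fin 3 → Matrix n n K} (hc : ∀ r, (Φ r).map d * p = p * c r)
    {b : Matrix n n K} (hbR : g * b = 0)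
    (hbe : ∀ i j, i ≠ j → ∀ r, e i * (b * α r - α r * b) * e j = e i * c r * e j)
    (hθR : ∀ i j, i ≠ j → g * (e i * θ * e j) = 0) {m : ℕ}
    (hkill : ∀ w : List (Fin 3), w.length = m → ∀ y : Matrix n n K, g * y = 0 →
      p * ((w.map α).prod * y) = 0) :
    ∃ D : Matrix n n K, (∀ i, e i * D = D * e i) ∧ p.map d = p * (D + b) := by
  -- the derivative of `Φ_r p = p α_r`
  have hder : ∀ r, p * θ * α r = p * (c r + α r * θ - (α r).map d) := by
    intro r
    have h1 := congrArg (fun A : Matrix ι n K => A.map d) (hp r)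
    simp only [map_mul_der] at h1
    rw [hc, hθ, ← Matrix.mul_assoc, hp, Matrix.mul_assoc] at h1
    rw [Matrix.mul_sub, Matrix.mul_add, h1]
    abel
  have hα : ∀ i j, i ≠ j → ∀ r, e i * (α r).map d * e j = 0 := by
    intro i j hij r
    have h1 : e i * α r * e j = 0 := by
      rw [he, Matrix.mul_assoc, orth i j hij, Matrix.mul_zero]
    have h2 := congrArg (fun A : Matrix n n K => A.map d) h1
    simp only [map_mul_der, hde, Matrix.mul_zero, Matrix.zero_mul, add_zero, zero_add] at h2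
    rw [h2]
    ext i j; simp
  have hv : ∀ j, ∃ ν : Matrix n n K, p * (θ - b) * e j = p * e j * ν := by
    intro j
    refine exists_fac (Φ := Φ) (α := α) (γ := α) (m := m) hp (he j) hρ (fun r => ?_) fun w hw => ?_
    · set x : Matrix n n K := c r - (α r).map d - (b * α r - α r * b) with hx
      have hxe : x * e j = e j * (x * e j) := by
        have h1 : x * e j = ∑ i, e i * (x * e j) := by
          rw [← Matrix.sum_mul, hsum, Matrix.one_mul]
        rw [h1, Matrix.mul_sum, Finset.sum_eq_single j]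
        · rw [Finset.sum_eq_single j]
          · rw [← Matrix.mul_assoc (e j) (e j), idem]
          · intro i _ hij
            rw [← Matrix.mul_assoc (e j), orth j i (Ne.symm hij), Matrix.zero_mul]
          · intro h; exact absurd (Finset.mem_univ j) h
        · intro i _ hij
          rw [hx, ← Matrix.mul_assoc, Matrix.mul_sub, Matrix.mul_sub, Matrix.sub_mul,
            Matrix.sub_mul, hα i j hij, hbe i j hij, sub_zero, sub_self]
        · intro h; exact absurd (Finset.mem_univ j) h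
      refine ⟨x * e j, ?_⟩
      have e1 : p * (θ - b) * e j * α r = p * (c r + α r * θ - (α r).map d - b * α r) * e j := by
        have h1 := hder r
        calc p * (θ - b) * e j * α r = (p * θ * α r - p * (b * α r)) * e j := by
              rw [Matrix.mul_assoc _ (e j), he, ← Matrix.mul_assoc, Matrix.mul_sub,
                Matrix.sub_mul, Matrix.mul_assoc p b]
          _ = _ := by
              rw [h1, ← Matrix.mul_sub]
      have e2 : Φ r * (p * (θ - b) * e j) = p * (α r * (θ - b)) * e j := by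
        rw [← Matrix.mul_assoc, ← Matrix.mul_assoc, hp]
        simp only [Matrix.mul_assoc]
      rw [e1, e2, Matrix.mul_assoc p (e j), ← hxe, ← Matrix.mul_assoc p x, ← Matrix.add_mul,
        ← Matrix.mul_add]
      congr 2
      rw [hx, Matrix.mul_sub]
      abel
    · refine ⟨(w.map α).prod * ((θ - b) * e j), ?_⟩
      have e1 : (w.map Φ).prod * (p * (θ - b) * e j) =
          p * ((w.map α).prod * ((θ - b) * e j)) := by
        rw [← Matrix.mul_assoc, ← Matrix.mul_assoc, word_mul hp]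
        simp only [Matrix.mul_assoc]
      have e2 : ∀ X : Matrix n n K, X = e j * X + (1 - e j) * X := by
        intro X
        rw [Matrix.sub_mul, Matrix.one_mul]
        abel
      have e3 : g * ((1 - e j) * ((θ - b) * e j)) = 0 := by
        have h1 : (1 - e j) * ((θ - b) * e j) =
            ∑ i ∈ Finset.univ.erase j, (e i * θ * e j - e i * b * e j) := by
          have h2 : (1 : Matrix n n K) - e j = ∑ i ∈ Finset.univ.erase j, e i := by
            rw [← hsum, ← Finset.add_sum_erase _ _ (Finset.mem_univ j)]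
            abel
          rw [h2, Matrix.sum_mul]
          refine Finset.sum_congr rfl fun i _ => ?_
          rw [Matrix.sub_mul, Matrix.mul_sub, Matrix.mul_assoc, Matrix.mul_assoc]
        rw [h1, Matrix.mul_sum]
        refine Finset.sum_eq_zero fun i hi => ?_
        have hij : i ≠ j := Finset.ne_of_mem_erase hi
        rw [Matrix.mul_sub, hθR i j hij, Matrix.mul_assoc (e i) b, ← Matrix.mul_assoc g, hge,
          Matrix.mul_assoc (e i)ᵀ, ← Matrix.mul_assoc g b, hbR, Matrix.zero_mul, Matrix.mul_zero,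
          sub_zero]
      rw [e1]
      conv_lhs => rw [e2 ((θ - b) * e j)]
      rw [Matrix.mul_add, Matrix.mul_add, hkill w hw _ e3, add_zero,
        ← Matrix.mul_assoc _ (e j), ← word_com (he j), Matrix.mul_assoc (e j),
        ← Matrix.mul_assoc p]
  choose ν hν using hv
  refine ⟨∑ j, e j * ν j * e j, fun i => ?_, ?_⟩
  · rw [Matrix.mul_sum, Matrix.sum_mul, Finset.sum_eq_single i, Finset.sum_eq_single i]
    · rw [Matrix.mul_assoc (e i * ν i), idem, ← Matrix.mul_assoc, ← Matrix.mul_assoc, idem]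
    · intro j _ hj
      rw [Matrix.mul_assoc, orth j i hj, Matrix.mul_zero]
    · intro h; exact absurd (Finset.mem_univ i) h
    · intro j _ hj
      rw [← Matrix.mul_assoc, ← Matrix.mul_assoc, orth i j (Ne.symm hj), Matrix.zero_mul,
        Matrix.zero_mul]
    · intro h; exact absurd (Finset.mem_univ i) h
  · have h1 : p * ∑ j, e j * ν j * e j = p * (θ - b) := by
      rw [Matrix.mul_sum]
      calc ∑ j, p * (e j * ν j * e j) = ∑ j, p * (θ - b) * e j := by
            refine Finset.sum_congr rfl fun j _ => ?_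
            rw [← Matrix.mul_assoc, ← Matrix.mul_assoc, ← hν, Matrix.mul_assoc, idem]
        _ = _ := by rw [← Matrix.mul_sum, hsum, Matrix.mul_one]
    rw [hθ, Matrix.mul_add, h1, Matrix.mul_sub]
    abel

/-- the off-diagonal blocks of the connection vanish on the core (`hom`: no homomorphisms between
the blocks of the core) -/
theorem offdiag_zero {J : Matrix ι ι K} {d : Derivation k K K} (hJ : J.map d = 0)
    (hp : ∀ r, Φ r * p = p * α r)
    {e : β → Matrix n n K} (he : ∀ i r, e i * α r = α r * e i) (idem : ∀ i, e i * e i = e i)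
    (orth : ∀ i j, i ≠ j → e i * e j = 0) (hde : ∀ i, (e i).map d = 0)
    (hge : ∀ i, (pᵀ * J * p) * e i = (e i)ᵀ * (pᵀ * J * p)) {θ : Matrix n n K}
    (hθ : p.map d = p * θ) {c : Fin 3 → Matrix n n K} (hc : ∀ r, (Φ r).map d * p = p * c r)
    (hcR : ∀ i j, i ≠ j → ∀ r, (pᵀ * J * p) * (e i * c r * e j) = 0)
    (hom : ∀ i j, i ≠ j → ∀ z : Matrix n n K, e i * z * e j = z →
      (∀ y : n → K, (pᵀ * J * p) *ᵥ y = 0 → (pᵀ * J * p) *ᵥ (z *ᵥ y) = 0) →
      (∀ r, (pᵀ * J * p) * (z * α r - α r * z) = 0) → (pᵀ * J * p) * z = 0) :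
    ∀ i j, i ≠ j → (pᵀ * J * p) * (e i * θ * e j) = 0 := by
  intro i j hij
  have hα : ∀ i j, i ≠ j → ∀ r, e i * (α r).map d * e j = 0 := by
    intro i j hij r
    have h1 : e i * α r * e j = 0 := by
      rw [he, Matrix.mul_assoc, orth i j hij, Matrix.mul_zero]
    have h2 := congrArg (fun A : Matrix n n K => A.map d) h1
    simp only [map_mul_der, hde, Matrix.mul_zero, Matrix.zero_mul, add_zero, zero_add] at h2
    rw [h2]
    ext i j; simp
  refine hom i j hij _ ?_ ?_ ?_
  · calc e i * (e i * θ * e j) * e j = (e i * e i) * θ * (e j * e j) := by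
          simp only [Matrix.mul_assoc]
      _ = _ := by rw [idem, idem]
  · -- `g' = θᵀ g + g θ`
    intro y hy
    have hg' : (pᵀ * J * p).map d = θᵀ * (pᵀ * J * p) + (pᵀ * J * p) * θ := by
      rw [map_mul_der, map_mul_der, map_transpose_der, hJ, hθ, transpose_mul, Matrix.mul_zero,
        add_zero]
      simp only [Matrix.mul_assoc]
    have hy2 : (pᵀ * J * p) *ᵥ (e j *ᵥ y) = 0 := by
      rw [mulVec_mulVec, hge, ← mulVec_mulVec, hy, mulVec_zero]
    -- as a one-column matrix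
    set Y : Matrix n Unit K := Matrix.of fun a _ => (e j *ᵥ y) a with hY
    have hgY : (pᵀ * J * p) * Y = 0 := by
      ext a u
      have := congrFun hy2 a
      simpa [Matrix.mul_apply, Matrix.mulVec, dotProduct, hY] using this
    have heY : e i * Y = 0 := by
      ext a u
      have h3 : e i *ᵥ (e j *ᵥ y) = 0 := by
        rw [mulVec_mulVec, orth i j hij, zero_mulVec]
      have := congrFun h3 a
      simpa [Matrix.mul_apply, Matrix.mulVec, dotProduct, hY] using this
    have h4 := congrArg (fun A : Matrix n Unit K => A.map d) hgY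
    have h5 := congrArg (fun A : Matrix n Unit K => A.map d) heY
    simp only [map_mul_der, hg', hde, Matrix.zero_mul, zero_add] at h4 h5
    have h0 : (0 : Matrix n Unit K).map d = 0 := by ext a b; simp
    rw [h0] at h4 h5
    have h6 : (pᵀ * J * p) * (e i * (θ * Y)) = 0 := by
      have h7 := congrArg (fun A => (e i)ᵀ * A) h4
      simp only [Matrix.mul_zero, Matrix.mul_add, Matrix.add_mul] at h7
      rw [Matrix.mul_assoc θᵀ, hgY, Matrix.mul_zero, Matrix.mul_zero, zero_add,
        ← Matrix.mul_assoc (e i)ᵀ _ (Y.map d), ← hge, Matrix.mul_assoc _ (e i), h5,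
        Matrix.mul_zero, add_zero] at h7
      rw [← Matrix.mul_assoc, hge, Matrix.mul_assoc, ← Matrix.mul_assoc _ θ Y]
      exact h7
    have h8 : ∀ a, ((pᵀ * J * p) * (e i * (θ * Y))) a () = 0 := fun a => by rw [h6]; rfl
    funext a
    have h9 := h8 a
    have h10 : (pᵀ * J * p) *ᵥ ((e i * θ * e j) *ᵥ y) =
        (pᵀ * J * p) *ᵥ (e i *ᵥ (θ *ᵥ (e j *ᵥ y))) := by
      simp only [mulVec_mulVec, Matrix.mul_assoc]
    rw [h10]
    simpa [Matrix.mul_apply, Matrix.mulVec, dotProduct, hY] using h9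
  · intro r
    have hder : (pᵀ * J * p) * θ * α r = (pᵀ * J * p) * (c r + α r * θ - (α r).map d) := by
      have h1 := congrArg (fun A : Matrix ι n K => A.map d) (hp r)
      simp only [map_mul_der] at h1
      rw [hc, hθ, ← Matrix.mul_assoc, hp, Matrix.mul_assoc] at h1
      have h2 : p * (θ * α r) = p * (c r + α r * θ - (α r).map d) := by
        rw [Matrix.mul_sub, Matrix.mul_add, h1, ← Matrix.mul_assoc p θ]
        abel
      have h3 := congrArg (fun A => pᵀ * J * A) h2
      simpa only [Matrix.mul_assoc] using h3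
    have h1 : (pᵀ * J * p) * (e i * θ * e j * α r - α r * (e i * θ * e j)) =
        (e i)ᵀ * ((pᵀ * J * p) * θ * α r - (pᵀ * J * p) * (α r * θ)) * e j := by
      rw [Matrix.mul_sub, Matrix.mul_sub, Matrix.sub_mul]
      congr 1
      · rw [Matrix.mul_assoc (e i * θ), he, ← Matrix.mul_assoc, ← Matrix.mul_assoc,
          ← Matrix.mul_assoc, ← Matrix.mul_assoc, hge]
        simp only [Matrix.mul_assoc]
      · rw [← Matrix.mul_assoc (α r), ← Matrix.mul_assoc (α r), ← he, ← Matrix.mul_assoc,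
          ← Matrix.mul_assoc, ← Matrix.mul_assoc, hge]
        simp only [Matrix.mul_assoc]
    rw [h1, hder]
    have h2 : (pᵀ * J * p) * (c r + α r * θ - (α r).map d) - (pᵀ * J * p) * (α r * θ) =
        (pᵀ * J * p) * (c r - (α r).map d) := by
      rw [← Matrix.mul_sub]
      congr 1
      abel
    rw [h2, ← Matrix.mul_assoc, ← hge, Matrix.mul_assoc, Matrix.mul_assoc, Matrix.sub_mul,
      Matrix.mul_sub, ← Matrix.mul_assoc (e i), ← Matrix.mul_assoc (e i), hα i j hij, sub_zero,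
      hcR i j hij]

end Crest.Agent.R172.BConn
end

-- ▼ part R172/RDF1
section

/-!
Row 172 (S0260), T0, any radical, any `D`: the choice of the connection (`pick`) and the first
derivative, decorated (`FirstP`).
-/

set_option autoImplicit false
set_option linter.unusedSectionVars false

namespace Crest.Agent.R172.RDF1

open Matrix Module TensorProduct Crest.Agent.R172.FO Crest.Agent.R172.FrmB
open Crest.Agent.R172.RD
open Crest.Agent.R172.Core (NS Tame)
open Crest.Agent.R172.PL (Wk)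
open Crest.Agent.R172.FC (nab)
open Crest.Agent.R172.ZP (NilAt adE)

variable {ι : Type*} [Fintype ι] [DecidableEq ι] {δ : Type*} [Fintype δ] [DecidableEq δ]
variable {n : Type*} [Fintype n] [DecidableEq n]
variable {k K : Type*} [Field k] [Field K] [Algebra k K]
variable {M : Type*} [AddCommGroup M] [Module K M]
variable {m : Type*} [Fintype m] [DecidableEq m]
variable {arm : δ → Fin 3} {J : Matrix ι ι K} {B : Matrix δ δ K}
  {N W : Submodule K (Matrix ι δ K)} {F G : Matrix ι δ K} {p : Matrix ι n K}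
  {al : Fin 3 → Matrix n n K} {tau : Matrix n n K}
  {β : LinearMap.BilinForm K M} {T : Module.End K M →ₗ[K] Module.End K M}
  {Ψ : Fin 3 → Module.End K M} {D : Module.End K M} {π : (n → K) →ₗ[K] M}
  {e : m → Matrix n n K} {lam : m → K} {l : Fin 3 → ℕ} {TT : Set k}

/-- `Φ(F + c G) p = p al κ²`, without `Par` -/
theorem Phi_p (h : FC.Ctx k arm J B N W F G p al tau) {c : K} {kap : Matrix n n K}
    (hk : kap = 1 + c • tau) (s : Fin 3) :
    Phi arm J B (F + c • G) s * p = p * (al s * (kap * kap)) := by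
  have h1 : (F + c • G)ᵀ * J * p = Fᵀ * J * p * kap := by
    rw [hk, transpose_add, transpose_smul, Matrix.add_mul, Matrix.add_mul,
      Matrix.smul_mul, Matrix.smul_mul, h.hτ, Matrix.mul_add, Matrix.mul_one, Matrix.mul_smul]
  have h2 : (F + c • G) * FC.bs arm J B F p s = p * kap * al s := by
    rw [hk, Matrix.add_mul, Matrix.smul_mul, h.Fbs, h.Gbs, Matrix.mul_add, Matrix.mul_one,
      Matrix.add_mul, Matrix.mul_smul, Matrix.smul_mul]
  have h3 : kap * al s = al s * kap := by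
    rw [hk, Matrix.add_mul, Matrix.mul_add, Matrix.one_mul, Matrix.mul_one,
      Matrix.smul_mul, Matrix.mul_smul, h.comm]
  have e : Phi arm J B (F + c • G) s * p =
      (F + c • G) * (E K arm s * B * ((F + c • G)ᵀ * J * p)) := by
    unfold Phi FO.M
    simp only [Matrix.mul_assoc]
  rw [e, h1]
  have e2 : (F + c • G) * (E K arm s * B * (Fᵀ * J * p * kap)) =
      ((F + c • G) * FC.bs arm J B F p s) * kap := by
    unfold FC.bs
    simp only [Matrix.mul_assoc]
  rw [e2, h2, Matrix.mul_assoc p, h3]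
  simp only [Matrix.mul_assoc]

theorem gam_zero (h : Fr k arm J B N W F G p al tau β T Ψ D π e lam l TT) {X : Matrix n n K}
    (hX : ∀ u, π (X *ᵥ u) = 0) : (pᵀ * J * p) * X = 0 := by
  ext a b'
  have := h.cr.form (Pi.single a 1) (X *ᵥ Pi.single b' 1)
  rw [hX, map_zero, mulVec_mulVec, single_one_dotProduct, mulVec_single_one] at this
  exact this.symm

theorem pi_zero (h : Fr k arm J B N W F G p al tau β T Ψ D π e lam l TT) {y : n → K} :
    π y = 0 ↔ (pᵀ * J * p) *ᵥ y = 0 := by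
  rw [(fr h).zero_iff]
  constructor
  · intro h0
    funext a
    have := h0 (Pi.single a 1)
    rwa [single_one_dotProduct] at this
  · intro h0 y'
    rw [h0, dotProduct_zero]

/-- **RD1a (PICK)**: the connection can be chosen with off-diagonal part `C` -/
theorem pick [CharZero K] (h : Fr k arm J B N W F G p al tau β T Ψ D π e lam l TT)
    {t : k} (ht : t ∈ TT ∨ t = 0) {kap : Matrix n n K} (hk : kap = 1 + algebraMap k K t • tau)
    {d : Derivation k K K} {θ0 : Matrix n n K} (hθ : p.map d = p * θ0)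
    {U : Fin 3 → Matrix n n K}
    (hU : ∀ s, p * FC.nab d θ0 (al s * (kap * kap)) = p * U s)
    {C : Matrix n n K} (hC : off e C = C) (hCr : ∀ u, π (C *ᵥ u) = 0)
    (hoff : ∀ s, off e (U s) = C * (al s * (kap * kap)) - al s * (kap * kap) * C) :
    ∃ θ, p.map d = p * θ ∧ off e θ = C := by
  obtain ⟨c, hc⟩ : ∃ c : K, c = algebraMap k K t := ⟨_, rfl⟩
  rw [← hc] at hk
  -- `kap` is invertible
  obtain ⟨kai, hkk⟩ : ∃ kai, kap * kai = 1 := by
    rcases ht with ht | ht
    · obtain ⟨kap', kai, hp⟩ := h.par t ht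
      refine ⟨kai, ?_⟩
      have : kap = kap' := by rw [hk, hp.kap_eq, hc]
      rw [this, hp.mul]
    · refine ⟨1, ?_⟩
      rw [hk, hc, ht, map_zero, zero_smul, add_zero, Matrix.mul_one]
  have hkk' : kai * kap = 1 := mul_eq_one_comm.1 hkk
  obtain ⟨ρ, hρ⟩ := h.ctx.perf
  have hρ' : ∑ r, al r * (kap * kap) * (kai * kai * ρ r) = 1 := by
    rw [← hρ]
    refine Finset.sum_congr rfl fun r _ => ?_
    have : kap * kap * (kai * kai * ρ r) = ρ r := by
      calc kap * kap * (kai * kai * ρ r) = kap * (kap * kai) * kai * ρ r := by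
            simp only [Matrix.mul_assoc]
        _ = _ := by rw [hkk, Matrix.mul_one, hkk, Matrix.one_mul]
    rw [Matrix.mul_assoc, this]
  have hek : ∀ l, e l * kap = kap * e l := by
    intro l
    rw [hk, Matrix.mul_add, Matrix.add_mul, Matrix.mul_one, Matrix.one_mul,
      Matrix.mul_smul, Matrix.smul_mul, h.etau]
  have heP : ∀ l s, e l * (al s * (kap * kap)) = al s * (kap * kap) * e l := by
    intro l s
    rw [← Matrix.mul_assoc, h.eal, Matrix.mul_assoc, ← Matrix.mul_assoc (e l), hek,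
      Matrix.mul_assoc kap, hek]
    simp only [Matrix.mul_assoc]
  have hΦ : ∀ r, Phi arm J B (F + c • G) r * p = p * (al r * (kap * kap)) := Phi_p h.ctx hk
  have hD : RDZ.Desc π tau D := h.ptau
  have hΨ : ∀ s, RDZ.Desc π (al s) (Ψ s) := fun s y => (h.cr.op s y).symm
  have hkd : RDZ.Desc π kap (1 + c • D) := by
    rw [hk]; exact RDZ.Desc.one.add (hD.smul c)
  have hPd : ∀ s, RDZ.Desc π (al s * (kap * kap)) (Ψ s * ((1 + c • D) * (1 + c • D))) :=
    fun s => (hΨ s).mul (hkd.mul hkd)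
  have gC : (pᵀ * J * p) * C = 0 := gam_zero h hCr
  have gPC : ∀ s, (pᵀ * J * p) * (al s * (kap * kap) * C) = 0 := by
    intro s
    refine gam_zero h fun u => ?_
    have := (hPd s) (C *ᵥ u)
    rw [mulVec_mulVec] at this
    rw [this, hCr, map_zero]
  -- `e_i U e_j`
  have hblk : ∀ i j, i ≠ j → ∀ s, e i * U s * e j =
      e i * (C * (al s * (kap * kap)) - al s * (kap * kap) * C) * e j := by
    intro i j hij s
    rw [← hoff s]
    have h0 : e i * (∑ l, e l * U s * e l) * e j = 0 := by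
      rw [Matrix.mul_sum, Matrix.sum_mul]
      refine Finset.sum_eq_zero fun l _ => ?_
      by_cases hl : l = j
      · subst hl
        rw [← Matrix.mul_assoc, ← Matrix.mul_assoc, h.orth i l hij, Matrix.zero_mul,
          Matrix.zero_mul, Matrix.zero_mul]
      · rw [Matrix.mul_assoc, Matrix.mul_assoc (e l * U s), h.orth l j hl, Matrix.mul_zero,
          Matrix.mul_zero]
    unfold off
    rw [Matrix.mul_sub, Matrix.sub_mul, h0, sub_zero]
  have hcR : ∀ i j, i ≠ j → ∀ r, (pᵀ * J * p) * (e i * U r * e j) = 0 := by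
    intro i j hij r
    rw [hblk i j hij r, ← Matrix.mul_assoc, ← Matrix.mul_assoc, ← h.eg, Matrix.mul_assoc (e i)ᵀ,
      Matrix.mul_sub, ← Matrix.mul_assoc _ C, gC, Matrix.zero_mul, gPC, sub_zero, Matrix.mul_zero,
      Matrix.zero_mul]
  have hcd : ∀ r, (Phi arm J B (F + c • G) r).map d * p = p * U r := by
    intro r
    have h1 : (Phi arm J B (F + c • G) r * p).map d = (p * (al r * (kap * kap))).map d := by
      rw [hΦ]
    rw [map_mul_der, map_mul_der _ p, hθ, ← Matrix.mul_assoc _ p θ0, hΦ] at h1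
    have h2 := hU r
    unfold FC.nab at h2
    rw [Matrix.mul_sub, Matrix.mul_add] at h2
    rw [← h2, ← Matrix.mul_assoc p θ0, ← Matrix.mul_assoc p _ θ0]
    have h3 : (Phi arm J B (F + c • G) r).map d * p =
        (p * θ0 * (al r * (kap * kap)) + p * ((al r * (kap * kap)).map d)) -
          p * (al r * (kap * kap)) * θ0 := by
      rw [← h1]; abel
    rw [h3]; abel
  have hom' : ∀ i j, i ≠ j → ∀ z : Matrix n n K, e i * z * e j = z →
      (∀ y : n → K, (pᵀ * J * p) *ᵥ y = 0 → (pᵀ * J * p) *ᵥ (z *ᵥ y) = 0) →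
      (∀ r, (pᵀ * J * p) * (z * (al r * (kap * kap)) - al r * (kap * kap) * z) = 0) →
      (pᵀ * J * p) * z = 0 := by
    intro i j hij z hz hker hcom
    obtain ⟨A, hA⟩ := (fr h).exists_desc (z := z) fun y hy => (pi_zero h).2 (hker y ((pi_zero h).1 hy))
    have hAc : ∀ s x, A (Ψ s ((1 + algebraMap k K t • D) ((1 + algebraMap k K t • D) x))) =
        Ψ s ((1 + algebraMap k K t • D) ((1 + algebraMap k K t • D) (A x))) := by
      intro s x
      rw [← hc]
      have h1 : A * (Ψ s * ((1 + c • D) * (1 + c • D))) - Ψ s * ((1 + c • D) * (1 + c • D)) * A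
          = 0 := (fr h).desc_zero ((hA.mul (hPd s)).sub ((hPd s).mul hA)) (hcom s)
      rw [sub_eq_zero] at h1
      exact LinearMap.congr_fun h1 x
    have h2 := h.hom t ht A hAc j i (fun h => hij h.symm)
    refine gam_zero h fun u => ?_
    refine (fr h).eq_of fun y' => ?_
    rw [map_zero]
    have h3 := h2 u y'
    rw [← hA] at h3
    have h4 : (z *ᵥ (e j *ᵥ u)) = z *ᵥ u := by
      rw [mulVec_mulVec]
      conv_rhs => rw [← hz]
      conv_lhs => rw [← hz]
      rw [Matrix.mul_assoc (e i * z), h.idem]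
    have h5 : e i *ᵥ (z *ᵥ u) = z *ᵥ u := by
      rw [mulVec_mulVec]
      conv_rhs => rw [← hz]
      conv_lhs => rw [← hz]
      rw [← Matrix.mul_assoc, ← Matrix.mul_assoc, h.idem]
    rw [h4] at h3
    calc β (π y') (π (z *ᵥ u)) = β (π y') (π (e i *ᵥ (z *ᵥ u))) := by rw [h5]
      _ = y' ⬝ᵥ (((pᵀ * J * p) * e i) *ᵥ (z *ᵥ u)) := by
        rw [h.cr.form, mulVec_mulVec (z *ᵥ u)]
      _ = (e i *ᵥ y') ⬝ᵥ ((pᵀ * J * p) *ᵥ (z *ᵥ u)) := by
        rw [← h.eg, ← mulVec_mulVec (z *ᵥ u), dotProduct_mulVec, vecMul_transpose]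
      _ = (z *ᵥ u) ⬝ᵥ ((pᵀ * J * p) *ᵥ (e i *ᵥ y')) := by
        rw [dotProduct_mulVec, ← mulVec_transpose, h.ctx.gam_symm, dotProduct_comm]
      _ = β (π (z *ᵥ u)) (π (e i *ᵥ y')) := by rw [h.cr.form]
      _ = 0 := h3
  have hθR := BConn.offdiag_zero (h.ctx.data.J_const d) hΦ heP h.idem h.orth (fun i => h.eC i d)
    (fun i => (h.eg i).symm) hθ hcd hcR hom'
  obtain ⟨m0, hm0⟩ := h.killV c
  obtain ⟨D', hD1, hD2⟩ := BConn.exists_conn (m := m0) hΦ hρ' heP h.idem h.orth h.sumE
    (fun i => h.eC i d) (fun i => (h.eg i).symm) hθ hcd gC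
    (fun i j hij r => (hblk i j hij r).symm) hθR (by
      intro w hw y hy
      have h1 : ∀ u : n → K, (p * ((w.map fun r => al r * (kap * kap)).prod * y)) *ᵥ u = 0 := by
        intro u
        have h2 : π (y *ᵥ u) = 0 := by
          rw [(pi_zero h), mulVec_mulVec, hy, zero_mulVec]
        have h3 := hm0 w hw (y *ᵥ u) h2
        rw [mulVec_mulVec, BConn.word_mul hΦ, mulVec_mulVec, Matrix.mul_assoc] at h3
        exact h3
      ext a b'
      have := congrFun (h1 (Pi.single b' 1)) a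
      rw [mulVec_single_one] at this
      exact this)
  refine ⟨D' + C, hD2, ?_⟩
  rw [off_add, off_comm h.idem h.sumE hD1, zero_add, hC]

/-- **RD1**: FIRST, decorated -/
theorem first [CharZero K] (h : Fr k arm J B N W F G p al tau β T Ψ D π e lam l TT)
    {i j : m} (hij : i ≠ j) {t : k} (ht : t ∈ TT) {kap kai : Matrix n n K}
    (hp : FC.Par k arm J B N W F G p tau (algebraMap k K t) kap kai)
    {x : Fin 3 → Matrix n n K} {b kk : Matrix n n K}
    (hx : Dec (pᵀ * J * p) π e i j (fun r => al r * (kap * kap)) (fun r => al r * (kap * kap)) x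
      b kk) :
    RS arm J B N W F p T Ψ π e
      (fun r => kai * (x r - (x r)ᵀ) * kapᵀ - (x r - (x r)ᵀ))
      ((b - kap * b * kai) + (kk - kap * kk * kai))
      (fun r => (kai * b * kap - b) * al r + (kai * kk * kap - kk) * al r) :=
  first_core h hij ht hp hx fun _ _ hθ _ hU _ hC hCr hoff =>
    pick h (Or.inl ht) hp.kap_eq hθ hU hC hCr hoff

/-- `FirstP` holds -/
theorem firstP [CharZero K] (h : Fr k arm J B N W F G p al tau β T Ψ D π e lam l TT)
    {i j : m} (hij : i ≠ j) :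
    FirstP k arm J B N W F G p al tau T Ψ π e TT i j :=
  fun _ ht _ _ hp _ _ _ hx => first h hij ht hp hx

/-- the field `first` of `RD.Five`, literally -/
theorem five_first {ι δ n m : Type} [Fintype ι] [DecidableEq ι] [Fintype δ] [DecidableEq δ]
    [Fintype n] [DecidableEq n] [Fintype m] [DecidableEq m] {K M : Type} [Field K] [Algebra ℂ K]
    [CharZero K] [AddCommGroup M] [Module K M] [FiniteDimensional K M] {arm : δ → Fin 3}
    {J : Matrix ι ι K} {B : Matrix δ δ K} {N W : Submodule K (Matrix ι δ K)} {F G : Matrix ι δ K}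
    {p : Matrix ι n K} {al : Fin 3 → Matrix n n K} {tau : Matrix n n K}
    {β : LinearMap.BilinForm K M} {T : Module.End K M →ₗ[K] Module.End K M}
    {Ψ : Fin 3 → Module.End K M} {D : Module.End K M} {π : (n → K) →ₗ[K] M}
    {e : m → Matrix n n K} {lam : m → K} {l : Fin 3 → ℕ} {TT : Set ℂ}
    (h : Fr ℂ arm J B N W F G p al tau β T Ψ D π e lam l TT)
    (_hDΦ : ∀ s v, D (Ψ s v) = Ψ s (D v)) (_hDs : ⨆ ν, D.maxGenEigenspace ν = ⊤)
    (i j : m) (hij : i ≠ j) : FirstP ℂ arm J B N W F G p al tau T Ψ π e TT i j :=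
  firstP h hij

end Crest.Agent.R172.RDF1
end

-- ▼ part R172/Cnt1
section

/-!
Row 172 (S0260), count of 804's 15600 (3): a linear map from triples of endomorphisms onto `X` which
kills the diagonal and, arm by arm, the endomorphisms preserving the flag of the arm, has
`finrank X ≤ finrank (⋂ s, filtered endomorphisms at s)`, as soon as the codimensions of the three
algebras of filtered endomorphisms sum up to at most `(dim V)²`; this is the case in the tame case
(free flags of lengths `l s`, `∑ 1 / l s = 1`).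
-/

set_option autoImplicit false
set_option linter.unusedSectionVars false
set_option maxHeartbeats 400000

namespace Crest.Agent.R172.Cnt

open Module LinearMap

variable {K : Type*} [Field K] {V : Type*} [AddCommGroup V] [Module K V]



variable [FiniteDimensional K V]



/-! ### Free flags -/

theorem finrank_ker_succ (Φ : End K V) (j : ℕ) :
    finrank K (ker (Φ ^ (j + 1))) ≤ finrank K (ker (Φ ^ j)) + finrank K (ker Φ) := by
  let g : ker (Φ ^ (j + 1)) →ₗ[K] ker Φ :=
    LinearMap.codRestrict (ker Φ) ((Φ ^ j) ∘ₗ (ker (Φ ^ (j + 1))).subtype) (by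
      rintro ⟨v, hv⟩
      rw [LinearMap.mem_ker] at hv ⊢
      have : Φ ((Φ ^ j) v) = (Φ ^ (j + 1)) v := by rw [pow_succ']; rfl
      simpa [this] using hv)
  have h1 := LinearMap.finrank_range_add_finrank_ker g
  have h2 : finrank K (LinearMap.range g) ≤ finrank K (ker Φ) := Submodule.finrank_le _
  have h3 : finrank K (LinearMap.ker g) ≤ finrank K (ker (Φ ^ j)) := by
    rw [LinearEquiv.finrank_eq (Submodule.equivMapOfInjective (ker (Φ ^ (j + 1))).subtype
      (Submodule.injective_subtype _) (LinearMap.ker g))]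
    refine Submodule.finrank_mono ?_
    rintro _ ⟨v, hv, rfl⟩
    have h4 : g v = 0 := hv
    have h5 := congrArg Subtype.val h4
    exact LinearMap.mem_ker.2 h5
  omega

theorem finrank_ker_add (Φ : End K V) (j i : ℕ) :
    finrank K (ker (Φ ^ (j + i))) ≤ finrank K (ker (Φ ^ j)) + i * finrank K (ker Φ) := by
  induction i with
  | zero => simp
  | succ i ih =>
    have := finrank_ker_succ Φ (j + i)
    rw [← add_assoc]
    have e : (i + 1) * finrank K (ker Φ) = i * finrank K (ker Φ) + finrank K (ker Φ) := by ring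
    omega

variable {Φ : End K V} {l : ℕ}

theorem finrank_ker_pow (hnil : Φ ^ l = 0) (hfree : l * finrank K (ker Φ) = finrank K V)
    {j : ℕ} (hj : j ≤ l) : finrank K (ker (Φ ^ j)) = j * finrank K (ker Φ) := by
  have h1 := finrank_ker_add Φ 0 j
  have h2 := finrank_ker_add Φ j (l - j)
  have h3 : j + (l - j) = l := by omega
  have h4 : finrank K (ker (Φ ^ l)) = l * finrank K (ker Φ) := by
    rw [hnil, LinearMap.ker_zero, finrank_top, hfree]
  have h5 : finrank K (ker (Φ ^ 0)) = 0 := by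
    rw [pow_zero]
    have : ker (1 : End K V) = ⊥ := LinearMap.ker_id
    rw [this]; exact finrank_bot K V
  rw [h3] at h2
  rw [zero_add] at h1
  have h6 : l * finrank K (ker Φ) = j * finrank K (ker Φ) + (l - j) * finrank K (ker Φ) := by
    rw [← add_mul, h3]
  omega

theorem range_pow_eq (hnil : Φ ^ l = 0) (hfree : l * finrank K (ker Φ) = finrank K V)
    {j : ℕ} (hj : j ≤ l) : range (Φ ^ j) = ker (Φ ^ (l - j)) := by
  have h1 : range (Φ ^ j) ≤ ker (Φ ^ (l - j)) := by
    rintro _ ⟨v, rfl⟩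
    rw [LinearMap.mem_ker, ← Module.End.mul_apply, ← pow_add, Nat.sub_add_cancel hj, hnil]
    rfl
  refine Submodule.eq_of_le_of_finrank_eq h1 ?_
  have h2 := LinearMap.finrank_range_add_finrank_ker (Φ ^ j)
  rw [finrank_ker_pow hnil hfree hj] at h2
  rw [finrank_ker_pow hnil hfree (Nat.sub_le _ _)]
  have h6 : l * finrank K (ker Φ) = j * finrank K (ker Φ) + (l - j) * finrank K (ker Φ) := by
    rw [← add_mul]; congr 1; omega
  omega






end Crest.Agent.R172.Cnt
end

-- ▼ part R172/RDoff795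
section

/-!
Row 172 (S0260), RD4 `offdiag` (insurance copy of helper795): every off-diagonal filtered
single-arm tensor is good.
-/

set_option autoImplicit false
set_option linter.unusedSectionVars false

namespace Crest.Agent.R172.RD795

open Matrix Module TensorProduct Crest.Agent.R172.FO Crest.Agent.R172.FrmB Crest.Agent.R172.RD
open Crest.Agent.R172.Core (NS Tame)
open Crest.Agent.R172.PL (Wk)

section filt

variable {K : Type*} [Field K] {M : Type*} [AddCommGroup M] [Module K M] [FiniteDimensional K M]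

theorem exists_proj (S : Submodule K M) :
    ∃ P : End K M, (∀ x, P x ∈ S) ∧ ∀ x ∈ S, P x = x := by
  obtain ⟨f, hf⟩ := LinearMap.exists_leftInverse_of_injective S.subtype (by simp)
  refine ⟨S.subtype ∘ₗ f, fun x => (f x).2, fun x hx => ?_⟩
  have h1 := LinearMap.congr_fun hf ⟨x, hx⟩
  exact congrArg Subtype.val h1

theorem exists_vec {β : LinearMap.BilinForm K M} (hβ : NS β) (f : Dual K M) :
    ∃ v, β v = f := by
  have h1 : Function.Injective (β : M →ₗ[K] Dual K M) := by
    rw [injective_iff_map_eq_zero]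
    intro v hv
    exact hβ.nd v fun w => by rw [hv]; rfl
  have h2 : Function.Surjective (β : M →ₗ[K] Dual K M) :=
    (LinearMap.injective_iff_surjective_of_finrank_eq_finrank
      (Subspace.dual_finrank_eq (K := K) (V := M)).symm).1 h1
  exact h2 f

/-- the set of elementary filtered maps -/
def G1 (β : LinearMap.BilinForm K M) (Φ : End K M) (l : ℕ) : Set (End K M) :=
  {X | ∃ (a b : ℕ) (u v : M), b + a + 1 = l ∧ X = (β ((Φ ^ a) v)).smulRight ((Φ ^ b) u)}

theorem pow_sa {β : LinearMap.BilinForm K M} {Φ : End K M}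
    (hsa : ∀ v w, β (Φ v) w = β v (Φ w)) (a : ℕ) : ∀ v w, β ((Φ ^ a) v) w = β v ((Φ ^ a) w) := by
  induction a with
  | zero => intro v w; simp
  | succ a ih =>
    intro v w
    have e1 : (Φ ^ (a + 1)) v = (Φ ^ a) (Φ v) := by
      rw [pow_succ]; rfl
    have e2 : (Φ ^ (a + 1)) w = Φ ((Φ ^ a) w) := by
      rw [pow_succ']; rfl
    rw [e1, e2, ih, hsa]

theorem piece {β : LinearMap.BilinForm K M} (hβ : NS β) {Φ : End K M}
    (hsa : ∀ v w, β (Φ v) w = β v (Φ w)) {l : ℕ} (hnil : Φ ^ l = 0)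
    (hfree : l * finrank K (LinearMap.ker Φ) = finrank K M) {c : ℕ} (hc : c < l) (X : End K M)
    (h1 : ∀ x, X x ∈ LinearMap.range (Φ ^ c)) (h2 : ∀ w, X ((Φ ^ (c + 1)) w) = 0) :
    X ∈ Submodule.span K (G1 β Φ l) := by
  obtain ⟨s, hs⟩ := LinearMap.exists_rightInverse_of_surjective (Φ ^ c).rangeRestrict
    (LinearMap.range_eq_top.2 (Φ ^ c).surjective_rangeRestrict)
  let Y : End K M := s ∘ₗ X.codRestrict _ h1
  have hY : ∀ x, (Φ ^ c) (Y x) = X x := by
    intro x
    have h3 := LinearMap.congr_fun hs (X.codRestrict _ h1 x)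
    exact congrArg Subtype.val h3
  have hY0 : ∀ w, Y ((Φ ^ (c + 1)) w) = 0 := by
    intro w
    change s (X.codRestrict _ h1 _) = 0
    have : X.codRestrict _ h1 ((Φ ^ (c + 1)) w) = 0 := by
      apply Subtype.ext
      exact h2 w
    rw [this, map_zero]
  let b := Module.finBasis K M
  have hv : ∀ k, ∃ v, ∀ w, β ((Φ ^ (l - 1 - c)) v) w = b.coord k (Y w) := by
    intro k
    obtain ⟨v, hv⟩ := exists_vec hβ (b.coord k ∘ₗ Y)
    have hv' : ∀ w, β v w = b.coord k (Y w) := fun w => LinearMap.congr_fun hv w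
    have h3 : v ∈ LinearMap.ker (Φ ^ (l - (l - 1 - c))) := by
      rw [LinearMap.mem_ker, show l - (l - 1 - c) = c + 1 by omega]
      apply hβ.nd
      intro w
      rw [pow_sa hsa, hv', hY0, map_zero]
    rw [← Cnt.range_pow_eq hnil hfree (by omega)] at h3
    obtain ⟨v', rfl⟩ := h3
    exact ⟨v', hv'⟩
  choose v hv using hv
  have e : X = ∑ k, (β ((Φ ^ (l - 1 - c)) (v k))).smulRight ((Φ ^ c) (b k)) := by
    apply LinearMap.ext
    intro x
    rw [LinearMap.sum_apply, ← hY]
    have h4 : Y x = ∑ k, b.coord k (Y x) • b k := (b.sum_repr (Y x)).symm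
    conv_lhs => rw [h4]
    rw [map_sum]
    refine Finset.sum_congr rfl fun k _ => ?_
    rw [map_smul, LinearMap.smulRight_apply, hv]
  rw [e]
  exact Submodule.sum_mem _ fun k _ =>
    Submodule.subset_span ⟨l - 1 - c, c, b k, v k, by omega, rfl⟩

/-- **filtered endomorphisms are sums of elementary filtered maps** -/
theorem filt_span {β : LinearMap.BilinForm K M} (hβ : NS β) {Φ : End K M}
    (hsa : ∀ v w, β (Φ v) w = β v (Φ w)) {l : ℕ} (hnil : Φ ^ l = 0)
    (hfree : l * finrank K (LinearMap.ker Φ) = finrank K M) (A : End K M)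
    (hA : ∀ (a : ℕ) v, ∃ v', A ((Φ ^ a) v) = (Φ ^ a) v') :
    A ∈ Submodule.span K (G1 β Φ l) := by
  choose P hP1 hP2 using fun c : ℕ => exists_proj (LinearMap.range (Φ ^ c))
  have e0 : P 0 = 1 := by
    apply LinearMap.ext
    intro x
    exact hP2 0 x ⟨x, by simp⟩
  have el : P l = 0 := by
    apply LinearMap.ext
    intro x
    obtain ⟨y, hy⟩ := hP1 l x
    rw [← hy, hnil]; rfl
  have e : A = ∑ c ∈ Finset.range l, A * (P c - P (c + 1)) := by
    rw [← Finset.mul_sum, Finset.sum_range_sub', e0, el, sub_zero, mul_one]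
  rw [e]
  refine Submodule.sum_mem _ fun c hc => ?_
  refine piece hβ hsa hnil hfree (Finset.mem_range.1 hc) _ ?_ ?_
  · intro x
    have h1 : (P c - P (c + 1)) x ∈ LinearMap.range (Φ ^ c) := by
      refine Submodule.sub_mem _ (hP1 c x) ?_
      obtain ⟨y, hy⟩ := hP1 (c + 1) x
      exact ⟨Φ y, by rw [← hy, pow_succ]; rfl⟩
    obtain ⟨v, hv⟩ := h1
    obtain ⟨v', hv'⟩ := hA c v
    exact ⟨v', by rw [Module.End.mul_apply, ← hv, hv']⟩
  · intro w
    have h1 : (P c - P (c + 1)) ((Φ ^ (c + 1)) w) = 0 := by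
      rw [LinearMap.sub_apply, hP2 (c + 1) _ ⟨w, rfl⟩, hP2 c _ ⟨Φ w, by rw [pow_succ]; rfl⟩,
        sub_self]
    rw [Module.End.mul_apply, h1, map_zero]

end filt


section frame

variable {ι : Type*} [Fintype ι] [DecidableEq ι] {δ : Type*} [Fintype δ] [DecidableEq δ]
variable {n : Type*} [Fintype n] [DecidableEq n]
variable {k K : Type*} [Field k] [Field K] [Algebra k K]
variable {M : Type*} [AddCommGroup M] [Module K M]
variable {m : Type*} [Fintype m] [DecidableEq m]
variable {arm : δ → Fin 3} {J : Matrix ι ι K} {B : Matrix δ δ K}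
  {N W : Submodule K (Matrix ι δ K)} {F G : Matrix ι δ K} {p : Matrix ι n K}
  {al : Fin 3 → Matrix n n K} {tau : Matrix n n K}
  {β : LinearMap.BilinForm K M} {T : Module.End K M →ₗ[K] Module.End K M}
  {Ψ : Fin 3 → Module.End K M} {D : Module.End K M} {π : (n → K) →ₗ[K] M}
  {e : m → Matrix n n K} {lam : m → K} {l : Fin 3 → ℕ} {TT : Set k}

theorem gt (h : Fr k arm J B N W F G p al tau β T Ψ D π e lam l TT) :
    (pᵀ * J * p)ᵀ = pᵀ * J * p := by
  rw [transpose_mul, transpose_mul, transpose_transpose, h.ctx.data.J_symm, Matrix.mul_assoc]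

theorem ker_iff (h : Fr k arm J B N W F G p al tau β T Ψ D π e lam l TT) (u : n → K) :
    π u = 0 ↔ (pᵀ * J * p) *ᵥ u = 0 := by
  have hform := h.cr.form
  constructor
  · intro hu
    have h1 : ∀ y : n → K, y ⬝ᵥ ((pᵀ * J * p) *ᵥ u) = 0 := by
      intro y
      rw [← hform, hu, map_zero]
    funext i
    have := h1 (Pi.single i 1)
    rwa [single_one_dotProduct] at this
  · intro hu
    apply h.cr.ns.nd
    intro w
    obtain ⟨y, rfl⟩ := h.cr.onto w
    rw [h.cr.ns.symm, hform, hu, dotProduct_zero]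

theorem pi_e (h : Fr k arm J B N W F G p al tau β T Ψ D π e lam l TT) (i : m) {u : n → K}
    (hu : π u = 0) : π (e i *ᵥ u) = 0 := by
  rw [ker_iff h] at hu ⊢
  rw [mulVec_mulVec, ← h.eg, ← mulVec_mulVec, hu, mulVec_zero]

theorem al_pow (h : Fr k arm J B N W F G p al tau β T Ψ D π e lam l TT) (s : Fin 3) (a : ℕ)
    (u : n → K) : π ((al s ^ a) *ᵥ u) = (Ψ s ^ a) (π u) := by
  induction a generalizing u with
  | zero => simp
  | succ a ih =>
    rw [pow_succ, ← mulVec_mulVec, ih, pow_succ, Module.End.mul_apply, h.cr.op]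

theorem e_pow (h : Fr k arm J B N W F G p al tau β T Ψ D π e lam l TT) (i : m) (s : Fin 3)
    (a : ℕ) : e i * al s ^ a = al s ^ a * e i := by
  have h1 : Commute (e i) (al s) := h.eal i s
  exact (h1.pow_right a).eq

theorem single_mul (s : Fin 3) (Q : Submodule K (Fin 3 → Matrix n n K)) (X z Y : Matrix n n K)
    (h : ∀ a b : n, (Pi.single s (vecMulVec (X *ᵥ Pi.single a 1) (Y *ᵥ Pi.single b 1)) :
      Fin 3 → Matrix n n K) ∈ Q) :
    (Pi.single s (X * z * Yᵀ) : Fin 3 → Matrix n n K) ∈ Q := by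
  have e1 : X * z * Yᵀ = ∑ a, ∑ b, z a b • vecMulVec (X *ᵥ Pi.single a 1) (Y *ᵥ Pi.single b 1) := by
    ext u v
    simp only [Matrix.mul_apply, Matrix.sum_apply, Matrix.smul_apply, vecMulVec_apply,
      mulVec_single_one, Matrix.col_apply, Matrix.transpose_apply, smul_eq_mul, Finset.sum_mul]
    rw [Finset.sum_comm]
    refine Finset.sum_congr rfl fun a _ => Finset.sum_congr rfl fun b _ => ?_
    ring
  have e2 : (Pi.single s (X * z * Yᵀ) : Fin 3 → Matrix n n K) =
      ∑ a, ∑ b, z a b • (Pi.single s (vecMulVec (X *ᵥ Pi.single a 1) (Y *ᵥ Pi.single b 1)) :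
        Fin 3 → Matrix n n K) := by
    rw [e1]
    funext r
    by_cases hr : r = s
    · subst hr
      simp
    · simp [Pi.single_eq_of_ne hr]
  rw [e2]
  exact Submodule.sum_mem _ fun a _ => Submodule.sum_mem _ fun b _ => Q.smul_mem _ (h a b)

/-- a block matrix which vanishes on the core is a sum of radical tensors -/
theorem rad_mem (h : Fr k arm J B N W F G p al tau β T Ψ D π e lam l TT) {i j : m}
    (Q : Submodule K (Fin 3 → Matrix n n K)) (s : Fin 3)
    (A2 : ∀ r u, π (e j *ᵥ r) = 0 →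
      (Pi.single s (vecMulVec (e j *ᵥ r) (e i *ᵥ u)) : Fin 3 → Matrix n n K) ∈ Q)
    (A3 : ∀ u r, π (e i *ᵥ r) = 0 →
      (Pi.single s (vecMulVec (e j *ᵥ u) (e i *ᵥ r)) : Fin 3 → Matrix n n K) ∈ Q)
    (z : Matrix n n K) (hz : e j * z * (e i)ᵀ = z)
    (hg : (pᵀ * J * p) * z * (pᵀ * J * p) = 0) :
    (Pi.single s z : Fin 3 → Matrix n n K) ∈ Q := by
  obtain ⟨g, hgd⟩ : ∃ g, g = pᵀ * J * p := ⟨_, rfl⟩
  have hgt : gᵀ = g := by rw [hgd]; exact gt h
  have hk : ∀ u, π u = 0 ↔ g *ᵥ u = 0 := by rw [hgd]; exact ker_iff h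
  rw [← hgd] at hg
  obtain ⟨R, hR⟩ := exists_gen_inv g
  obtain ⟨H, hH⟩ : ∃ H, H = R * g := ⟨_, rfl⟩
  have hgH : g * H = g := by rw [hH, ← Matrix.mul_assoc, hR]
  have hHz : H * z * Hᵀ = 0 := by
    rw [hH, transpose_mul, hgt]
    have : R * g * z * (g * Rᵀ) = R * (g * z * g) * Rᵀ := by simp only [Matrix.mul_assoc]
    rw [this, hg, Matrix.mul_zero, Matrix.zero_mul]
  have hπ : ∀ u, π ((1 - H) *ᵥ u) = 0 := by
    intro u
    rw [hk, mulVec_mulVec, Matrix.mul_sub, Matrix.mul_one, hgH, sub_self, zero_mulVec]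
  have e1 : z = (e j * (1 - H)) * z * (e i)ᵀ + (e j * H) * z * (e i * (1 - H))ᵀ := by
    have e2 : (e j * H) * z * (e i * (1 - H))ᵀ =
        e j * (H * z) * (e i)ᵀ - e j * (H * z * Hᵀ) * (e i)ᵀ := by
      rw [transpose_mul, transpose_sub, transpose_one, Matrix.sub_mul, Matrix.one_mul,
        Matrix.mul_sub]
      simp only [Matrix.mul_assoc]
    rw [e2, hHz, Matrix.mul_zero, Matrix.zero_mul, sub_zero, Matrix.mul_sub, Matrix.mul_one,
      Matrix.sub_mul, Matrix.sub_mul, hz]
    simp only [Matrix.mul_assoc]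
    abel
  rw [e1, Pi.single_add]
  refine Q.add_mem ?_ ?_
  · refine single_mul s Q _ _ _ fun a b => ?_
    rw [← mulVec_mulVec]
    exact A2 _ _ (pi_e h j (hπ _))
  · refine single_mul s Q _ _ _ fun a b => ?_
    rw [← mulVec_mulVec, ← mulVec_mulVec]
    exact A3 _ _ (pi_e h i (hπ _))

/-- **filtered block tensors from elementary and radical tensors** -/
theorem filt_mem (h : Fr k arm J B N W F G p al tau β T Ψ D π e lam l TT) {i j : m}
    (Q : Submodule K (Fin 3 → Matrix n n K)) (s : Fin 3)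
    (A1 : ∀ a b, b + a + 1 = l s → ∀ u v : n → K,
      (Pi.single s (vecMulVec ((al s ^ b) *ᵥ (e j *ᵥ u)) ((al s ^ a) *ᵥ (e i *ᵥ v))) :
        Fin 3 → Matrix n n K) ∈ Q)
    (A2 : ∀ r u, π (e j *ᵥ r) = 0 →
      (Pi.single s (vecMulVec (e j *ᵥ r) (e i *ᵥ u)) : Fin 3 → Matrix n n K) ∈ Q)
    (A3 : ∀ u r, π (e i *ᵥ r) = 0 →
      (Pi.single s (vecMulVec (e j *ᵥ u) (e i *ᵥ r)) : Fin 3 → Matrix n n K) ∈ Q)
    (y : Matrix n n K) (hy : e j * y * (e i)ᵀ = y) (hf : Fil (pᵀ * J * p) π Ψ s y) :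
    (Pi.single s y : Fin 3 → Matrix n n K) ∈ Q := by
  have hfin : FiniteDimensional K M := Module.Finite.of_surjective π h.cr.onto
  obtain ⟨yb, hyb, hfil⟩ := hf
  have h0 := filt_span h.cr.ns (h.cr.sa s) (h.lnil s) (h.free s) yb hfil
  have hform : ∀ y y', β (π y) (π y') = y ⬝ᵥ ((pᵀ * J * p) *ᵥ y') := h.cr.form
  obtain ⟨g, hgd⟩ : ∃ g, g = pᵀ * J * p := ⟨_, rfl⟩
  have hgt : gᵀ = g := by rw [hgd]; exact gt h
  rw [← hgd] at hform hyb
  have heg : ∀ i, (e i)ᵀ * g = g * e i := by rw [hgd]; exact h.eg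
  have hee : ∀ (i : m) (x w : n → K), (e i *ᵥ x) ⬝ᵥ (g *ᵥ (e i *ᵥ w)) = x ⬝ᵥ (g *ᵥ (e i *ᵥ w)) := by
    intro i x w
    rw [RDEnd.dt, mulVec_mulVec, mulVec_mulVec, mulVec_mulVec, heg, Matrix.mul_assoc, h.idem]
  -- the claim
  have key : ∀ X ∈ Submodule.span K (G1 β (Ψ s) (l s)), ∃ Y : Matrix n n K,
      (Pi.single s Y : Fin 3 → Matrix n n K) ∈ Q ∧ e j * Y * (e i)ᵀ = Y ∧
      ∀ u u', (Y *ᵥ (g *ᵥ (e i *ᵥ u))) ⬝ᵥ (g *ᵥ (e j *ᵥ u')) =
        β (X (π (e i *ᵥ u))) (π (e j *ᵥ u')) := by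
    intro X hX
    induction hX using Submodule.span_induction with
    | mem X hX =>
      obtain ⟨a, b, u, v, hab, rfl⟩ := hX
      obtain ⟨u, rfl⟩ := h.cr.onto u
      obtain ⟨v, rfl⟩ := h.cr.onto v
      refine ⟨_, A1 a b hab u v, ?_, ?_⟩
      · have e1 : (al s ^ b) *ᵥ (e j *ᵥ u) = e j *ᵥ ((al s ^ b) *ᵥ u) := by
          rw [mulVec_mulVec, mulVec_mulVec, e_pow h]
        have e2 : (al s ^ a) *ᵥ (e i *ᵥ v) = e i *ᵥ ((al s ^ a) *ᵥ v) := by
          rw [mulVec_mulVec, mulVec_mulVec, e_pow h]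
        have hid : ∀ (i : m) (x : n → K), e i *ᵥ (e i *ᵥ x) = e i *ᵥ x := by
          intro i x
          rw [mulVec_mulVec, h.idem]
        rw [e1, e2, mul_vecMulVec, vecMulVec_mul, vecMul_transpose, hid, hid]
      · intro w w'
        have e1 : (al s ^ b) *ᵥ (e j *ᵥ u) = e j *ᵥ ((al s ^ b) *ᵥ u) := by
          rw [mulVec_mulVec, mulVec_mulVec, e_pow h]
        have e2 : (al s ^ a) *ᵥ (e i *ᵥ v) = e i *ᵥ ((al s ^ a) *ᵥ v) := by
          rw [mulVec_mulVec, mulVec_mulVec, e_pow h]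
        rw [LinearMap.smulRight_apply, map_smul, LinearMap.smul_apply, ← al_pow h, ← al_pow h,
          hform, hform, vecMulVec_mulVec, e1, e2, op_smul_eq_smul, smul_dotProduct, hee, hee,
          smul_eq_mul]
    | zero =>
      refine ⟨0, ?_, ?_, ?_⟩
      · rw [Pi.single_zero]; exact Q.zero_mem
      · simp
      · intro u u'; simp
    | add X X' _ _ hX hX' =>
      obtain ⟨Y, y1, y2, y3⟩ := hX
      obtain ⟨Y', y1', y2', y3'⟩ := hX'
      refine ⟨Y + Y', ?_, ?_, ?_⟩
      · rw [Pi.single_add]; exact Q.add_mem y1 y1'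
      · rw [Matrix.mul_add, Matrix.add_mul, y2, y2']
      · intro u u'
        rw [Matrix.add_mulVec, add_dotProduct, y3, y3', LinearMap.add_apply, map_add,
          LinearMap.add_apply]
    | smul c X _ hX =>
      obtain ⟨Y, y1, y2, y3⟩ := hX
      refine ⟨c • Y, ?_, ?_, ?_⟩
      · rw [Pi.single_smul]; exact Q.smul_mem c y1
      · rw [Matrix.mul_smul, Matrix.smul_mul, y2]
      · intro u u'
        rw [Matrix.smul_mulVec, smul_dotProduct, y3, LinearMap.smul_apply, map_smul,
          LinearMap.smul_apply]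
  obtain ⟨Y, y1, y2, y3⟩ := key yb h0
  have hz : e j * (y - Y) * (e i)ᵀ = y - Y := by
    rw [Matrix.mul_sub, Matrix.sub_mul, hy, y2]
  have h5 : ∀ u u', ((y - Y) *ᵥ (g *ᵥ (e i *ᵥ u))) ⬝ᵥ (g *ᵥ (e j *ᵥ u')) = 0 := by
    intro u u'
    rw [Matrix.sub_mulVec, sub_dotProduct, y3, ← hyb, hform, sub_self]
  have h6 : g * (y - Y) * g = 0 := by
    have h7 : g * (y - Y) * g = (e j)ᵀ * g * (y - Y) * (g * e i) := by
      conv_lhs => rw [← hz]
      rw [heg]
      have := heg i
      simp only [Matrix.mul_assoc]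
      rw [this]
    rw [h7]
    ext a b
    have h8 := h5 (Pi.single b 1) (Pi.single a 1)
    rw [dotProduct_comm, dotProduct_mulVec] at h8
    have h9 : ((e j)ᵀ * g * (y - Y) * (g * e i)) a b =
        (Pi.single a 1 : n → K) ⬝ᵥ (((e j)ᵀ * g * (y - Y) * (g * e i)) *ᵥ Pi.single b 1) := by
      rw [single_one_dotProduct, mulVec_single_one]; rfl
    rw [h9, Matrix.zero_apply]
    have h10 : ((e j)ᵀ * g * (y - Y) * (g * e i)) *ᵥ (Pi.single b 1 : n → K) =
        (e j)ᵀ *ᵥ (g *ᵥ ((y - Y) *ᵥ (g *ᵥ (e i *ᵥ Pi.single b 1)))) := by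
      simp only [mulVec_mulVec, Matrix.mul_assoc]
    rw [h10, ← RDEnd.dt, ← hgt, ← RDEnd.dt, hgt, dotProduct_comm]
    exact h5 _ _
  have h7 := rad_mem h Q s A2 A3 (y - Y) hz (by rw [← hgd]; exact h6)
  have h8 : (Pi.single s y : Fin 3 → Matrix n n K) = Pi.single s Y + Pi.single s (y - Y) := by
    rw [← Pi.single_add, add_sub_cancel]
  rw [h8]
  exact Q.add_mem y1 h7

/-- the matrix of a block tensor -/
noncomputable def mb (e : m → Matrix n n K) (i j : m) :
    (LinearMap.range (toLin' (e j))) ⊗[K] (LinearMap.range (toLin' (e i))) →ₗ[K] Matrix n n K :=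
  RDEnd.mt ∘ₗ TensorProduct.map (LinearMap.range (toLin' (e j))).subtype
    (LinearMap.range (toLin' (e i))).subtype

theorem mb_tmul (i j : m) (u : LinearMap.range (toLin' (e j)))
    (v : LinearMap.range (toLin' (e i))) :
    mb e i j (u ⊗ₜ[K] v) = vecMulVec (u : n → K) (v : n → K) := rfl

/-- `al t` on the block `i` -/
noncomputable def ab (h : Fr k arm J B N W F G p al tau β T Ψ D π e lam l TT) (i : m)
    (t : Fin 3) : End K (LinearMap.range (toLin' (e i))) :=
  (toLin' (al t)).restrict (by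
    rintro _ ⟨x, rfl⟩
    refine ⟨al t *ᵥ x, ?_⟩
    rw [toLin'_apply, toLin'_apply, toLin'_apply, mulVec_mulVec, mulVec_mulVec, h.eal])

theorem ab_coe (h : Fr k arm J B N W F G p al tau β T Ψ D π e lam l TT) (i : m)
    (t : Fin 3) (v : LinearMap.range (toLin' (e i))) :
    ((ab h i t v : LinearMap.range (toLin' (e i))) : n → K) = al t *ᵥ (v : n → K) := rfl

theorem ab_pow (h : Fr k arm J B N W F G p al tau β T Ψ D π e lam l TT) (i : m)
    (t : Fin 3) (a : ℕ) (v : LinearMap.range (toLin' (e i))) :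
    (((ab h i t ^ a) v : LinearMap.range (toLin' (e i))) : n → K) = (al t ^ a) *ᵥ (v : n → K) := by
  induction a generalizing v with
  | zero => simp
  | succ a ih =>
    rw [pow_succ, Module.End.mul_apply, ih, ab_coe, mulVec_mulVec, pow_succ]

theorem ab_word (h : Fr k arm J B N W F G p al tau β T Ψ D π e lam l TT) (i : m)
    (w : List (Fin 3)) (v : LinearMap.range (toLin' (e i))) :
    (((w.map (ab h i)).prod v : LinearMap.range (toLin' (e i))) : n → K) =
      (w.map al).prod *ᵥ (v : n → K) := by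
  induction w generalizing v with
  | nil => simp
  | cons a w ih =>
    rw [List.map_cons, List.prod_cons, List.map_cons, List.prod_cons, Module.End.mul_apply,
      ab_coe, ih, mulVec_mulVec]

theorem mb_defect (h : Fr k arm J B N W F G p al tau β T Ψ D π e lam l TT) (i j : m) (t : Fin 3)
    (c : K) (x : (LinearMap.range (toLin' (e j))) ⊗[K] (LinearMap.range (toLin' (e i)))) :
    mb e i j (Dual.defect (ab h i t) (ab h j t) c x) =
      mb e i j x * (al t)ᵀ - c • (al t * mb e i j x) := by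
  induction x using TensorProduct.induction_on with
  | zero => simp
  | tmul u v =>
    rw [Dual.defect_tmul, map_sub, map_smul, mb_tmul, mb_tmul, mb_tmul, ab_coe, ab_coe,
      vecMulVec_mul, vecMul_transpose, mul_vecMulVec]
  | add x y hx hy =>
    rw [map_add, map_add, hx, hy, map_add, Matrix.add_mul, Matrix.mul_add, smul_add]
    abel

theorem mb_block (h : Fr k arm J B N W F G p al tau β T Ψ D π e lam l TT) (i j : m)
    (x : (LinearMap.range (toLin' (e j))) ⊗[K] (LinearMap.range (toLin' (e i)))) :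
    e j * mb e i j x * (e i)ᵀ = mb e i j x := by
  induction x using TensorProduct.induction_on with
  | zero => simp
  | tmul u v =>
    obtain ⟨_, u, rfl⟩ := u
    obtain ⟨_, v, rfl⟩ := v
    rw [mb_tmul, mul_vecMulVec, vecMulVec_mul, vecMul_transpose]
    simp only [toLin'_apply, mulVec_mulVec, h.idem]
  | add x y hx hy =>
    rw [map_add, Matrix.mul_add, Matrix.add_mul, hx, hy]

/-- the radical of a block -/
noncomputable def Rb (π : (n → K) →ₗ[K] M) (e : m → Matrix n n K) (i : m) :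
    Submodule K (LinearMap.range (toLin' (e i))) :=
  LinearMap.ker (π ∘ₗ (LinearMap.range (toLin' (e i))).subtype)

theorem mem_Rb {i : m} {v : LinearMap.range (toLin' (e i))} :
    v ∈ Rb π e i ↔ π (v : n → K) = 0 := Iff.rfl

theorem mb_rad (h : Fr k arm J B N W F G p al tau β T Ψ D π e lam l TT) (i j : m)
    (x : (LinearMap.range (toLin' (e j))) ⊗[K] (LinearMap.range (toLin' (e i))))
    (hx : x ∈ Dual.Rad (Rb π e i) (Rb π e j)) :
    (pᵀ * J * p) * mb e i j x * (pᵀ * J * p) = 0 := by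
  have hgt := gt h
  have h1 : Dual.Rad (Rb π e i) (Rb π e j) ≤ LinearMap.ker
      ((LinearMap.mulRight K (pᵀ * J * p)) ∘ₗ (LinearMap.mulLeft K (pᵀ * J * p)) ∘ₗ mb e i j) := by
    unfold Dual.Rad
    rw [sup_le_iff, Submodule.span_le, Submodule.span_le]
    constructor
    · rintro _ ⟨r, hr, u, rfl⟩
      rw [mem_Rb, ker_iff h] at hr
      change (pᵀ * J * p) * mb e i j (r ⊗ₜ u) * (pᵀ * J * p) = 0
      rw [mb_tmul, mul_vecMulVec, hr, zero_vecMulVec, Matrix.zero_mul]
    · rintro _ ⟨u, r, hr, rfl⟩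
      rw [mem_Rb, ker_iff h] at hr
      change (pᵀ * J * p) * mb e i j (u ⊗ₜ r) * (pᵀ * J * p) = 0
      rw [mb_tmul, mul_vecMulVec, vecMulVec_mul, ← mulVec_transpose, hgt, hr, vecMulVec_zero]
  exact h1 hx

theorem RS_rel {y : Fin 3 → Matrix n n K} {z0 : Matrix n n K} {μ0 : Fin 3 → Matrix n n K}
    (hy : RS arm J B N W F p T Ψ π e y z0 μ0) : y ∈ RDEnd.Rel arm J N W F p π T 0 Ψ := by
  obtain ⟨w, z, μ, h1, h2, h3, -, ⟨zb, h4, h5⟩, -⟩ := hy
  exact ⟨w, z, zb, h1, h2, h3, h4, h5⟩

/-- the three kinds of single-arm tensors -/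
theorem arms [CharZero K] (h : Fr k arm J B N W F G p al tau β T Ψ D π e lam l TT)
    {i j : m} (hij : i ≠ j) {S : Set K} (hS : S.Finite)
    (hh : ∀ c ∉ S, ∀ (x : Fin 3 → Matrix n n K) (b kk : Matrix n n K),
      Dec (pᵀ * J * p) π e i j (fun r => al r) (fun r => c • al r) x b kk →
      x ∈ RDEnd.Rel arm J N W F p π T 0 Ψ) :
    (∀ s a b, a + b + 1 = l s → ∀ u v : n → K,
      (Pi.single s (vecMulVec ((al s ^ b) *ᵥ (e j *ᵥ u)) ((al s ^ a) *ᵥ (e i *ᵥ v))) :
        Fin 3 → Matrix n n K) ∈ RDEnd.Rel arm J N W F p π T 0 Ψ) ∧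
    (∀ s r u, π (e j *ᵥ r) = 0 →
      (Pi.single s (vecMulVec (e j *ᵥ r) (e i *ᵥ u)) : Fin 3 → Matrix n n K) ∈
        RDEnd.Rel arm J N W F p π T 0 Ψ) ∧
    (∀ s u r, π (e i *ᵥ r) = 0 →
      (Pi.single s (vecMulVec (e j *ᵥ u) (e i *ᵥ r)) : Fin 3 → Matrix n n K) ∈
        RDEnd.Rel arm J N W F p π T 0 Ψ) := by
  have hinf : ({c : K | c ∉ S ∧ c ≠ 0}).Infinite := by
    have h1 : (S ∪ {0}).Finite := hS.union (Set.finite_singleton 0)
    refine h1.infinite_compl.mono ?_
    intro c hc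
    rw [Set.mem_compl_iff, Set.mem_union, not_or] at hc
    exact ⟨hc.1, hc.2⟩
  obtain ⟨m0, hm0⟩ := h.kill
  obtain ⟨ρ, hρ⟩ := h.ctx.perf
  have perf : ∀ (i : m) (u : LinearMap.range (toLin' (e i))),
      ∃ f : Fin 3 → LinearMap.range (toLin' (e i)), u = ∑ t, ab h i t (f t) := by
    rintro i ⟨_, u, rfl⟩
    refine ⟨fun t => ⟨toLin' (e i) (ρ t *ᵥ u), ⟨_, rfl⟩⟩, ?_⟩
    apply Subtype.ext
    rw [AddSubmonoidClass.coe_finsetSum]
    simp only [ab_coe, toLin'_apply, mulVec_mulVec]
    have h1 : ∀ t, al t * (e i * ρ t) = e i * (al t * ρ t) := by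
      intro t
      rw [← Matrix.mul_assoc, ← h.eal, Matrix.mul_assoc]
    simp only [h1]
    rw [← Matrix.sum_mulVec, ← Matrix.mul_sum, hρ, Matrix.mul_one]
  have stab : ∀ (i : m) (t : Fin 3), ∀ r ∈ Rb π e i, ab h i t r ∈ Rb π e i := by
    intro i t r hr
    rw [mem_Rb] at hr ⊢
    rw [ab_coe, ← h.cr.op, hr, map_zero]
  have kl : ∀ i : m, ∃ n0, ∀ r ∈ Rb π e i, Dual.Kills (ab h i) n0 r := by
    intro i
    refine ⟨m0, fun r hr w hw => ?_⟩
    apply Subtype.ext
    rw [ab_word, hm0 w hw _ (mem_Rb.1 hr)]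
    rfl
  have hl : ∀ (i : m) (s : Fin 3) (u : LinearMap.range (toLin' (e i))),
      (ab h i s ^ l s) u ∈ Rb π e i := by
    intro i s u
    rw [mem_Rb, ab_pow, al_pow h, h.lnil]; rfl
  have gn : ∀ (i : m) (S : Submodule K (LinearMap.range (toLin' (e i)))),
      (∀ s u, (ab h i s ^ l s) u ∈ S) → (∀ t, ∀ r ∈ S, ab h i t r ∈ S) → Rb π e i ≤ S := by
    rintro i S h1 h2 ⟨_, u, rfl⟩ hr
    rw [mem_Rb] at hr
    have h3 := h.gen i (S.map (LinearMap.range (toLin' (e i))).subtype) (by
      rintro s _ ⟨v, hv, rfl⟩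
      exact ⟨ab h i s v, h2 s v hv, rfl⟩) (by
      intro s u
      exact ⟨(ab h i s ^ l s) ⟨toLin' (e i) u, ⟨u, rfl⟩⟩, h1 s _, by
        rw [Submodule.coe_subtype, ab_pow]; rfl⟩) u hr
    obtain ⟨v, hv, hvu⟩ := h3
    have h4 : v = ⟨toLin' (e i) u, ⟨u, rfl⟩⟩ := Subtype.ext hvu
    rw [← h4]; exact hv
  obtain ⟨r1, r2, r3⟩ := Dual.span_exact (A := ab h i) (B := ab h j) (R1 := Rb π e i)
    (R2 := Rb π e j) (l := l) hinf (fun h0 => h0.2 rfl) (perf i) (perf j) (stab i) (stab j)
    (kl i) (kl j) (hl i) (hl j) (gn i) (gn j)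
    (fun t => (RDEnd.qs (K := K) (n := n) t).domRestrict₁₂ (LinearMap.range (toLin' (e j)))
      (LinearMap.range (toLin' (e i))))
    (RDEnd.Rel arm J N W F p π T 0 Ψ) (by
      rintro c ⟨hcS, hc0⟩ x ⟨hx1, hx2⟩
      have e1 : ∑ t, TensorProduct.lift ((RDEnd.qs (K := K) (n := n) t).domRestrict₁₂
          (LinearMap.range (toLin' (e j))) (LinearMap.range (toLin' (e i)))) (x t) =
          fun t => mb e i j (x t) := by
        have e2 : ∀ t (z : (LinearMap.range (toLin' (e j))) ⊗[K] (LinearMap.range (toLin' (e i)))),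
            TensorProduct.lift ((RDEnd.qs (K := K) (n := n) t).domRestrict₁₂
              (LinearMap.range (toLin' (e j))) (LinearMap.range (toLin' (e i)))) z =
            Pi.single t (mb e i j z) := by
          intro t z
          induction z using TensorProduct.induction_on with
          | zero => simp
          | tmul u v => rw [TensorProduct.lift.tmul, mb_tmul]; rfl
          | add a b ha hb => rw [map_add, ha, hb, map_add, Pi.single_add]
        simp only [e2]
        funext r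
        rw [Finset.sum_apply, Finset.sum_eq_single r]
        · rw [Pi.single_eq_same]
        · intro s _ hs
          rw [Pi.single_eq_of_ne (Ne.symm hs)]
        · intro hr; exact absurd (Finset.mem_univ r) hr
      rw [e1]
      have s1 : ∑ r, (mb e i j (x r) * (al r)ᵀ - c • (al r * mb e i j (x r))) = 0 := by
        simp only [← mb_defect h]
        rw [← map_sum, hx1, map_zero]
      have s2 : ∀ r, (pᵀ * J * p) * (mb e i j (x r) * (al r)ᵀ - c • (al r * mb e i j (x r))) *
          (pᵀ * J * p) = 0 := by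
        intro r
        rw [← mb_defect h]
        exact mb_rad h i j _ (hx2 r)
      obtain ⟨b, kk, b1, b2, b3, b4, b5, b6⟩ := h.hexS i j hij c hc0 (fun r => mb e i j (x r))
        (fun r => mb_block h i j (x r)) s1 s2
      refine hh c hcS _ b kk ⟨fun r => mb_block h i j (x r), b1, b2, b3, b4, ?_, ?_, ?_, ?_⟩
      · simpa only [Matrix.smul_mul] using s1
      · simpa only [Matrix.smul_mul] using s2
      · intro r
        rw [Matrix.mul_smul]; exact b5 r
      · intro r
        rw [Matrix.smul_mul]; exact b6 r)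
  refine ⟨fun s a b hab u v => ?_, fun s r u hr => ?_, fun s u r hr => ?_⟩
  · have h1 := r1 s a b hab ⟨toLin' (e j) u, ⟨u, rfl⟩⟩ ⟨toLin' (e i) v, ⟨v, rfl⟩⟩
    rw [LinearMap.domRestrict₁₂_apply, RDEnd.qs_apply, ab_pow, ab_pow] at h1
    exact h1
  · exact r2 s ⟨toLin' (e j) r, ⟨r, rfl⟩⟩ hr ⟨toLin' (e i) u, ⟨u, rfl⟩⟩
  · exact r3 s ⟨toLin' (e i) r, ⟨r, rfl⟩⟩ hr ⟨toLin' (e j) u, ⟨u, rfl⟩⟩

/-- RD4 from the weak form of RD2 -/
theorem offdiag_of [CharZero K] (h : Fr k arm J B N W F G p al tau β T Ψ D π e lam l TT)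
    {i j : m} (hij : i ≠ j) {S : Set K} (hS : S.Finite)
    (hh : ∀ c ∉ S, ∀ (x : Fin 3 → Matrix n n K) (b kk : Matrix n n K),
      Dec (pᵀ * J * p) π e i j (fun r => al r) (fun r => c • al r) x b kk →
      x ∈ RDEnd.Rel arm J N W F p π T 0 Ψ) (s : Fin 3) (y : Matrix n n K)
    (hy : e j * y * (e i)ᵀ = y) (hf : Fil (pᵀ * J * p) π Ψ s y) :
    (Pi.single s y : Fin 3 → Matrix n n K) ∈ RDEnd.Rel arm J N W F p π T 0 Ψ := by
  obtain ⟨a1, a2, a3⟩ := arms h hij hS hh
  exact filt_mem h _ s (fun a b hab u v => a1 s a b (by omega) u v) (a2 s) (a3 s) y hy hf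

end frame

end Crest.Agent.R172.RD795
end

-- ▼ part R172/RDdiag795
section

/-!
Row 172 (S0260), RD5 `diag` (copy of helper795): the diagonal blocks, from `RJM.main`.
Also the `HalvesP → OffP` form of RD4.
-/

set_option autoImplicit false
set_option linter.unusedSectionVars false

namespace Crest.Agent.R172.RD795

open Matrix Module TensorProduct Crest.Agent.R172.FO Crest.Agent.R172.FrmB Crest.Agent.R172.RD
open Crest.Agent.R172.Core (NS Tame)
open Crest.Agent.R172.PL (Wk)

variable {ι : Type*} [Fintype ι] [DecidableEq ι] {δ : Type*} [Fintype δ] [DecidableEq δ]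
variable {n : Type*} [Fintype n] [DecidableEq n]
variable {k K : Type*} [Field k] [Field K] [Algebra k K]
variable {M : Type*} [AddCommGroup M] [Module K M]
variable {m : Type*} [Fintype m] [DecidableEq m]
variable {arm : δ → Fin 3} {J : Matrix ι ι K} {B : Matrix δ δ K}
  {N W : Submodule K (Matrix ι δ K)} {F G : Matrix ι δ K} {p : Matrix ι n K}
  {al : Fin 3 → Matrix n n K} {tau : Matrix n n K}
  {β : LinearMap.BilinForm K M} {T : Module.End K M →ₗ[K] Module.End K M}
  {Ψ : Fin 3 → Module.End K M} {D : Module.End K M} {π : (n → K) →ₗ[K] M}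
  {e : m → Matrix n n K} {lam : m → K} {l : Fin 3 → ℕ} {TT : Set k}

/-- **RD4** -/
theorem offdiag [CharZero K] (h : Fr k arm J B N W F G p al tau β T Ψ D π e lam l TT)
    {i j : m} (hij : i ≠ j) (hh : HalvesP arm J B N W F p al T Ψ π e i j) :
    OffP arm J N W F p T Ψ π e i j := by
  obtain ⟨S, hS, hh⟩ := hh
  intro s y hy hf
  exact offdiag_of h hij hS (fun c hc x b kk hx => RS_rel (hh c hc x b kk hx).1) s y hy hf

/-! ### facts on the blocks -/

theorem b_perf (h : Fr k arm J B N W F G p al tau β T Ψ D π e lam l TT) (i : m)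
    (u : LinearMap.range (toLin' (e i))) :
    ∃ f : Fin 3 → LinearMap.range (toLin' (e i)), u = ∑ t, ab h i t (f t) := by
  obtain ⟨ρ, hρ⟩ := h.ctx.perf
  obtain ⟨_, u, rfl⟩ := u
  refine ⟨fun t => ⟨toLin' (e i) (ρ t *ᵥ u), ⟨_, rfl⟩⟩, ?_⟩
  apply Subtype.ext
  rw [AddSubmonoidClass.coe_finsetSum]
  simp only [ab_coe, toLin'_apply, mulVec_mulVec]
  have h1 : ∀ t, al t * (e i * ρ t) = e i * (al t * ρ t) := by
    intro t
    rw [← Matrix.mul_assoc, ← h.eal, Matrix.mul_assoc]
  simp only [h1]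
  rw [← Matrix.sum_mulVec, ← Matrix.mul_sum, hρ, Matrix.mul_one]

theorem b_top (h : Fr k arm J B N W F G p al tau β T Ψ D π e lam l TT) (i : m) :
    ⨆ t, LinearMap.range (ab h i t) = ⊤ := by
  rw [eq_top_iff]
  intro u _
  obtain ⟨f, hf⟩ := b_perf h i u
  rw [hf]
  exact Submodule.sum_mem _ fun t _ => Submodule.mem_iSup_of_mem t ⟨f t, rfl⟩

theorem b_stab (h : Fr k arm J B N W F G p al tau β T Ψ D π e lam l TT) (i : m) (t : Fin 3) :
    ∀ r ∈ Rb π e i, ab h i t r ∈ Rb π e i := by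
  intro r hr
  rw [mem_Rb] at hr ⊢
  rw [ab_coe, ← h.cr.op, hr, map_zero]

theorem b_l (h : Fr k arm J B N W F G p al tau β T Ψ D π e lam l TT) (i : m) (s : Fin 3)
    (u : LinearMap.range (toLin' (e i))) : (ab h i s ^ l s) u ∈ Rb π e i := by
  rw [mem_Rb, ab_pow, al_pow h, h.lnil]; rfl

theorem b_gen (h : Fr k arm J B N W F G p al tau β T Ψ D π e lam l TT) (i : m)
    (S : Submodule K (LinearMap.range (toLin' (e i)))) (h2 : ∀ t, ∀ r ∈ S, ab h i t r ∈ S)
    (h1 : ∀ s u, (ab h i s ^ l s) u ∈ S) : Rb π e i ≤ S := by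
  rintro ⟨_, u, rfl⟩ hr
  rw [mem_Rb] at hr
  have h3 := h.gen i (S.map (LinearMap.range (toLin' (e i))).subtype) (by
    rintro s _ ⟨v, hv, rfl⟩
    exact ⟨ab h i s v, h2 s v hv, rfl⟩) (by
    intro s u
    exact ⟨(ab h i s ^ l s) ⟨toLin' (e i) u, ⟨u, rfl⟩⟩, h1 s _, by
      rw [Submodule.coe_subtype, ab_pow]; rfl⟩) u hr
  obtain ⟨v, hv, hvu⟩ := h3
  have h4 : v = ⟨toLin' (e i) u, ⟨u, rfl⟩⟩ := Subtype.ext hvu
  rw [← h4]; exact hv

theorem e_mem (h : Fr k arm J B N W F G p al tau β T Ψ D π e lam l TT) (i : m)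
    (u : LinearMap.range (toLin' (e i))) : e i *ᵥ (u : n → K) = u := by
  obtain ⟨_, u, rfl⟩ := u
  simp only [toLin'_apply, mulVec_mulVec, h.idem]

/-- the matrix of a map between blocks -/
noncomputable def mh (e : m → Matrix n n K) (i j : m)
    (b : LinearMap.range (toLin' (e j)) →ₗ[K] LinearMap.range (toLin' (e i))) : Matrix n n K :=
  LinearMap.toMatrix' ((LinearMap.range (toLin' (e i))).subtype ∘ₗ b ∘ₗ
    (toLin' (e j)).rangeRestrict)

theorem mh_apply (i j : m)
    (b : LinearMap.range (toLin' (e j)) →ₗ[K] LinearMap.range (toLin' (e i))) (u : n → K) :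
    mh e i j b *ᵥ u = (b ⟨toLin' (e j) u, ⟨u, rfl⟩⟩ : n → K) := by
  unfold mh
  rw [← toLin'_apply, toLin'_toMatrix']
  rfl

theorem mh_coe (h : Fr k arm J B N W F G p al tau β T Ψ D π e lam l TT) (i j : m)
    (b : LinearMap.range (toLin' (e j)) →ₗ[K] LinearMap.range (toLin' (e i)))
    (u : LinearMap.range (toLin' (e j))) : mh e i j b *ᵥ (u : n → K) = (b u : n → K) := by
  rw [mh_apply]
  congr 2
  apply Subtype.ext
  exact e_mem h j u

theorem ext_vec {A C : Matrix n n K} (hA : ∀ u, A *ᵥ u = C *ᵥ u) : A = C := by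
  apply toLin'.injective
  apply LinearMap.ext
  intro u
  rw [toLin'_apply, toLin'_apply, hA]

/-- the form on a block -/
noncomputable def gb (g : Matrix n n K) (e : m → Matrix n n K) (j : m) :
    LinearMap.range (toLin' (e j)) →ₗ[K] LinearMap.range (toLin' (e j)) →ₗ[K] K :=
  (Matrix.toLinearMap₂' K g).domRestrict₁₂ (LinearMap.range (toLin' (e j)))
    (LinearMap.range (toLin' (e j)))

theorem gb_apply (g : Matrix n n K) (j : m) (u v : LinearMap.range (toLin' (e j))) :
    gb g e j u v = (u : n → K) ⬝ᵥ (g *ᵥ (v : n → K)) := by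
  unfold gb
  rw [LinearMap.domRestrict₁₂_apply, Matrix.toLinearMap₂'_apply']

theorem ev_eq (g : Matrix n n K) (i j : m)
    (x : (LinearMap.range (toLin' (e j))) ⊗[K] (LinearMap.range (toLin' (e i))))
    (u : LinearMap.range (toLin' (e j))) :
    ((RJM.ev (gb g e j) x u : LinearMap.range (toLin' (e i))) : n → K) =
      ((mb e i j x)ᵀ * g) *ᵥ (u : n → K) := by
  induction x using TensorProduct.induction_on with
  | zero => simp
  | tmul a b =>
    rw [RJM.ev_tmul, mb_tmul, gb_apply, ← mulVec_mulVec, transpose_vecMulVec, vecMulVec_mulVec,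
      op_smul_eq_smul]
    rfl
  | add a b ha hb =>
    rw [map_add, LinearMap.add_apply, Submodule.coe_add, ha, hb, map_add, transpose_add,
      Matrix.add_mul, Matrix.add_mulVec]

/-- the single arm map on the block `i` -/
noncomputable def qb (e : m → Matrix n n K) (i : m) (t : Fin 3) :
    LinearMap.range (toLin' (e i)) →ₗ[K] LinearMap.range (toLin' (e i)) →ₗ[K]
      (Fin 3 → Matrix n n K) :=
  (RDEnd.qs (K := K) (n := n) t).domRestrict₁₂ (LinearMap.range (toLin' (e i)))
    (LinearMap.range (toLin' (e i)))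

theorem qb_apply (i : m) (t : Fin 3) (u v : LinearMap.range (toLin' (e i))) :
    qb e i t u v = Pi.single t (vecMulVec (u : n → K) (v : n → K)) := rfl

theorem lift1 (h : Fr k arm J B N W F G p al tau β T Ψ D π e lam l TT) (i j : m) (t : Fin 3)
    (b : LinearMap.range (toLin' (e j)) →ₗ[K] LinearMap.range (toLin' (e i)))
    (z : (LinearMap.range (toLin' (e j))) ⊗[K] (LinearMap.range (toLin' (e i)))) :
    TensorProduct.lift ((qb e i t) ∘ₗ b) z = Pi.single t (mh e i j b * mb e i j z) := by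
  induction z using TensorProduct.induction_on with
  | zero => simp
  | tmul u v =>
    rw [TensorProduct.lift.tmul, LinearMap.comp_apply, qb_apply, mb_tmul, mul_vecMulVec,
      mh_coe h]
  | add a b ha hb => rw [map_add, ha, hb, map_add, Matrix.mul_add, Pi.single_add]

theorem lift2 (h : Fr k arm J B N W F G p al tau β T Ψ D π e lam l TT) (i j : m) (t : Fin 3)
    (b : LinearMap.range (toLin' (e j)) →ₗ[K] LinearMap.range (toLin' (e i)))
    (z : (LinearMap.range (toLin' (e j))) ⊗[K] (LinearMap.range (toLin' (e i)))) :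
    TensorProduct.lift ((qb e i t).flip ∘ₗ b) z =
      Pi.single t ((mb e i j z)ᵀ * (mh e i j b)ᵀ) := by
  induction z using TensorProduct.induction_on with
  | zero => simp
  | tmul u v =>
    rw [TensorProduct.lift.tmul, LinearMap.comp_apply, LinearMap.flip_apply, qb_apply, mb_tmul,
      transpose_vecMulVec, vecMulVec_mul, vecMul_transpose, mh_coe h]
  | add a b ha hb =>
    rw [map_add, ha, hb, map_add, transpose_add, Matrix.add_mul, Pi.single_add]

theorem lift3 (i j : m) (t : Fin 3)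
    (g : Matrix n n K)
    (z' z : (LinearMap.range (toLin' (e j))) ⊗[K] (LinearMap.range (toLin' (e i)))) :
    TensorProduct.lift ((qb e i t) ∘ₗ (RJM.ev (gb g e j) z')) z =
      Pi.single t ((mb e i j z')ᵀ * g * mb e i j z) := by
  induction z using TensorProduct.induction_on with
  | zero => simp
  | tmul u v =>
    rw [TensorProduct.lift.tmul, LinearMap.comp_apply, qb_apply, mb_tmul, mul_vecMulVec,
      ev_eq]
  | add a b ha hb => rw [map_add, ha, hb, map_add, Matrix.mul_add, Pi.single_add]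

/-- exact families give `Dec` for every correction `b` of `RJM` -/
theorem dec_of (h : Fr k arm J B N W F G p al tau β T Ψ D π e lam l TT) {i j : m} (hij : i ≠ j)
    {c : K} (hc : c ≠ 0)
    {x : Fin 3 → (LinearMap.range (toLin' (e j))) ⊗[K] (LinearMap.range (toLin' (e i)))}
    (hx : RJM.Ex (ab h i) (ab h j) (Rb π e i) (Rb π e j) c x)
    {b : LinearMap.range (toLin' (e j)) →ₗ[K] LinearMap.range (toLin' (e i))}
    (hb : RJM.Cor (ab h i) (ab h j) (Rb π e i) (gb (pᵀ * J * p) e j) 1 c x b) :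
    ∃ kk, Dec (pᵀ * J * p) π e i j (fun r => al r) (fun r => c • al r) (fun r => mb e i j (x r))
      (-(mh e i j b)) kk := by
  have s1 : ∑ r, (mb e i j (x r) * (al r)ᵀ - c • (al r * mb e i j (x r))) = 0 := by
    simp only [← mb_defect h]
    have := hx.sum
    change ∑ t, Dual.defect (ab h i t) (ab h j t) c (x t) = 0 at this
    rw [← map_sum, this, map_zero]
  have s2 : ∀ r, (pᵀ * J * p) * (mb e i j (x r) * (al r)ᵀ - c • (al r * mb e i j (x r))) *
      (pᵀ * J * p) = 0 := by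
    intro r
    rw [← mb_defect h]
    exact mb_rad h i j _ (hx.arm r)
  obtain ⟨b0, kk, b1, b2, b3, b4, b5, b6⟩ := h.hexS i j hij c hc (fun r => mb e i j (x r))
    (fun r => mb_block h i j (x r)) s1 s2
  refine ⟨kk, ⟨fun r => mb_block h i j (x r), ?_, b2, ?_, b4, ?_, ?_, ?_, ?_⟩⟩
  · rw [Matrix.mul_neg, Matrix.neg_mul]
    congr 1
    apply ext_vec
    intro u
    rw [← mulVec_mulVec, ← mulVec_mulVec, mh_apply, mh_apply, e_mem h]
    congr 2
    apply Subtype.ext
    simp only [toLin'_apply, mulVec_mulVec, h.idem]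
  · intro u
    rw [Matrix.neg_mulVec, map_neg, mh_apply, mem_Rb.1 (hb.mem _), neg_zero]
  · simpa only [Matrix.smul_mul] using s1
  · simpa only [Matrix.smul_mul] using s2
  · intro r
    apply ext_vec
    intro u
    have h1 := congrArg Subtype.val (hb.eq r ⟨toLin' (e j) u, ⟨u, rfl⟩⟩)
    simp only [Submodule.coe_sub, Submodule.coe_smul, ab_coe, ev_eq, one_mul] at h1
    have h2 : ((mb e i j (x r))ᵀ * (pᵀ * J * p)) *ᵥ u =
        ((mb e i j (x r))ᵀ * (pᵀ * J * p)) *ᵥ (e j *ᵥ u) := by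
      rw [mulVec_mulVec]
      congr 1
      have h3 := congrArg transpose (mb_block h i j (x r))
      rw [transpose_mul, transpose_mul, transpose_transpose] at h3
      conv_lhs => rw [← h3]
      conv_rhs => rw [← h3]
      have h4 := h.eg j
      have h5 : (e j)ᵀ * (pᵀ * J * p) * e j = (e j)ᵀ * (pᵀ * J * p) := by
        rw [h4, Matrix.mul_assoc, h.idem]
      simp only [Matrix.mul_assoc] at h5 ⊢
      rw [h5]
    have h6 : ((mb e i j (x r))ᵀ * (pᵀ * J * p)) *ᵥ (al r *ᵥ u) =
        ((mb e i j (x r))ᵀ * (pᵀ * J * p)) *ᵥ (al r *ᵥ (e j *ᵥ u)) := by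
      have h3 := congrArg transpose (mb_block h i j (x r))
      rw [transpose_mul, transpose_mul, transpose_transpose] at h3
      have h4 := h.eg j
      have h5 : (e j)ᵀ * (pᵀ * J * p) * (al r * e j) = (e j)ᵀ * (pᵀ * J * p) * al r := by
        rw [← h.eal, h4, ← Matrix.mul_assoc, Matrix.mul_assoc _ (e j) (e j), h.idem]
      rw [mulVec_mulVec, mulVec_mulVec, mulVec_mulVec]
      congr 1
      rw [← h3]
      simp only [Matrix.mul_assoc] at h5 ⊢
      rw [h5]
    have h7 : mh e i j b *ᵥ (al r *ᵥ u) =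
        (b (ab h j r ⟨toLin' (e j) u, ⟨u, rfl⟩⟩) : n → K) := by
      rw [mh_apply]
      congr 2
      apply Subtype.ext
      rw [ab_coe]
      simp only [toLin'_apply, mulVec_mulVec, h.eal]
    have h8 : mh e i j b *ᵥ u = (b ⟨toLin' (e j) u, ⟨u, rfl⟩⟩ : n → K) := mh_apply i j b u
    rw [← mulVec_mulVec, ← mulVec_mulVec, Matrix.add_mulVec, Matrix.add_mulVec,
      Matrix.neg_mulVec, Matrix.neg_mulVec, Matrix.smul_mulVec, mulVec_smul, mulVec_smul, h7, h8,
      h6, h2, mulVec_add, mulVec_neg]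
    have h9 : al r *ᵥ ((b ⟨toLin' (e j) u, ⟨u, rfl⟩⟩ : LinearMap.range (toLin' (e i))) : n → K) -
        c • ((b (ab h j r ⟨toLin' (e j) u, ⟨u, rfl⟩⟩) : LinearMap.range (toLin' (e i))) : n → K) =
        al r *ᵥ (((mb e i j (x r))ᵀ * (pᵀ * J * p)) *ᵥ (e j *ᵥ u)) -
        c • (((mb e i j (x r))ᵀ * (pᵀ * J * p)) *ᵥ (al r *ᵥ (e j *ᵥ u))) := h1
    have h10 : ∀ a b' c' d' : n → K, (-a + c') - (-b' + d') = -((a - b') - (c' - d')) := by
      intro a b' c' d'
      abel
    rw [← sub_eq_zero, h10, sub_eq_zero.2 h9, neg_zero]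
  · intro r
    rw [Matrix.smul_mul]; exact b6 r

/-- `hex` -/
theorem cor_of (h : Fr k arm J B N W F G p al tau β T Ψ D π e lam l TT) {i j : m} (hij : i ≠ j)
    {c : K} (hc : c ≠ 0)
    {x : Fin 3 → (LinearMap.range (toLin' (e j))) ⊗[K] (LinearMap.range (toLin' (e i)))}
    (hx : RJM.Ex (ab h i) (ab h j) (Rb π e i) (Rb π e j) c x) :
    ∃ b, RJM.Cor (ab h i) (ab h j) (Rb π e i) (gb (pᵀ * J * p) e j) 1 c x b := by
  have s1 : ∑ r, (mb e i j (x r) * (al r)ᵀ - c • (al r * mb e i j (x r))) = 0 := by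
    simp only [← mb_defect h]
    have := hx.sum
    change ∑ t, Dual.defect (ab h i t) (ab h j t) c (x t) = 0 at this
    rw [← map_sum, this, map_zero]
  have s2 : ∀ r, (pᵀ * J * p) * (mb e i j (x r) * (al r)ᵀ - c • (al r * mb e i j (x r))) *
      (pᵀ * J * p) = 0 := by
    intro r
    rw [← mb_defect h]
    exact mb_rad h i j _ (hx.arm r)
  obtain ⟨b0, kk, b1, b2, b3, b4, b5, b6⟩ := h.hexS i j hij c hc (fun r => mb e i j (x r))
    (fun r => mb_block h i j (x r)) s1 s2
  have hb0 : ∀ u : n → K, b0 *ᵥ u = e i *ᵥ (b0 *ᵥ (e j *ᵥ u)) := by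
    intro u
    conv_lhs => rw [← b1]
    rw [← mulVec_mulVec, ← mulVec_mulVec]
  let bb : LinearMap.range (toLin' (e j)) →ₗ[K] LinearMap.range (toLin' (e i)) :=
    ((toLin' b0) ∘ₗ (LinearMap.range (toLin' (e j))).subtype).codRestrict _ (by
      intro u
      refine ⟨b0 *ᵥ (e j *ᵥ (u : n → K)), ?_⟩
      change e i *ᵥ (b0 *ᵥ (e j *ᵥ (u : n → K))) = b0 *ᵥ (u : n → K)
      rw [← hb0])
  have hbb : ∀ u, ((bb u : LinearMap.range (toLin' (e i))) : n → K) = b0 *ᵥ (u : n → K) :=
    fun u => rfl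
  refine ⟨-bb, ⟨fun u => ?_, fun r u => ?_⟩⟩
  · rw [mem_Rb, LinearMap.neg_apply, Submodule.coe_neg, map_neg, hbb, b3, neg_zero]
  · apply Subtype.ext
    obtain ⟨X, hX⟩ : ∃ X, X = (mb e i j (x r))ᵀ * (pᵀ * J * p) := ⟨_, rfl⟩
    have h0 := b5 r
    simp only [← hX] at h0
    have h1 : al r *ᵥ (b0 *ᵥ (u : n → K)) + al r *ᵥ (X *ᵥ (u : n → K)) =
        c • (b0 *ᵥ (al r *ᵥ (u : n → K)) + X *ᵥ (al r *ᵥ (u : n → K))) := by
      have h2 := congrArg (fun A : Matrix n n K => A *ᵥ (u : n → K)) h0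
      simp only [Matrix.mul_add, Matrix.add_mul, Matrix.add_mulVec, Matrix.smul_mulVec,
        ← mulVec_mulVec] at h2
      exact h2
    rw [Submodule.coe_sub, Submodule.coe_smul, Submodule.coe_sub, Submodule.coe_smul, ab_coe,
      ab_coe, ev_eq, ev_eq, LinearMap.neg_apply, LinearMap.neg_apply, Submodule.coe_neg,
      Submodule.coe_neg, hbb, hbb, ab_coe, one_mul, mulVec_neg, smul_neg, ← hX]
    have h10 : ∀ a b' c' d' : n → K, a + b' = c • (c' + d') →
        -a - -(c • c') = b' - c • d' := by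
      intro a b' c' d' h
      rw [smul_add] at h
      have : b' = c • c' + c • d' - a := by rw [← h]; abel
      rw [this]; abel
    exact h10 _ _ _ _ h1

/-- **RD5** -/
theorem diag [CharZero K] (h : Fr k arm J B N W F G p al tau β T Ψ D π e lam l TT)
    {i j : m} (hij : i ≠ j) (hh : HalvesP arm J B N W F p al T Ψ π e i j)
    (hs : SecondP arm J B N W F p al T Ψ π e i j) :
    DiagP arm J N W F p al T Ψ π e l i := by
  obtain ⟨S, hS, hh⟩ := hh
  have hinf : ({c : K | c ∉ S ∧ c ≠ 0}).Infinite := by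
    have h1 : (S ∪ {0}).Finite := hS.union (Set.finite_singleton 0)
    refine h1.infinite_compl.mono ?_
    intro c hc
    rw [Set.mem_compl_iff, Set.mem_union, not_or] at hc
    exact ⟨hc.1, hc.2⟩
  obtain ⟨m0, hm0⟩ := h.kill
  have kl : ∀ i : m, ∀ w : List (Fin 3), w.length = m0 → ∀ r ∈ Rb π e i,
      (w.map (ab h i)).prod r = 0 := by
    intro i w hw r hr
    apply Subtype.ext
    rw [ab_word, hm0 w hw _ (mem_Rb.1 hr)]
    rfl
  have hgt := gt h
  obtain ⟨r1, r2⟩ := RJM.main (A := ab h i) (B := ab h j) (R1 := Rb π e i)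
    (R2 := Rb π e j) (l := l) (g := gb (pᵀ * J * p) e j) (eps := 1) (b_top h i) (b_top h j)
    (b_stab h i) (b_stab h j) (kl i) (kl j) h.lpos (b_l h i) (b_l h j)
    (fun S h1 h2 => b_gen h i S h1 h2) (fun S h1 h2 => b_gen h j S h1 h2) one_ne_zero
    (by
      intro r hr u
      rw [gb_apply, dotProduct_comm, RDEnd.dt, hgt, (ker_iff h _).1 (mem_Rb.1 hr),
        dotProduct_zero])
    (by
      intro r hr u
      rw [gb_apply, (ker_iff h _).1 (mem_Rb.1 hr), dotProduct_zero])
    (by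
      intro t u u'
      rw [one_mul, gb_apply, gb_apply, ab_coe, ab_coe, ← h.cr.form, ← h.cr.form, ← h.cr.op,
        ← h.cr.op, h.cr.sa])
    (by
      intro s
      obtain ⟨u, u', hu⟩ := h.top j s
      refine ⟨⟨toLin' (e j) u', ⟨u', rfl⟩⟩, ⟨toLin' (e j) u, ⟨u, rfl⟩⟩, ?_⟩
      rw [gb_apply, ab_pow, ← h.cr.form, h.cr.ns.symm, h.cr.form]
      exact hu)
    hinf (fun h0 => h0.2 rfl) (qb e i) (RDEnd.Rel arm J N W F p π T 0 Ψ)
    (a1 := -1) (a2 := -1) (a3 := 1) (by norm_num) (by norm_num) one_ne_zero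
    (fun c hc x hx => cor_of h hij hc.2 hx)
    (by
      intro c hc c' hc' x b x' b' hx hb hx' hb'
      obtain ⟨kk, hd⟩ := dec_of h hij hc.2 hx hb
      obtain ⟨kk', hd'⟩ := dec_of h hij hc'.2 hx' hb'
      obtain ⟨f1, -⟩ := hh c hc.1 _ _ _ hd
      obtain ⟨f1', f2'⟩ := hh c' hc'.1 _ _ _ hd'
      have h1 := hs c' c hc'.2 hc.2 _ _ _ _ _ _ hd' hd f1' f2' f1
      have e1 : ∑ t, ((-1 : K) • TensorProduct.lift ((qb e i t) ∘ₗ b') (x t)
          + (-1 : K) • TensorProduct.lift ((qb e i t).flip ∘ₗ b) (x' t)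
          + (1 : K) • TensorProduct.lift ((qb e i t) ∘ₗ (RJM.ev (gb (pᵀ * J * p) e j) (x' t)))
            (x t)) = (fun r => -(mh e i j b') * mb e i j (x r) +
              (mb e i j (x' r))ᵀ * (pᵀ * J * p) * mb e i j (x r) +
              (mb e i j (x' r))ᵀ * (-(mh e i j b))ᵀ) := by
        simp only [lift3]
        simp only [lift1 h, lift2 h]
        funext r
        rw [Finset.sum_apply, Finset.sum_eq_single r]
        · simp only [neg_smul, one_smul, Pi.add_apply, Pi.neg_apply, Pi.single_eq_same,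
            transpose_neg, Matrix.neg_mul, Matrix.mul_neg]
          abel
        · intro s _ hs
          simp [Pi.single_eq_of_ne (Ne.symm hs)]
        · intro hr; exact absurd (Finset.mem_univ r) hr
      rw [e1]
      exact h1)
  refine ⟨fun s r hr y => ?_, fun s a a' haa y y' => ?_⟩
  · exact r1 s ⟨toLin' (e i) r, ⟨r, rfl⟩⟩ hr ⟨toLin' (e i) y, ⟨y, rfl⟩⟩
  · have h1 := r2 s a a' haa ⟨toLin' (e i) y, ⟨y, rfl⟩⟩ ⟨toLin' (e i) y', ⟨y', rfl⟩⟩
    rw [qb_apply, ab_pow, ab_pow] at h1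
    exact h1

end Crest.Agent.R172.RD795
end

-- ▼ part R172/RDpick
section

/-!
Row 172 (S0260), (T0), any radical, any `D`: lemma `pick` of helper460's skeleton (note 16775): the
connection can be chosen with prescribed off-diagonal part.
-/

set_option autoImplicit false
set_option linter.unusedSectionVars false

namespace Crest.Agent.R172.RD

open Matrix Module TensorProduct Crest.Agent.R172.FO Crest.Agent.R172.FrmB
open Crest.Agent.R172.Core (NS Tame)
open Crest.Agent.R172.PL (Wk)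

variable {ι : Type*} [Fintype ι] [DecidableEq ι] {δ : Type*} [Fintype δ] [DecidableEq δ]
variable {n : Type*} [Fintype n] [DecidableEq n]
variable {k K : Type*} [Field k] [Field K] [Algebra k K]
variable {M : Type*} [AddCommGroup M] [Module K M]
variable {m : Type*} [Fintype m] [DecidableEq m]

namespace Pick

section off

variable {e : m → Matrix n n K}

theorem off_add (A A' : Matrix n n K) : off e (A + A') = off e A + off e A' := by
  unfold off
  simp only [Matrix.mul_add, Matrix.add_mul, Finset.sum_add_distrib]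
  abel

theorem off_sub (A A' : Matrix n n K) : off e (A - A') = off e A - off e A' := by
  unfold off
  simp only [Matrix.mul_sub, Matrix.sub_mul, Finset.sum_sub_distrib]
  abel

theorem off_mul (A : Matrix n n K) {C : Matrix n n K} (hC : ∀ i, e i * C = C * e i) :
    off e (A * C) = off e A * C := by
  unfold off
  rw [Matrix.sub_mul, Finset.sum_mul]
  congr 1
  refine Finset.sum_congr rfl fun i _ => ?_
  simp only [Matrix.mul_assoc, hC]

theorem mul_off (A : Matrix n n K) {C : Matrix n n K} (hC : ∀ i, e i * C = C * e i) :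
    off e (C * A) = C * off e A := by
  unfold off
  rw [Matrix.mul_sub, Finset.mul_sum]
  congr 1
  refine Finset.sum_congr rfl fun i _ => ?_
  simp only [← Matrix.mul_assoc, hC]

theorem off_zero (idem : ∀ i, e i * e i = e i) (sumE : ∑ i, e i = 1) {C : Matrix n n K}
    (hC : ∀ i, e i * C = C * e i) : off e C = 0 := by
  unfold off
  have : ∑ i, e i * C * e i = C := by
    calc ∑ i, e i * C * e i = ∑ i, C * e i := by
          refine Finset.sum_congr rfl fun i _ => ?_
          rw [hC, Matrix.mul_assoc, idem]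
      _ = C := by rw [← Finset.mul_sum, sumE, Matrix.mul_one]
  rw [this, sub_self]

theorem diag_mul (idem : ∀ i, e i * e i = e i) (orth : ∀ i j, i ≠ j → e i * e j = 0)
    (A : m → Matrix n n K) (i : m) : (∑ l, e l * A l * e l) * e i = e i * A i * e i := by
  rw [Finset.sum_mul, Finset.sum_eq_single i]
  · rw [Matrix.mul_assoc _ (e i) (e i), idem]
  · intro l _ hl
    rw [Matrix.mul_assoc _ (e l) (e i), orth l i hl, Matrix.mul_zero]
  · intro hi; exact absurd (Finset.mem_univ i) hi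

theorem mul_diag (idem : ∀ i, e i * e i = e i) (orth : ∀ i j, i ≠ j → e i * e j = 0)
    (A : m → Matrix n n K) (i : m) : e i * (∑ l, e l * A l * e l) = e i * A i * e i := by
  rw [Finset.mul_sum, Finset.sum_eq_single i]
  · rw [← Matrix.mul_assoc, ← Matrix.mul_assoc, idem]
  · intro l _ hl
    rw [← Matrix.mul_assoc, ← Matrix.mul_assoc, orth i l (Ne.symm hl), Matrix.zero_mul,
      Matrix.zero_mul]
  · intro hi; exact absurd (Finset.mem_univ i) hi

theorem diag_comm (idem : ∀ i, e i * e i = e i) (orth : ∀ i j, i ≠ j → e i * e j = 0)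
    (A : m → Matrix n n K) (i : m) :
    e i * (∑ l, e l * A l * e l) = (∑ l, e l * A l * e l) * e i := by
  rw [mul_diag idem orth, diag_mul idem orth]

theorem e_off_e (idem : ∀ i, e i * e i = e i) (orth : ∀ i j, i ≠ j → e i * e j = 0)
    (A : Matrix n n K) (i : m) : e i * off e A * e i = 0 := by
  unfold off
  rw [Matrix.mul_sub, mul_diag idem orth (fun _ => A) i, Matrix.sub_mul,
    Matrix.mul_assoc (e i * A), idem, sub_self]

end off

section geom

variable {arm : δ → Fin 3} {J : Matrix ι ι K} {B : Matrix δ δ K}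
  {N W : Submodule K (Matrix ι δ K)} {F G : Matrix ι δ K} {p : Matrix ι n K}
  {al : Fin 3 → Matrix n n K} {tau : Matrix n n K}
  {β : LinearMap.BilinForm K M} {T : Module.End K M →ₗ[K] Module.End K M}
  {Ψ : Fin 3 → Module.End K M} {D : Module.End K M} {π : (n → K) →ₗ[K] M}
  {e : m → Matrix n n K} {lam : m → K} {l : Fin 3 → ℕ} {TT : Set k}

/-- `p x = 0 → π x = 0`; more precisely `γ x = 0 ↔ π x = 0` -/
theorem pi_zero (cr : RDEnd.Cr J p al β π Ψ T) {x : n → K}
    (hx : (pᵀ * J * p) *ᵥ x = 0) : π x = 0 := by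
  refine cr.ns.nd _ fun w => ?_
  obtain ⟨y, rfl⟩ := cr.onto w
  rw [cr.ns.symm, cr.form, hx, dotProduct_zero]

theorem g_zero (cr : RDEnd.Cr J p al β π Ψ T) {x : n → K} (hx : π x = 0) :
    (pᵀ * J * p) *ᵥ x = 0 := by
  have h1 : ∀ y, y ⬝ᵥ ((pᵀ * J * p) *ᵥ x) = 0 := by
    intro y
    rw [← cr.form, hx, map_zero]
  funext i
  have := h1 (Pi.single i 1)
  rwa [single_one_dotProduct] at this

theorem pi_of_p (cr : RDEnd.Cr J p al β π Ψ T) {x : n → K} (hx : p *ᵥ x = 0) : π x = 0 := by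
  refine pi_zero cr ?_
  rw [← mulVec_mulVec, hx, mulVec_zero]

theorem pi_e (cr : RDEnd.Cr J p al β π Ψ T)
    (eg : ∀ i, (e i)ᵀ * (pᵀ * J * p) = (pᵀ * J * p) * e i) (i : m) {x : n → K} (hx : π x = 0) :
    π (e i *ᵥ x) = 0 := by
  refine pi_zero cr ?_
  rw [mulVec_mulVec, ← eg, ← mulVec_mulVec, g_zero cr hx, mulVec_zero]

theorem pi_off (cr : RDEnd.Cr J p al β π Ψ T)
    (eg : ∀ i, (e i)ᵀ * (pᵀ * J * p) = (pᵀ * J * p) * e i) {A : Matrix n n K}
    (hA : ∀ u, π (A *ᵥ u) = 0) (u : n → K) : π (off e A *ᵥ u) = 0 := by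
  unfold off
  rw [Matrix.sub_mulVec, map_sub, hA, Matrix.sum_mulVec, map_sum, zero_sub, neg_eq_zero]
  refine Finset.sum_eq_zero fun i _ => ?_
  rw [← mulVec_mulVec, ← mulVec_mulVec]
  exact pi_e cr eg i (hA _)

theorem map_comm {i : m} {d : Derivation k K K} (he : (e i).map d = 0) {A : Matrix n n K}
    (hA : e i * A = A * e i) : e i * A.map d = A.map d * e i := by
  have h1 := congrArg (fun X : Matrix n n K => X.map d) hA
  simpa only [map_mul_der, he, Matrix.zero_mul, Matrix.mul_zero, zero_add, add_zero] using h1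

/-- off-diagonal part of a connection preserves the radical -/
theorem off_skew (hD : Data k arm J B N W)
    (eg : ∀ i, (e i)ᵀ * (pᵀ * J * p) = (pᵀ * J * p) * e i)
    (idem : ∀ i, e i * e i = e i) (sumE : ∑ i, e i = 1)
    {d : Derivation k K K} (he : ∀ i, (e i).map d = 0) {θ0 : Matrix n n K}
    (hθ : p.map d = p * θ0) :
    (pᵀ * J * p) * off e θ0 = -((off e θ0)ᵀ * (pᵀ * J * p)) := by
  set g := pᵀ * J * p with hg
  have h1 : g.map d = θ0ᵀ * g + g * θ0 := by
    rw [hg]
    simp only [map_mul_der, map_transpose_der, hD.J_const, hθ, transpose_mul, Matrix.zero_mul,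
      Matrix.mul_zero, zero_add, add_zero, Matrix.mul_assoc]
  have h2 : ∀ i, (e i)ᵀ * g.map d = g.map d * e i := by
    intro i
    have h3 := congrArg (fun X : Matrix n n K => X.map d) (eg i)
    simpa only [map_mul_der, map_transpose_der, he, transpose_zero, Matrix.zero_mul,
      Matrix.mul_zero, zero_add, add_zero] using h3
  have h3 : ∑ i, (e i)ᵀ * g.map d * e i = g.map d := by
    calc ∑ i, (e i)ᵀ * g.map d * e i = ∑ i, g.map d * e i := by
          refine Finset.sum_congr rfl fun i _ => ?_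
          rw [h2, Matrix.mul_assoc, idem]
      _ = _ := by rw [← Finset.mul_sum, sumE, Matrix.mul_one]
  have h4 : ∑ i, (e i)ᵀ * (g * θ0) * e i = g * ∑ i, e i * θ0 * e i := by
    rw [Finset.mul_sum]
    refine Finset.sum_congr rfl fun i _ => ?_
    rw [← Matrix.mul_assoc, eg]
    simp only [Matrix.mul_assoc]
  have h5 : ∑ i, (e i)ᵀ * (θ0ᵀ * g) * e i = (∑ i, e i * θ0 * e i)ᵀ * g := by
    rw [transpose_sum, Finset.sum_mul]
    refine Finset.sum_congr rfl fun i _ => ?_
    rw [transpose_mul, transpose_mul]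
    simp only [Matrix.mul_assoc]
    rw [eg]
  have h6 : (∑ i, e i * θ0 * e i)ᵀ * g + g * (∑ i, e i * θ0 * e i) = θ0ᵀ * g + g * θ0 := by
    rw [← h4, ← h5, ← Finset.sum_add_distrib, ← h1, ← h3, h1]
    refine Finset.sum_congr rfl fun i _ => ?_
    rw [Matrix.mul_add, Matrix.add_mul]
  unfold off
  rw [transpose_sub, Matrix.mul_sub, Matrix.sub_mul, neg_sub, sub_eq_sub_iff_add_eq_add]
  rw [h6, add_comm]

theorem core_off (h : Fr k arm J B N W F G p al tau β T Ψ D π e lam l TT)
    {t : k} (ht : t ∈ TT ∨ t = 0) {kap : Matrix n n K} (hk : kap = 1 + algebraMap k K t • tau)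
    {d : Derivation k K K} {θ0 : Matrix n n K} (hθ : p.map d = p * θ0)
    {U : Fin 3 → Matrix n n K}
    (hU : ∀ s, p * FC.nab d θ0 (al s * (kap * kap)) = p * U s)
    {C : Matrix n n K} (hCr : ∀ u, π (C *ᵥ u) = 0)
    (hoff : ∀ s, off e (U s) = C * (al s * (kap * kap)) - al s * (kap * kap) * C)
    (u : n → K) : π (off e θ0 *ᵥ u) = 0 := by
  have hkap : ∀ i, e i * kap = kap * e i := by
    intro i
    rw [hk, Matrix.mul_add, Matrix.add_mul, Matrix.mul_one, Matrix.one_mul, Matrix.mul_smul,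
      Matrix.smul_mul, h.etau]
  have hA : ∀ s i, e i * (al s * (kap * kap)) = al s * (kap * kap) * e i := by
    intro s i
    rw [← Matrix.mul_assoc, h.eal, Matrix.mul_assoc, ← Matrix.mul_assoc (e i), hkap,
      Matrix.mul_assoc kap (e i), hkap]
    simp only [Matrix.mul_assoc]
  have hpk : ∀ v, π (kap *ᵥ v) = (1 + algebraMap k K t • D) (π v) := by
    intro v
    rw [hk, Matrix.add_mulVec, one_mulVec, Matrix.smul_mulVec, map_add, map_smul, h.ptau]
    rfl
  have hpA : ∀ s v, π ((al s * (kap * kap)) *ᵥ v) =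
      Ψ s ((1 + algebraMap k K t • D) ((1 + algebraMap k K t • D) (π v))) := by
    intro s v
    rw [← mulVec_mulVec, ← mulVec_mulVec, ← h.cr.op, hpk, hpk]
  have hZA : ∀ s u, π (off e θ0 *ᵥ ((al s * (kap * kap)) *ᵥ u)) =
      π ((al s * (kap * kap)) *ᵥ (off e θ0 *ᵥ u)) := by
    intro s u
    have h1 : ∀ u, π ((FC.nab d θ0 (al s * (kap * kap)) - U s) *ᵥ u) = 0 := by
      intro u
      refine pi_of_p h.cr ?_
      rw [mulVec_mulVec, Matrix.mul_sub, hU, sub_self, zero_mulVec]
    have h2 := pi_off h.cr h.eg h1 u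
    have h3 : off e (FC.nab d θ0 (al s * (kap * kap)) - U s) =
        off e θ0 * (al s * (kap * kap)) - al s * (kap * kap) * off e θ0 -
          (C * (al s * (kap * kap)) - al s * (kap * kap) * C) := by
      rw [off_sub, hoff]
      unfold FC.nab
      rw [off_sub, off_add, off_mul θ0 (hA s), mul_off θ0 (hA s),
        off_zero h.idem h.sumE (fun i => map_comm (h.eC i d) (hA s i)), zero_add]
    rw [h3, Matrix.sub_mulVec, Matrix.sub_mulVec, Matrix.sub_mulVec, ← mulVec_mulVec _ (off e θ0),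
      ← mulVec_mulVec _ _ (off e θ0), ← mulVec_mulVec _ C, ← mulVec_mulVec _ _ C, map_sub, map_sub,
      map_sub, hCr, hpA s (C *ᵥ u), hCr, map_zero, map_zero, map_zero, sub_zero, sub_zero] at h2
    exact sub_eq_zero.1 h2
  have hZr : ∀ u, π u = 0 → π (off e θ0 *ᵥ u) = 0 := by
    intro u hu
    refine pi_zero h.cr ?_
    rw [mulVec_mulVec, off_skew h.ctx.data h.eg h.idem h.sumE (fun i => h.eC i d) hθ,
      Matrix.neg_mulVec, ← mulVec_mulVec, g_zero h.cr hu, mulVec_zero, neg_zero]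
  obtain ⟨σ, hσ⟩ := π.exists_rightInverse_of_surjective (LinearMap.range_eq_top.2 h.cr.onto)
  let A' : Module.End K M := π ∘ₗ (off e θ0).mulVecLin ∘ₗ σ
  have hA' : ∀ u, A' (π u) = π (off e θ0 *ᵥ u) := by
    intro u
    have h1 : π (off e θ0 *ᵥ (σ (π u) - u)) = 0 := by
      apply hZr
      rw [map_sub, sub_eq_zero]
      exact LinearMap.congr_fun hσ (π u)
    rw [Matrix.mulVec_sub, map_sub, sub_eq_zero] at h1
    exact h1
  have h6 := h.hom t ht A' (by
    intro s x
    obtain ⟨v, rfl⟩ := h.cr.onto x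
    rw [← hpA, hA', hA', ← hpA, hZA])
  have h7 : ∀ i u, π (off e θ0 *ᵥ (e i *ᵥ u)) = 0 := by
    intro i u
    refine h.cr.ns.nd _ fun w => ?_
    obtain ⟨y, rfl⟩ := h.cr.onto w
    have hy : y = ∑ j, e j *ᵥ y := by
      rw [← Matrix.sum_mulVec, h.sumE, one_mulVec]
    rw [hy, map_sum, map_sum]
    refine Finset.sum_eq_zero fun j _ => ?_
    by_cases hij : i = j
    · subst hij
      have e5 : (pᵀ * J * p) *ᵥ (e i *ᵥ y) = (e i)ᵀ *ᵥ ((pᵀ * J * p) *ᵥ y) := by
        rw [mulVec_mulVec, mulVec_mulVec, h.eg]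
      rw [h.cr.form, e5, dotProduct_mulVec, vecMul_transpose, mulVec_mulVec, mulVec_mulVec,
        e_off_e h.idem h.orth, zero_mulVec, zero_dotProduct]
    · rw [← hA']
      exact h6 i j hij u y
  have hu : u = ∑ j, e j *ᵥ u := by
    rw [← Matrix.sum_mulVec, h.sumE, one_mulVec]
  rw [hu, Matrix.mulVec_sum, map_sum]
  exact Finset.sum_eq_zero fun j _ => h7 j u

/-- the operators at `F + tG` on the frame -/
theorem ops (h : Fr k arm J B N W F G p al tau β T Ψ D π e lam l TT)
    {t : k} (ht : t ∈ TT ∨ t = 0) {kap : Matrix n n K} (hk : kap = 1 + algebraMap k K t • tau) :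
    (∃ kai, kap * kai = 1) ∧
    ∀ s, Phi arm J B (F + algebraMap k K t • G) s * p = p * (al s * (kap * kap)) := by
  rcases ht with ht | rfl
  · obtain ⟨kap', kai, hp⟩ := h.par t ht
    have e1 : kap' = kap := by rw [hp.kap_eq, hk]
    subst e1
    exact ⟨⟨kai, hp.mul⟩, fun s => FC.Ctx.PhiHp h.ctx hp s⟩
  · have e1 : kap = 1 := by rw [hk, map_zero, zero_smul, add_zero]
    refine ⟨⟨1, by rw [e1, Matrix.mul_one]⟩, fun s => ?_⟩
    rw [map_zero, zero_smul, add_zero, e1, Matrix.mul_one, Matrix.mul_one]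
    exact h.ctx.hal s

end geom

end Pick

section lemmas

variable {arm : δ → Fin 3} {J : Matrix ι ι K} {B : Matrix δ δ K}
  {N W : Submodule K (Matrix ι δ K)} {F G : Matrix ι δ K} {p : Matrix ι n K}
  {al : Fin 3 → Matrix n n K} {tau : Matrix n n K}
  {β : LinearMap.BilinForm K M} {T : Module.End K M →ₗ[K] Module.End K M}
  {Ψ : Fin 3 → Module.End K M} {D : Module.End K M} {π : (n → K) →ₗ[K] M}
  {e : m → Matrix n n K} {lam : m → K} {l : Fin 3 → ℕ} {TT : Set k}

open Pick

/-- **RD1a (PICK)**: the connection can be chosen with off-diagonal part `C` -/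
theorem pick [CharZero K] (h : Fr k arm J B N W F G p al tau β T Ψ D π e lam l TT)
    {t : k} (ht : t ∈ TT ∨ t = 0) {kap : Matrix n n K} (hk : kap = 1 + algebraMap k K t • tau)
    {d : Derivation k K K} {θ0 : Matrix n n K} (hθ : p.map d = p * θ0)
    {U : Fin 3 → Matrix n n K}
    (hU : ∀ s, p * FC.nab d θ0 (al s * (kap * kap)) = p * U s)
    {C : Matrix n n K} (hC : off e C = C) (hCr : ∀ u, π (C *ᵥ u) = 0)
    (hoff : ∀ s, off e (U s) = C * (al s * (kap * kap)) - al s * (kap * kap) * C) :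
    ∃ θ, p.map d = p * θ ∧ off e θ = C := by
  have hZ := core_off h ht hk hθ hU hCr hoff
  obtain ⟨⟨kai, hkk⟩, hPhi⟩ := ops h ht hk
  have hkap : ∀ i, e i * kap = kap * e i := by
    intro i
    rw [hk, Matrix.mul_add, Matrix.add_mul, Matrix.mul_one, Matrix.one_mul, Matrix.mul_smul,
      Matrix.smul_mul, h.etau]
  have hA : ∀ s i, e i * (al s * (kap * kap)) = al s * (kap * kap) * e i := by
    intro s i
    rw [← Matrix.mul_assoc, h.eal, Matrix.mul_assoc, ← Matrix.mul_assoc (e i), hkap,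
      Matrix.mul_assoc kap (e i), hkap]
    simp only [Matrix.mul_assoc]
  obtain ⟨ρ, hρ⟩ := h.ctx.perf
  have hρ' : ∑ s, al s * (kap * kap) * (kai * (kai * ρ s)) = 1 := by
    rw [← hρ]
    refine Finset.sum_congr rfl fun s _ => ?_
    have e1 : kap * kap * (kai * (kai * ρ s)) = ρ s := by
      rw [Matrix.mul_assoc, ← Matrix.mul_assoc kap kai, hkk, Matrix.one_mul, ← Matrix.mul_assoc,
        hkk, Matrix.one_mul]
    rw [Matrix.mul_assoc, e1]
  have hdc : ∀ (X : Matrix n n K) (i : m), e i * (X - off e X) = (X - off e X) * e i := by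
    intro X i
    have e1 : X - off e X = ∑ l, e l * X * e l := by unfold off; rw [sub_sub_cancel]
    rw [e1]
    exact diag_comm h.idem h.orth (fun _ => X) i
  -- the difference
  obtain ⟨Zd, hZd⟩ : ∃ Zd, Zd = off e θ0 - C := ⟨_, rfl⟩
  have hZd0 : ∀ u, π (Zd *ᵥ u) = 0 := by
    intro u
    rw [hZd, Matrix.sub_mulVec, map_sub, hZ, hCr, sub_zero]
  obtain ⟨S, hS⟩ : ∃ S, S = θ0 - off e θ0 := ⟨_, rfl⟩
  have hSe : ∀ i, e i * S = S * e i := by rw [hS]; exact hdc θ0
  let L : Fin 3 → Matrix n n K := fun s => (U s - off e (U s)) - (al s * (kap * kap)).map d -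
    (S * (al s * (kap * kap)) - al s * (kap * kap) * S)
  have hL : ∀ s i, e i * L s = L s * e i := by
    intro s i
    have h1 := hdc (U s) i
    have h2 := map_comm (h.eC i d) (hA s i)
    have h3 : e i * (S * (al s * (kap * kap)) - al s * (kap * kap) * S) =
        (S * (al s * (kap * kap)) - al s * (kap * kap) * S) * e i := by
      rw [Matrix.mul_sub, Matrix.sub_mul]
      congr 1
      · rw [← Matrix.mul_assoc, hSe, Matrix.mul_assoc, hA, ← Matrix.mul_assoc]
      · rw [← Matrix.mul_assoc, hA, Matrix.mul_assoc, hSe, ← Matrix.mul_assoc]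
    change e i * (_ - _ - _) = (_ - _ - _) * e i
    rw [Matrix.mul_sub, Matrix.mul_sub, h1, h2, h3]
    simp only [Matrix.sub_mul]
  have hrel : ∀ s, p * (Zd * (al s * (kap * kap)) - al s * (kap * kap) * Zd) = p * L s := by
    intro s
    have e1 : Zd * (al s * (kap * kap)) - al s * (kap * kap) * Zd =
        FC.nab d θ0 (al s * (kap * kap)) - ((al s * (kap * kap)).map d +
          (S * (al s * (kap * kap)) - al s * (kap * kap) * S) + off e (U s)) := by
      rw [hoff, hZd, hS]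
      unfold FC.nab
      simp only [Matrix.sub_mul, Matrix.mul_sub]
      abel
    rw [e1, Matrix.mul_sub, hU, ← Matrix.mul_sub]
    congr 1
    change _ = (_ - _ - _)
    abel
  -- values
  have key : ∀ j, ∀ x : n → K, (p * (Zd * e j)) *ᵥ x ∈ LinearMap.range (toLin' (p * e j)) := by
    intro j
    let SN : ℕ → Submodule K (ι → K) := fun N => Submodule.span K
      {v | ∃ w : List (Fin 3), w.length = N ∧ ∃ u, π u = 0 ∧
        v = (w.map (Phi arm J B (F + algebraMap k K t • G))).prod *ᵥ (p *ᵥ u)}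
    have hstep : ∀ N s, ∀ v ∈ SN N ⊔ LinearMap.range (toLin' (p * e j)),
        Phi arm J B (F + algebraMap k K t • G) s *ᵥ v ∈
          SN (N + 1) ⊔ LinearMap.range (toLin' (p * e j)) := by
      intro N s v hv
      have hmap : SN N ≤ (SN (N + 1)).comap
          (toLin' (Phi arm J B (F + algebraMap k K t • G) s)) := by
        refine Submodule.span_le.2 ?_
        rintro _ ⟨w, hw, u, hu, rfl⟩
        change toLin' _ _ ∈ SN (N + 1)
        rw [toLin'_apply]
        refine Submodule.subset_span ⟨s :: w, by rw [List.length_cons, hw], u, hu, ?_⟩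
        rw [List.map_cons, List.prod_cons, mulVec_mulVec]
      obtain ⟨a, ha, b, hb, rfl⟩ := Submodule.mem_sup.1 hv
      rw [Matrix.mulVec_add]
      refine Submodule.add_mem _ (Submodule.mem_sup_left ?_) (Submodule.mem_sup_right ?_)
      · have h11 := hmap ha
        rwa [Submodule.mem_comap, toLin'_apply] at h11
      · obtain ⟨r, rfl⟩ := hb
        rw [toLin'_apply, mulVec_mulVec, ← Matrix.mul_assoc, hPhi, Matrix.mul_assoc, ← hA,
          ← Matrix.mul_assoc, ← mulVec_mulVec]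
        exact ⟨_, by rw [toLin'_apply]⟩
    have hind : ∀ N x, (p * (Zd * e j)) *ᵥ x ∈
        SN N ⊔ LinearMap.range (toLin' (p * e j)) := by
      intro N
      induction N with
      | zero =>
        intro x
        refine Submodule.mem_sup_left (Submodule.subset_span ⟨[], rfl, Zd *ᵥ (e j *ᵥ x), hZd0 _, ?_⟩)
        rw [List.map_nil, List.prod_nil, one_mulVec, ← mulVec_mulVec, ← mulVec_mulVec]
      | succ N ih =>
        intro x
        have hx : x = ∑ s, (al s * (kap * kap)) *ᵥ ((kai * (kai * ρ s)) *ᵥ x) := by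
          simp only [mulVec_mulVec]
          rw [← Matrix.sum_mulVec, hρ', one_mulVec]
        rw [hx, Matrix.mulVec_sum]
        refine Submodule.sum_mem _ fun s _ => ?_
        set y := (kai * (kai * ρ s)) *ᵥ x
        have e2 : p * (Zd * e j) * (al s * (kap * kap)) =
            Phi arm J B (F + algebraMap k K t • G) s * (p * (Zd * e j)) + p * e j * L s := by
          have e3 := hrel s
          rw [Matrix.mul_sub, sub_eq_iff_eq_add] at e3
          calc p * (Zd * e j) * (al s * (kap * kap)) =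
              p * (Zd * (al s * (kap * kap))) * e j := by
                rw [Matrix.mul_assoc p, Matrix.mul_assoc Zd, hA]
                simp only [Matrix.mul_assoc]
            _ = (p * L s + p * (al s * (kap * kap) * Zd)) * e j := by rw [e3]
            _ = _ := by
                rw [Matrix.add_mul, Matrix.mul_assoc p (L s), ← hL, ← Matrix.mul_assoc p (e j),
                  ← Matrix.mul_assoc (Phi arm J B _ s), hPhi, add_comm]
                simp only [Matrix.mul_assoc]
        rw [mulVec_mulVec, e2, Matrix.add_mulVec, ← mulVec_mulVec y (Phi arm J B _ s)]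
        refine Submodule.add_mem _ (hstep N s _ (ih y)) (Submodule.mem_sup_right ?_)
        rw [← mulVec_mulVec]
        exact ⟨_, by rw [toLin'_apply]⟩
    obtain ⟨m0, hm0⟩ := h.killV (algebraMap k K t)
    intro x
    have h8 : SN m0 = ⊥ := by
      rw [eq_bot_iff, Submodule.span_le]
      rintro _ ⟨w, hw, u, hu, rfl⟩
      rw [hm0 w hw u hu]
      exact Submodule.zero_mem _
    have h9 := hind m0 x
    rwa [h8, bot_sup_eq] at h9
  choose R hR using fun j => exists_pi (p := p * e j) (q := p * (Zd * e j)) (key j)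
  refine ⟨C + (S + ∑ j, e j * R j * e j), ?_, ?_⟩
  · have h10 : p * ∑ j, e j * R j * e j = p * Zd := by
      rw [Matrix.mul_sum]
      calc ∑ j, p * (e j * R j * e j) = ∑ j, p * Zd * e j := by
            refine Finset.sum_congr rfl fun j _ => ?_
            have := congrArg (fun X => X * e j) (hR j)
            simp only [Matrix.mul_assoc, h.idem] at this
            simp only [Matrix.mul_assoc]
            exact this.symm
        _ = _ := by rw [← Matrix.mul_sum, h.sumE, Matrix.mul_one]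
    rw [Matrix.mul_add, Matrix.mul_add, h10, hθ, ← Matrix.mul_add, ← Matrix.mul_add]
    congr 1
    rw [hS, hZd]
    abel
  · rw [off_add, off_add, hC, off_zero h.idem h.sumE hSe,
      off_zero h.idem h.sumE (diag_comm h.idem h.orth R), add_zero, add_zero]

end lemmas

end Crest.Agent.R172.RD
end

-- ▼ part R172/FilZ
section

/-!
Row 172 (S0260), (T0), any radical, any `D`: filtered tensors in the frame.

`Fil g π Ψ s y` (RD0) is stable under sums, under left and right multiplication by corrections of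
`ZF`, under block cuts and under the connection of an `L`-fixed derivation.
-/

set_option autoImplicit false
set_option linter.unusedSectionVars false

namespace Crest.Agent.R172.FilZ

open Matrix Module Crest.Agent.R172.ZP Crest.Agent.R172.ZFr Crest.Agent.R172.FO
open Crest.Agent.R172.FrmB

section Abs

variable {E : Type*} [Ring E]

theorem tail (S : AddSubgroup E) : ∀ (m : ℕ) (h : ℕ → E),
    (∀ k, ((DD : AddMonoid.End (ℕ → E)) ^ m) h k ∈ S) →
    (∃ N, ∀ k ≥ N, h k ∈ S) → ∀ k, h k ∈ S := by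
  intro m
  induction m with
  | zero => intro h h1 _ k; simpa using h1 k
  | succ m ih =>
    rintro h h1 ⟨N, hN⟩
    have h2 : ∀ k, (DD h : ℕ → E) k ∈ S := by
      apply ih (DD h)
      · intro k
        have := h1 k
        rwa [pow_succ, AddMonoid.End.coe_mul, Function.comp_apply] at this
      · exact ⟨N, fun k hk => by
          rw [DD_apply]; exact S.sub_mem (hN _ (Nat.le_succ_of_le hk)) (hN _ hk)⟩
    have h3 : ∀ j k, k + j ≥ N → h k ∈ S := by
      intro j
      induction j with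
      | zero => intro k hk; exact hN k hk
      | succ j jh =>
        intro k hk
        have e : h k = h (k + 1) - (DD h : ℕ → E) k := by rw [DD_apply]; abel
        rw [e]
        exact S.sub_mem (jh (k + 1) (by omega)) (h2 k)
    intro k
    exact h3 N k (by omega)

/-- `x P ∈ P E` -/
def Sr (P : E) : AddSubgroup E where
  carrier := {x | ∃ y, x * P = P * y}
  add_mem' := by
    rintro x x' ⟨y, h⟩ ⟨y', h'⟩
    exact ⟨y + y', by rw [add_mul, h, h', mul_add]⟩
  zero_mem' := ⟨0, by simp⟩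
  neg_mem' := by
    rintro x ⟨y, h⟩
    exact ⟨-y, by rw [neg_mul, h, mul_neg]⟩

theorem shift {h : ℕ → E} {P : E} (hh : ∀ k, h (k + 2) * P = P * h k) (a k : ℕ) :
    h (k + 2 * a) * P ^ a = P ^ a * h k := by
  induction a with
  | zero => simp
  | succ a ih =>
    have e : k + 2 * (a + 1) = (k + 2 * a) + 2 := by ring
    rw [e, pow_succ', ← mul_assoc, hh, mul_assoc, ih, mul_assoc]

theorem mem_Sr {h : ℕ → E} {P : E} (hn : NilAt DD h) (hh : ∀ k, h (k + 2) * P = P * h k)
    (a k : ℕ) : h k ∈ Sr (P ^ a) := by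
  obtain ⟨m, hm⟩ := hn
  refine tail _ m h (fun k => by rw [hm]; exact (Sr _).zero_mem) ⟨2 * a, fun k hk => ?_⟩ k
  obtain ⟨j, rfl⟩ := Nat.exists_eq_add_of_le' hk
  exact ⟨h j, shift hh a j⟩

theorem der_pow (d : E → E)
    (hmul : ∀ x y, d (x * y) = d x * y + x * d y) {h : ℕ → E} {P : E}
    (hh : ∀ k, h (k + 2) * P = P * h k) (hd : d P = (h 1 + h 2) * P) (a : ℕ) :
    d (P ^ a) = (∑ j ∈ Finset.range (2 * a), h (j + 1)) * P ^ a := by
  induction a with
  | zero =>
    have h1 := hmul 1 1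
    rw [mul_one, mul_one, one_mul] at h1
    rw [pow_zero, Nat.mul_zero, Finset.range_zero, Finset.sum_empty, zero_mul]
    exact left_eq_add.mp h1
  | succ a ih =>
    have e : 2 * (a + 1) = 2 * a + 1 + 1 := by ring
    have e2 : P * ∑ j ∈ Finset.range (2 * a), h (j + 1) =
        (∑ j ∈ Finset.range (2 * a), h (j + 1 + 1 + 1)) * P := by
      rw [Finset.mul_sum, Finset.sum_mul]
      refine Finset.sum_congr rfl fun j _ => ?_
      rw [← hh]
    rw [pow_succ', hmul, hd, ih, e, Finset.sum_range_succ', Finset.sum_range_succ',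
      ← mul_assoc P, e2]
    noncomm_ring

theorem der_pow_mem (d : E → E)
    (hmul : ∀ x y, d (x * y) = d x * y + x * d y) {h : ℕ → E} {P : E} (hn : NilAt DD h)
    (hh : ∀ k, h (k + 2) * P = P * h k) (hd : d P = (h 1 + h 2) * P) (a : ℕ) :
    ∃ y, d (P ^ a) = P ^ a * y := by
  have h1 : (∑ j ∈ Finset.range (2 * a), h (j + 1)) ∈ Sr (P ^ a) :=
    (Sr (P ^ a)).sum_mem fun j _ => mem_Sr hn hh a (j + 1)
  obtain ⟨y, hy⟩ := h1
  exact ⟨y, by rw [der_pow d hmul hh hd, hy]⟩

end Abs

section Core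

variable {k K : Type*} [Field k] [Field K] [Algebra k K]
variable {M : Type*} [AddCommGroup M] [Module K M]

/-- the endomorphism `A` preserves the ranges of the powers of `P` -/
def FilE (P A : End K M) : Prop := ∀ (a : ℕ) v, ∃ v', A ((P ^ a) v) = (P ^ a) v'

theorem FilE.zero {P : End K M} : FilE P (0 : End K M) := fun a v => ⟨0, by simp⟩

theorem FilE.add {P A A' : End K M} (h : FilE P A) (h' : FilE P A') : FilE P (A + A') := by
  intro a v
  obtain ⟨u, hu⟩ := h a v
  obtain ⟨u', hu'⟩ := h' a v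
  exact ⟨u + u', by rw [LinearMap.add_apply, hu, hu', map_add]⟩

theorem FilE.smul {P A : End K M} (c : K) (h : FilE P A) : FilE P (c • A) := by
  intro a v
  obtain ⟨u, hu⟩ := h a v
  exact ⟨c • u, by rw [LinearMap.smul_apply, hu, map_smul]⟩

theorem FilE.mul {P A A' : End K M} (h : FilE P A) (h' : FilE P A') : FilE P (A * A') := by
  intro a v
  obtain ⟨u, hu⟩ := h' a v
  obtain ⟨u', hu'⟩ := h a u
  exact ⟨u', by rw [Module.End.mul_apply, hu, hu']⟩

theorem FilE.of_comm {P A : End K M} {c : K} (h : ∀ v, A (P v) = c • P (A v)) : FilE P A := by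
  intro a
  have key : ∀ (a : ℕ) v, A ((P ^ a) v) = c ^ a • (P ^ a) (A v) := by
    intro a
    induction a with
    | zero => intro v; simp
    | succ a ih =>
      intro v
      rw [pow_succ, Module.End.mul_apply, ih, h, map_smul, Module.End.mul_apply, smul_smul,
        pow_succ]
  intro v
  exact ⟨c ^ a • A v, by rw [key, map_smul]⟩

theorem FilE.of_Sr {P x : End K M} (h : ∀ a : ℕ, x ∈ Sr (P ^ a)) : FilE P x := by
  intro a v
  obtain ⟨y, hy⟩ := h a
  exact ⟨y v, by rw [← Module.End.mul_apply, hy, Module.End.mul_apply]⟩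

variable {κ : Type*} {T : End K M →ₗ[K] End K M} {Ψ : κ → End K M} {D : End K M}

theorem fil_ZZ {z : End K M} (hz : z ∈ ZZ T 1 D Ψ) (s : κ) : FilE (Ψ s) z := by
  obtain ⟨h, h1, -, -, -, -, h6, h7⟩ := hz
  rw [← h6]
  exact FilE.of_Sr fun a => mem_Sr h1 (fun k => h7 k s) a 1


/-- the connection preserves `FilE` -/
theorem FilE.dE {d : Derivation k K K} {nb : M → M} (h : Conn d nb) {v : End K M}
    (hv : v ∈ ZZ T 1 D Ψ) (s : κ)
    (hd : h.dE (Ψ s) = v * Ψ s + Ψ s * T v) {A : End K M} (hA : FilE (Ψ s) A) :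
    FilE (Ψ s) (h.dE A) := by
  obtain ⟨u, h1, -, -, -, h5, h6, h7⟩ := hv
  have hd' : h.dE (Ψ s) = (u 1 + u 2) * Ψ s := by
    rw [hd, ← h5, ← h6, add_mul, h7]
  intro a m
  obtain ⟨y, hy⟩ := der_pow_mem h.dE h.dE_mul h1 (fun k => h7 k s) hd' a
  have key : ∀ m', nb ((Ψ s ^ a) m') = (Ψ s ^ a) (y m' + nb m') := by
    intro m'
    have := congrArg (fun X : End K M => X m') hy
    simp only [Conn.dE_apply, Module.End.mul_apply] at this
    rw [map_add, ← this]
    abel
  obtain ⟨m1, hm1⟩ := hA a m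
  obtain ⟨m2, hm2⟩ := hA a (y m + nb m)
  refine ⟨y m1 + nb m1 - m2, ?_⟩
  rw [Conn.dE_apply, hm1, key, key, hm2, ← map_sub]

end Core

section Frame

variable {ι : Type*} [Fintype ι] [DecidableEq ι] {δ : Type*} [Fintype δ] [DecidableEq δ]
variable {n : Type*} [Fintype n] [DecidableEq n]
variable {k K : Type*} [Field k] [Field K] [Algebra k K]
variable {M : Type*} [AddCommGroup M] [Module K M]
variable {arm : δ → Fin 3} {J : Matrix ι ι K} {B : Matrix δ δ K}
  {N W : Submodule K (Matrix ι δ K)} {F G : Matrix ι δ K} {p : Matrix ι n K}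
  {al : Fin 3 → Matrix n n K}
  {β : LinearMap.BilinForm K M} {T : Module.End K M →ₗ[K] Module.End K M}
  {Ψ : Fin 3 → Module.End K M} {π : (n → K) →ₗ[K] M} {g : Matrix n n K}

open Crest.Agent.R172.RD (Fil)

theorem cf (cr : RDEnd.Cr J p al β π Ψ T) : CF β T π (pᵀ * J * p) where
  adj := ⟨cr.ns.symm, cr.ns.nd, cr.adj⟩
  surj := cr.onto
  form := cr.form

theorem Fil.add {s : Fin 3} {y y' : Matrix n n K} (h : Fil g π Ψ s y) (h' : Fil g π Ψ s y') :
    Fil g π Ψ s (y + y') := by
  obtain ⟨yb, h1, h2⟩ := h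
  obtain ⟨yb', h1', h2'⟩ := h'
  refine ⟨yb + yb', fun u => ?_, FilE.add h2 h2'⟩
  rw [Matrix.add_mulVec, map_add, h1, h1', LinearMap.add_apply]

theorem Fil.smul {s : Fin 3} {y : Matrix n n K} (c : K) (h : Fil g π Ψ s y) :
    Fil g π Ψ s (c • y) := by
  obtain ⟨yb, h1, h2⟩ := h
  refine ⟨c • yb, fun u => ?_, FilE.smul c h2⟩
  rw [Matrix.smul_mulVec, map_smul, h1, LinearMap.smul_apply]

theorem Fil.neg {s : Fin 3} {y : Matrix n n K} (h : Fil g π Ψ s y) : Fil g π Ψ s (-y) := by
  have := Fil.smul (-1) h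
  rwa [neg_one_smul] at this


theorem Fil.mul_left {s : Fin 3} {y z : Matrix n n K} {zb : End K M} (hz : Lifts π z zb)
    (hb : FilE (Ψ s) zb) (h : Fil g π Ψ s y) : Fil g π Ψ s (z * y) := by
  obtain ⟨yb, h1, h2⟩ := h
  refine ⟨zb * yb, fun u => ?_, FilE.mul hb h2⟩
  rw [← Matrix.mulVec_mulVec, hz, h1, Module.End.mul_apply]

/-- `zᵀ g u = g u'` with `π u' = T zb (π u)` -/
theorem transpose_g (h : CF β T π g) {z : Matrix n n K} {zb : End K M} (hz : Lifts π z zb)
    {u u' : n → K} (hu : π u' = T zb (π u)) : zᵀ *ᵥ (g *ᵥ u) = g *ᵥ u' := by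
  rw [← sub_eq_zero]
  refine dotProduct_eq_zero _ fun w => ?_
  rw [dotProduct_comm, dotProduct_sub, Matrix.dotProduct_mulVec, Matrix.vecMul_transpose,
    ← h.form, ← h.form, hz, hu, h.adj.symm (π w), h.adj.adj, h.adj.symm (π u), sub_self]

theorem Fil.mul_right (hc : CF β T π g) {s : Fin 3} {y z : Matrix n n K} {zb : End K M}
    (hz : Lifts π z zb) (hb : FilE (Ψ s) (T zb)) (h : Fil g π Ψ s y) :
    Fil g π Ψ s (y * zᵀ) := by
  obtain ⟨yb, h1, h2⟩ := h
  refine ⟨yb * T zb, fun u => ?_, FilE.mul h2 hb⟩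
  obtain ⟨u', hu'⟩ := hc.surj (T zb (π u))
  rw [← Matrix.mulVec_mulVec, transpose_g hc hz hu', h1, hu', Module.End.mul_apply]

/-- right multiplication by the transpose of a correction -/
theorem Fil.mul_ZF (hc : CF β T π g) {s : Fin 3} {y z : Matrix n n K} (hz : z ∈ ZF T π Ψ)
    (h : Fil g π Ψ s y) : Fil g π Ψ s (y * zᵀ) := by
  obtain ⟨zb, h1, h2⟩ := hz
  exact Fil.mul_right hc h1 (fil_ZZ h2 s) h

theorem sa_of (h : CF β T π g) {a : Matrix n n K} {ab : End K M} (hl : Lifts π a ab)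
    (hT : T ab = ab) : aᵀ * g = g * a := by
  apply Matrix.ext_of_mulVec_single
  intro i
  rw [← Matrix.mulVec_mulVec, ← Matrix.mulVec_mulVec]
  exact transpose_g h hl (u := Pi.single i 1) (u' := a *ᵥ Pi.single i 1) (by rw [hT]; exact hl _)

theorem flip_exact {a y : Matrix n n K} {c : K} (hg : gᵀ = g) (hc : c ≠ 0)
    (h : g * (y * aᵀ - c • (a * y)) * g = 0) : g * (yᵀ * aᵀ - c⁻¹ • (a * yᵀ)) * g = 0 := by
  have h1 := congrArg transpose h
  rw [transpose_mul, transpose_mul, transpose_sub, transpose_smul, transpose_mul, transpose_mul,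
    transpose_transpose, hg, transpose_zero] at h1
  have h2 : yᵀ * aᵀ - c⁻¹ • (a * yᵀ) = -(c⁻¹ • (a * yᵀ - c • (yᵀ * aᵀ))) := by
    rw [smul_sub, smul_smul, inv_mul_cancel₀ hc, one_smul, neg_sub]
  rw [h2, Matrix.mul_neg, Matrix.neg_mul, Matrix.mul_smul, Matrix.smul_mul, Matrix.mul_assoc, h1,
    smul_zero, neg_zero]

/-- a block idempotent descends to the core -/
theorem exists_eb (hc : CF β T π g) {e : Matrix n n K} (heg : eᵀ * g = g * e) :
    ∃ eb : End K M, Lifts π e eb ∧ T eb = eb := by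
  obtain ⟨eb, heb⟩ := hc.exists_lift (z := e) (N := eᵀ) heg.symm
  exact ⟨eb, heb, hc.T_eq heb heb heg.symm⟩

theorem eb_comm (cr : RDEnd.Cr J p al β π Ψ T) {e : Matrix n n K} {eb : End K M}
    (he : Lifts π e eb) {s : Fin 3} (hea : e * al s = al s * e) : FilE (Ψ s) eb := by
  refine FilE.of_comm (c := 1) fun v => ?_
  obtain ⟨y, rfl⟩ := cr.onto v
  rw [one_smul, cr.op, ← he, ← he, cr.op, Matrix.mulVec_mulVec, Matrix.mulVec_mulVec, hea]

/-- block cut -/
theorem Fil.cut (cr : RDEnd.Cr J p al β π Ψ T) {s : Fin 3} {y e e' : Matrix n n K}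
    (heg : eᵀ * (pᵀ * J * p) = (pᵀ * J * p) * e) (hea : e * al s = al s * e)
    (heg' : e'ᵀ * (pᵀ * J * p) = (pᵀ * J * p) * e') (hea' : e' * al s = al s * e')
    (h : Fil (pᵀ * J * p) π Ψ s y) : Fil (pᵀ * J * p) π Ψ s (e * y * e'ᵀ) := by
  obtain ⟨eb, h1, h2⟩ := exists_eb (cf cr) heg
  obtain ⟨eb', h1', h2'⟩ := exists_eb (cf cr) heg'
  refine Fil.mul_right (cf cr) h1' ?_ (Fil.mul_left h1 (eb_comm cr h1 hea) h)
  rw [h2']
  exact eb_comm cr h1' hea'

/-- scalar exact families are filtered -/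
theorem Fil.of_exact (cr : RDEnd.Cr J p al β π Ψ T) {s : Fin 3} {y : Matrix n n K} {c : K}
    (hc : c ≠ 0) (h : (pᵀ * J * p) * (y * (al s)ᵀ - c • (al s * y)) * (pᵀ * J * p) = 0) :
    Fil (pᵀ * J * p) π Ψ s y := by
  set g := pᵀ * J * p with hg
  have hf : CF β T π g := cf cr
  have hag : (al s)ᵀ * g = g * al s :=
    sa_of hf (fun u => (cr.op s u).symm) (hf.adj.eq_of fun x y => cr.sa s x y)
  -- `y g` descends
  have hle : LinearMap.ker π ≤ LinearMap.ker (π ∘ₗ Matrix.toLin' (y * g)) := by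
    intro u hu
    rw [LinearMap.mem_ker] at hu ⊢
    rw [LinearMap.comp_apply, Matrix.toLin'_apply, ← Matrix.mulVec_mulVec, (hf.ker u).1 hu,
      Matrix.mulVec_zero, map_zero]
  obtain ⟨yb, hyb⟩ : ∃ yb : End K M, ∀ u, π (y *ᵥ (g *ᵥ u)) = yb (π u) := by
    refine ⟨((LinearMap.ker π).liftQ (π ∘ₗ Matrix.toLin' (y * g)) hle) ∘ₗ
      (π.quotKerEquivOfSurjective cr.onto).symm.toLinearMap, fun u => ?_⟩
    have h1 : (π.quotKerEquivOfSurjective cr.onto).symm (π u) = (LinearMap.ker π).mkQ u := by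
      rw [LinearEquiv.symm_apply_eq]
      rfl
    rw [LinearMap.comp_apply, LinearEquiv.coe_coe, h1]
    change _ = π (Matrix.toLin' (y * g) u)
    rw [Matrix.toLin'_apply, Matrix.mulVec_mulVec]
  refine ⟨yb, hyb, ?_⟩
  refine FilE.of_comm (c := c) fun v => ?_
  obtain ⟨u, rfl⟩ := cr.onto v
  rw [cr.op, ← hyb, ← hyb, cr.op, ← map_smul, ← sub_eq_zero, ← map_sub, hf.ker]
  have e1 : y *ᵥ (g *ᵥ (al s *ᵥ u)) = (y * (al s)ᵀ * g) *ᵥ u := by
    rw [Matrix.mul_assoc, hag]; simp only [Matrix.mulVec_mulVec, Matrix.mul_assoc]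
  have e2 : c • (al s *ᵥ (y *ᵥ (g *ᵥ u))) = (c • (al s * y) * g) *ᵥ u := by
    rw [Matrix.smul_mul, Matrix.smul_mulVec]; simp only [Matrix.mulVec_mulVec, Matrix.mul_assoc]
  rw [e1, e2, ← Matrix.sub_mulVec, ← Matrix.sub_mul, Matrix.mulVec_mulVec, ← Matrix.mul_assoc, h,
    Matrix.zero_mulVec]

/-- transpose -/
theorem Fil.of_exact_transpose (cr : RDEnd.Cr J p al β π Ψ T) {s : Fin 3} {y : Matrix n n K}
    {c : K} (hc : c ≠ 0)
    (h : (pᵀ * J * p) * (y * (al s)ᵀ - c • (al s * y)) * (pᵀ * J * p) = 0)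
    (hJ : Jᵀ = J) :
    Fil (pᵀ * J * p) π Ψ s yᵀ := by
  refine Fil.of_exact cr (c := c⁻¹) (inv_ne_zero hc) (flip_exact ?_ hc h)
  simp only [transpose_mul, transpose_transpose, hJ, Matrix.mul_assoc]

/-- **the connection of an `L`-fixed derivation preserves `Fil`** -/
theorem Fil.nab (cr : RDEnd.Cr J p al β π Ψ T) {d : Derivation k K K} {P : Matrix n n K}
    (hg : (pᵀ * J * p).map d = Pᵀ * (pᵀ * J * p) + (pᵀ * J * p) * P)
    {zY : Matrix n n K}
    (hv : ∀ r, (pᵀ * J * p) * ((al r).map d + P * al r - al r * P) =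
      zYᵀ * (pᵀ * J * p) * al r + (pᵀ * J * p) * al r * zY)
    (hzY : zY ∈ ZF T π Ψ) {s : Fin 3} {y : Matrix n n K} (h : Fil (pᵀ * J * p) π Ψ s y) :
    Fil (pᵀ * J * p) π Ψ s (y.map d + P * y + y * Pᵀ) := by
  obtain ⟨yb, h1, h2⟩ := h
  obtain ⟨vb, v1, v2⟩ := hzY
  set g := pᵀ * J * p with hgdef
  have hf : CF β T π g := cf cr
  have hΨ : ∀ r, Lifts π (al r) (Ψ r) := fun r u => (cr.op r u).symm
  refine ⟨(hf.conn hg).dE yb, fun u => ?_, ?_⟩
  · rw [Conn.dE_apply, ← h1, hf.nb_q hg, hf.nb_q hg, ← h1, ← map_sub]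
    congr 1
    unfold fr
    rw [d_mulVec d y, d_mulVec d g, hg]
    simp only [Matrix.add_mulVec, Matrix.mulVec_add, Matrix.mulVec_mulVec, Matrix.mul_add,
      Matrix.add_mul, Matrix.mul_assoc]
    abel
  · refine FilE.dE (hf.conn hg) v2 s ?_ h2
    rw [hf.adj.TT]
    apply hf.adj.ext
    intro x x'
    obtain ⟨x, rfl⟩ := hf.surj x
    obtain ⟨x', rfl⟩ := hf.surj x'
    have e1 := hf.lifts_dE hg (hΨ s)
    rw [hf.adj.symm, ← e1, hf.form, Matrix.mulVec_mulVec, hv, LinearMap.add_apply,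
      Module.End.mul_apply, Module.End.mul_apply, map_add, LinearMap.add_apply, hf.adj.adj,
      ← v1, ← v1, ← hΨ, ← hΨ, hf.adj.symm (π (al s *ᵥ x)), hf.form,
      hf.adj.symm (π (al s *ᵥ (zY *ᵥ x))), hf.form, Matrix.add_mulVec, dotProduct_add]
    congr 1
    · rw [Matrix.mul_assoc, ← Matrix.mulVec_mulVec, Matrix.dotProduct_mulVec,
        Matrix.vecMul_transpose, Matrix.mulVec_mulVec]
    · simp only [Matrix.mulVec_mulVec, Matrix.mul_assoc]

end Frame

end Crest.Agent.R172.FilZ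
end

-- ▼ part R172/RDsecond302

/-!
Row 172 (S0260), `RD`: `second` (independent copy by helper302).
-/

set_option autoImplicit false
set_option linter.unusedSectionVars false

namespace Crest.Agent.R172.RDS302

open Matrix Module TensorProduct Crest.Agent.R172.FO Crest.Agent.R172.FrmB
open Crest.Agent.R172.Core (NS Tame)
open Crest.Agent.R172.PL (Wk)
open Crest.Agent.R172.RD

variable {ι : Type*} [Fintype ι] [DecidableEq ι] {δ : Type*} [Fintype δ] [DecidableEq δ]
variable {n : Type*} [Fintype n] [DecidableEq n]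
variable {k K : Type*} [Field k] [Field K] [Algebra k K]
variable {M : Type*} [AddCommGroup M] [Module K M]
variable {m : Type*} [Fintype m] [DecidableEq m]

section off

variable {e : m → Matrix n n K}

theorem off_blk (orth : ∀ i j, i ≠ j → e i * e j = 0) {i j : m} (hij : i ≠ j) {A : Matrix n n K}
    (hA : e i * A * e j = A) : off e A = A := by
  unfold off
  have : ∀ l, e l * A * e l = 0 := by
    intro l
    rw [← hA]
    by_cases hl : l = i
    · subst hl
      simp only [Matrix.mul_assoc]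
      rw [orth j l (Ne.symm hij)]
      simp
    · simp only [← Matrix.mul_assoc]
      rw [orth l i hl]
      simp
  simp [this]

theorem off_mul_e (idem : ∀ i, e i * e i = e i) (orth : ∀ i j, i ≠ j → e i * e j = 0)
    (A : Matrix n n K) (i : m) : A * e i = e i * A * e i + off e A * e i := by
  unfold off
  rw [Matrix.sub_mul, Pick.diag_mul idem orth (fun _ => A) i]
  abel

/-- right multiplication by a transpose -/
theorem rt {Z C ei x : Matrix n n K} (hZ : Z * ei = ei * Z * ei + C) (hx : x * eiᵀ = x) :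
    x * Zᵀ = x * Zᵀ * eiᵀ + x * Cᵀ := by
  have h1 := congrArg transpose hZ
  simp only [transpose_mul, transpose_add] at h1
  calc x * Zᵀ = x * eiᵀ * Zᵀ := by rw [hx]
    _ = x * (eiᵀ * Zᵀ) := by rw [Matrix.mul_assoc]
    _ = x * (eiᵀ * (Zᵀ * eiᵀ) + Cᵀ) := by rw [h1]
    _ = x * eiᵀ * Zᵀ * eiᵀ + x * Cᵀ := by simp only [Matrix.mul_add, Matrix.mul_assoc]
    _ = _ := by rw [hx]

end off

variable {arm : δ → Fin 3} {J : Matrix ι ι K} {B : Matrix δ δ K}
  {N W : Submodule K (Matrix ι δ K)} {F G : Matrix ι δ K} {p : Matrix ι n K}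
  {al : Fin 3 → Matrix n n K} {tau : Matrix n n K}
  {β : LinearMap.BilinForm K M} {T : Module.End K M →ₗ[K] Module.End K M}
  {Ψ : Fin 3 → Module.End K M} {D : Module.End K M} {π : (n → K) →ₗ[K] M}
  {e : m → Matrix n n K} {lam : m → K} {l : Fin 3 → ℕ} {TT : Set k}

/-- the derivative of the action, with `p` in front -/
theorem al_der' (hD : Data k arm J B N W) (hal : ∀ r, Phi arm J B F r * p = p * al r)
    {wY : Matrix ι δ K} {zY : Matrix n n K} (hval : wYᵀ * J * p = Fᵀ * J * p * zY)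
    {μ : Fin 3 → Matrix n n K} (hμ : ∀ r, wY * E K arm r * B * (Fᵀ * J * p) = p * μ r)
    {d : Derivation k K K} (hdF : F.map d = wY) {P : Matrix n n K} (hp : p.map d = p * P)
    (r : Fin 3) : p * FC.nab d P (al r) = p * (μ r + al r * zY) := by
  have e1 : (Phi arm J B F r).map d * p =
      wY * E K arm r * B * (Fᵀ * J * p) + F * E K arm r * B * (wYᵀ * J * p) := by
    unfold Phi M
    rw [map_mul_der, map_mul_der, map_mul_der, map_mul_der, hD.J_const, hD.B_const, E_map_der,
      map_transpose_der, hdF]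
    simp only [Matrix.mul_zero, Matrix.add_mul, add_zero, Matrix.mul_assoc]
  have e2 := congrArg (fun A : Matrix ι n K => A.map d) (hal r)
  rw [map_mul_der, map_mul_der, hp, e1, hval, hμ] at e2
  have e3 : F * E K arm r * B * (Fᵀ * J * p * zY) = p * (al r * zY) := by
    have : Phi arm J B F r * p * zY = p * al r * zY := by rw [hal]
    rw [← Matrix.mul_assoc p, ← this]
    unfold Phi M
    simp only [Matrix.mul_assoc]
  have e4 : Phi arm J B F r * (p * P) = p * (al r * P) := by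
    rw [← Matrix.mul_assoc, hal, Matrix.mul_assoc]
  rw [e3, e4] at e2
  unfold FC.nab
  rw [Matrix.mul_sub, Matrix.mul_add, Matrix.mul_add]
  have e5 : p * (al r).map d + p * (P * al r) = p * μ r + p * (al r * zY) + p * (al r * P) := by
    rw [← Matrix.mul_assoc p P, e2]
    abel
  rw [e5]
  abel

/-- **RD3**: SECOND: the bilinear relation -/
theorem second [CharZero K] (h : Fr k arm J B N W F G p al tau β T Ψ D π e lam l TT)
    {i j : m} (hij : i ≠ j) (hod : ∀ i j : m, i ≠ j → OffP arm J N W F p T Ψ π e i j) :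
    SecondP arm J B N W F p al T Ψ π e i j := by
  intro c c' hc hc' x y b kk b' kk' hx hy hx1 hx2 hy1
  obtain ⟨w1, z1, μ1, hw1, hn1, hv1, hm1, hz1, ho1, hq1⟩ := hx1
  obtain ⟨w2, z2, μ2, hw2, hn2, hv2, hm2, hz2, ho2, hq2⟩ := hx2
  obtain ⟨w3, z3, μ3, hw3, hn3, hv3, hm3, hz3, ho3, hq3⟩ := hy1
  have hD := h.ctx.data
  set g : Matrix n n K := pᵀ * J * p with hgdef
  -- the direction `Y = x - xᵀ`
  have hQ1 : Q3 arm J B N W F p x w1 z1 := ⟨hw1, hn1, hv1, fun r => ⟨_, hm1 r⟩⟩
  have hQ2 : Q3 arm J B N W F p (fun r => (x r)ᵀ) w2 z2 := ⟨hw2, hn2, hv2, fun r => ⟨_, hm2 r⟩⟩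
  have hQ3 : Q3 arm J B N W F p y w3 z3 := ⟨hw3, hn3, hv3, fun r => ⟨_, hm3 r⟩⟩
  have hQY : Q3 arm J B N W F p (fun r => x r - (x r)ᵀ) (w1 - w2) (z1 - z2) := by
    have := hQ1.add (hQ2.smul (-1))
    simpa only [neg_one_smul, ← sub_eq_add_neg] using this
  have hzY : z1 - z2 ∈ ZFr.ZF T π Ψ := Submodule.sub_mem _ hz1 hz2
  have hskew : ∀ r, (x r - (x r)ᵀ)ᵀ = -(x r - (x r)ᵀ) := by
    intro r; rw [transpose_sub, transpose_transpose]; abel
  obtain ⟨ρ, hρ⟩ := h.ctx.perf
  obtain ⟨m0, hwk⟩ := h.wk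
  obtain ⟨d, hreal, hdF⟩ := exists_D hD h.vt hskew hQY
  obtain ⟨P0, hP0⟩ := persist_Q hD h.ctx.hal hρ hwk hQY hdF
  have hmY : ∀ r, (w1 - w2) * E K arm r * B * (Fᵀ * J * p) = p * (μ1 r - μ2 r) := by
    intro r
    rw [Matrix.sub_mul, Matrix.sub_mul, Matrix.sub_mul, hm1, hm2, Matrix.mul_sub]
  -- pick
  obtain ⟨P, hP, hPo⟩ : ∃ P, p.map d = p * P ∧ off e P = b + kk := by
    refine pick h (t := 0) (Or.inr rfl) (kap := 1) (by simp) hP0
      (U := fun r => (μ1 r - μ2 r) + al r * (z1 - z2)) ?_ (C := b + kk) ?_ ?_ ?_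
    · intro s
      rw [Matrix.mul_one, Matrix.mul_one]
      exact al_der' hD h.ctx.hal hQY.val hmY hdF hP0 s
    · rw [Pick.off_add, off_blk h.orth hij hx.bb, off_blk h.orth (Ne.symm hij) hx.bk]
    · intro u
      rw [Matrix.add_mulVec, map_add, hx.rb, hx.rk, add_zero]
    · intro s
      rw [Pick.off_add, Pick.off_sub, Pick.mul_off _ (fun i => h.eal i s), Pick.off_sub, hq1, hq2,
        ho1, ho2, Matrix.mul_one, Matrix.mul_one]
      simp only [Matrix.mul_sub, Matrix.mul_add, Matrix.add_mul, Matrix.mul_neg]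
      abel
  have hS := FrmB.second hD hQY hreal hdF hP hQ3
  have hZ := ZFr.second (q := π) hD (FilZ.cf h.cr) h.ctx.hal (fun r u => (h.cr.op r u).symm)
    hQY.val hdF hP hzY hz3
  -- membership of the new family
  have hRel : (fun r => (y r).map d + P * y r + y r * Pᵀ + y r * (z1 - z2)ᵀ -
      (x r - (x r)ᵀ) * (pᵀ * J * p) * y r + (x r - (x r)ᵀ) * z3ᵀ) ∈
      RDEnd.Rel arm J N W F p π T 0 Ψ := by
    obtain ⟨zb, hl, hzz⟩ := hZ
    exact RDEnd.mem_Rel_of_Q3 hS hl hzz
  -- the filtered parts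
  have hgm : (pᵀ * J * p).map d = Pᵀ * (pᵀ * J * p) + (pᵀ * J * p) * P := ZFr.g_der hD hP
  have hv := ZFr.al_der hD h.ctx.hal hQY.val hdF hP
  have hFy : ∀ s, Fil (pᵀ * J * p) π Ψ s (y s) := fun s => by
    refine FilZ.Fil.of_exact h.cr hc' ?_
    have := hy.arm s
    rwa [Matrix.smul_mul] at this
  have hFx : ∀ s, Fil (pᵀ * J * p) π Ψ s (x s) := fun s => by
    refine FilZ.Fil.of_exact h.cr hc ?_
    have := hx.arm s
    rwa [Matrix.smul_mul] at this
  have hFxt : ∀ s, Fil (pᵀ * J * p) π Ψ s (x s)ᵀ := fun s => by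
    refine FilZ.Fil.of_exact_transpose h.cr hc ?_ hD.J_symm
    have := hx.arm s
    rwa [Matrix.smul_mul] at this
  have hV : ∀ s, Fil (pᵀ * J * p) π Ψ s
      ((y s).map d + P * y s + y s * Pᵀ + y s * (z1 - z2)ᵀ + x s * z3ᵀ) := fun s =>
    FilZ.Fil.add (FilZ.Fil.add (FilZ.Fil.nab h.cr hgm hv hzY (hFy s))
      (FilZ.Fil.mul_ZF (FilZ.cf h.cr) hzY (hFy s))) (FilZ.Fil.mul_ZF (FilZ.cf h.cr) hz3 (hFx s))
  have hV' : ∀ s, Fil (pᵀ * J * p) π Ψ s ((x s)ᵀ * z3ᵀ) := fun s =>
    FilZ.Fil.mul_ZF (FilZ.cf h.cr) hz3 (hFxt s)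
  -- cut parts in `Rel`
  have cutmem : ∀ (a c : m), a ≠ c → ∀ V : Fin 3 → Matrix n n K,
      (∀ s, Fil (pᵀ * J * p) π Ψ s (V s)) →
      (fun s => e c * V s * (e a)ᵀ) ∈ RDEnd.Rel arm J N W F p π T 0 Ψ := by
    intro a c hac V hVf
    have h1 : (fun s => e c * V s * (e a)ᵀ) =
        ∑ s, (Pi.single s (e c * V s * (e a)ᵀ) : Fin 3 → Matrix n n K) := by
      rw [Finset.univ_sum_single]
    rw [h1]
    refine Submodule.sum_mem _ fun s _ => hod a c hac s _ ?_ ?_
    · calc e c * (e c * V s * (e a)ᵀ) * (e a)ᵀ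
          = (e c * e c) * V s * ((e a) * (e a))ᵀ := by
            rw [transpose_mul]; simp only [Matrix.mul_assoc]
        _ = _ := by rw [h.idem, h.idem]
    · exact FilZ.Fil.cut h.cr (h.eg c) (h.eal c s) (h.eg a) (h.eal a s) (hVf s)
  have hR1 := cutmem i j hij _ hV
  have hR2 := cutmem j i (Ne.symm hij) _ hV'
  -- the identity
  have hkey : ∀ r, b * y r + (x r)ᵀ * (pᵀ * J * p) * y r + (x r)ᵀ * b'ᵀ =
      ((y r).map d + P * y r + y r * Pᵀ + y r * (z1 - z2)ᵀ -
      (x r - (x r)ᵀ) * (pᵀ * J * p) * y r + (x r - (x r)ᵀ) * z3ᵀ) -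
      e j * ((y r).map d + P * y r + y r * Pᵀ + y r * (z1 - z2)ᵀ + x r * z3ᵀ) * (e i)ᵀ +
      e i * ((x r)ᵀ * z3ᵀ) * (e j)ᵀ := by
    intro r
    have jy : e j * y r = y r := by
      conv_lhs => rw [← hy.bx r]
      rw [← Matrix.mul_assoc, ← Matrix.mul_assoc, h.idem, hy.bx]
    have yi : y r * (e i)ᵀ = y r := by
      conv_lhs => rw [← hy.bx r]
      rw [Matrix.mul_assoc, ← transpose_mul, h.idem, hy.bx]
    have jx : e j * x r = x r := by
      conv_lhs => rw [← hx.bx r]
      rw [← Matrix.mul_assoc, ← Matrix.mul_assoc, h.idem, hx.bx]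
    have xi : x r * (e i)ᵀ = x r := by
      conv_lhs => rw [← hx.bx r]
      rw [Matrix.mul_assoc, ← transpose_mul, h.idem, hx.bx]
    have xti : e i * (x r)ᵀ = (x r)ᵀ := by
      have := congrArg transpose xi
      rwa [transpose_mul, transpose_transpose] at this
    have xtj : (x r)ᵀ * (e j)ᵀ = (x r)ᵀ := by
      have := congrArg transpose jx
      rwa [transpose_mul] at this
    have bj : b * e j = b := by
      conv_lhs => rw [← hx.bb]
      rw [Matrix.mul_assoc, h.idem, hx.bb]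
    have bi : b * e i = 0 := by
      rw [← hx.bb, Matrix.mul_assoc, h.orth j i (Ne.symm hij), Matrix.mul_zero]
    have ki : kk * e i = kk := by
      conv_lhs => rw [← hx.bk]
      rw [Matrix.mul_assoc, h.idem, hx.bk]
    have kj : kk * e j = 0 := by
      rw [← hx.bk, Matrix.mul_assoc, h.orth i j hij, Matrix.mul_zero]
    have b'j : b' * e j = b' := by
      conv_lhs => rw [← hy.bb]
      rw [Matrix.mul_assoc, h.idem, hy.bb]
    have b'i : b' * e i = 0 := by
      rw [← hy.bb, Matrix.mul_assoc, h.orth j i (Ne.symm hij), Matrix.mul_zero]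
    have fPj : P * e j = e j * P * e j + b := by
      rw [off_mul_e h.idem h.orth P j, hPo, Matrix.add_mul, bj, kj, add_zero]
    have fPi : P * e i = e i * P * e i + kk := by
      rw [off_mul_e h.idem h.orth P i, hPo, Matrix.add_mul, bi, ki, zero_add]
    have fzY : (z1 - z2) * e i = e i * (z1 - z2) * e i + -kk := by
      rw [off_mul_e h.idem h.orth (z1 - z2) i, Pick.off_sub, ho1, ho2, Matrix.sub_mul,
        Matrix.neg_mul, bi, ki, neg_zero, zero_sub]
    have fz3i : z3 * e i = e i * z3 * e i + 0 := by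
      rw [off_mul_e h.idem h.orth z3 i, ho3, Matrix.neg_mul, b'i, neg_zero]
    have fz3j : z3 * e j = e j * z3 * e j + -b' := by
      rw [off_mul_e h.idem h.orth z3 j, ho3, Matrix.neg_mul, b'j]
    -- the five terms
    have t0 : e j * (y r).map d * (e i)ᵀ = (y r).map d := by
      have h1 := congrArg (fun A : Matrix n n K => A.map d) (hy.bx r)
      simp only [map_mul_der, map_transpose_der, h.eC, Matrix.zero_mul, transpose_zero,
        Matrix.mul_zero, zero_add, add_zero] at h1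
      exact h1
    have t1 : P * y r = e j * (P * y r) * (e i)ᵀ + b * y r := by
      calc P * y r = P * e j * y r := by rw [Matrix.mul_assoc, jy]
        _ = e j * P * (e j * y r) + b * y r := by rw [fPj, Matrix.add_mul, Matrix.mul_assoc _ (e j)]
        _ = e j * (P * (y r * (e i)ᵀ)) + b * y r := by rw [jy, yi, Matrix.mul_assoc]
        _ = _ := by simp only [Matrix.mul_assoc]
    have t2 : y r * Pᵀ = e j * (y r * Pᵀ) * (e i)ᵀ + y r * kkᵀ := by
      conv_lhs => rw [rt fPi yi]
      rw [← Matrix.mul_assoc (e j), jy]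
    have t3 : y r * (z1 - z2)ᵀ = e j * (y r * (z1 - z2)ᵀ) * (e i)ᵀ - y r * kkᵀ := by
      conv_lhs => rw [rt fzY yi]
      rw [← Matrix.mul_assoc (e j), jy, transpose_neg, Matrix.mul_neg, ← sub_eq_add_neg]
    have t4 : x r * z3ᵀ = e j * (x r * z3ᵀ) * (e i)ᵀ := by
      conv_lhs => rw [rt fz3i xi]
      rw [← Matrix.mul_assoc (e j), jx, transpose_zero, Matrix.mul_zero, add_zero]
    have t5 : (x r)ᵀ * z3ᵀ = e i * ((x r)ᵀ * z3ᵀ) * (e j)ᵀ - (x r)ᵀ * b'ᵀ := by
      conv_lhs => rw [rt fz3j xtj]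
      rw [← Matrix.mul_assoc (e i), xti, transpose_neg, Matrix.mul_neg, ← sub_eq_add_neg]
    have t6 : x r * (pᵀ * J * p) * y r = 0 := by
      calc x r * (pᵀ * J * p) * y r = x r * (e i)ᵀ * (pᵀ * J * p) * (e j * y r) := by
            rw [xi, jy]
        _ = x r * ((e i)ᵀ * (pᵀ * J * p)) * e j * y r := by simp only [Matrix.mul_assoc]
        _ = x r * (pᵀ * J * p) * (e i * e j) * y r := by rw [h.eg]; simp only [Matrix.mul_assoc]
        _ = 0 := by rw [h.orth i j hij, Matrix.mul_zero, Matrix.zero_mul]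
    have t7 : (x r - (x r)ᵀ) * (pᵀ * J * p) * y r = -((x r)ᵀ * (pᵀ * J * p) * y r) := by
      rw [Matrix.sub_mul, Matrix.sub_mul, t6, zero_sub]
    have t8 : (x r - (x r)ᵀ) * z3ᵀ = x r * z3ᵀ - (x r)ᵀ * z3ᵀ := by rw [Matrix.sub_mul]
    rw [t7, t8]
    have t9 : e j * ((y r).map d + P * y r + y r * Pᵀ + y r * (z1 - z2)ᵀ + x r * z3ᵀ) * (e i)ᵀ =
        e j * (y r).map d * (e i)ᵀ + e j * (P * y r) * (e i)ᵀ + e j * (y r * Pᵀ) * (e i)ᵀ +
        e j * (y r * (z1 - z2)ᵀ) * (e i)ᵀ + e j * (x r * z3ᵀ) * (e i)ᵀ := by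
      simp only [Matrix.mul_add, Matrix.add_mul]
    rw [t9, t0, ← t4]
    have u1 : e j * (P * y r) * (e i)ᵀ = P * y r - b * y r := by rw [eq_sub_iff_add_eq, ← t1]
    have u2 : e j * (y r * Pᵀ) * (e i)ᵀ = y r * Pᵀ - y r * kkᵀ := by
      rw [eq_sub_iff_add_eq, ← t2]
    have u3 : e j * (y r * (z1 - z2)ᵀ) * (e i)ᵀ = y r * (z1 - z2)ᵀ + y r * kkᵀ := by
      rw [← sub_eq_iff_eq_add, ← t3]
    have u5 : e i * ((x r)ᵀ * z3ᵀ) * (e j)ᵀ = (x r)ᵀ * z3ᵀ + (x r)ᵀ * b'ᵀ := by
      rw [← sub_eq_iff_eq_add, ← t5]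
    rw [u1, u2, u3, u5]
    abel
  have hfin : (fun r => b * y r + (x r)ᵀ * (pᵀ * J * p) * y r + (x r)ᵀ * b'ᵀ) =
      (fun r => (y r).map d + P * y r + y r * Pᵀ + y r * (z1 - z2)ᵀ -
      (x r - (x r)ᵀ) * (pᵀ * J * p) * y r + (x r - (x r)ᵀ) * z3ᵀ) -
      (fun r => e j * ((y r).map d + P * y r + y r * Pᵀ + y r * (z1 - z2)ᵀ + x r * z3ᵀ) * (e i)ᵀ) +
      (fun r => e i * ((x r)ᵀ * z3ᵀ) * (e j)ᵀ) := by
    funext r
    exact hkey r
  rw [hfin]
  exact Submodule.add_mem _ (Submodule.sub_mem _ hRel hR1) hR2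

end Crest.Agent.R172.RDS302
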