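import Mathlib
import Crest.Agent.R172.RJM

-- ▼ part R172/Pencil
section

/-!
Row 172: kernel of a linear pencil.  For linear maps `al be : Y → G` (`Y` finite dimensional) and
all `c` outside a finite set, every solution of `al y = c • be y` is the value at `c` of a
polynomial solution `∑ X^k Z_k`, i.e. of a chain `al Z_0 = 0`, `al Z_(k+1) = be Z_k`.
-/

set_option autoImplicit false
set_option linter.unusedSectionVars false

namespace Crest.Agent.R172.Pencil

open Module Polynomial Finset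

variable {K Y G : Type*} [Field K] [AddCommGroup Y] [Module K Y] [AddCommGroup G] [Module K G]

/-- shifted polynomial values: `P_k = (p / X^k)(T)` -/
noncomputable def PP (p : K[X]) (T : End K G) (k : ℕ) : End K G := aeval T (divX^[k] p)

theorem coeff_iter (p : K[X]) (k j : ℕ) : (divX^[k] p).coeff j = p.coeff (j + k) := by
  induction k generalizing j with
  | zero => rfl
  | succ k ih => rw [Function.iterate_succ_apply', coeff_divX, ih]; congr 1; omega

theorem PP_zero (p : K[X]) (T : End K G) : PP p T 0 = aeval T p := rfl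

theorem PP_step (p : K[X]) (T : End K G) (k : ℕ) :
    PP p T k = T * PP p T (k + 1) + p.coeff k • (1 : End K G) := by
  have h := (divX_mul_X_add (divX^[k] p)).symm
  have h2 := congrArg (aeval T) h
  rw [mul_comm, map_add, map_mul, aeval_X, aeval_C, coeff_iter, Nat.zero_add,
    Algebra.algebraMap_eq_smul_one] at h2
  rw [PP, h2, PP, Function.iterate_succ_apply']

theorem PP_comm (p : K[X]) (T : End K G) (k : ℕ) : PP p T k * T = T * PP p T k := by
  have h : (divX^[k] p) * X = X * (divX^[k] p) := mul_comm _ _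
  have h2 := congrArg (aeval T) h
  rwa [map_mul, map_mul, aeval_X] at h2

theorem PP_large (p : K[X]) (T : End K G) {k : ℕ} (hk : p.natDegree < k) : PP p T k = 0 := by
  have : divX^[k] p = 0 := by
    ext j
    rw [coeff_iter, coeff_zero]
    exact coeff_eq_zero_of_natDegree_lt (by omega)
  rw [PP, this, map_zero]

/-- `∑_{k<n} c^k P_(k+1) (c - T) = p(c)` if `P_0 = 0 = P_n` -/
theorem sum_PP (p : K[X]) (T : End K G) (c : K) (g : G) (n : ℕ) :
    ∑ k ∈ range n, c ^ k • PP p T (k + 1) (c • g - T g) =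
      c ^ n • PP p T n g - PP p T 0 g + (∑ k ∈ range n, c ^ k * p.coeff k) • g := by
  induction n with
  | zero => simp
  | succ n ih =>
    rw [sum_range_succ, ih, sum_range_succ, add_smul]
    have h1 : PP p T (n + 1) (T g) = PP p T n g - p.coeff n • g := by
      have h2 := congrArg (fun A : End K G => A g) (PP_step p T n)
      have h3 := congrArg (fun A : End K G => A g) (PP_comm p T (n + 1))
      simp only [LinearMap.add_apply, Module.End.mul_apply, LinearMap.smul_apply,
        Module.End.one_apply] at h2 h3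
      rw [h3, h2, add_sub_cancel_right]
    rw [map_sub, map_smul, h1, smul_sub, smul_sub, smul_smul, smul_smul, ← pow_succ]
    abel

/-- **pencil, surjective case** -/
theorem pencil_surj [FiniteDimensional K G] (al be : Y →ₗ[K] G) (hbe : Function.Surjective be) :
    ∃ S : Set K, S.Finite ∧ ∃ n : ℕ, ∀ c ∉ S, ∀ y, al y = c • be y →
      ∃ Z : ℕ → Y, al (Z 0) = 0 ∧ (∀ k, al (Z (k + 1)) = be (Z k)) ∧ (∀ k, n ≤ k → Z k = 0) ∧
        y = ∑ k ∈ range n, c ^ k • Z k := by
  obtain ⟨b, hb⟩ := be.exists_rightInverse_of_surjective (LinearMap.range_eq_top.2 hbe)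
  have hb' : ∀ g, be (b g) = g := fun g => by
    have := congrArg (fun A : G →ₗ[K] G => A g) hb
    exact this
  set T : End K G := al ∘ₗ b with hT
  set p := T.charpoly with hp
  have hp0 : PP p T 0 = 0 := by rw [PP_zero]; exact T.aeval_self_charpoly
  have hpne : p ≠ 0 := T.charpoly_monic.ne_zero
  refine ⟨{c | p.IsRoot c}, p.finite_setOfPred_isRoot hpne, p.natDegree + 1, ?_⟩
  intro c hc y hy
  have hc' : p.eval c ≠ 0 := hc
  set g := be y with hg
  set z := y - b g with hz
  have hbz : be z = 0 := by rw [hz, map_sub, hb', sub_self]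
  have hTg : c • g - T g = al z := by
    rw [hz, map_sub, hy]; rfl
  let q := (p.eval c)⁻¹
  let Z : ℕ → Y := fun k => q • (p.coeff k • z + b (PP p T (k + 1) (al z)))
  have hal : ∀ k, al (Z k) = q • PP p T k (al z) := by
    intro k
    change al (q • (p.coeff k • z + b (PP p T (k + 1) (al z)))) = _
    rw [map_smul, map_add, map_smul, PP_step p T k, add_comm]
    rfl
  have hbek : ∀ k, be (Z k) = q • PP p T (k + 1) (al z) := by
    intro k
    change be (q • (p.coeff k • z + b (PP p T (k + 1) (al z)))) = _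
    rw [map_smul, map_add, map_smul, hbz, smul_zero, zero_add, hb']
  refine ⟨Z, ?_, ?_, ?_, ?_⟩
  · rw [hal, hp0, LinearMap.zero_apply, smul_zero]
  · intro k; rw [hal, hbek]
  · intro k hk
    change q • (p.coeff k • z + b (PP p T (k + 1) (al z))) = 0
    rw [coeff_eq_zero_of_natDegree_lt (by omega), PP_large p T (by omega), zero_smul,
      LinearMap.zero_apply, map_zero, add_zero, smul_zero]
  · have hsum : ∑ k ∈ range (p.natDegree + 1), c ^ k * p.coeff k = p.eval c := by
      rw [eval_eq_sum_range]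
      exact sum_congr rfl fun k _ => mul_comm _ _
    have h1 := sum_PP p T c g (p.natDegree + 1)
    rw [hTg, hp0, PP_large p T (Nat.lt_succ_self _), hsum] at h1
    simp only [LinearMap.zero_apply, smul_zero, sub_zero, zero_add] at h1
    have h2 : ∑ k ∈ range (p.natDegree + 1), c ^ k • Z k =
        q • ((∑ k ∈ range (p.natDegree + 1), c ^ k * p.coeff k) • z +
          b (∑ k ∈ range (p.natDegree + 1), c ^ k • PP p T (k + 1) (al z))) := by
      rw [map_sum, sum_smul, ← sum_add_distrib, smul_sum]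
      refine sum_congr rfl fun k _ => ?_
      change c ^ k • (q • (p.coeff k • z + b (PP p T (k + 1) (al z)))) = _
      rw [smul_comm, map_smul, smul_add, smul_smul (c ^ k)]
    rw [h2, hsum, h1, map_smul, ← smul_add, smul_smul, inv_mul_cancel₀ hc', one_smul, hz,
      sub_add_cancel]

/-- **pencil lemma** -/
theorem pencil [FiniteDimensional K Y] (al be : Y →ₗ[K] G) :
    ∃ S : Set K, S.Finite ∧ ∃ n : ℕ, ∀ c ∉ S, ∀ y, al y = c • be y →
      ∃ Z : ℕ → Y, al (Z 0) = 0 ∧ (∀ k, al (Z (k + 1)) = be (Z k)) ∧ (∀ k, n ≤ k → Z k = 0) ∧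
        y = ∑ k ∈ range n, c ^ k • Z k := by
  classical
  -- span of all kernels
  let V : Submodule K Y := ⨆ c : {c : K // c ≠ 0}, LinearMap.ker (al - (c : K) • be)
  have hle : V ≤ (V.map be).comap al := by
    refine iSup_le fun c y hy => ?_
    rw [LinearMap.mem_ker, LinearMap.sub_apply, LinearMap.smul_apply, sub_eq_zero] at hy
    rw [Submodule.mem_comap, hy]
    refine Submodule.smul_mem _ _ (Submodule.mem_map_of_mem ?_)
    refine Submodule.mem_iSup_of_mem c ?_
    rw [LinearMap.mem_ker, LinearMap.sub_apply, LinearMap.smul_apply, sub_eq_zero, hy]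
  let al' : V →ₗ[K] V.map be := al.restrict (fun y hy => hle hy)
  let be' : V →ₗ[K] V.map be := be.restrict (fun y hy => Submodule.mem_map_of_mem hy)
  have hsurj : Function.Surjective be' := by
    rintro ⟨g, hg⟩
    obtain ⟨y, hy, rfl⟩ := hg
    exact ⟨⟨y, hy⟩, rfl⟩
  obtain ⟨S, hS, n, h⟩ := pencil_surj al' be' hsurj
  refine ⟨S ∪ {0}, hS.union (Set.finite_singleton 0), n, ?_⟩
  intro c hc y hy
  have hcS : c ∉ S := fun h => hc (Or.inl h)
  have hc0 : c ≠ 0 := fun h => hc (Or.inr h)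
  have hyV : y ∈ V := by
    refine Submodule.mem_iSup_of_mem ⟨c, hc0⟩ ?_
    rw [LinearMap.mem_ker, LinearMap.sub_apply, LinearMap.smul_apply, sub_eq_zero, hy]
  obtain ⟨Z, h1, h2, h3, h4⟩ := h c hcS ⟨y, hyV⟩ (Subtype.ext hy)
  refine ⟨fun k => (Z k : Y), congrArg Subtype.val h1, fun k => congrArg Subtype.val (h2 k),
    fun k hk => congrArg Subtype.val (h3 k hk), ?_⟩
  have h5 := congrArg Subtype.val h4
  simpa using h5


end Crest.Agent.R172.Pencil
end

-- ▼ part R172/SepC
section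

/-!
Row 172, node o2-RD, 455's note (5): separation of Laurent families for a non-scalar `c`.

`M` = the space of the tuples, `B t k` = the operator `cc_t ^ k` on `M`, `F` = the filtration of
`M` by the commuting nilpotent operators, `s t` = the scalar part of `cc_t`.
-/

set_option autoImplicit false

namespace Crest.Agent.R172.SepC

open Finset Module

variable {K E M I : Type*} [Field K] [AddCommGroup E] [Module K E] [AddCommGroup M] [Module K M]

/-- Vandermonde: a polynomial with coefficients in `E` and values in `Q` at infinitely many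
scalars has all its coefficients in `Q`. -/
theorem vander (Q : Submodule K E) (n : ℕ) (e : ℕ → E) (S : Set K) (hS : S.Infinite)
    (h : ∀ x ∈ S, ∑ k ∈ range n, x ^ k • e k ∈ Q) : ∀ k < n, e k ∈ Q := by
  classical
  intro k hk
  rw [← Submodule.Quotient.mk_eq_zero Q]
  rw [← Module.forall_dual_apply_eq_zero_iff K]
  intro φ
  let p : Polynomial K := ∑ j ∈ range n, Polynomial.monomial j (φ (Submodule.Quotient.mk (e j)))
  have hp : p = 0 := by
    apply Polynomial.eq_zero_of_infinite_isRoot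
    refine hS.mono ?_
    intro x hx
    have h1 := h x hx
    rw [← Submodule.Quotient.mk_eq_zero Q] at h1
    have h2 := congrArg φ h1
    rw [map_zero] at h2
    change Polynomial.eval x p = 0
    simp only [p, Polynomial.eval_finsetSum, Polynomial.eval_monomial]
    rw [← h2]
    have : (Submodule.Quotient.mk (∑ j ∈ range n, x ^ j • e j) : E ⧸ Q)
        = ∑ j ∈ range n, x ^ j • (Submodule.Quotient.mk (e j) : E ⧸ Q) := by
      change Q.mkQ _ = ∑ j ∈ range n, x ^ j • Q.mkQ (e j)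
      rw [map_sum]
      refine sum_congr rfl fun j _ => ?_
      rw [map_smul]
    rw [this, map_sum]
    refine sum_congr rfl fun j _ => ?_
    rw [map_smul, smul_eq_mul, mul_comm]
  have h3 := congrArg (fun q => Polynomial.coeff q k) hp
  simp only [p, Polynomial.finsetSum_coeff, Polynomial.coeff_monomial, Polynomial.coeff_zero] at h3
  rw [Finset.sum_ite_eq' (range n) k] at h3
  rwa [if_pos (mem_range.2 hk)] at h3

/-- Separation for an operator valued `c`. -/
theorem sep (Q : Submodule K E) (F : ℕ → Submodule K M) (r : ℕ) (hF0 : F 0 = ⊤) (hFr : F r = ⊥)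
    (n : ℕ) (f : ℕ → M →ₗ[K] E) (B : I → ℕ → M →ₗ[K] M) (s : I → K) (T : Set I)
    (hT : (s '' T).Infinite)
    (hB : ∀ t ∈ T, ∀ k < n, ∀ i, ∀ m ∈ F i, B t k m - s t ^ k • m ∈ F (i + 1))
    (h : ∀ t ∈ T, ∀ m, ∑ k ∈ range n, f k (B t k m) ∈ Q) :
    ∀ k < n, ∀ m, f k m ∈ Q := by
  have key : ∀ j i, i + j = r → ∀ m ∈ F i, ∀ k < n, f k m ∈ Q := by
    intro j
    induction j with
    | zero =>
      intro i hi m hm k _
      have : i = r := by omega
      subst this
      rw [hFr] at hm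
      rw [(Submodule.mem_bot K).1 hm, map_zero]
      exact Q.zero_mem
    | succ j ih =>
      intro i hi m hm
      have ih' := ih (i + 1) (by omega)
      refine vander Q n (fun k => f k m) (s '' T) hT ?_
      rintro _ ⟨t, ht, rfl⟩
      have h1 := h t ht m
      have h2 : ∑ k ∈ range n, f k (B t k m - s t ^ k • m) ∈ Q :=
        Q.sum_mem fun k hk => ih' _ (hB t ht k (mem_range.1 hk) i m hm) k (mem_range.1 hk)
      have h3 := Q.sub_mem h1 h2
      rw [← sum_sub_distrib] at h3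
      refine (congrArg (fun z => z ∈ Q) (sum_congr rfl fun k _ => ?_)).mp h3
      rw [map_sub, map_smul, sub_sub_cancel]
  intro k hk m
  exact key r 0 (by omega) m (by rw [hF0]; trivial) k hk

/-- The filtration of `M` by two commuting nilpotent operators: `F i` is spanned by the images of
the monomials `N₁ ^ a * N₂ ^ b`, `a + b ≥ i`. -/
def Fl (N₁ N₂ : End K M) (i : ℕ) : Submodule K M :=
  ⨆ (a : ℕ) (b : ℕ) (_ : i ≤ a + b), LinearMap.range (N₁ ^ a * N₂ ^ b)




theorem Fl_fst {N₁ N₂ : End K M} {i : ℕ} {m : M} (hm : m ∈ Fl N₁ N₂ i) :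
    N₁ m ∈ Fl N₁ N₂ (i + 1) := by
  have h : Fl N₁ N₂ i ≤ (Fl N₁ N₂ (i + 1)).comap N₁ := by
    refine iSup_le fun a => iSup_le fun b => iSup_le fun hab => ?_
    rintro _ ⟨x, rfl⟩
    rw [Submodule.mem_comap]
    refine Submodule.mem_iSup_of_mem (a + 1) (Submodule.mem_iSup_of_mem b
      (Submodule.mem_iSup_of_mem (by omega) ⟨x, ?_⟩))
    rw [pow_succ', mul_assoc]
    rfl
  exact h hm

theorem Fl_snd {N₁ N₂ : End K M} (hc : Commute N₁ N₂) {i : ℕ} {m : M} (hm : m ∈ Fl N₁ N₂ i) :
    N₂ m ∈ Fl N₁ N₂ (i + 1) := by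
  have h : Fl N₁ N₂ i ≤ (Fl N₁ N₂ (i + 1)).comap N₂ := by
    refine iSup_le fun a => iSup_le fun b => iSup_le fun hab => ?_
    rintro _ ⟨x, rfl⟩
    rw [Submodule.mem_comap]
    refine Submodule.mem_iSup_of_mem a (Submodule.mem_iSup_of_mem (b + 1)
      (Submodule.mem_iSup_of_mem (by omega) ⟨x, ?_⟩))
    have : N₁ ^ a * N₂ ^ (b + 1) = N₂ * (N₁ ^ a * N₂ ^ b) := by
      rw [pow_succ', ← mul_assoc, ← mul_assoc, ((hc.pow_left a).eq)]
    rw [this]
    rfl
  exact h hm


/-- The algebra of operators that preserve the filtration and act on its graded pieces by the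
scalar `x`. -/
def Gr (F : ℕ → Submodule K M) (x : K) (A : End K M) : Prop :=
  ∀ i, ∀ m ∈ F i, A m - x • m ∈ F (i + 1)

theorem Gr.one (F : ℕ → Submodule K M) : Gr F (1 : K) (1 : End K M) := by
  intro i m _
  rw [one_smul, Module.End.one_apply, sub_self]
  exact Submodule.zero_mem _

theorem Gr.mul {F : ℕ → Submodule K M} (hF : ∀ i, F (i + 1) ≤ F i) {x y : K} {A B : End K M}
    (hA : Gr F x A) (hB : Gr F y B) : Gr F (x * y) (A * B) := by
  intro i m hm
  have h1 := hB i m hm
  have h3 : B m ∈ F i := by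
    have := (F i).add_mem (hF i h1) ((F i).smul_mem y hm)
    rwa [sub_add_cancel] at this
  have h4 := hA i (B m) h3
  have h5 := (F (i + 1)).add_mem h4 ((F (i + 1)).smul_mem x h1)
  have : A (B m) - x • B m + x • (B m - y • m) = (A * B) m - (x * y) • m := by
    rw [Module.End.mul_apply, smul_sub, mul_smul]
    abel
  rwa [this] at h5

theorem Gr.pow {F : ℕ → Submodule K M} (hF : ∀ i, F (i + 1) ≤ F i) {x : K} {A : End K M}
    (hA : Gr F x A) (k : ℕ) : Gr F (x ^ k) (A ^ k) := by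
  induction k with
  | zero => rw [pow_zero, pow_zero]; exact Gr.one F
  | succ k ih => rw [pow_succ, pow_succ]; exact ih.mul hF hA

/-- The inverse of an operator with graded scalar `x ≠ 0`. -/
theorem Gr.inv {F : ℕ → Submodule K M} {r : ℕ} (hF : ∀ i, F (i + 1) ≤ F i) (hFr : ∀ i, r ≤ i → F i = ⊥)
    {x : K} (hx : x ≠ 0) {A B : End K M} (hA : Gr F x A) (hBA : B * A = 1) :
    Gr F x⁻¹ B := by
  -- `B` preserves the filtration
  have key : ∀ j i, r ≤ i + j → ∀ m ∈ F i, B m ∈ F i := by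
    intro j
    induction j with
    | zero =>
      intro i hi m hm
      rw [hFr i (by omega)] at hm
      rw [(Submodule.mem_bot K).1 hm, map_zero]
      exact Submodule.zero_mem _
    | succ j ih =>
      intro i hi m hm
      -- m = x⁻¹ • (A m - (A m - x • m))
      have h1 := hA i m hm
      have h2 := ih (i + 1) (by omega) _ h1
      rw [map_sub, map_smul] at h2
      have h3 : B (A m) = m := congrArg (fun g : End K M => g m) hBA
      rw [h3] at h2
      have h4 : x • B m ∈ F i := by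
        have := (F i).sub_mem hm (hF i h2)
        rwa [sub_sub_cancel] at this
      have h5 := (F i).smul_mem x⁻¹ h4
      rwa [smul_smul, inv_mul_cancel₀ hx, one_smul] at h5
  have key' : ∀ i, ∀ m ∈ F i, B m ∈ F i := fun i => key r i (by omega)
  intro i m hm
  have h1 := key' (i + 1) _ (hA i m hm)
  rw [map_sub, map_smul] at h1
  have h3 : B (A m) = m := congrArg (fun g : End K M => g m) hBA
  rw [h3] at h1
  have h5 := (F (i + 1)).smul_mem (-x⁻¹) h1
  rw [smul_sub, smul_smul, neg_mul, inv_mul_cancel₀ hx] at h5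
  have h6 : -x⁻¹ • m - (-1 : K) • B m = B m - x⁻¹ • m := by
    rw [neg_smul, neg_smul, one_smul]
    abel
  rwa [h6] at h5

/-- `la • 1 + N₁` has graded scalar `la`. -/
theorem Gr.fst (N₁ N₂ : End K M) (la : K) (t : K) :
    Gr (Fl N₁ N₂) (1 + t * la) (1 + t • (algebraMap K (End K M) la + N₁)) := by
  intro i m hm
  have : (1 + t • (algebraMap K (End K M) la + N₁)) m - (1 + t * la) • m = t • N₁ m := by
    rw [LinearMap.add_apply, LinearMap.smul_apply, LinearMap.add_apply, Module.End.one_apply,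
      Module.algebraMap_end_apply, add_smul, one_smul, mul_smul, smul_add]
    abel
  rw [this]
  exact Submodule.smul_mem _ _ (Fl_fst hm)

theorem Gr.snd {N₁ N₂ : End K M} (hc : Commute N₁ N₂) (la : K) (t : K) :
    Gr (Fl N₁ N₂) (1 + t * la) (1 + t • (algebraMap K (End K M) la + N₂)) := by
  intro i m hm
  have : (1 + t • (algebraMap K (End K M) la + N₂)) m - (1 + t * la) • m = t • N₂ m := by
    rw [LinearMap.add_apply, LinearMap.smul_apply, LinearMap.add_apply, Module.End.one_apply,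
      Module.algebraMap_end_apply, add_smul, one_smul, mul_smul, smul_add]
    abel
  rw [this]
  exact Submodule.smul_mem _ _ (Fl_snd hc hm)




end Crest.Agent.R172.SepC
end

-- ▼ part R172/RJP

/-!
# `RJM.main` with a two-term relation (parity)

* `par_sep` : `al y = ρ² • be y → i1 τ y + ρ • i2 τ y ∈ Q` for infinitely many `ρ`
  `⟹` for almost all `c`: `al y = c • be y → i1 τ y ∈ Q ∧ i2 τ y ∈ Q`.
* `main` : `RJM.main` with `hrel` in the form `F1 + ρ' • F2 ∈ Q`, `ρ, ρ'` in an infinite set.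
-/

set_option linter.unusedSectionVars false

namespace Crest.Agent.R172.RJP

open Finset TensorProduct Module
open Crest.Agent.R172.RJM

section par
variable {K Y G E T : Type*} [Field K] [AddCommGroup Y] [Module K Y] [AddCommGroup G] [Module K G]
  [AddCommGroup E] [Module K E]

theorem exact_of_chain {al be : Y →ₗ[K] G} {n : ℕ} {Z : ℕ → Y} (h0 : al (Z 0) = 0)
    (h1 : ∀ k, al (Z (k + 1)) = be (Z k)) (hn : ∀ k, n ≤ k → Z k = 0) (c : K) :
    al (∑ k ∈ range n, c ^ k • Z k) = c • be (∑ k ∈ range n, c ^ k • Z k) := by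
  have key : ∀ m, al (∑ k ∈ range (m + 1), c ^ k • Z k) = c • be (∑ k ∈ range m, c ^ k • Z k) := by
    intro m
    induction m with
    | zero => simp [h0]
    | succ m ih =>
      have e1 : al (∑ k ∈ range (m + 1 + 1), c ^ k • Z k)
          = al (∑ k ∈ range (m + 1), c ^ k • Z k) + c ^ (m + 1) • be (Z m) := by
        rw [Finset.sum_range_succ, map_add, map_smul, h1]
      have e2 : be (∑ k ∈ range (m + 1), c ^ k • Z k)
          = be (∑ k ∈ range m, c ^ k • Z k) + c ^ m • be (Z m) := by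
        rw [Finset.sum_range_succ, map_add, map_smul]
      rw [e1, e2, ih, smul_add, smul_smul, pow_succ' c m]
  have h := key n
  rwa [Finset.sum_range_succ, hn n le_rfl, smul_zero, add_zero] at h

/-- **parity separation** over an infinite set of `ρ` (no `-ρ` needed) -/
theorem par_sep [FiniteDimensional K Y] (al be : Y →ₗ[K] G) (Q : Submodule K E)
    (i1 i2 : T → Y →ₗ[K] E) {R : Set K} (hR : R.Infinite)
    (hrel : ∀ r ∈ R, ∀ y, al y = r ^ 2 • be y → ∀ τ, i1 τ y + r • i2 τ y ∈ Q) :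
    ∃ S : Set K, S.Finite ∧ ∀ c ∉ S, ∀ y, al y = c • be y → ∀ τ, i1 τ y ∈ Q ∧ i2 τ y ∈ Q := by
  obtain ⟨S, hS, n, hp⟩ := Pencil.pencil al be
  refine ⟨S, hS, fun c hc y hy τ => ?_⟩
  obtain ⟨Z, z0, z1, z2, rfl⟩ := hp c hc y hy
  have hv := SepC.vander Q (2 * n)
    (fun j => if j % 2 = 0 then i1 τ (Z (j / 2)) else i2 τ (Z (j / 2))) R hR ?_
  · have a1 : ∀ k, k < n → i1 τ (Z k) ∈ Q := fun k hk => by
      have := hv (2 * k) (by omega)
      simpa using this
    have a2 : ∀ k, k < n → i2 τ (Z k) ∈ Q := fun k hk => by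
      have := hv (2 * k + 1) (by omega)
      have e1 : (2 * k + 1) % 2 = 1 := by omega
      have e2 : (2 * k + 1) / 2 = k := by omega
      simpa [e1, e2] using this
    constructor
    · rw [map_sum]
      refine Submodule.sum_mem _ fun k hk => ?_
      rw [map_smul]
      exact Q.smul_mem _ (a1 k (Finset.mem_range.1 hk))
    · rw [map_sum]
      refine Submodule.sum_mem _ fun k hk => ?_
      rw [map_smul]
      exact Q.smul_mem _ (a2 k (Finset.mem_range.1 hk))
  · intro r hr
    have h1 := hrel r hr (∑ k ∈ range n, (r ^ 2) ^ k • Z k) (exact_of_chain z0 z1 z2 (r ^ 2)) τ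
    have key : ∀ m, ∑ k ∈ range (2 * m), r ^ k • (if k % 2 = 0 then i1 τ (Z (k / 2))
          else i2 τ (Z (k / 2)))
        = i1 τ (∑ k ∈ range m, (r ^ 2) ^ k • Z k)
          + r • i2 τ (∑ k ∈ range m, (r ^ 2) ^ k • Z k) := by
      intro m
      induction m with
      | zero => simp
      | succ m ih =>
        have e1 : (2 * m) % 2 = 0 := by omega
        have e2 : (2 * m + 1) % 2 = 1 := by omega
        have e3 : (2 * m) / 2 = m := by omega
        have e4 : (2 * m + 1) / 2 = m := by omega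
        rw [show 2 * (m + 1) = 2 * m + 1 + 1 by ring, Finset.sum_range_succ,
          Finset.sum_range_succ, ih, e1, e2, e3, e4]
        have e5 : i1 τ (∑ k ∈ range (m + 1), (r ^ 2) ^ k • Z k)
            = i1 τ (∑ k ∈ range m, (r ^ 2) ^ k • Z k) + (r ^ 2) ^ m • i1 τ (Z m) := by
          rw [Finset.sum_range_succ, map_add, map_smul]
        have e6 : i2 τ (∑ k ∈ range (m + 1), (r ^ 2) ^ k • Z k)
            = i2 τ (∑ k ∈ range m, (r ^ 2) ^ k • Z k) + (r ^ 2) ^ m • i2 τ (Z m) := by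
          rw [Finset.sum_range_succ, map_add, map_smul]
        rw [e5, e6, if_pos rfl, if_neg (by norm_num), ← pow_mul, smul_add, smul_smul,
          ← pow_succ' r (2 * m)]
        abel
    rw [key]
    exact h1

end par

variable {K : Type*} [Field K] {P1 P2 E τ : Type*} [AddCommGroup P1] [Module K P1]
  [AddCommGroup P2] [Module K P2] [AddCommGroup E] [Module K E] [Fintype τ]

section pencil
variable (A : τ → End K P1) (B : τ → End K P2) (R1 : Submodule K P1) (R2 : Submodule K P2)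
  (g : P2 →ₗ[K] P2 →ₗ[K] K) (eps : K)

/-- pairs `(x, b)` -/
abbrev Pr (K P1 P2 τ : Type*) [Field K] [AddCommGroup P1] [Module K P1]
  [AddCommGroup P2] [Module K P2] := (τ → P2 ⊗[K] P1) × (P2 →ₗ[K] P1)

/-- the values of the pencil -/
abbrev Gr (τ : Type*) (R1 : Submodule K P1) (R2 : Submodule K P2) :=
  ((P2 ⊗[K] P1) × (τ → (P2 ⊗[K] P1) ⧸ (RT R2 ⊔ TR R1 : Submodule K (P2 ⊗[K] P1)))) ×
    ((τ → P2 →ₗ[K] P1) × (P2 →ₗ[K] (P1 ⧸ R1)))

/-- the pencil of `Ex` and `Cor`, first part -/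
noncomputable def alP : Pr K P1 P2 τ →ₗ[K] Gr τ R1 R2 where
  toFun y := ((∑ t, (A t).lTensor P2 (y.1 t),
    fun t => Submodule.Quotient.mk ((A t).lTensor P2 (y.1 t))),
    (fun t => A t ∘ₗ y.2 - A t ∘ₗ ev g (y.1 t), R1.mkQ ∘ₗ y.2))
  map_add' a b := by
    refine Prod.ext (Prod.ext ?_ ?_) (Prod.ext ?_ ?_)
    · simp [Finset.sum_add_distrib]
    · funext t; simp
    · funext t; ext p; simp; abel
    · ext p; simp
  map_smul' c a := by
    refine Prod.ext (Prod.ext ?_ ?_) (Prod.ext ?_ ?_)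
    · simp [Finset.smul_sum]
    · funext t; simp
    · funext t; ext p; simp [smul_sub]
    · ext p; simp

/-- the pencil of `Ex` and `Cor`, second part -/
noncomputable def beP : Pr K P1 P2 τ →ₗ[K] Gr τ R1 R2 where
  toFun y := ((∑ t, (B t).rTensor P1 (y.1 t),
    fun t => Submodule.Quotient.mk ((B t).rTensor P1 (y.1 t))),
    (fun t => eps • (y.2 ∘ₗ B t - ev g (y.1 t) ∘ₗ B t), 0))
  map_add' a b := by
    refine Prod.ext (Prod.ext ?_ ?_) (Prod.ext ?_ ?_)
    · simp [Finset.sum_add_distrib]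
    · funext t; simp
    · funext t; ext p; simp only [Prod.snd_add, Prod.fst_add, Pi.add_apply, map_add,
        LinearMap.add_comp, LinearMap.smul_apply, LinearMap.sub_apply, LinearMap.add_apply,
        LinearMap.comp_apply]; module
    · ext p; simp
  map_smul' c a := by
    refine Prod.ext (Prod.ext ?_ ?_) (Prod.ext ?_ ?_)
    · simp [Finset.smul_sum]
    · funext t; simp
    · funext t; ext p; simp only [Prod.smul_snd, Prod.smul_fst, Pi.smul_apply, map_smul,
        LinearMap.smul_comp, LinearMap.smul_apply, LinearMap.sub_apply,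
        LinearMap.comp_apply, RingHom.id_apply]; module
    · ext p; simp

theorem pencil_iff (c : K) (y : Pr K P1 P2 τ) :
    alP A R1 R2 g y = c • beP B R1 R2 g eps y ↔
      Ex A B R1 R2 c y.1 ∧ Cor A B R1 g eps c y.1 y.2 := by
  have hx : (∑ t, (A t).lTensor P2 (y.1 t) = c • ∑ t, (B t).rTensor P1 (y.1 t)) ↔
      ∑ t, DD A B c t (y.1 t) = 0 := by
    simp only [DD, LinearMap.sub_apply, LinearMap.smul_apply, Finset.sum_sub_distrib,
      ← Finset.smul_sum]
    rw [sub_eq_zero]
  constructor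
  · intro h
    have h1 := congrArg (fun z => z.1.1) h
    have h2 := congrArg (fun z => z.1.2) h
    have h3 := congrArg (fun z => z.2.1) h
    have h4 := congrArg (fun z => z.2.2) h
    refine ⟨⟨hx.1 (by simpa [alP, beP] using h1), fun t => ?_⟩, ⟨fun p => ?_, fun t p => ?_⟩⟩
    · have h5 := congrFun h2 t
      simp only [alP, beP, LinearMap.coe_mk, AddHom.coe_mk, Prod.smul_fst, Prod.smul_snd,
        Pi.smul_apply, ← Submodule.Quotient.mk_smul] at h5
      rw [DD, LinearMap.sub_apply, LinearMap.smul_apply]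
      exact (Submodule.Quotient.eq _).1 h5
    · have h5 := LinearMap.congr_fun h4 p
      simp only [alP, beP, LinearMap.coe_mk, AddHom.coe_mk, Prod.smul_snd, smul_zero,
        LinearMap.comp_apply, LinearMap.zero_apply] at h5
      exact (Submodule.Quotient.mk_eq_zero _).1 h5
    · have h5 := LinearMap.congr_fun (congrFun h3 t) p
      simp only [alP, beP, LinearMap.coe_mk, AddHom.coe_mk, Prod.smul_fst, Prod.smul_snd,
        Pi.smul_apply, LinearMap.comp_apply, LinearMap.sub_apply, LinearMap.smul_apply] at h5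
      have h6 : A t (y.2 p) = A t (ev g (y.1 t) p)
          + c • eps • (y.2 (B t p) - ev g (y.1 t) (B t p)) := by
        rw [← h5]; abel
      rw [h6]
      module
  · rintro ⟨h1, h2⟩
    refine Prod.ext (Prod.ext ?_ ?_) (Prod.ext ?_ ?_)
    · simpa [alP, beP] using hx.2 h1.sum
    · funext t
      have h3 := h1.arm t
      rw [DD, LinearMap.sub_apply, LinearMap.smul_apply] at h3
      simp only [alP, beP, LinearMap.coe_mk, AddHom.coe_mk, Prod.smul_fst, Prod.smul_snd,
        Pi.smul_apply, ← Submodule.Quotient.mk_smul]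
      exact (Submodule.Quotient.eq _).2 h3
    · funext t
      ext p
      have h3 := h2.eq t p
      simp only [alP, beP, LinearMap.coe_mk, AddHom.coe_mk, Prod.smul_fst, Prod.smul_snd,
        Pi.smul_apply, LinearMap.comp_apply, LinearMap.sub_apply, LinearMap.smul_apply]
      have h6 : A t (y.2 p) = A t (ev g (y.1 t) p) - (eps * c) • ev g (y.1 t) (B t p)
          + (eps * c) • y.2 (B t p) := by
        rw [← h3]; abel
      rw [h6]
      module
    · ext p
      have h3 := h2.mem p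
      simp only [alP, beP, LinearMap.coe_mk, AddHom.coe_mk, Prod.smul_snd, smul_zero,
        LinearMap.comp_apply, LinearMap.zero_apply]
      exact (Submodule.Quotient.mk_eq_zero _).2 h3

end pencil

variable {A : τ → End K P1} {B : τ → End K P2} {R1 : Submodule K P1} {R2 : Submodule K P2}
  {l : τ → ℕ} {g : P2 →ₗ[K] P2 →ₗ[K] K} {eps : K}

/-- the first term of the relation, for a parameter pair and a pair -/
noncomputable def F1 (g : P2 →ₗ[K] P2 →ₗ[K] K) (q : τ → P1 →ₗ[K] P1 →ₗ[K] E) (a1 a2 a3 : K)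
    (u v : Pr K P1 P2 τ) : E :=
  ∑ t, (a1 • TensorProduct.lift ((q t) ∘ₗ v.2) (u.1 t)
        + a2 • TensorProduct.lift ((q t).flip ∘ₗ u.2) (v.1 t)
        + a3 • TensorProduct.lift ((q t) ∘ₗ (ev g (v.1 t))) (u.1 t))

theorem lift_comp_add (f : P1 →ₗ[K] P1 →ₗ[K] E) (b b' : P2 →ₗ[K] P1) (z : P2 ⊗[K] P1) :
    TensorProduct.lift (f ∘ₗ (b + b')) z
      = TensorProduct.lift (f ∘ₗ b) z + TensorProduct.lift (f ∘ₗ b') z := by
  induction z using TensorProduct.induction_on with
  | zero => simp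
  | tmul x y => simp
  | add x y hx hy => simp only [map_add, hx, hy]; abel

theorem lift_comp_smul (f : P1 →ₗ[K] P1 →ₗ[K] E) (c : K) (b : P2 →ₗ[K] P1) (z : P2 ⊗[K] P1) :
    TensorProduct.lift (f ∘ₗ (c • b)) z = c • TensorProduct.lift (f ∘ₗ b) z := by
  induction z using TensorProduct.induction_on with
  | zero => simp
  | tmul x y => simp
  | add x y hx hy => simp only [map_add, hx, hy, smul_add]

/-- `F1` is linear in the second pair -/
noncomputable def F1L (g : P2 →ₗ[K] P2 →ₗ[K] K) (q : τ → P1 →ₗ[K] P1 →ₗ[K] E) (a1 a2 a3 : K)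
    (u : Pr K P1 P2 τ) : Pr K P1 P2 τ →ₗ[K] E where
  toFun v := F1 g q a1 a2 a3 u v
  map_add' v v' := by
    simp only [F1, Prod.fst_add, Prod.snd_add, Pi.add_apply, map_add, lift_comp_add]
    rw [← Finset.sum_add_distrib]
    refine Finset.sum_congr rfl fun t _ => ?_
    module
  map_smul' c v := by
    simp only [F1, Prod.smul_fst, Prod.smul_snd, Pi.smul_apply, map_smul, lift_comp_smul,
      RingHom.id_apply]
    rw [Finset.smul_sum]
    refine Finset.sum_congr rfl fun t _ => ?_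
    module

/-- **`RJM.main` with a two-term relation.** -/
theorem main [FiniteDimensional K P1] [FiniteDimensional K P2]
    (hA : ⨆ t, LinearMap.range (A t) = ⊤) (hB : ⨆ t, LinearMap.range (B t) = ⊤)
    (hR1 : ∀ t, ∀ r ∈ R1, A t r ∈ R1) (hR2 : ∀ t, ∀ r ∈ R2, B t r ∈ R2) {m : ℕ}
    (hN1 : ∀ w : List τ, w.length = m → ∀ r ∈ R1, (w.map A).prod r = 0)
    (hN2 : ∀ w : List τ, w.length = m → ∀ r ∈ R2, (w.map B).prod r = 0)
    (hl : ∀ s, 1 ≤ l s)
    (hl1 : ∀ s p, (A s ^ l s) p ∈ R1) (hl2 : ∀ s p, (B s ^ l s) p ∈ R2)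
    (gen1 : ∀ S : Submodule K P1, (∀ t, ∀ v ∈ S, A t v ∈ S) → (∀ s p, (A s ^ l s) p ∈ S) → R1 ≤ S)
    (gen2 : ∀ S : Submodule K P2, (∀ t, ∀ v ∈ S, B t v ∈ S) → (∀ s p, (B s ^ l s) p ∈ S) → R2 ≤ S)
    (heps : eps ≠ 0) (gR1 : ∀ r ∈ R2, ∀ p, g r p = 0) (gR2 : ∀ r ∈ R2, ∀ p, g p r = 0)
    (gB : ∀ t p p', g (B t p) p' = eps * g p (B t p'))
    (gtop : ∀ s, ∃ p p', g ((B s ^ (l s - 1)) p) p' ≠ 0)
    {R : Set K} (hR : R.Infinite) (h0 : (0 : K) ∉ R)
    (q : τ → P1 →ₗ[K] P1 →ₗ[K] E) (Q : Submodule K E) {a1 a2 a3 : K}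
    (ha1 : a1 ≠ 0) (ha2 : a2 ≠ 0) (ha3 : a3 ≠ 0)
    (hex : ∀ ρ ∈ R, ∀ x, Ex A B R1 R2 (ρ ^ 2) x → ∃ b, Cor A B R1 g eps (ρ ^ 2) x b)
    (F2 : Pr K P1 P2 τ → (Pr K P1 P2 τ →ₗ[K] E))
    (hrel : ∀ ρ ∈ R, ∀ ρ' ∈ R, ∀ x b x' b', Ex A B R1 R2 (ρ ^ 2) x →
      Cor A B R1 g eps (ρ ^ 2) x b →
      Ex A B R1 R2 (ρ' ^ 2) x' → Cor A B R1 g eps (ρ' ^ 2) x' b' →
      ∑ t, (a1 • TensorProduct.lift ((q t) ∘ₗ b') (x t)
        + a2 • TensorProduct.lift ((q t).flip ∘ₗ b) (x' t)
        + a3 • TensorProduct.lift ((q t) ∘ₗ (ev g (x' t))) (x t)) + ρ' • F2 (x, b) (x', b') ∈ Q) :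
    (∀ t, ∀ r ∈ R1, ∀ p, q t r p ∈ Q ∧ q t p r ∈ Q) ∧
      (∀ s i j, i + j + 1 = l s → ∀ p p', q s ((A s ^ i) p) ((A s ^ j) p') ∈ Q) := by
  classical
  -- parameters: exact decorated pairs at some `ρ ^ 2`
  let T := {u : Pr K P1 P2 τ // ∃ ρ ∈ R, Ex A B R1 R2 (ρ ^ 2) u.1 ∧
    Cor A B R1 g eps (ρ ^ 2) u.1 u.2}
  have hkey : ∀ r ∈ R, ∀ y : Pr K P1 P2 τ, alP A R1 R2 g y = r ^ 2 • beP B R1 R2 g eps y →
      ∀ u : T, F1L g q a1 a2 a3 u.1 y + r • F2 u.1 y ∈ Q := by
    rintro ρ' hρ' v hv ⟨u, ρ, hρ, hu1, hu2⟩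
    obtain ⟨hv1, hv2⟩ := (pencil_iff A B R1 R2 g eps (ρ' ^ 2) v).1 hv
    exact hrel ρ hρ ρ' hρ' u.1 u.2 v.1 v.2 hu1 hu2 hv1 hv2
  obtain ⟨S, hS, h⟩ := par_sep (T := T) (alP A R1 R2 g) (beP B R1 R2 g eps) Q
    (fun u => F1L g q a1 a2 a3 u.1) (fun u => F2 u.1) hR hkey
  · -- `Λ`
    have hsq : ((fun ρ : K => ρ ^ 2) '' R).Infinite := by
      intro hfin
      refine hR (Set.Finite.of_finite_fibers _ hfin ?_)
      rintro _ ⟨r, -, rfl⟩
      refine Set.Finite.subset (Set.toFinite {r, -r}) ?_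
      rintro ρ ⟨-, hρ⟩
      exact sq_eq_sq_iff_eq_or_eq_neg.1 hρ
    refine RJM.main hA hB hR1 hR2 hN1 hN2 hl hl1 hl2 gen1 gen2 heps gR1 gR2 gB gtop
      (Λ := ((fun ρ : K => ρ ^ 2) '' R) \ S) (hsq.sdiff hS) ?_ q Q ha1 ha2 ha3 ?_ ?_
    · rintro ⟨⟨ρ, hρ, h1⟩, -⟩
      have h2 : ρ = 0 := by simpa using h1
      exact h0 (h2 ▸ hρ)
    · rintro _ ⟨⟨ρ, hρ, rfl⟩, -⟩ x hx
      exact hex ρ hρ x hx
    · rintro _ ⟨⟨ρ, hρ, rfl⟩, -⟩ c' ⟨-, hc'⟩ x b x' b' hx hb hx' hb'
      exact (h c' hc' (x', b') ((pencil_iff A B R1 R2 g eps c' (x', b')).2 ⟨hx', hb'⟩)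
        ⟨(x, b), ρ, hρ, hx, hb⟩).1

end Crest.Agent.R172.RJP
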