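import Crest.Agent.R172.SpS2
import Crest.Agent.R172.Core3
import Crest.Agent.R172.TameEnd1

/-!
Row 172 (S0260), S-side (t2), node S-Core, abstract block part in the language of `PL`:
`Φ : ι → End X`, `CoreM Φ = Ainf Φ / Rad Φ`, `D` on `CoreM Φ` commuting with the core operators.
`PB Φ D ν` = the largest perfect submodule of the preimage of the generalised eigenspace.
-/

set_option autoImplicit false
set_option linter.unusedSectionVars false

namespace Crest.Agent.R172.SC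

open Module Crest.Agent.R172.St Crest.Agent.R172.Core Crest.Agent.R172.PL

variable {K : Type*} [Field K] {X : Type*} [AddCommGroup X] [Module K X] {ι : Type*}

section perf

/-- the span of all words of length `k` applied to `Q` -/
def Wr (Φ : ι → End K X) (Q : Submodule K X) : ℕ → Submodule K X
  | 0 => Q
  | k + 1 => ⨆ s, (Wr Φ Q k).map (Φ s)

/-- the largest perfect submodule of the stable submodule `Q` -/
def perf (Φ : ι → End K X) (Q : Submodule K X) : Submodule K X := ⨅ k, Wr Φ Q k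

variable {Φ : ι → End K X} {Q : Submodule K X}

theorem Wr_succ_mem {k : ℕ} {v : X} (hv : v ∈ Wr Φ Q k) (s : ι) : Φ s v ∈ Wr Φ Q (k + 1) :=
  Submodule.mem_iSup_of_mem s ⟨v, hv, rfl⟩

theorem Wr_succ_le (hQ : ∀ s, ∀ v ∈ Q, Φ s v ∈ Q) (k : ℕ) : Wr Φ Q (k + 1) ≤ Wr Φ Q k := by
  induction k with
  | zero =>
    refine iSup_le fun s => ?_
    rintro _ ⟨v, hv, rfl⟩
    exact hQ s v hv
  | succ k ih =>
    refine iSup_le fun s => ?_
    rintro _ ⟨v, hv, rfl⟩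
    exact Wr_succ_mem (ih hv) s

theorem Wr_anti (hQ : ∀ s, ∀ v ∈ Q, Φ s v ∈ Q) : Antitone (Wr Φ Q) :=
  antitone_nat_of_succ_le (Wr_succ_le hQ)

theorem perf_le_Wr (k : ℕ) : perf Φ Q ≤ Wr Φ Q k := iInf_le (Wr Φ Q) k

theorem perf_le : perf Φ Q ≤ Q := perf_le_Wr 0

theorem perf_eq_Wr [FiniteDimensional K X] (hQ : ∀ s, ∀ v ∈ Q, Φ s v ∈ Q) :
    ∃ k, perf Φ Q = Wr Φ Q k ∧ ∀ j, k ≤ j → Wr Φ Q j = Wr Φ Q k := by
  obtain ⟨k, hk⟩ := (monotone_stabilizes_iff_artinian (R := K) (M := X)).2 inferInstance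
    ⟨fun j => OrderDual.toDual (Wr Φ Q j), fun a b h => Wr_anti hQ h⟩
  have hk' : ∀ j, k ≤ j → Wr Φ Q j = Wr Φ Q k := fun j hj => (hk j hj).symm
  refine ⟨k, le_antisymm (perf_le_Wr k) (le_iInf fun j => ?_), hk'⟩
  rcases le_total j k with h | h
  · exact Wr_anti hQ h
  · exact (hk' j h).ge

theorem perf_stable (hQ : ∀ s, ∀ v ∈ Q, Φ s v ∈ Q) (s : ι) {v : X} (hv : v ∈ perf Φ Q) :
    Φ s v ∈ perf Φ Q := by
  refine (Submodule.mem_iInf _).2 fun k => ?_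
  exact Wr_succ_le hQ k (Wr_succ_mem (perf_le_Wr k hv) s)

theorem perf_eq_iSup [FiniteDimensional K X] (hQ : ∀ s, ∀ v ∈ Q, Φ s v ∈ Q) :
    perf Φ Q = ⨆ s, (perf Φ Q).map (Φ s) := by
  obtain ⟨k, hk, hk'⟩ := perf_eq_Wr hQ
  rw [hk]
  exact (hk' (k + 1) (Nat.le_succ k)).symm

/-- elements of `⨆ s, M.map (Φ s)` -/
theorem exists_sum [Fintype ι] {M : Submodule K X} {v : X} (hv : v ∈ ⨆ s, M.map (Φ s)) :
    ∃ f : ι → X, (∀ s, f s ∈ M) ∧ ∑ s, Φ s (f s) = v := by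
  classical
  obtain ⟨g, hg⟩ := (Submodule.mem_iSup_finset_iff_exists_sum (s := Finset.univ)
      (fun s => M.map (Φ s)) v).1 (by simpa using hv)
  have hu : ∀ s, ∃ u ∈ M, Φ s u = (g s : X) := fun s => (g s).2
  choose u hu1 hu2 using hu
  exact ⟨u, hu1, by rw [← hg]; exact Finset.sum_congr rfl fun s _ => hu2 s⟩


/-- every vector of `perf` is `∑ Φ_s v_s` with `v_s ∈ perf`. -/
theorem perf_exists [FiniteDimensional K X] [Fintype ι] (hQ : ∀ s, ∀ v ∈ Q, Φ s v ∈ Q) {v : X}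
    (hv : v ∈ perf Φ Q) : ∃ f : ι → X, (∀ s, f s ∈ perf Φ Q) ∧ ∑ s, Φ s (f s) = v := by
  rw [perf_eq_iSup hQ] at hv
  exact exists_sum hv

/-- `perf` is the largest perfect submodule. -/
theorem le_perf {M : Submodule K X} (hM : M ≤ Q) (hp : M ≤ ⨆ s, M.map (Φ s)) :
    M ≤ perf Φ Q := by
  refine le_iInf fun k => ?_
  induction k with
  | zero => exact hM
  | succ k ih =>
    refine hp.trans (iSup_le fun s => ?_)
    rintro _ ⟨v, hv, rfl⟩
    exact Wr_succ_mem (ih hv) s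

end perf

section blocks

variable (Φ : ι → End K X)

/-- the preimage in `X` (inside `Ainf`) of a submodule of the core -/
def QB (M : Submodule K (CoreM Φ)) : Submodule K X :=
  (M.comap (Rad Φ).mkQ).map (Ainf Φ).subtype

variable {Φ}

theorem mem_QB {M : Submodule K (CoreM Φ)} {v : X} :
    v ∈ QB Φ M ↔ ∃ h : v ∈ Ainf Φ, (Rad Φ).mkQ ⟨v, h⟩ ∈ M := by
  constructor
  · rintro ⟨w, hw, rfl⟩
    exact ⟨w.2, hw⟩
  · rintro ⟨h, hM⟩
    exact ⟨⟨v, h⟩, hM, rfl⟩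

theorem QB_stable {M : Submodule K (CoreM Φ)} (hM : ∀ s, ∀ m ∈ M, coreOp Φ s m ∈ M) (s : ι) :
    ∀ v ∈ QB Φ M, Φ s v ∈ QB Φ M := by
  intro v hv
  obtain ⟨h, hv⟩ := mem_QB.1 hv
  exact mem_QB.2 ⟨Ainf_stable s h, hM s _ hv⟩

variable (Φ) in
/-- the largest perfect submodule of the preimage of `M` -/
def PM (M : Submodule K (CoreM Φ)) : Submodule K X := perf Φ (QB Φ M)

variable {M : Submodule K (CoreM Φ)}

theorem PM_le_QB : PM Φ M ≤ QB Φ M := perf_le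

theorem PM_mem {v : X} (hv : v ∈ PM Φ M) : ∃ h : v ∈ Ainf Φ, (Rad Φ).mkQ ⟨v, h⟩ ∈ M :=
  mem_QB.1 (PM_le_QB hv)

theorem PM_le_Ainf : PM Φ M ≤ Ainf Φ := fun _ hv => (PM_mem hv).1

theorem PM_stable (hM : ∀ s, ∀ m ∈ M, coreOp Φ s m ∈ M) (s : ι) {v : X} (hv : v ∈ PM Φ M) :
    Φ s v ∈ PM Φ M := perf_stable (fun s v hv => QB_stable hM s v hv) s hv

theorem PM_exists [FiniteDimensional K X] [Fintype ι] (hM : ∀ s, ∀ m ∈ M, coreOp Φ s m ∈ M)
    {v : X} (hv : v ∈ PM Φ M) : ∃ f : ι → X, (∀ s, f s ∈ PM Φ M) ∧ ∑ s, Φ s (f s) = v :=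
  perf_exists (fun s v hv => QB_stable hM s v hv) hv


/-- `PM` maps onto `M` if `M` is perfect. -/
theorem PM_surj [FiniteDimensional K X] [Fintype ι] (hM : ∀ s, ∀ m ∈ M, coreOp Φ s m ∈ M)
    (hp : ∀ m ∈ M, ∃ f : ι → CoreM Φ, (∀ s, f s ∈ M) ∧ ∑ s, coreOp Φ s (f s) = m) :
    ∀ m ∈ M, ∃ v, ∃ h : v ∈ Ainf Φ, v ∈ PM Φ M ∧ (Rad Φ).mkQ ⟨v, h⟩ = m := by
  have key : ∀ k, ∀ m ∈ M, ∃ v, ∃ h : v ∈ Ainf Φ, v ∈ Wr Φ (QB Φ M) k ∧
      (Rad Φ).mkQ ⟨v, h⟩ = m := by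
    intro k
    induction k with
    | zero =>
      intro m hm
      obtain ⟨w, rfl⟩ := (Rad Φ).mkQ_surjective m
      exact ⟨w, w.2, mem_QB.2 ⟨w.2, hm⟩, rfl⟩
    | succ k ih =>
      intro m hm
      obtain ⟨f, hf1, hf2⟩ := hp m hm
      choose u hu1 hu2 hu3 using fun s => ih (f s) (hf1 s)
      refine ⟨∑ s, Φ s (u s), Submodule.sum_mem _ fun s _ => Ainf_stable s (hu1 s),
        Submodule.sum_mem _ fun s _ => Wr_succ_mem (hu2 s) s, ?_⟩
      rw [← hf2]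
      have h1 : (⟨∑ s, Φ s (u s), Submodule.sum_mem _ fun s _ => Ainf_stable s (hu1 s)⟩ : Ainf Φ)
          = ∑ s, resOp Φ s ⟨u s, hu1 s⟩ := by
        apply Subtype.ext
        rw [Submodule.coe_sum]
        rfl
      rw [h1, map_sum]
      refine Finset.sum_congr rfl fun s _ => ?_
      rw [← hu3 s]
      rfl
  intro m hm
  obtain ⟨k, hk, -⟩ := perf_eq_Wr (Φ := Φ) (Q := QB Φ M) (fun s v hv => QB_stable hM s v hv)
  obtain ⟨v, h, hv, hm⟩ := key k m hm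
  exact ⟨v, h, by rw [PM, hk]; exact hv, hm⟩

theorem mk_zero_iff {v : X} (h : v ∈ Ainf Φ) : (Rad Φ).mkQ ⟨v, h⟩ = 0 ↔ v ∈ T Φ :=
  Submodule.Quotient.mk_eq_zero _

end blocks

section D

variable {Φ : ι → End K X} {D : End K (CoreM Φ)}

/-- generalised eigenspaces of `D` are perfect -/
theorem gen_perfect [FiniteDimensional K X] [Fintype ι]
    (hD : ∀ s x, D (coreOp Φ s x) = coreOp Φ s (D x)) (hs : ⨆ ν, D.maxGenEigenspace ν = ⊤)
    (ν : K) : ∀ m ∈ D.maxGenEigenspace ν, ∃ f : ι → CoreM Φ,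
      (∀ s, f s ∈ D.maxGenEigenspace ν) ∧ ∑ s, coreOp Φ s (f s) = m := by
  intro m hm
  obtain ⟨f, hf⟩ := core_exists Φ m
  have hC := gen_isCompl hs ν
  have h1 : ∀ s, ∃ g ∈ D.maxGenEigenspace ν, ∃ h ∈ co D ν, g + h = f s := by
    intro s
    have h2 : f s ∈ D.maxGenEigenspace ν ⊔ co D ν := by rw [hC.sup_eq_top]; trivial
    exact Submodule.mem_sup.1 h2
  choose g hg h hh hgh using h1
  refine ⟨g, hg, ?_⟩
  have h3 : m - ∑ s, coreOp Φ s (g s) = ∑ s, coreOp Φ s (h s) := by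
    rw [← hf, ← Finset.sum_sub_distrib]
    refine Finset.sum_congr rfl fun s _ => ?_
    rw [← hgh s, map_add, add_sub_cancel_left]
  have h4 : m - ∑ s, coreOp Φ s (g s) ∈ D.maxGenEigenspace ν :=
    Submodule.sub_mem _ hm (Submodule.sum_mem _ fun s _ => gen_stable (hD s) ν _ (hg s))
  have h5 : m - ∑ s, coreOp Φ s (g s) ∈ co D ν := by
    rw [h3]
    exact Submodule.sum_mem _ fun s _ => co_stable (hD s) ν _ (hh s)
  have h6 := (Submodule.disjoint_def.1 hC.disjoint) _ h4 h5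
  exact (sub_eq_zero.1 h6).symm

variable (Φ D) in
/-- the block `P_ν ≤ X` -/
def PB (ν : K) : Submodule K X := PM Φ (D.maxGenEigenspace ν)

theorem PB_mem {ν : K} {v : X} (hv : v ∈ PB Φ D ν) :
    ∃ h : v ∈ Ainf Φ, (Rad Φ).mkQ ⟨v, h⟩ ∈ D.maxGenEigenspace ν := PM_mem hv

theorem PB_le_Ainf (ν : K) : PB Φ D ν ≤ Ainf Φ := PM_le_Ainf

theorem PB_stable (hD : ∀ s x, D (coreOp Φ s x) = coreOp Φ s (D x)) (ν : K) (s : ι) {v : X}
    (hv : v ∈ PB Φ D ν) : Φ s v ∈ PB Φ D ν :=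
  PM_stable (fun s m hm => gen_stable (hD s) ν m hm) s hv

theorem PB_exists [FiniteDimensional K X] [Fintype ι]
    (hD : ∀ s x, D (coreOp Φ s x) = coreOp Φ s (D x)) (ν : K) {v : X}
    (hv : v ∈ PB Φ D ν) : ∃ f : ι → X, (∀ s, f s ∈ PB Φ D ν) ∧ ∑ s, Φ s (f s) = v :=
  PM_exists (fun s m hm => gen_stable (hD s) ν m hm) hv


theorem PB_surj [FiniteDimensional K X] [Fintype ι]
    (hD : ∀ s x, D (coreOp Φ s x) = coreOp Φ s (D x)) (hs : ⨆ ν, D.maxGenEigenspace ν = ⊤)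
    (ν : K) : ∀ m ∈ D.maxGenEigenspace ν, ∃ v, ∃ h : v ∈ Ainf Φ, v ∈ PB Φ D ν ∧
      (Rad Φ).mkQ ⟨v, h⟩ = m :=
  PM_surj (fun s m hm => gen_stable (hD s) ν m hm) (gen_perfect hD hs ν)

/-- a perfect submodule of `Ainf` which meets every class mod `T` contains `Ainf` -/
theorem Ainf_le_of_classes [FiniteDimensional K X] [Fintype ι] {S : Submodule K X}
    (hS : ∀ s, ∀ v ∈ S, Φ s v ∈ S) (h : ∀ v ∈ Ainf Φ, ∃ w ∈ S, v - w ∈ T Φ) : Ainf Φ ≤ S := by
  obtain ⟨k, hk⟩ := T_eq_Nk Φ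
  have key : ∀ j, j ≤ k → ∀ v ∈ Ainf Φ, ∃ w ∈ S, v - w ∈ Nk Φ (k - j) := by
    intro j
    induction j with
    | zero =>
      intro _ v hv
      obtain ⟨w, hw, h1⟩ := h v hv
      exact ⟨w, hw, by rw [Nat.sub_zero, ← hk]; exact h1⟩
    | succ j ih =>
      intro hj v hv
      obtain ⟨f, hf1, hf2⟩ := Ainf_exists Φ hv
      choose w hw1 hw2 using fun s => ih (by omega) (f s) (hf1 s)
      refine ⟨∑ s, Φ s (w s), Submodule.sum_mem _ fun s _ => hS s _ (hw1 s), ?_⟩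
      rw [← hf2, ← Finset.sum_sub_distrib]
      refine Submodule.sum_mem _ fun s _ => ?_
      rw [← map_sub]
      have h2 := hw2 s
      rw [show k - j = (k - (j + 1)) + 1 by omega] at h2
      exact mem_Nk_succ.1 h2 s
  intro v hv
  obtain ⟨w, hw, h1⟩ := key k le_rfl v hv
  rw [Nat.sub_self, mem_Nk_zero, sub_eq_zero] at h1
  rw [h1]; exact hw

/-- **the blocks span `Ainf`** -/
theorem iSup_PB [FiniteDimensional K X] [Fintype ι]
    (hD : ∀ s x, D (coreOp Φ s x) = coreOp Φ s (D x)) (hs : ⨆ ν, D.maxGenEigenspace ν = ⊤) :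
    ⨆ ν, PB Φ D ν = Ainf Φ := by
  refine le_antisymm (iSup_le fun ν => PB_le_Ainf ν) ?_
  apply Ainf_le_of_classes
  · intro s v hv
    have hle : (⨆ ν, PB Φ D ν) ≤ (⨆ ν, PB Φ D ν).comap (Φ s) :=
      iSup_le fun ν w hw => Submodule.mem_iSup_of_mem ν (PB_stable hD ν s hw)
    exact hle hv
  · intro v hv
    have h1 : (⊤ : Submodule K (CoreM Φ)) ≤
        ((⨆ ν, PB Φ D ν).comap (Ainf Φ).subtype).map (Rad Φ).mkQ := by
      rw [← hs]
      refine iSup_le fun ν m hm => ?_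
      obtain ⟨w, hw, hwP, hwm⟩ := PB_surj hD hs ν m hm
      exact ⟨⟨w, hw⟩, Submodule.mem_iSup_of_mem ν hwP, hwm⟩
    obtain ⟨w, hw1, hw2⟩ := h1 (Submodule.mem_top (x := (Rad Φ).mkQ ⟨v, hv⟩))
    refine ⟨w, hw1, ?_⟩
    have h2 : (Rad Φ).mkQ (⟨v, hv⟩ - w) = 0 := by rw [map_sub, hw2, sub_self]
    exact (Submodule.Quotient.mk_eq_zero (Rad Φ)).1 h2





end D

section twist

variable {P Q : Type*} [AddCommGroup P] [Module K P] [FiniteDimensional K P] [AddCommGroup Q]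
  [Module K Q] [FiniteDimensional K Q]

/-- **twist**: no intertwiners implies no `c`-intertwiners for all but finitely many `c` -/
theorem twist {a : ι → End K P} {b : ι → End K Q}
    (h : ∀ x : P →ₗ[K] Q, (∀ s v, x (a s v) = b s (x v)) → x = 0) :
    {c : K | ∃ x : P →ₗ[K] Q, x ≠ 0 ∧ ∀ s v, x (a s v) = c • b s (x v)}.Finite := by
  let α : (P →ₗ[K] Q) →ₗ[K] (ι → (P →ₗ[K] Q)) :=
    { toFun := fun x s => x ∘ₗ a s
      map_add' := fun x y => by funext s; exact LinearMap.add_comp _ _ _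
      map_smul' := fun c x => by funext s; exact LinearMap.smul_comp _ _ _ }
  let β : (P →ₗ[K] Q) →ₗ[K] (ι → (P →ₗ[K] Q)) :=
    { toFun := fun x s => -(b s ∘ₗ x)
      map_add' := fun x y => by
        funext s
        change -(b s ∘ₗ (x + y)) = -(b s ∘ₗ x) + -(b s ∘ₗ y)
        rw [LinearMap.comp_add, neg_add]
      map_smul' := fun c x => by
        funext s
        change -(b s ∘ₗ (c • x)) = c • -(b s ∘ₗ x)
        rw [LinearMap.comp_smul, smul_neg] }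
  have hval : ∀ (t : K) (x : P →ₗ[K] Q) (s : ι) (v : P),
      (α + t • β) x s v = x (a s v) - t • b s (x v) := by
    intro t x s v
    change x (a s v) + t • -(b s (x v)) = _
    rw [smul_neg, sub_eq_add_neg]
  have h1 : Function.Injective (α + (1 : K) • β) := by
    rw [injective_iff_map_eq_zero]
    intro x hx
    apply h
    intro s v
    have h2 := hval 1 x s v
    rw [hx] at h2
    rw [one_smul] at h2
    exact (sub_eq_zero.1 h2.symm)
  refine (TE.pencil α β h1).subset ?_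
  rintro c ⟨x, hx0, hx⟩
  change ¬ Function.Injective (α + c • β)
  intro hinj
  apply hx0
  apply hinj
  rw [map_zero]
  funext s
  apply LinearMap.ext
  intro v
  rw [hval, hx s v, sub_self]
  rfl

variable {V : Type*} [AddCommGroup V] [Module K V] [FiniteDimensional K V]


end twist

section form

open Crest.Agent.R172.SpS

variable {V : Type*} [AddCommGroup V] [Module K V] [FiniteDimensional K V]
variable {M : ι → (Dual K V →ₗ[K] V)} {η : LinearMap.BilinForm K V}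

/-- different blocks are orthogonal for `η` -/
theorem PB_orth (h : Dat M η) {D : End K (CoreM (Be M η))}
    (hDB : ∀ x y, BC M η (D x) y = BC M η x (D y)) {lam mu : K} (hne : lam ≠ mu) {v w : V}
    (hv : v ∈ PB (Be M η) D lam) (hw : w ∈ PB (Be M η) D mu) : η v w = 0 := by
  obtain ⟨h1, h2⟩ := PB_mem hv
  obtain ⟨h3, h4⟩ := PB_mem hw
  have h5 := gen_ortho hDB hne _ h2 _ h4
  rw [h.BC_mk] at h5
  exact h5

end form

end Crest.Agent.R172.SC
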