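import Crest.Agent.R172.SpS7
import Crest.Agent.R172.Qt4
import Crest.Agent.R172.SpS8
import Crest.Agent.R172.SCoreA

-- ▼ part R172/SMove
section

/-!
Row 172 (S0260), (t2), S-side: the move at `t = 0` and the SUM RELATION (note 15958 (1) of
helper731), arbitrary radical and arbitrary `T`.

* `exists_move` : from 869's `derSp_of`: `x s` symmetric tensors with values in `im g`, exact for
  `Φ_s = M_s(g) J P₀`; `ξ` with `g ξᵀ = act X g` given; then a derivation `d` realising `(X, ξ)`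
  with `dg = act X g`, `dP₀ = 0`, `dP_s = [X_s, P_s]`.
* `sum_rel` : the first derivative of a second element `f ∈ 𝒦iso`.
-/

set_option autoImplicit false
set_option linter.unusedSectionVars false
set_option linter.unusedFintypeInType false
set_option linter.unusedDecidableInType false

namespace Crest.Agent.R172.SMove

open Matrix Module Crest.Agent.R172.FO Crest.Agent.R172.Qt Crest.Agent.R172.SpS
open Crest.Agent.R172.Om (Kiso)

variable {ι : Type*} [Fintype ι] [DecidableEq ι] {δ : Type*} [Fintype δ] [DecidableEq δ]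
variable {k K : Type*} [Field k] [Field K] [Algebra k K]
variable {arm : δ → Fin 3} {J : Matrix ι ι K} {B : Matrix δ δ K}
  {N W : Submodule K (Matrix ι δ K)} {g : Matrix ι δ K}

/-- vertical derivations with a second constant element `f` -/
structure VertF (k : Type*) {K : Type*} [Field k] [Field K] [Algebra k K] (arm : δ → Fin 3)
    (J : Matrix ι ι K) (N W : Submodule K (Matrix ι δ K)) (g f : Matrix ι δ K)
    (p : Matrix ι ι K × (Fin 3 → Matrix ι ι K)) : Prop where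
  v1 : ∀ w ∈ Kiso J N W, ∃ d : Derivation k K K, g.map d = w ∧ f.map d = 0 ∧
    Realises arm N W (0 : Fin 3 → Matrix ι ι K) (0 : Matrix δ δ K) d
  v2 : ∀ p' ∈ NN arm J N g, ∃ d : Derivation k K K, g.map d = 0 ∧ f.map d = 0 ∧
    Realises arm N W (0 : Fin 3 → Matrix ι ι K) (0 : Matrix δ δ K) d ∧
    p.1.map d = p'.1 ∧ ∀ s, (p.2 s).map d = p'.2 s



/-! ### the stacked `ξ` -/


/-! ### the sum relation -/

/-- the data of two blocks `P_i = g U_i`, `f U_i = l_i P_i`, `(P₀ P_i)ᵀ J f = l_i (P₀ P_i)ᵀ J g` -/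
structure Blk {α : Type*} [Fintype α] (J : Matrix ι ι K) (g f : Matrix ι δ K)
    (p0 : Matrix ι ι K) (P : Matrix ι α K) (U : Matrix δ α K) (l : K) : Prop where
  im : P = g * U
  fU : f * U = l • P
  row : (p0 * P)ᵀ * J * f = l • ((p0 * P)ᵀ * J * g)

section sum

variable {α β : Type*} [Fintype α] [Fintype β] {f : Matrix ι δ K}
variable {P1 : Matrix ι α K} {P2 : Matrix ι β K} {U1 : Matrix δ α K} {U2 : Matrix δ β K}
  {l1 l2 : K} {p : Matrix ι ι K × (Fin 3 → Matrix ι ι K)}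


/-- `Φ_s P` -/
def ph (arm : δ → Fin 3) (J : Matrix ι ι K) (B : Matrix δ δ K) (g : Matrix ι δ K)
    (p0 : Matrix ι ι K) (s : Fin 3) {γ : Type*} (P : Matrix ι γ K) : Matrix ι γ K :=
  M arm B s g g * (J * p0) * P

theorem M_symm (hD : Data k arm J B N W) (g : Matrix ι δ K) (s : Fin 3) :
    (M arm B s g g)ᵀ = M arm B s g g := by
  unfold M
  rw [transpose_mul, transpose_mul, transpose_mul, transpose_transpose, E_transpose,
    hD.B_symm]
  simp only [Matrix.mul_assoc]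
  rw [← Matrix.mul_assoc B, ← hD.B_arm, Matrix.mul_assoc]

theorem tJ (hJ : Jᵀ = J) {p0 : Matrix ι ι K} (hp : Skw J p0) {γ : Type*} (P : Matrix ι γ K) :
    Pᵀ * (J * p0) = -((p0 * P)ᵀ * J) := by
  rw [transpose_mul, Matrix.mul_assoc, hp.eq, Matrix.mul_neg, neg_neg]










end sum

end Crest.Agent.R172.SMove
end

-- ▼ part R172/SBlk

/-!
Row 172 (S0260), (t2), S-side, node S-SBlk (arbitrary radical `R_S`):

* `T_f` is semisimple on `T_Q` : `exists_spec` gives `p_c ∈ NN g` with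
  `gᵀ J p_c f = c gᵀ J p_c g` and `gᵀ J P₀ g = ∑_c gᵀ J p_c g`;
* cross relations `φ_c E_s B φ_c' = 0`, `c ≠ c'`;
* exact blocks: the block `PB` (node S-CoreA) of the eigenvalue `ν` of `D` satisfies
  the relations `SMove.Blk` EXACTLY (`Spec.blk_of_PB`), and `D` is semisimple.
-/

set_option autoImplicit false
set_option linter.unusedSectionVars false
set_option linter.unusedFintypeInType false
set_option linter.unusedDecidableInType false

namespace Crest.Agent.R172.SBlk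

open Matrix Module Crest.Agent.R172.FO Crest.Agent.R172.Qt Crest.Agent.R172.SpS
open Crest.Agent.R172.St (Nk T mem_T mem_Nk_zero mem_Nk_succ Nk_le_T T_stable T_closed T_eq_Nk)
open Crest.Agent.R172.PL (Wk Ainf Rad CoreM coreOp resOp Ainf_exists Ainf_le_Wk Ainf_stable)
open Crest.Agent.R172.SC (PB PB_mem PB_exists PB_stable)
open Crest.Agent.R172.SMove (Blk)

section abs

variable {K : Type*} [Field K] {V : Type*} [AddCommGroup V] [Module K V] {κ : Type*}

/-- the operators `Φ = ∑_c Ψ_c` with orthogonal parts -/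
structure Par (Φ Ns : κ → End K V) (Ψ : K → κ → End K V) (S : Finset K) : Prop where
  sum : ∀ s v, Φ s v = ∑ c ∈ S, Ψ c s v
  cross : ∀ c c', c ≠ c' → ∀ s t v, Ψ c s (Ψ c' t v) = 0
  out : ∀ c, c ∉ S → ∀ s v, Ψ c s v = 0
  nn : ∀ s v, Ns s v = ∑ c ∈ S, c • Ψ c s v

variable {Φ Ns : κ → End K V} {Ψ : K → κ → End K V} {S : Finset K}

theorem Par.diag (h : Par Φ Ns Ψ S) (c : K) (s t : κ) (v : V) :
    Φ s (Ψ c t v) = Ψ c s (Ψ c t v) := by
  rw [h.sum]
  by_cases hc : c ∈ S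
  · rw [Finset.sum_eq_single c]
    · intro c' _ hne; exact h.cross c' c hne s t v
    · intro hc'; exact absurd hc hc'
  · rw [h.out c hc t v, map_zero]
    exact Finset.sum_eq_zero fun c' _ => by rw [map_zero]

theorem Par.diag' (h : Par Φ Ns Ψ S) (c : K) (s t : κ) (v : V) :
    Ψ c s (Φ t v) = Ψ c s (Ψ c t v) := by
  rw [h.sum, map_sum]
  by_cases hc : c ∈ S
  · rw [Finset.sum_eq_single c]
    · intro c' _ hne; exact h.cross c c' hne.symm s t v
    · intro hc'; exact absurd hc hc'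
  · rw [h.out c hc s]
    exact Finset.sum_eq_zero fun c' _ => by rw [h.out c hc s]

theorem Par.diagN (h : Par Φ Ns Ψ S) (c : K) (s t : κ) (v : V) :
    Ns s (Ψ c t v) = c • Ψ c s (Ψ c t v) := by
  rw [h.nn]
  by_cases hc : c ∈ S
  · rw [Finset.sum_eq_single c]
    · intro c' _ hne; rw [h.cross c' c hne s t v, smul_zero]
    · intro hc'; exact absurd hc hc'
  · rw [h.out c hc t v, map_zero, smul_zero]
    exact Finset.sum_eq_zero fun c' _ => by rw [map_zero, smul_zero]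

theorem Par.Wk (h : Par Φ Ns Ψ S) (c : K) (k : ℕ) :
    ∀ s, ∀ v ∈ Wk Φ k, Ψ c s v ∈ Wk Φ k := by
  induction k with
  | zero => intro s v _; simp [PL.Wk]
  | succ k ih =>
    intro s v hv
    refine Submodule.iSup_induction (p := fun s => (PL.Wk Φ k).map (Φ s))
      (motive := fun v => Ψ c s v ∈ PL.Wk Φ (k + 1)) hv ?_ ?_ ?_
    · rintro t _ ⟨u, hu, rfl⟩
      rw [h.diag', ← h.diag]
      exact PL.Wk_succ_mem (ih t u hu) s
    · rw [map_zero]; exact Submodule.zero_mem _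
    · intro x y hx hy; rw [map_add]; exact Submodule.add_mem _ hx hy

theorem Par.ainf (h : Par Φ Ns Ψ S) (c : K) (s : κ) {v : V} (hv : v ∈ Ainf Φ) :
    Ψ c s v ∈ Ainf Φ :=
  (Submodule.mem_iInf _).2 (fun k => h.Wk c k s v (Ainf_le_Wk _ k hv))

theorem Par.eig (h : Par Φ Ns Ψ S) {D : End K (CoreM Φ)}
    (hD : ∀ (s : κ) (v w : Ainf Φ), (w : V) = Ns s (v : V) →
      D (coreOp Φ s ((Rad Φ).mkQ v)) = (Rad Φ).mkQ w) (c : K) (s t : κ) (v : Ainf Φ) :
    D ((Rad Φ).mkQ ⟨Ψ c s (Ψ c t v), h.ainf c s (h.ainf c t v.2)⟩) =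
      c • (Rad Φ).mkQ ⟨Ψ c s (Ψ c t v), h.ainf c s (h.ainf c t v.2)⟩ := by
  have h1 := hD s ⟨Ψ c t v, h.ainf c t v.2⟩ (c • ⟨Ψ c s (Ψ c t v), h.ainf c s (h.ainf c t v.2)⟩)
    (by rw [Submodule.coe_smul]; exact (h.diagN c s t v).symm)
  rw [map_smul] at h1
  rw [← h1, PL.coreOp_mk]
  congr 2
  exact Subtype.ext (h.diag c s t v).symm

variable [Fintype κ] [FiniteDimensional K V]

/-- every element of a perfect `P` is a sum over `c` of elements `∑ Ψ_c,s Ψ_c,t f_{s,t}` -/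
theorem Par.two (h : Par Φ Ns Ψ S) {P : Submodule K V}
    (hP : ∀ v ∈ P, ∃ f : κ → V, (∀ s, f s ∈ P) ∧ ∑ s, Φ s (f s) = v) {v : V} (hv : v ∈ P) :
    ∃ f : κ → κ → V, (∀ s t, f s t ∈ P) ∧ v = ∑ c ∈ S, ∑ s, ∑ t, Ψ c s (Ψ c t (f s t)) := by
  obtain ⟨f, hf, rfl⟩ := hP v hv
  choose g hg hgs using fun s => hP (f s) (hf s)
  refine ⟨g, hg, ?_⟩
  rw [Finset.sum_comm]
  refine Finset.sum_congr rfl fun s _ => ?_
  rw [Finset.sum_comm, ← hgs s, map_sum]
  refine Finset.sum_congr rfl fun t _ => ?_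
  rw [h.sum]
  exact Finset.sum_congr rfl fun c _ => h.diag' c s t _

theorem Par.D_top (h : Par Φ Ns Ψ S) {D : End K (CoreM Φ)}
    (hD : ∀ (s : κ) (v w : Ainf Φ), (w : V) = Ns s (v : V) →
      D (coreOp Φ s ((Rad Φ).mkQ v)) = (Rad Φ).mkQ w) : ⨆ c, D.eigenspace c = ⊤ := by
  rw [eq_top_iff]
  rintro m -
  obtain ⟨v, rfl⟩ := (Rad Φ).mkQ_surjective m
  obtain ⟨f, hf, hv⟩ := h.two (P := Ainf Φ) (fun v hv => Ainf_exists Φ hv) v.2
  have h1 : v = ∑ c ∈ S, ∑ s, ∑ t, (⟨Ψ c s (Ψ c t (f s t)),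
      h.ainf c s (h.ainf c t (hf s t))⟩ : Ainf Φ) := by
    apply Subtype.ext
    rw [hv]
    simp only [Submodule.coe_sum]
  rw [h1]
  simp only [map_sum]
  refine Submodule.sum_mem _ fun c _ => Submodule.sum_mem _ fun s _ =>
    Submodule.sum_mem _ fun t _ => Submodule.mem_iSup_of_mem c ?_
  exact Module.End.mem_eigenspace_iff.2 (h.eig hD c s t ⟨f s t, hf s t⟩)

/-- modulo `T` -/
theorem le_of_classes {P Y : Submodule K V}
    (hP : ∀ v ∈ P, ∃ f : κ → V, (∀ s, f s ∈ P) ∧ ∑ s, Φ s (f s) = v)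
    (hY : ∀ s, ∀ v ∈ Y, Φ s v ∈ Y) (h : ∀ v ∈ P, ∃ w ∈ Y, v - w ∈ T Φ) : P ≤ Y := by
  obtain ⟨k, hk⟩ := T_eq_Nk Φ
  have key : ∀ j, j ≤ k → ∀ v ∈ P, ∃ w ∈ Y, v - w ∈ Nk Φ (k - j) := by
    intro j
    induction j with
    | zero =>
      intro _ v hv
      obtain ⟨w, hw, h1⟩ := h v hv
      exact ⟨w, hw, by rw [Nat.sub_zero, ← hk]; exact h1⟩
    | succ j ih =>
      intro hj v hv
      obtain ⟨f, hf1, hf2⟩ := hP v hv
      choose w hw1 hw2 using fun s => ih (by omega) (f s) (hf1 s)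
      refine ⟨∑ s, Φ s (w s), Submodule.sum_mem _ fun s _ => hY s _ (hw1 s), ?_⟩
      rw [← hf2, ← Finset.sum_sub_distrib]
      refine Submodule.sum_mem _ fun s _ => ?_
      rw [← map_sub]
      have h2 := hw2 s
      rw [show k - j = (k - (j + 1)) + 1 by omega] at h2
      exact mem_Nk_succ.1 h2 s
  intro v hv
  obtain ⟨w, hw, h1⟩ := key k le_rfl v hv
  rw [Nat.sub_self, mem_Nk_zero, sub_eq_zero] at h1
  rw [h1]; exact hw

/-- **the block of `ν` lies in the image of the `Ψ_ν,s`.** -/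
theorem Par.PB_le (h : Par Φ Ns Ψ S) {D : End K (CoreM Φ)}
    (hD : ∀ (s : κ) (v w : Ainf Φ), (w : V) = Ns s (v : V) →
      D (coreOp Φ s ((Rad Φ).mkQ v)) = (Rad Φ).mkQ w)
    (hDc : ∀ s x, D (coreOp Φ s x) = coreOp Φ s (D x)) (ν : K) :
    PB Φ D ν ≤ ⨆ s, LinearMap.range (Ψ ν s) := by
  classical
  have hPe : ∀ v ∈ PB Φ D ν, ∃ f : κ → V, (∀ s, f s ∈ PB Φ D ν) ∧ ∑ s, Φ s (f s) = v :=
    fun v hv => PB_exists hDc ν hv
  refine le_of_classes (Φ := Φ) hPe ?_ ?_
  · intro s v hv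
    refine Submodule.iSup_induction (p := fun s => LinearMap.range (Ψ ν s))
      (motive := fun v => Φ s v ∈ ⨆ s, LinearMap.range (Ψ ν s)) hv ?_ ?_ ?_
    · rintro t _ ⟨u, rfl⟩
      rw [h.diag]
      exact Submodule.mem_iSup_of_mem s ⟨_, rfl⟩
    · rw [map_zero]; exact Submodule.zero_mem _
    · intro x y hx hy; rw [map_add]; exact Submodule.add_mem _ hx hy
  · intro v hv
    obtain ⟨f, hf, hvs⟩ := h.two hPe hv
    have hfA : ∀ s t, f s t ∈ Ainf Φ := fun s t => (PB_mem (hf s t)).1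
    obtain ⟨hvA, hvm⟩ := PB_mem hv
    -- the components
    let vc : K → Ainf Φ := fun c => ∑ s, ∑ t, ⟨Ψ c s (Ψ c t (f s t)),
      h.ainf c s (h.ainf c t (hfA s t))⟩
    have hvc : ∀ c, ((vc c : Ainf Φ) : V) = ∑ s, ∑ t, Ψ c s (Ψ c t (f s t)) := by
      intro c
      simp only [vc, Submodule.coe_sum]
    have hvce : ∀ c, (Rad Φ).mkQ (vc c) ∈ D.maxGenEigenspace c := by
      intro c
      have h1 : (Rad Φ).mkQ (vc c) ∈ D.eigenspace c := by
        simp only [vc, map_sum]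
        refine Submodule.sum_mem _ fun s _ => Submodule.sum_mem _ fun t _ => ?_
        exact Module.End.mem_eigenspace_iff.2 (h.eig hD c s t ⟨f s t, hfA s t⟩)
      exact Module.End.mem_maxGenEigenspace _ _ _ |>.2 ⟨1, by
        rw [pow_one, LinearMap.sub_apply, Module.End.mem_eigenspace_iff.1 h1]
        simp⟩
    have hout : ν ∉ S → vc ν = 0 := by
      intro hν
      apply Subtype.ext
      rw [hvc]
      exact Finset.sum_eq_zero fun s _ => Finset.sum_eq_zero fun t _ => h.out ν hν s _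
    have h1 : (⟨v, hvA⟩ : Ainf Φ) - vc ν = ∑ c ∈ S.erase ν, vc c := by
      have h2 : (⟨v, hvA⟩ : Ainf Φ) = ∑ c ∈ S, vc c := by
        apply Subtype.ext
        rw [Submodule.coe_sum]
        change v = _
        rw [hvs]
        exact Finset.sum_congr rfl fun c _ => (hvc c).symm
      rw [h2]
      by_cases hν : ν ∈ S
      · rw [← Finset.add_sum_erase S _ hν, add_sub_cancel_left]
      · rw [hout hν, sub_zero, Finset.erase_eq_of_notMem hν]
    have h2 : (Rad Φ).mkQ (⟨v, hvA⟩ - vc ν) = 0 := by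
      have h3 : (Rad Φ).mkQ (⟨v, hvA⟩ - vc ν) ∈ D.maxGenEigenspace ν := by
        rw [map_sub]; exact Submodule.sub_mem _ hvm (hvce ν)
      have h4 : (Rad Φ).mkQ (⟨v, hvA⟩ - vc ν) ∈
          ⨆ (c : K) (_ : c ≠ ν), D.maxGenEigenspace c := by
        rw [h1, map_sum]
        refine Submodule.sum_mem _ fun c hc => ?_
        exact Submodule.mem_iSup_of_mem c (Submodule.mem_iSup_of_mem (Finset.ne_of_mem_erase hc)
          (hvce c))
      exact (Submodule.disjoint_def.1 (Module.End.independent_maxGenEigenspace D ν)) _ h3 h4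
    refine ⟨(vc ν : V), ?_, ?_⟩
    · rw [hvc]
      exact Submodule.sum_mem _ fun s _ => Submodule.sum_mem _ fun t _ =>
        Submodule.mem_iSup_of_mem s ⟨_, rfl⟩
    · exact (Submodule.Quotient.mk_eq_zero (Rad Φ)).1 h2

theorem basis_mat {K : Type*} [Field K] {V : Type*} [AddCommGroup V] [Module K V]
    [FiniteDimensional K V] {ι : Type*} [Fintype ι] (i : V →ₗ[K] (ι → K))
    (hi : Function.Injective i) (Y : Submodule K V) :
    ∃ (n : ℕ) (P : Matrix ι (Fin n) K), (∀ a, ∃ v ∈ Y, i v = fun j => P j a) ∧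
      (∀ v ∈ Y, ∃ x, i v = P *ᵥ x) ∧ (∀ x, P *ᵥ x = 0 → x = 0) := by
  classical
  let bs := Module.finBasis K Y
  let P : Matrix ι (Fin (finrank K Y)) K := Matrix.of fun j a => i (bs a : V) j
  have hPx : ∀ x, P *ᵥ x = i ((∑ a, x a • bs a : Y) : V) := by
    intro x
    rw [Submodule.coe_sum, map_sum]
    funext j
    rw [Finset.sum_apply]
    unfold Matrix.mulVec dotProduct
    refine Finset.sum_congr rfl fun a _ => ?_
    rw [Submodule.coe_smul, map_smul, mul_comm]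
    rfl
  refine ⟨_, P, fun a => ⟨bs a, (bs a).2, rfl⟩, fun v hv => ⟨fun a => bs.repr ⟨v, hv⟩ a, ?_⟩,
    fun x hx => ?_⟩
  · rw [hPx, bs.sum_repr]
  · rw [hPx] at hx
    have h1 : (∑ a, x a • bs a : Y) = 0 := Subtype.ext (hi (by rw [hx]; simp))
    funext a
    exact Fintype.linearIndependent_iff.1 bs.linearIndependent x h1 a

/-- the characterisation of `D` (the first two clauses of `SpS.TameD`) -/
def IsD {K : Type*} [Field K] {V : Type*} [AddCommGroup V] [Module K V] {κ : Type*}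
    (Φ Ns : κ → End K V) (D : End K (CoreM Φ)) : Prop :=
  (∀ (s : κ) (v w : Ainf Φ), (w : V) = Ns s (v : V) →
      D (coreOp Φ s ((Rad Φ).mkQ v)) = (Rad Φ).mkQ w) ∧
  (∀ s x, D (coreOp Φ s x) = coreOp Φ s (D x))

end abs

section step

variable {K : Type*} [Field K] {V : Type*} [AddCommGroup V] [Module K V] {κ : Type*}
variable {E : Type*} [AddCommGroup E] [Module K E]
variable {M N : κ → (Dual K V →ₗ[K] V)} {b : E →ₗ[K] LinearMap.BilinForm K V} {Tf : End K E}

theorem semis (h : Step M N b Tf)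
    (hNIL : ∀ η : E, ∀ k, (∀ v, v ∈ Nk (Be M (b η)) k) → η = 0)
    {c : K} {η : E} (hη : η ∈ Tf.maxGenEigenspace c) : Tf η = c • η := by
  obtain ⟨n, hn⟩ := (Module.End.mem_maxGenEigenspace _ _ _).1 hη
  have h5 : Tf η - c • η = 0 := (h.shift c).nil_zero hNIL η n hn
  exact sub_eq_zero.1 h5

theorem exists_eig [IsAlgClosed K] [FiniteDimensional K E] (h : Step M N b Tf)
    (hNIL : ∀ η : E, ∀ k, (∀ v, v ∈ Nk (Be M (b η)) k) → η = 0) (η : E) :
    ∃ e : K →₀ E, (∀ c, Tf (e c) = c • e c) ∧ e.sum (fun _ x => x) = η := by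
  have h1 : η ∈ ⨆ c, Tf.maxGenEigenspace c := by
    rw [Module.End.iSup_maxGenEigenspace_eq_top]; trivial
  obtain ⟨e, he, hs⟩ := (Submodule.mem_iSup_iff_exists_finsupp _ _).1 h1
  exact ⟨e, fun c => semis h hNIL (he c), hs⟩

end step

section mat

variable {ι : Type*} [Fintype ι] [DecidableEq ι] {δ : Type*} [Fintype δ] [DecidableEq δ]
variable {k K : Type*} [Field k] [Field K] [Algebra k K]
variable {arm : δ → Fin 3} {J : Matrix ι ι K} {B : Matrix δ δ K}
  {N W : Submodule K (Matrix ι δ K)} {g f : Matrix ι δ K}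

/-- the spectral decomposition of `gᵀ J P₀ g` under `T_f` -/
structure Spec (arm : δ → Fin 3) (J : Matrix ι ι K) (N : Submodule K (Matrix ι δ K))
    (g f : Matrix ι δ K) (p0 : Matrix ι ι K) (S : Finset K)
    (q : K → Matrix ι ι K × (Fin 3 → Matrix ι ι K)) : Prop where
  mem : ∀ c, q c ∈ NN arm J N g
  eig : ∀ c, gᵀ * J * ((q c).1 * f) = c • (gᵀ * J * ((q c).1 * g))
  sum : gᵀ * J * (p0 * g) = ∑ c ∈ S, gᵀ * J * ((q c).1 * g)
  sumf : gᵀ * J * (p0 * f) = ∑ c ∈ S, c • (gᵀ * J * ((q c).1 * g))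
  out : ∀ c, c ∉ S → gᵀ * J * ((q c).1 * g) = 0

/-- **`T_f` is semisimple.** -/
theorem exists_spec [IsAlgClosed K] (h : Ctx k arm J B N W g) {R : Matrix δ ι K}
    (hR : g * R * g = g) (hNil : NilW arm J B N g)
    {p : Matrix ι ι K × (Fin 3 → Matrix ι ι K)} (hp : p ∈ NN arm J N g) (hf : f ∈ N ⊓ W) :
    ∃ (S : Finset K) (q : K → Matrix ι ι K × (Fin 3 → Matrix ι ι K)),
      Spec arm J N g f p.1 S q := by
  obtain ⟨Tf, hS, hTf⟩ := exists_step h hR hf
  let φ : Xi J N arm g := ⟨gᵀ * J * (p.1 * g), ⟨⟨p, hp⟩, rfl⟩⟩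
  obtain ⟨e, he, hs⟩ := exists_eig hS (fun φ m hm => nil_of_NilW hNil hR φ m hm) φ
  choose q hq using fun c => (e c).2
  have hq' : ∀ c, ((e c : Xi J N arm g) : Matrix δ δ K) = gᵀ * J * ((q c).1.1 * g) :=
    fun c => (hq c).symm
  refine ⟨e.support, fun c => (q c).1, fun c => (q c).2, fun c => ?_, ?_, ?_, fun c hc => ?_⟩
  · rw [← hTf (e c) (q c) (hq' c), he c, Submodule.coe_smul, hq' c]
  · have h1 := congrArg (fun x : Xi J N arm g => (x : Matrix δ δ K)) hs
    simp only [Finsupp.sum, Submodule.coe_sum] at h1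
    change _ = gᵀ * J * (p.1 * g) at h1
    rw [← h1]
    exact Finset.sum_congr rfl fun c _ => hq' c
  · rw [← hTf φ ⟨p, hp⟩ rfl, ← hs]
    simp only [Finsupp.sum, map_sum, Submodule.coe_sum]
    refine Finset.sum_congr rfl fun c _ => ?_
    rw [he c, Submodule.coe_smul, hq' c]
  · rw [← hq' c, Finsupp.notMem_support_iff.1 hc]
    rfl

variable {p : Matrix ι ι K × (Fin 3 → Matrix ι ι K)} {S : Finset K}
  {q : K → Matrix ι ι K × (Fin 3 → Matrix ι ι K)}

theorem Spec.flip (hq : Spec arm J N g f p.1 S q) (hJ : Jᵀ = J) (c : K) :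
    fᵀ * (J * (q c).1) * g = c • (gᵀ * J * ((q c).1 * g)) := by
  rw [← hq.eig c]
  refine (AF_flip hJ ⟨q c, hq.mem c⟩ (c • ⟨q c, hq.mem c⟩) ?_).symm
  rw [hq.eig c]
  change _ = gᵀ * J * ((c • (q c).1) * g)
  rw [Matrix.smul_mul, Matrix.mul_smul]

/-- **cross relations** -/
theorem Spec.cross (hq : Spec arm J N g f p.1 S q) (h : Ctx k arm J B N W g) (hf : f ∈ N ⊓ W)
    {c c' : K} (hne : c ≠ c') (s : Fin 3) :
    (gᵀ * J * ((q c).1 * g)) * (E K arm s * B) * (gᵀ * J * ((q c').1 * g)) = 0 := by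
  have hsym : f * E K arm s * B * gᵀ = g * E K arm s * B * fᵀ := h.data.symm_arm hf h.mem s
  have h1 : c • ((gᵀ * J * ((q c).1 * g)) * (E K arm s * B) * (gᵀ * J * ((q c').1 * g))) =
      c' • ((gᵀ * J * ((q c).1 * g)) * (E K arm s * B) * (gᵀ * J * ((q c').1 * g))) := by
    calc c • ((gᵀ * J * ((q c).1 * g)) * (E K arm s * B) * (gᵀ * J * ((q c').1 * g)))
        = (c • (gᵀ * J * ((q c).1 * g))) * (E K arm s * B) * (gᵀ * J * ((q c').1 * g)) := by
          rw [Matrix.smul_mul, Matrix.smul_mul]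
      _ = gᵀ * J * (q c).1 * (f * E K arm s * B * gᵀ) * (J * (q c').1) * g := by
          rw [← hq.eig c]; simp only [Matrix.mul_assoc]
      _ = (gᵀ * J * ((q c).1 * g)) * (E K arm s * B) * (fᵀ * (J * (q c').1) * g) := by
          rw [hsym]; simp only [Matrix.mul_assoc]
      _ = _ := by rw [hq.flip h.data.J_symm c', Matrix.mul_smul]
  have h2 : (c - c') • ((gᵀ * J * ((q c).1 * g)) * (E K arm s * B) *
      (gᵀ * J * ((q c').1 * g))) = 0 := by rw [sub_smul, h1, sub_self]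
  exact (smul_eq_zero.1 h2).resolve_left (sub_ne_zero.2 hne)

/-- **exact block relations** for the images of `M_s(g) J p_c g`. -/
theorem Spec.blk (hq : Spec arm J N g f p.1 S q) (h : Ctx k arm J B N W g) (hf : f ∈ N ⊓ W)
    (hp : p ∈ NN arm J N g) (c : K) {α : Type*} [Fintype α] (U : Fin 3 → Matrix δ α K) :
    Blk J g f p.1 (∑ s, M arm B s g g * (J * (q c).1) * (g * U s))
      (∑ s, E K arm s * B * (gᵀ * J * ((q c).1 * g)) * U s) c := by
  have hJ := h.data.J_symm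
  have him : ∑ s, M arm B s g g * (J * (q c).1) * (g * U s) =
      g * ∑ s, E K arm s * B * (gᵀ * J * ((q c).1 * g)) * U s := by
    rw [Matrix.mul_sum]
    refine Finset.sum_congr rfl fun s _ => ?_
    unfold M
    simp only [Matrix.mul_assoc]
  have hUφ : ∀ c', c' ≠ c → (∑ s, E K arm s * B * (gᵀ * J * ((q c).1 * g)) * U s)ᵀ *
      (gᵀ * J * ((q c').1 * g)) = 0 := by
    intro c' hne
    rw [transpose_sum, Matrix.sum_mul]
    refine Finset.sum_eq_zero fun s _ => ?_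
    have h1 : (gᵀ * J * ((q c).1 * g))ᵀ = -(gᵀ * J * ((q c).1 * g)) := by
      have h2 := Xi_skew hJ ⟨q c, hq.mem c⟩
      have h3 : gᵀ * J * ((q c).1 * g) = gᵀ * (J * (q c).1) * g := by
        simp only [Matrix.mul_assoc]
      rw [h3]; exact h2
    rw [transpose_mul, transpose_mul, h1, EB_symm h.data, Matrix.neg_mul, Matrix.mul_neg,
      Matrix.neg_mul, Matrix.mul_assoc (U s)ᵀ, hq.cross h hf hne.symm s, Matrix.mul_zero, neg_zero]
  set U' := ∑ s, E K arm s * B * (gᵀ * J * ((q c).1 * g)) * U s with hU'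
  have hsing : ∀ a : K → K, ∑ c' ∈ S, U'ᵀ * (a c' • (gᵀ * J * ((q c').1 * g))) =
      a c • (U'ᵀ * (gᵀ * J * ((q c).1 * g))) := by
    intro a
    by_cases hc : c ∈ S
    · rw [Finset.sum_eq_single c]
      · rw [Matrix.mul_smul]
      · intro c' _ hne; rw [Matrix.mul_smul, hUφ c' hne, smul_zero]
      · intro hc'; exact absurd hc hc'
    · rw [hq.out c hc, Matrix.mul_zero, smul_zero]
      refine Finset.sum_eq_zero fun c' hc' => ?_
      rw [Matrix.mul_smul, hUφ c' (fun e => hc (e ▸ hc')), smul_zero]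
  refine ⟨him, ?_, ?_⟩
  · rw [him, hU', Matrix.mul_sum, Matrix.mul_sum, Finset.smul_sum]
    refine Finset.sum_congr rfl fun s _ => ?_
    have hsym : f * E K arm s * B * gᵀ = g * E K arm s * B * fᵀ := h.data.symm_arm hf h.mem s
    calc f * (E K arm s * B * (gᵀ * J * ((q c).1 * g)) * U s)
        = (f * E K arm s * B * gᵀ) * (J * (q c).1) * g * U s := by
          simp only [Matrix.mul_assoc]
      _ = g * E K arm s * B * (fᵀ * (J * (q c).1) * g) * U s := by
          rw [hsym]; simp only [Matrix.mul_assoc]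
      _ = _ := by
          rw [hq.flip hJ c, Matrix.mul_smul, Matrix.smul_mul]
          simp only [Matrix.mul_assoc]
  · rw [him]
    have e1 : ∀ x : Matrix ι δ K, (p.1 * (g * U'))ᵀ * J * x = -(U'ᵀ * (gᵀ * J * (p.1 * x))) := by
      intro x
      have h1 := SMove.tJ hJ hp.1 (g * U')
      have h2 : (p.1 * (g * U'))ᵀ * J = -((g * U')ᵀ * (J * p.1)) := by rw [h1, neg_neg]
      rw [h2, transpose_mul]
      simp only [Matrix.neg_mul, Matrix.mul_assoc]
    rw [e1, e1, hq.sumf, hq.sum, Matrix.mul_sum, Matrix.mul_sum, hsing fun c => c, smul_neg]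
    have h2 := hsing fun _ => 1
    simp only [one_smul] at h2
    rw [h2]

/-- the orthogonal decomposition on `S = im g`. -/
theorem Spec.par (hq : Spec arm J N g f p.1 S q) (h : Ctx k arm J B N W g) (hf : f ∈ N ⊓ W)
    {R : Matrix δ ι K} (hR : g * R * g = g) :
    Par (Be (Mg arm B g) (bil g R (gᵀ * (J * p.1) * g)))
      (Be (Ng arm B g R f) (bil g R (gᵀ * (J * p.1) * g)))
      (fun c => Be (Mg arm B g) (bil g R (gᵀ * (J * (q c).1) * g))) S := by
  have ea : ∀ A : Matrix ι ι K, gᵀ * (J * A) * g = gᵀ * J * (A * g) := fun A => by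
    simp only [Matrix.mul_assoc]
  refine ⟨fun s v => ?_, fun c c' hne s t v => ?_, fun c hc s v => ?_, fun s v => ?_⟩
  · have h1 : gᵀ * (J * p.1) * g = ∑ c ∈ S, gᵀ * (J * (q c).1) * g := by
      rw [ea, hq.sum]
      exact Finset.sum_congr rfl fun c _ => (ea _).symm
    rw [Be_apply, h1, map_sum, LinearMap.sum_apply, map_sum]
    rfl
  · apply Subtype.ext
    rw [Be_coe hR, Be_coe hR]
    obtain ⟨z, rfl⟩ := gS_surj g v
    rw [gS_coe, mulVec_mulVec, mulVec_mulVec]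
    have h1 : M arm B s g g * (J * (q c).1) * (M arm B t g g * (J * (q c').1)) * g =
        g * (E K arm s * B) * ((gᵀ * J * ((q c).1 * g)) * (E K arm t * B) *
          (gᵀ * J * ((q c').1 * g))) := by
      unfold M
      simp only [Matrix.mul_assoc]
    rw [h1, hq.cross h hf hne, Matrix.mul_zero, zero_mulVec]
    rfl
  · have h1 : gᵀ * (J * (q c).1) * g = 0 := by rw [ea, hq.out c hc]
    simp only [Be_apply]
    rw [h1, map_zero, LinearMap.zero_apply, map_zero]
  · apply Subtype.ext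
    rw [Ng_coe h hR hf, Submodule.coe_sum]
    obtain ⟨z, rfl⟩ := gS_surj g v
    have hsym : f * E K arm s * B * gᵀ = g * E K arm s * B * fᵀ := h.data.symm_arm hf h.mem s
    have h2 : ∀ c ∈ S, ((c • (Be (Mg arm B g) (bil g R (gᵀ * (J * (q c).1) * g))) s (gS g z) :
        Sg g) : ι → K) = (f * E K arm s * B * (gᵀ * J * ((q c).1 * g))) *ᵥ z := by
      intro c _
      rw [Submodule.coe_smul, Be_coe hR, gS_coe, mulVec_mulVec, ← smul_mulVec]
      congr 1
      calc c • (M arm B s g g * (J * (q c).1) * g)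
          = g * E K arm s * B * (c • (gᵀ * J * ((q c).1 * g))) := by
            unfold M
            rw [Matrix.mul_smul]
            simp only [Matrix.mul_assoc]
        _ = (g * E K arm s * B * fᵀ) * (J * (q c).1) * g := by
            rw [← hq.flip h.data.J_symm c]; simp only [Matrix.mul_assoc]
        _ = _ := by rw [← hsym]; simp only [Matrix.mul_assoc]
    rw [Finset.sum_congr rfl h2, gS_coe, mulVec_mulVec, ← sum_mulVec]
    congr 1
    rw [← Matrix.mul_sum, ← hq.sum]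
    unfold M
    simp only [Matrix.mul_assoc]

/-- the operators `M_s(g) J P₀` on `S = im g` -/
abbrev Ph (arm : δ → Fin 3) (J : Matrix ι ι K) (B : Matrix δ δ K) (g : Matrix ι δ K)
    (R : Matrix δ ι K) (p0 : Matrix ι ι K) : Fin 3 → End K (Sg g) :=
  Be (Mg arm B g) (bil g R (gᵀ * (J * p0) * g))

/-- the operators `M_s(f, g) J P₀` on `S = im g` -/
abbrev Nh (arm : δ → Fin 3) (J : Matrix ι ι K) (B : Matrix δ δ K) (g f : Matrix ι δ K)
    (R : Matrix δ ι K) (p0 : Matrix ι ι K) : Fin 3 → End K (Sg g) :=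
  Be (Ng arm B g R f) (bil g R (gᵀ * (J * p0) * g))

/-- **`D` is semisimple** -/
theorem D_top [IsAlgClosed K] (h : Ctx k arm J B N W g) {R : Matrix δ ι K}
    (hR : g * R * g = g) (hNil : NilW arm J B N g) (hp : p ∈ NN arm J N g) (hf : f ∈ N ⊓ W)
    {D : End K (CoreM (Ph arm J B g R p.1))}
    (hD : IsD (Ph arm J B g R p.1) (Nh arm J B g f R p.1) D) :
    ⨆ c, D.eigenspace c = ⊤ := by
  obtain ⟨S, q, hq⟩ := exists_spec h hR hNil hp hf
  exact (hq.par h hf hR).D_top hD.1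

/-- a matrix with columns in the submodule `Y` of `im g` -/
def Col (Y : Submodule K (Sg g)) {α : Type*} (P : Matrix ι α K) : Prop :=
  ∀ a, ∃ v ∈ Y, ((v : Sg g) : ι → K) = fun i => P i a


/-- `Φ_s P`, matrix form -/
theorem Col.ph {R : Matrix δ ι K} (hR : g * R * g = g) {Y : Submodule K (Sg g)}
    (hY : ∀ s, ∀ v ∈ Y, Ph arm J B g R p.1 s v ∈ Y)
    {α : Type*} {P : Matrix ι α K} (hP : Col Y P) (s : Fin 3) :
    Col Y (SMove.ph arm J B g p.1 s P) := by
  intro a
  obtain ⟨v, hv, hva⟩ := hP a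
  refine ⟨_, hY s v hv, ?_⟩
  rw [Be_coe hR, hva]
  rfl

/-- a basis matrix of a submodule of `im g` -/
theorem exists_P0 (Y : Submodule K (Sg g)) :
    ∃ (n : ℕ) (P : Matrix ι (Fin n) K), Col Y P ∧
      (∀ v ∈ Y, ∃ x, ((v : Sg g) : ι → K) = P *ᵥ x) ∧ (∀ x, P *ᵥ x = 0 → x = 0) := by
  exact basis_mat (Sg g).subtype Subtype.coe_injective Y

/-- a basis matrix of a stable submodule: `P` injective with range `Y`, `Φ_s P = P A_s`. -/
theorem exists_P {R : Matrix δ ι K} (hR : g * R * g = g) {Y : Submodule K (Sg g)}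
    (hY : ∀ s, ∀ v ∈ Y, Ph arm J B g R p.1 s v ∈ Y) :
    ∃ (n : ℕ) (P : Matrix ι (Fin n) K) (A : Fin 3 → Matrix (Fin n) (Fin n) K),
      Col Y P ∧ (∀ v ∈ Y, ∃ x, ((v : Sg g) : ι → K) = P *ᵥ x) ∧
      (∀ x, P *ᵥ x = 0 → x = 0) ∧ (∀ s, SMove.ph arm J B g p.1 s P = P * A s) := by
  obtain ⟨n, P, hC, hspan, hinj⟩ := exists_P0 Y
  have hA : ∀ s, ∃ A, SMove.ph arm J B g p.1 s P = P * A := by
    intro s
    have h1 : ∀ a, ∃ x, (fun i => SMove.ph arm J B g p.1 s P i a) = P *ᵥ x := by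
      intro a
      obtain ⟨v, hv, hva⟩ := hC.ph hR hY s a
      obtain ⟨x, hx⟩ := hspan v hv
      exact ⟨x, by rw [← hva, hx]⟩
    choose x hx using h1
    refine ⟨Matrix.of fun b a => x a b, ?_⟩
    ext i a
    rw [congrFun (hx a) i]
    rfl
  choose A hA using hA
  exact ⟨n, P, A, hC, hspan, hinj, hA⟩

end mat

end Crest.Agent.R172.SBlk
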