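import Crest.Agent.R172.SCore
import Crest.Agent.R172.SEnd2
import Crest.Agent.R172.SBlk

/-!
Row 172 (S0260), S-side (t2), node S-Core, MATRIX part (helper580).

For `Φ_s = M_s(g) J X` on `S = im g` and a tame `D` on its core: for every eigenvalue `ν` of `D` a basis
matrix `P` of the block `PB ν` with action matrices `A s` (`M_s J X P = P A_s`), the form
`G = Pᵀ (J X) P` (skew, `A_sᵀ G = - G A_s`), `BlkD A (ker G) l`, nonzero corners;
different blocks are orthogonal, and the blocks span the core.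
-/

set_option autoImplicit false
set_option linter.unusedSectionVars false

namespace Crest.Agent.R172.SCM

open Matrix Module Crest.Agent.R172.FO Crest.Agent.R172.Qt Crest.Agent.R172.SpS
open Crest.Agent.R172.SEnd Crest.Agent.R172.SEnd2 Crest.Agent.R172.SCB Crest.Agent.R172.SBlk
open Crest.Agent.R172.St (Nk T mem_T mem_Nk_zero mem_Nk_succ Nk_le_T T_stable T_closed T_eq_Nk)
open Crest.Agent.R172.PL (Wk Ainf Rad CoreM coreOp resOp Ainf_exists Ainf_stable)
open Crest.Agent.R172.SC (PB PB_mem PB_exists PB_stable PB_orth iSup_PB PB_le_Ainf)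

variable {ι : Type*} [Fintype ι] [DecidableEq ι] {δ : Type*} [Fintype δ] [DecidableEq δ]
variable {k K : Type*} [Field k] [Field K] [Algebra k K]
variable {arm : δ → Fin 3} {J : Matrix ι ι K} {B : Matrix δ δ K}
  {N W : Submodule K (Matrix ι δ K)} {g : Matrix ι δ K} {R : Matrix δ ι K}
  {X : Matrix ι ι K}

/-- the action of a power of a matrix -/
theorem mulVecLin_pow_apply {n : Type*} [Fintype n] [DecidableEq n] (A : Matrix n n K) (j : ℕ)
    (x : n → K) : (A.mulVecLin ^ j) x = (A ^ j) *ᵥ x := by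
  induction j generalizing x with
  | zero => rw [pow_zero, pow_zero, one_mulVec]; rfl
  | succ j ih => rw [pow_succ, pow_succ, Module.End.mul_apply, ih, mulVecLin_apply, mulVec_mulVec]

/-- one block of the core in coordinates -/
structure BPkg (arm : δ → Fin 3) (J : Matrix ι ι K) (B : Matrix δ δ K) (g : Matrix ι δ K)
    (R : Matrix δ ι K) (X : Matrix ι ι K) (D : End K (CoreM (PhS arm J B g R X))) (ν : K)
    (l : Fin 3 → ℕ) {n : ℕ} (P : Matrix ι (Fin n) K) (A : Fin 3 → Matrix (Fin n) (Fin n) K) :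
    Prop where
  col : Col (PB (PhS arm J B g R X) D ν) P
  mem : ∀ x, ∃ v ∈ PB (PhS arm J B g R X) D ν, ((v : Sg g) : ι → K) = P *ᵥ x
  span : ∀ v ∈ PB (PhS arm J B g R X) D ν, ∃ x, ((v : Sg g) : ι → K) = P *ᵥ x
  inj : ∀ x, P *ᵥ x = 0 → x = 0
  act : ∀ s, M arm B s g g * (J * X) * P = P * A s
  blk : BlkD (fun s => (A s).mulVecLin) (LinearMap.ker (Pᵀ * (J * X) * P).mulVecLin) l
  rad : ∀ x, ∀ v : Sg g, (v : ι → K) = P *ᵥ x →
    (v ∈ T (PhS arm J B g R X) ↔ (Pᵀ * (J * X) * P) *ᵥ x = 0)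
  skew : (Pᵀ * (J * X) * P)ᵀ = -(Pᵀ * (J * X) * P)
  adj : ∀ s, (A s)ᵀ * (Pᵀ * (J * X) * P) = -((Pᵀ * (J * X) * P) * A s)
  corner : ∀ s, ∃ x y, x ⬝ᵥ ((Pᵀ * (J * X) * P) *ᵥ ((A s ^ (l s - 1)) *ᵥ y)) ≠ 0

theorem col_mem {Y : Submodule K (Sg g)} {n : ℕ} {P : Matrix ι (Fin n) K} (hP : Col Y P)
    (x : Fin n → K) : ∃ v ∈ Y, ((v : Sg g) : ι → K) = P *ᵥ x := by
  choose v hv hva using hP
  refine ⟨∑ a, x a • v a, Submodule.sum_mem _ fun a _ => Y.smul_mem _ (hv a), ?_⟩
  rw [Submodule.coe_sum]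
  funext i
  rw [Finset.sum_apply]
  unfold Matrix.mulVec dotProduct
  refine Finset.sum_congr rfl fun a _ => ?_
  rw [Submodule.coe_smul, hva a, Pi.smul_apply, smul_eq_mul, mul_comm]

theorem bil_dot (hR : g * R * g = g) (v w : Sg g) :
    (v : ι → K) ⬝ᵥ ((J * X) *ᵥ (w : ι → K)) = bil g R (gᵀ * (J * X) * g) w v := by
  rw [bil_coe hR, dotProduct_comm]

variable {D : End K (CoreM (PhS arm J B g R X))}

/-- vectors of different blocks are orthogonal -/
theorem orth (hD : Data k arm J B N W) (hR : g * R * g = g) (hX : Skw J X)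
    (hDB : ∀ x y, BC (Mg arm B g) (bil g R (gᵀ * (J * X) * g)) (D x) y =
      BC (Mg arm B g) (bil g R (gᵀ * (J * X) * g)) x (D y))
    {ν μ : K} (hne : ν ≠ μ) {v w : Sg g} (hv : v ∈ PB (PhS arm J B g R X) D ν)
    (hw : w ∈ PB (PhS arm J B g R X) D μ) : (v : ι → K) ⬝ᵥ ((J * X) *ᵥ (w : ι → K)) = 0 := by
  rw [bil_dot hR]
  exact PB_orth (Dat_of (k := k) (N := N) (W := W) hD hR hX) hDB hne.symm hw hv


/-- the radical of the block in coordinates -/
theorem mem_T_iff [IsAlgClosed K] (hD : Data k arm J B N W) (hR : g * R * g = g) (hX : Skw J X)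
    (hDc : ∀ s x, D (coreOp (PhS arm J B g R X) s x) = coreOp (PhS arm J B g R X) s (D x))
    (hDB : ∀ x y, BC (Mg arm B g) (bil g R (gᵀ * (J * X) * g)) (D x) y =
      BC (Mg arm B g) (bil g R (gᵀ * (J * X) * g)) x (D y))
    {ν : K} {n : ℕ} {P : Matrix ι (Fin n) K} (hC : Col (PB (PhS arm J B g R X) D ν) P)
    (hspan : ∀ v ∈ PB (PhS arm J B g R X) D ν, ∃ x, ((v : Sg g) : ι → K) = P *ᵥ x)
    (x : Fin n → K) (v : Sg g) (hvx : (v : ι → K) = P *ᵥ x) :
    v ∈ T (PhS arm J B g R X) ↔ (Pᵀ * (J * X) * P) *ᵥ x = 0 := by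
  obtain ⟨v', hv', hv'x⟩ := col_mem hC x
  have hvv : v = v' := Subtype.ext (hvx.trans hv'x.symm)
  rw [← hvv] at hv'
  have hvA : v ∈ Ainf (PhS arm J B g R X) := PB_le_Ainf ν hv'
  rw [← mem_Rd_PC (k := k) (N := N) (W := W) hD hR hX hvA]
  have key : ∀ y : Fin n → K, (P *ᵥ y) ⬝ᵥ ((J * X) *ᵥ (v : ι → K)) =
      y ⬝ᵥ ((Pᵀ * (J * X) * P) *ᵥ x) := by
    intro y
    rw [hvx, Matrix.mul_assoc, ← mulVec_mulVec x Pᵀ, dotProduct_mulVec y Pᵀ,
      vecMul_transpose]
    simp only [mulVec_mulVec, Matrix.mul_assoc]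
  constructor
  · rintro ⟨-, h⟩
    funext a
    obtain ⟨w, hw, hwa⟩ := col_mem hC (Pi.single a 1)
    have h1 := h _ (coe_mem_PC.2 (PB_le_Ainf ν hw))
    rw [hwa, key, single_one_dotProduct] at h1
    exact h1
  · intro h
    refine ⟨coe_mem_PC.2 hvA, ?_⟩
    rintro _ ⟨w, hw, rfl⟩
    rw [← iSup_PB hDc (Module.End.iSup_maxGenEigenspace_eq_top D)] at hw
    refine Submodule.iSup_induction (p := fun μ => PB (PhS arm J B g R X) D μ)
      (motive := fun w => (w : ι → K) ⬝ᵥ ((J * X) *ᵥ (v : ι → K)) = 0) hw ?_ ?_ ?_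
    · intro μ w hw
      by_cases hμ : μ = ν
      · rw [hμ] at hw
        obtain ⟨y, hy⟩ := hspan w hw
        rw [hy, key, h, dotProduct_zero]
      · exact orth (k := k) (N := N) (W := W) hD hR hX hDB hμ hw hv'
    · rw [Submodule.coe_zero, zero_dotProduct]
    · intro a b ha hb
      rw [Submodule.coe_add, add_dotProduct, ha, hb, add_zero]

/-- the form of a block -/
theorem form_skew (hD : Data k arm J B N W) (hX : Skw J X) {α : Type*} [Fintype α]
    (P : Matrix ι α K) : (Pᵀ * (J * X) * P)ᵀ = -(Pᵀ * (J * X) * P) := by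
  have h1 : (J * X)ᵀ = -(J * X) := by rw [transpose_mul, hD.J_symm, hX.eq]
  rw [transpose_mul, transpose_mul, h1, transpose_transpose, Matrix.neg_mul, Matrix.mul_neg,
    Matrix.mul_assoc, Matrix.mul_assoc, Matrix.mul_assoc]

theorem form_adj (hD : Data k arm J B N W) (hX : Skw J X) {α β : Type*} [Fintype α] [Fintype β]
    {P : Matrix ι α K} {Q : Matrix ι β K} {A : Matrix α α K} {C : Matrix β β K} (s : Fin 3)
    (hA : M arm B s g g * (J * X) * P = P * A) (hC : M arm B s g g * (J * X) * Q = Q * C) :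
    Aᵀ * (Pᵀ * (J * X) * Q) = -((Pᵀ * (J * X) * Q) * C) := by
  have h1 : (J * X)ᵀ = -(J * X) := by rw [transpose_mul, hD.J_symm, hX.eq]
  have h2 := SMove.M_symm hD g s
  calc Aᵀ * (Pᵀ * (J * X) * Q) = (P * A)ᵀ * (J * X) * Q := by
        rw [transpose_mul]; simp only [Matrix.mul_assoc]
    _ = -(Pᵀ * (J * X) * (M arm B s g g * (J * X) * Q)) := by
        rw [← hA, transpose_mul, transpose_mul, h1, h2]
        simp only [Matrix.mul_neg, Matrix.neg_mul, Matrix.mul_assoc]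
    _ = _ := by rw [hC]; simp only [Matrix.mul_assoc]

/-- `∑ Φ_s = 0` -/
theorem sum_PhS (h : Ctx k arm J B N W g) (hR : g * R * g = g) (v : Sg g) :
    ∑ s, PhS arm J B g R X s v = 0 := by
  have h1 := sum_Mg h hR (bil g R (gᵀ * (J * X) * g) v)
  exact h1

/-- **the package of one block.** -/
theorem pkg [IsAlgClosed K] (h : Ctx k arm J B N W g) (hR : g * R * g = g) (hX : Skw J X)
    (hDc : ∀ s x, D (coreOp (PhS arm J B g R X) s x) = coreOp (PhS arm J B g R X) s (D x))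
    (hDB : ∀ x y, BC (Mg arm B g) (bil g R (gᵀ * (J * X) * g)) (D x) y =
      BC (Mg arm B g) (bil g R (gᵀ * (J * X) * g)) x (D y)) {ν : K} {l : Fin 3 → ℕ}
    (hb : BlkD (P := PB (PhS arm J B g R X) D ν) (bA hDc ν) (bR (PhS arm J B g R X) D ν) l) :
    ∃ (n : ℕ) (P : Matrix ι (Fin n) K) (A : Fin 3 → Matrix (Fin n) (Fin n) K),
      BPkg arm J B g R X D ν l P A := by
  have hD := h.data
  obtain ⟨n, P, A, hC, hspan, hinj, hA⟩ := SBlk.exists_P (arm := arm) (J := J) (B := B)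
    (p := (X, fun _ => 0)) hR (Y := PB (PhS arm J B g R X) D ν) fun s v hv => PB_stable hDc ν s hv
  have hA' : ∀ s, M arm B s g g * (J * X) * P = P * A s := hA
  have hrad := mem_T_iff (k := k) (N := N) (W := W) hD hR hX hDc hDB hC hspan
  have hm : ∀ x, P.mulVecLin x ∈ Sg g := by
    intro x
    obtain ⟨v, -, hvx⟩ := col_mem hC x
    rw [mulVecLin_apply, ← hvx]
    exact v.2
  let f0 : (Fin n → K) →ₗ[K] Sg g := LinearMap.codRestrict (Sg g) P.mulVecLin hm
  have hf0 : ∀ x, ((f0 x : Sg g) : ι → K) = P *ᵥ x := fun x => rfl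
  let f : (Fin n → K) →ₗ[K] PB (PhS arm J B g R X) D ν :=
    LinearMap.codRestrict (PB (PhS arm J B g R X) D ν) f0 fun x => by
      obtain ⟨v, hv, hvx⟩ := col_mem hC x
      have : f0 x = v := Subtype.ext ((hf0 x).trans hvx.symm)
      rw [this]
      exact hv
  have hf : ∀ x, (((f x : PB (PhS arm J B g R X) D ν) : Sg g) : ι → K) = P *ᵥ x := fun x => rfl
  have hfinj : Function.Injective f := by
    rw [injective_iff_map_eq_zero]
    intro x hx
    apply hinj
    rw [← hf, hx]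
    rfl
  have hfsurj : Function.Surjective f := by
    intro v
    obtain ⟨x, hx⟩ := hspan v v.2
    exact ⟨x, Subtype.ext (Subtype.ext ((hf x).trans hx.symm))⟩
  let e := (LinearEquiv.ofBijective f ⟨hfinj, hfsurj⟩).symm
  have hfe : ∀ v, f (e v) = v := fun v =>
    (LinearEquiv.ofBijective f ⟨hfinj, hfsurj⟩).apply_symm_apply v
  have hef : ∀ x, e (f x) = x := fun x =>
    (LinearEquiv.ofBijective f ⟨hfinj, hfsurj⟩).symm_apply_apply x
  have hact : ∀ s v, e (bA hDc ν s v) = (A s).mulVecLin (e v) := by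
    intro s v
    apply hfinj
    rw [hfe]
    apply Subtype.ext
    apply Subtype.ext
    rw [hf, bA_coe, PhS_coe hR, mulVecLin_apply, mulVec_mulVec, ← hA',
      ← mulVec_mulVec (e v), ← hf, hfe]
  have hmap : (bR (PhS arm J B g R X) D ν).map e.toLinearMap =
      LinearMap.ker (Pᵀ * (J * X) * P).mulVecLin := by
    ext x
    rw [LinearMap.mem_ker, mulVecLin_apply, ← hrad x (f x : PB (PhS arm J B g R X) D ν) (hf x)]
    constructor
    · rintro ⟨v, hv, rfl⟩
      change ((f (e v) : PB (PhS arm J B g R X) D ν) : Sg g) ∈ _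
      rw [hfe]
      exact hv
    · intro hx
      exact ⟨f x, hx, hef x⟩
  have hblk : BlkD (fun s => (A s).mulVecLin) (LinearMap.ker (Pᵀ * (J * X) * P).mulVecLin) l := by
    rw [← hmap]
    exact hb.equiv e hact
  refine ⟨n, P, A, hC, col_mem hC, hspan, hinj, hA', hblk, hrad, form_skew hD hX P,
    fun s => form_adj hD hX s (hA' s) (hA' s), fun s => ?_⟩
  obtain ⟨y, hy⟩ := hblk.ne s
  by_contra hcon
  push Not at hcon
  apply hy
  rw [LinearMap.mem_ker]
  funext a
  have h1 := hcon (Pi.single a 1) y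
  rw [single_one_dotProduct] at h1
  rw [mulVecLin_apply, mulVecLin_pow_apply]
  exact h1


end Crest.Agent.R172.SCM
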