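import Crest.Agent.R172.SEnd

/-!
Row 172 (S0260), tame node (t2): the filtered tensors of `P ⊗ P` are spanned by
`Φ^i a ⊗ Φ^j b` (`i + j + 1 = l`), `r ⊗ b`, `b ⊗ r` (`r` in the radical) (matrix form), and the
hypothesis `hSL` of `SEnd.false_of_slack` from generators.
-/

set_option autoImplicit false
set_option linter.unusedSectionVars false

namespace Crest.Agent.R172.SEnd3

open Matrix Module Crest.Agent.R172.FO Crest.Agent.R172.Qt Crest.Agent.R172.SEnd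

variable {ι : Type*} [Fintype ι] [DecidableEq ι] {δ : Type*} [Fintype δ] [DecidableEq δ]
variable {k K : Type*} [Field k] [Field K] [Algebra k K]

/-- a projector matrix onto a submodule -/
theorem exists_proj (P : Submodule K (ι → K)) :
    ∃ π : Matrix ι ι K, (∀ v, π *ᵥ v ∈ P) ∧ ∀ a ∈ P, π *ᵥ a = a := by
  obtain ⟨f, hf⟩ := P.subtype.exists_leftInverse_of_injective P.ker_subtype
  refine ⟨LinearMap.toMatrix' (P.subtype ∘ₗ f), fun v => ?_, fun a ha => ?_⟩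
  · rw [LinearMap.toMatrix'_mulVec]
    exact (f v).2
  · rw [LinearMap.toMatrix'_mulVec]
    have h1 := LinearMap.congr_fun hf ⟨a, ha⟩
    change ((f a : P) : ι → K) = a
    have h2 : f a = ⟨a, ha⟩ := h1
    rw [h2]

/-- a matrix with columns in `A1` and rows in `A2` lies in every submodule containing `a ⊗ b` -/
theorem mem_of_rank_one {A1 A2 : Submodule K (ι → K)} {S : Submodule K (Matrix ι ι K)}
    (hS : ∀ a ∈ A1, ∀ b ∈ A2, vecMulVec a b ∈ S) {x : Matrix ι ι K}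
    (h1 : ∀ v, x *ᵥ v ∈ A1) (h2 : ∀ v, xᵀ *ᵥ v ∈ A2) : x ∈ S := by
  obtain ⟨π1, hp1, hp1'⟩ := exists_proj A1
  obtain ⟨π2, hp2, hp2'⟩ := exists_proj A2
  have e1 : π1 * x = x := by
    apply Matrix.ext_of_mulVec_single
    intro i
    rw [← mulVec_mulVec, hp1' _ (h1 _)]
  have e2 : x * π2ᵀ = x := by
    have : π2 * xᵀ = xᵀ := by
      apply Matrix.ext_of_mulVec_single
      intro i
      rw [← mulVec_mulVec, hp2' _ (h2 _)]
    have h3 := congrArg transpose this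
    rwa [transpose_mul, transpose_transpose] at h3
  have e3 : x = ∑ i, ∑ j, x i j • vecMulVec (π1 *ᵥ Pi.single i 1) (π2 *ᵥ Pi.single j 1) := by
    have e4 : x = π1 * x * π2ᵀ := by rw [e1, e2]
    have e5 : ∀ i j, vecMulVec (π1 *ᵥ Pi.single i 1) (π2 *ᵥ Pi.single j 1) =
        π1 * vecMulVec (Pi.single i 1) (Pi.single j 1) * π2ᵀ := by
      intro i j
      rw [Matrix.mul_vecMulVec, Matrix.vecMulVec_mul, vecMul_transpose]
    conv_lhs => rw [e4]
    have e6 : x = ∑ i, ∑ j, x i j • vecMulVec (Pi.single i (1 : K)) (Pi.single j (1 : K)) := by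
      ext a b
      rw [Matrix.sum_apply, Finset.sum_eq_single a]
      · rw [Matrix.sum_apply, Finset.sum_eq_single b]
        · simp [vecMulVec_apply]
        · intro j _ hj
          simp [vecMulVec_apply, hj.symm]
        · simp
      · intro i _ hi
        rw [Matrix.sum_apply]
        refine Finset.sum_eq_zero fun j _ => ?_
        simp [vecMulVec_apply, hi.symm]
      · simp
    conv_lhs => rw [e6]
    rw [Matrix.mul_sum, Matrix.sum_mul]
    refine Finset.sum_congr rfl fun i _ => ?_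
    rw [Matrix.mul_sum, Matrix.sum_mul]
    refine Finset.sum_congr rfl fun j _ => ?_
    rw [Matrix.mul_smul, Matrix.smul_mul, e5]
  rw [e3]
  exact S.sum_mem fun i _ => S.sum_mem fun j _ => S.smul_mem _ (hS _ (hp1 _) _ (hp2 _))

/-- a functional on `P` killing the radical is `η c` -/
theorem exists_rep {η : Matrix ι ι K} (hη : ηᵀ = -η) (P : Submodule K (ι → K)) {y : ι → K}
    (hy : ∀ r ∈ Rd η P, r ⬝ᵥ y = 0) : ∃ c ∈ P, ∀ b ∈ P, b ⬝ᵥ y = b ⬝ᵥ (η *ᵥ c) := by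
  obtain ⟨π, hπ1, hπ2⟩ := exists_proj P
  obtain ⟨E0, hE⟩ : ∃ E0 : Matrix ι ι K, E0 = πᵀ * η * π := ⟨_, rfl⟩
  have hE0 : E0ᵀ = -E0 := by
    rw [hE, transpose_mul, transpose_mul, transpose_transpose, hη]
    simp only [Matrix.mul_neg, Matrix.neg_mul, Matrix.mul_assoc]
  obtain ⟨G, hG⟩ : ∃ G : Matrix ι ι K, E0 * G * E0 = E0 := exists_pinv E0
  have hker : ∀ v, E0 *ᵥ v = 0 → v ⬝ᵥ (πᵀ *ᵥ y) = 0 := by
    intro v hv
    have h1 : π *ᵥ v ∈ Rd η P := by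
      refine ⟨hπ1 v, fun b hb => ?_⟩
      rw [← hπ2 b hb, ← vecMul_transpose, ← dotProduct_mulVec, mulVec_mulVec, mulVec_mulVec,
        ← hE, hv, dotProduct_zero]
    have h2 := hy _ h1
    rw [← vecMul_transpose, ← dotProduct_mulVec] at h2
    exact h2
  have h3 : ∀ v, v ⬝ᵥ (πᵀ *ᵥ y) = v ⬝ᵥ (E0 *ᵥ (-(Gᵀ *ᵥ (πᵀ *ᵥ y)))) := by
    intro v
    have h4 : E0 *ᵥ (v - (G * E0) *ᵥ v) = 0 := by
      rw [mulVec_sub, mulVec_mulVec, ← Matrix.mul_assoc, hG, sub_self]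
    have h5 := hker _ h4
    rw [sub_dotProduct, sub_eq_zero] at h5
    rw [h5, ← vecMul_transpose, ← dotProduct_mulVec, transpose_mul, hE0, mulVec_neg,
      Matrix.neg_mul, neg_mulVec]
    simp only [mulVec_mulVec, Matrix.mul_assoc]
  refine ⟨π *ᵥ (-(Gᵀ *ᵥ (πᵀ *ᵥ y))), hπ1 _, fun b hb => ?_⟩
  have e1 : b ⬝ᵥ y = b ⬝ᵥ (πᵀ *ᵥ y) := by
    conv_lhs => rw [← hπ2 b hb, ← vecMul_transpose, ← dotProduct_mulVec]
  have e2 : b ⬝ᵥ (η *ᵥ (π *ᵥ (-(Gᵀ *ᵥ (πᵀ *ᵥ y))))) = b ⬝ᵥ (E0 *ᵥ (-(Gᵀ *ᵥ (πᵀ *ᵥ y)))) := by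
    conv_lhs => rw [← hπ2 b hb, ← vecMul_transpose, ← dotProduct_mulVec]
    rw [hE]
    simp only [mulVec_mulVec, Matrix.mul_assoc]
  rw [e1, h3, e2]

/-- the submodule `Φ^v P + R` of `P` -/
def Uf (Φ η : Matrix ι ι K) (P : Submodule K (ι → K)) (v : ℕ) : Submodule K (ι → K) where
  carrier := {c | c ∈ P ∧ ∃ c' ∈ P, c - (Φ ^ v) *ᵥ c' ∈ Rd η P}
  zero_mem' := ⟨P.zero_mem, 0, P.zero_mem, by
    rw [mulVec_zero, sub_zero]; exact (Rd η P).zero_mem⟩
  add_mem' := by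
    rintro a b ⟨h1, a', ha', h2⟩ ⟨h3, b', hb', h4⟩
    refine ⟨P.add_mem h1 h3, a' + b', P.add_mem ha' hb', ?_⟩
    have := (Rd η P).add_mem h2 h4
    rw [mulVec_add]
    convert this using 1
    abel
  smul_mem' := by
    rintro t a ⟨h1, a', ha', h2⟩
    refine ⟨P.smul_mem t h1, t • a', P.smul_mem t ha', ?_⟩
    rw [mulVec_smul, ← smul_sub]
    exact (Rd η P).smul_mem t h2

/-- the submodule `{b ∈ P | Φ^v b ∈ R}` -/
def Kf (Φ η : Matrix ι ι K) (P : Submodule K (ι → K)) (v : ℕ) : Submodule K (ι → K) where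
  carrier := {b | b ∈ P ∧ (Φ ^ v) *ᵥ b ∈ Rd η P}
  zero_mem' := ⟨P.zero_mem, by rw [mulVec_zero]; exact (Rd η P).zero_mem⟩
  add_mem' := by
    rintro a b ⟨h1, h2⟩ ⟨h3, h4⟩
    exact ⟨P.add_mem h1 h3, by rw [mulVec_add]; exact (Rd η P).add_mem h2 h4⟩
  smul_mem' := by
    rintro t a ⟨h1, h2⟩
    exact ⟨P.smul_mem t h1, by rw [mulVec_smul]; exact (Rd η P).smul_mem t h2⟩

theorem Kf_perp_Uf {Φ η : Matrix ι ι K} (hη : ηᵀ = -η) (had : Φᵀ * η = -(η * Φ))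
    {P : Submodule K (ι → K)} {v : ℕ} {b c : ι → K} (hb : b ∈ Kf Φ η P v)
    (hc : c ∈ Uf Φ η P v) : b ⬝ᵥ (η *ᵥ c) = 0 := by
  obtain ⟨hc1, c', hc', hr⟩ := hc
  have e1 : c = (Φ ^ v) *ᵥ c' + (c - (Φ ^ v) *ᵥ c') := by abel
  rw [e1, mulVec_add, dotProduct_add, hr.2 b hb.1, add_zero, adj_pow had]
  have e2 : ((Φ ^ v) *ᵥ b) ⬝ᵥ (η *ᵥ c') = - (c' ⬝ᵥ (η *ᵥ ((Φ ^ v) *ᵥ b))) := by
    rw [dotProduct_mulVec, ← mulVec_transpose, hη, neg_mulVec, neg_dotProduct, dotProduct_comm]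
  rw [e2, hb.2.2 c' hc', neg_zero, mul_zero]

theorem mem_Kf_of_perp {Φ η : Matrix ι ι K} (hη : ηᵀ = -η) (had : Φᵀ * η = -(η * Φ))
    {P : Submodule K (ι → K)} (hst : ∀ a ∈ P, Φ *ᵥ a ∈ P) {v : ℕ} {b : ι → K} (hb : b ∈ P)
    (h : ∀ c ∈ Uf Φ η P v, b ⬝ᵥ (η *ᵥ c) = 0) : b ∈ Kf Φ η P v := by
  refine ⟨hb, pow_mem hst v b hb, fun c hc => ?_⟩
  have h1 := h ((Φ ^ v) *ᵥ c) ⟨pow_mem hst v c hc, c, hc, by
    rw [sub_self]; exact (Rd η P).zero_mem⟩
  rw [adj_pow had] at h1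
  have e2 : ((Φ ^ v) *ᵥ b) ⬝ᵥ (η *ᵥ c) = - (c ⬝ᵥ (η *ᵥ ((Φ ^ v) *ᵥ b))) := by
    rw [dotProduct_mulVec, ← mulVec_transpose, hη, neg_mulVec, neg_dotProduct, dotProduct_comm]
  rw [e2] at h1
  have h3 : ((-1 : K) ^ v) ≠ 0 := pow_ne_zero _ (neg_ne_zero.2 one_ne_zero)
  have h4 := (mul_eq_zero.1 h1).resolve_left h3
  exact neg_eq_zero.1 h4

theorem Uf_anti {Φ η : Matrix ι ι K} {P : Submodule K (ι → K)} (hst : ∀ a ∈ P, Φ *ᵥ a ∈ P)
    {i j : ℕ} (hij : i ≤ j) : Uf Φ η P j ≤ Uf Φ η P i := by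
  rintro c ⟨h1, c', hc', h2⟩
  obtain ⟨m, rfl⟩ := Nat.exists_eq_add_of_le hij
  refine ⟨h1, (Φ ^ m) *ᵥ c', pow_mem hst m c' hc', ?_⟩
  rw [mulVec_mulVec, ← pow_add]
  exact h2

/-- **filtered tensors are spanned by the obvious rank one tensors.** -/
theorem fil_mem {Φ η : Matrix ι ι K} (hη : ηᵀ = -η) (had : Φᵀ * η = -(η * Φ))
    {P : Submodule K (ι → K)} (hst : ∀ a ∈ P, Φ *ᵥ a ∈ P) {l : ℕ}
    (hl : ∀ c ∈ P, (Φ ^ l) *ᵥ c ∈ Rd η P)
    (hfree : ∀ v ≤ l, ∀ c ∈ P, (Φ ^ (l - v)) *ᵥ c ∈ Rd η P →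
      ∃ c' ∈ P, c - (Φ ^ v) *ᵥ c' ∈ Rd η P)
    {S : Submodule K (Matrix ι ι K)}
    (hG1 : ∀ i j, i + j + 1 = l → ∀ a ∈ P, ∀ b ∈ P, vecMulVec ((Φ ^ i) *ᵥ a) ((Φ ^ j) *ᵥ b) ∈ S)
    (hG2 : ∀ r ∈ Rd η P, ∀ b ∈ P, vecMulVec r b ∈ S)
    (hG3 : ∀ r ∈ Rd η P, ∀ b ∈ P, vecMulVec b r ∈ S)
    {x : Matrix ι ι K} (hx : PP P x) (hF : Fil Φ η P x) : x ∈ S := by
  -- reformulation of the filtration
  have hxr : ∀ x : Matrix ι ι K, (∀ v, xᵀ *ᵥ v ∈ P) → ∀ r ∈ Rd η P, x *ᵥ (η *ᵥ r) = 0 := by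
    intro x hx r hr
    funext i
    have h1 := hr.2 _ (hx (Pi.single i 1))
    rw [← vecMul_transpose, transpose_transpose, ← dotProduct_mulVec, single_dotProduct,
      one_mul] at h1
    exact h1
  have hF' : ∀ v, ∀ c ∈ Uf Φ η P v, x *ᵥ (η *ᵥ c) ∈ Uf Φ η P v := by
    rintro v c ⟨hc, c', hc', hr⟩
    obtain ⟨d, hd, hd'⟩ := hF v c' hc'
    have e1 : x *ᵥ (η *ᵥ c) = (x * η * Φ ^ v) *ᵥ c' := by
      have e2 : c = (Φ ^ v) *ᵥ c' + (c - (Φ ^ v) *ᵥ c') := by abel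
      rw [e2, mulVec_add, mulVec_add, hxr x hx.2 _ hr, add_zero]
      simp only [mulVec_mulVec, Matrix.mul_assoc]
    rw [e1]
    refine ⟨?_, d, hd, hd'⟩
    rw [← e1]
    exact hx.1 _
  clear hF
  -- induction on the row filtration
  have key : ∀ v ≤ l, ∀ x : Matrix ι ι K, (∀ v, x *ᵥ v ∈ P) → (∀ w, xᵀ *ᵥ w ∈ Kf Φ η P v) →
      (∀ v, ∀ c ∈ Uf Φ η P v, x *ᵥ (η *ᵥ c) ∈ Uf Φ η P v) → x ∈ S := by
    intro v
    induction v with
    | zero =>
      intro _ x h1 h2 _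
      refine mem_of_rank_one (A1 := P) (A2 := Rd η P) (fun a ha b hb => hG3 b hb a ha) h1 ?_
      intro w
      have := (h2 w).2
      rwa [pow_zero, one_mulVec] at this
    | succ v ih =>
      intro hv x h1 h2 h3
      obtain ⟨ρ, hρ1, hρ2⟩ := exists_proj (Kf Φ η P v)
      have hRK : ∀ r ∈ Rd η P, r ∈ Kf Φ η P v := fun r hr => ⟨hr.1, Rd_pow had hst v hr⟩
      -- the difference
      have hcol : ∀ w, (x * (1 - ρᵀ)) *ᵥ w ∈ Uf Φ η P v := by
        intro w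
        obtain ⟨c, hc, hc'⟩ := exists_rep hη P (y := (1 - ρᵀ) *ᵥ w) (by
          intro r hr
          have e1 : r ⬝ᵥ ((1 - ρᵀ) *ᵥ w) = (r - ρ *ᵥ r) ⬝ᵥ w := by
            rw [sub_mulVec, one_mulVec, dotProduct_sub, sub_dotProduct, dotProduct_mulVec r,
              vecMul_transpose]
          rw [e1, hρ2 r (hRK r hr), sub_self, zero_dotProduct])
        have hcU : c ∈ Uf Φ η P v := by
          have h4 : c ∈ Kf Φ η P (l - v) := by
            refine mem_Kf_of_perp hη had hst hc ?_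
            rintro d hd
            -- `d ∈ U_{l-v}` lies in `K_v`
            have hdK : d ∈ Kf Φ η P v := by
              obtain ⟨hd1, d', hd', hr⟩ := hd
              refine ⟨hd1, ?_⟩
              have e2 : d = (Φ ^ (l - v)) *ᵥ d' + (d - (Φ ^ (l - v)) *ᵥ d') := by abel
              rw [e2, mulVec_add, mulVec_mulVec, ← pow_add, show v + (l - v) = l by omega]
              exact (Rd η P).add_mem (hl d' hd') (Rd_pow had hst v hr)
            have e3 : d ⬝ᵥ (η *ᵥ c) = 0 := by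
              rw [← hc' d hd.1]
              have e1 : d ⬝ᵥ ((1 - ρᵀ) *ᵥ w) = (d - ρ *ᵥ d) ⬝ᵥ w := by
                rw [sub_mulVec, one_mulVec, dotProduct_sub, sub_dotProduct, dotProduct_mulVec d,
                  vecMul_transpose]
              rw [e1, hρ2 d hdK, sub_self, zero_dotProduct]
            have e4 : c ⬝ᵥ (η *ᵥ d) = - (d ⬝ᵥ (η *ᵥ c)) := by
              rw [dotProduct_mulVec, ← mulVec_transpose, hη, neg_mulVec, neg_dotProduct,
                dotProduct_comm]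
            rw [e4, e3, neg_zero]
          exact ⟨hc, hfree v (by omega) c hc h4.2⟩
        have e5 : (x * (1 - ρᵀ)) *ᵥ w = x *ᵥ (η *ᵥ c) := by
          rw [← mulVec_mulVec]
          funext i
          have h5 := hc' _ (h2 (Pi.single i 1)).1
          have e6 : ∀ z : ι → K, (xᵀ *ᵥ Pi.single i 1) ⬝ᵥ z = (x *ᵥ z) i := by
            intro z
            rw [← vecMul_transpose, transpose_transpose, ← dotProduct_mulVec, single_dotProduct,
              one_mul]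
          rw [e6, e6] at h5
          exact h5
        rw [e5]
        exact h3 v c hcU
      have hrow : ∀ w, (x * (1 - ρᵀ))ᵀ *ᵥ w ∈ Kf Φ η P (v + 1) := by
        intro w
        have e1 : (x * (1 - ρᵀ))ᵀ *ᵥ w = xᵀ *ᵥ w - ρ *ᵥ (xᵀ *ᵥ w) := by
          rw [transpose_mul, transpose_sub, transpose_one, transpose_transpose, ← mulVec_mulVec,
            sub_mulVec, one_mulVec]
        rw [e1]
        refine Submodule.sub_mem _ (h2 w) ?_
        have h4 := hρ1 (xᵀ *ᵥ w)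
        refine ⟨h4.1, ?_⟩
        rw [pow_succ', ← mulVec_mulVec]
        have := Rd_pow had hst 1 h4.2
        rwa [pow_one] at this
      have hS1 : x * (1 - ρᵀ) ∈ S := by
        refine mem_of_rank_one (A1 := Uf Φ η P v) (A2 := Kf Φ η P (v + 1)) ?_ hcol hrow
        rintro a ⟨ha, a', ha', hra⟩ b ⟨hb, hb'⟩
        obtain ⟨b', hb1, hb2⟩ := hfree (l - (v + 1)) (Nat.sub_le _ _) b hb (by
          rw [Nat.sub_sub_self hv]; exact hb')
        have e1 : vecMulVec a b = vecMulVec ((Φ ^ v) *ᵥ a') ((Φ ^ (l - (v + 1))) *ᵥ b') +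
            vecMulVec ((Φ ^ v) *ᵥ a') (b - (Φ ^ (l - (v + 1))) *ᵥ b') +
            vecMulVec (a - (Φ ^ v) *ᵥ a') b := by
          ext i j
          simp only [vecMulVec_apply, Matrix.add_apply, Pi.sub_apply]
          ring
        rw [e1]
        exact S.add_mem (S.add_mem (hG1 _ _ (by omega) _ ha' _ hb1)
          (hG3 _ hb2 _ (pow_mem hst v a' ha'))) (hG2 _ hra _ hb)
      have hS2 : x * ρᵀ ∈ S := by
        refine ih (by omega) _ (fun w => ?_) (fun w => ?_) ?_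
        · rw [← mulVec_mulVec]; exact h1 _
        · rw [transpose_mul, transpose_transpose, ← mulVec_mulVec]; exact hρ1 _
        · intro j c hc
          have e1 : (x * ρᵀ) *ᵥ (η *ᵥ c) = x *ᵥ (η *ᵥ c) - (x * (1 - ρᵀ)) *ᵥ (η *ᵥ c) := by
            rw [Matrix.mul_sub, Matrix.mul_one, sub_mulVec]; abel
          rw [e1]
          refine Submodule.sub_mem _ (h3 j c hc) ?_
          rcases Nat.lt_or_ge v j with hj | hj
          · have e2 : (x * (1 - ρᵀ)) *ᵥ (η *ᵥ c) = 0 := by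
              funext i
              have h4 := Kf_perp_Uf hη had (hrow (Pi.single i 1))
                (Uf_anti hst (Nat.succ_le_of_lt hj) hc)
              rw [← vecMul_transpose, transpose_transpose, ← dotProduct_mulVec,
                single_dotProduct, one_mul] at h4
              exact h4
            rw [e2]
            exact Submodule.zero_mem _
          · exact Uf_anti hst hj (hcol _)
      have e2 : x = x * ρᵀ + x * (1 - ρᵀ) := by
        rw [Matrix.mul_sub, Matrix.mul_one]; abel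
      rw [e2]
      exact S.add_mem hS2 hS1
  exact key l le_rfl x hx.1 (fun w => ⟨hx.2 w, hl _ (hx.2 w)⟩) hF'

section good

variable {arm : δ → Fin 3} {J : Matrix ι ι K} {B : Matrix δ δ K}
  {N W : Submodule K (Matrix ι δ K)} {g : Matrix ι δ K}



/-- rank one tensors built from a family of submodules -/
theorem mem_of_iSup {α : Type*} {Pb : α → Submodule K (ι → K)} {S : Submodule K (Matrix ι ι K)}
    (L1 L2 : Matrix ι ι K)
    (h : ∀ i j, ∀ a ∈ Pb i, ∀ b ∈ Pb j, vecMulVec (L1 *ᵥ a) (L2 *ᵥ b) ∈ S) :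
    ∀ a ∈ ⨆ i, Pb i, ∀ b ∈ ⨆ i, Pb i, vecMulVec (L1 *ᵥ a) (L2 *ᵥ b) ∈ S := by
  intro a ha
  induction ha using Submodule.iSup_induction' with
  | mem i a ha =>
    intro b hb
    induction hb using Submodule.iSup_induction' with
    | mem j b hb => exact h i j a ha b hb
    | zero => rw [mulVec_zero, vecMulVec_zero]; exact S.zero_mem
    | add x y _ _ h1 h2 =>
      rw [mulVec_add, vecMulVec_add]; exact S.add_mem h1 h2
  | zero => intro b _; rw [mulVec_zero, zero_vecMulVec]; exact S.zero_mem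
  | add x y _ _ h1 h2 =>
    intro b hb
    rw [mulVec_add, add_vecMulVec]; exact S.add_mem (h1 b hb) (h2 b hb)

/-- the radical of an orthogonal sum -/
theorem Rd_decomp {α : Type*} [Fintype α] {η : Matrix ι ι K} {Pb : α → Submodule K (ι → K)}
    (horth : ∀ i j, i ≠ j → ∀ a ∈ Pb i, ∀ b ∈ Pb j, a ⬝ᵥ (η *ᵥ b) = 0) :
    ∀ r ∈ Rd η (⨆ i, Pb i), ∃ f : α → (ι → K), (∀ i, f i ∈ Rd η (Pb i)) ∧ ∑ i, f i = r := by
  classical
  intro r hr
  obtain ⟨f, hf⟩ := (Submodule.mem_iSup_finset_iff_exists_sum (s := Finset.univ)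
      (fun i => Pb i) r).1 (by simpa using hr.1)
  refine ⟨fun i => (f i : ι → K), fun i => ⟨(f i).2, fun b hb => ?_⟩, hf⟩
  have h1 := hr.2 b (Submodule.mem_iSup_of_mem i hb)
  rw [← hf, mulVec_sum, dotProduct_sum, Finset.sum_eq_single i] at h1
  · exact h1
  · intro j _ hj
    exact horth i j hj.symm b hb _ (f j).2
  · intro h
    exact absurd (Finset.mem_univ i) h

/-- **filtered tensors on an orthogonal sum of blocks** -/
theorem fil_mem_blocks {α : Type*} [Fintype α] {Φ η : Matrix ι ι K} (hη : ηᵀ = -η)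
    (had : Φᵀ * η = -(η * Φ)) {P : Submodule K (ι → K)} {Pb : α → Submodule K (ι → K)}
    (hP : P = ⨆ i, Pb i)
    (horth : ∀ i j, i ≠ j → ∀ a ∈ Pb i, ∀ b ∈ Pb j, a ⬝ᵥ (η *ᵥ b) = 0)
    (hst : ∀ a ∈ P, Φ *ᵥ a ∈ P) {l : ℕ}
    (hl : ∀ c ∈ P, (Φ ^ l) *ᵥ c ∈ Rd η P)
    (hfree : ∀ v ≤ l, ∀ c ∈ P, (Φ ^ (l - v)) *ᵥ c ∈ Rd η P →
      ∃ c' ∈ P, c - (Φ ^ v) *ᵥ c' ∈ Rd η P)
    {S : Submodule K (Matrix ι ι K)}
    (hG1 : ∀ α β, ∀ i j, i + j + 1 = l → ∀ a ∈ Pb α, ∀ b ∈ Pb β,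
      vecMulVec ((Φ ^ i) *ᵥ a) ((Φ ^ j) *ᵥ b) ∈ S)
    (hG2 : ∀ α β, ∀ r ∈ Rd η (Pb α), ∀ b ∈ Pb β, vecMulVec r b ∈ S)
    (hG3 : ∀ α β, ∀ r ∈ Rd η (Pb α), ∀ b ∈ Pb β, vecMulVec b r ∈ S)
    {x : Matrix ι ι K} (hx : PP P x) (hF : Fil Φ η P x) : x ∈ S := by
  subst hP
  refine fil_mem hη had hst hl hfree (fun i j hij => mem_of_iSup (Φ ^ i) (Φ ^ j)
    (fun α β => hG1 α β i j hij)) ?_ ?_ hx hF
  · intro r hr b hb
    obtain ⟨f, hf, rfl⟩ := Rd_decomp horth r hr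
    have e1 : vecMulVec (∑ i, f i) b = ∑ i, vecMulVec (f i) b := by
      ext i j
      simp [vecMulVec_apply, Matrix.sum_apply, Finset.sum_mul]
    rw [e1]
    refine S.sum_mem fun i _ => ?_
    induction hb using Submodule.iSup_induction' with
    | mem j b hb => exact hG2 i j _ (hf i) b hb
    | zero => rw [vecMulVec_zero]; exact S.zero_mem
    | add x y _ _ h1 h2 =>
      rw [vecMulVec_add]
      exact S.add_mem (h1 (by
        ext i j
        simp [vecMulVec_apply, Matrix.sum_apply, Finset.sum_mul])) (h2 (by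
        ext i j
        simp [vecMulVec_apply, Matrix.sum_apply, Finset.sum_mul]))
  · intro r hr b hb
    obtain ⟨f, hf, rfl⟩ := Rd_decomp horth r hr
    have e1 : vecMulVec b (∑ i, f i) = ∑ i, vecMulVec b (f i) := by
      ext i j
      simp [vecMulVec_apply, Matrix.sum_apply, Finset.mul_sum]
    rw [e1]
    refine S.sum_mem fun i _ => ?_
    clear e1
    induction hb using Submodule.iSup_induction' with
    | mem j b hb => exact hG3 i j _ (hf i) b hb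
    | zero => rw [zero_vecMulVec]; exact S.zero_mem
    | add x y _ _ h1 h2 => rw [add_vecMulVec]; exact S.add_mem h1 h2


end good

end Crest.Agent.R172.SEnd3
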