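import Crest.Agent.R172.SEnd2
import Crest.Agent.R172.SEnd3
import Crest.Agent.R172.SBlk
import Crest.Agent.R172.SEndW

-- ▼ part R172/SEnd4
section

/-!
Row 172 (S0260), tame node (t2): block-scalar corrections are harmless for `GoodS`.
* `theta_spec` : `Θ(p, q_c) = 0` for the `T_f`-eigenforms `q_c` of `SBlk.Spec`;
* `spec_block` : `q_c` on the block `PB ν`;
* `GoodS_of_vside` : membership in `GoodS` from the V-side values of the correction.
-/

set_option autoImplicit false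
set_option linter.unusedSectionVars false

namespace Crest.Agent.R172.SEnd4

open Matrix Module Crest.Agent.R172.FO Crest.Agent.R172.Qt Crest.Agent.R172.SpS
open Crest.Agent.R172.SEnd Crest.Agent.R172.SEnd2 Crest.Agent.R172.SEnd3 Crest.Agent.R172.SBlk
open Crest.Agent.R172.SC (PB)
open Crest.Agent.R172.St (Nk T)
open Crest.Agent.R172.PL (Wk Ainf Rad CoreM coreOp resOp)

variable {ι : Type*} [Fintype ι] [DecidableEq ι] {δ : Type*} [Fintype δ] [DecidableEq δ]
variable {k K : Type*} [Field k] [Field K] [Algebra k K]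
variable {arm : δ → Fin 3} {J : Matrix ι ι K} {B : Matrix δ δ K}
  {N W : Submodule K (Matrix ι δ K)} {g f : Matrix ι δ K} {R : Matrix δ ι K}
  {p : Matrix ι ι K × (Fin 3 → Matrix ι ι K)} {S : Finset K}
  {q : K → Matrix ι ι K × (Fin 3 → Matrix ι ι K)}


theorem act_sum_NN {α : Type*} (s : Finset α)
    (z : α → Matrix ι ι K × (Fin 3 → Matrix ι ι K)) :
    act arm (∑ i ∈ s, z i).2 g = ∑ i ∈ s, act arm (z i).2 g := by
  classical
  induction s using Finset.induction_on with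
  | empty =>
    rw [Finset.sum_empty, Finset.sum_empty]
    exact act_zero arm g
  | insert a s ha ih =>
    rw [Finset.sum_insert ha, Finset.sum_insert ha, ← ih]
    exact act_add_left arm (z a).2 (∑ i ∈ s, z i).2 g

theorem pair_sum_right' {α : Type*} (s : Finset α) (F : Matrix ι δ K) (G : α → Matrix ι δ K) :
    pair J B F (∑ i ∈ s, G i) = ∑ i ∈ s, pair J B F (G i) := by
  classical
  induction s using Finset.induction_on with
  | empty => simp [pair]
  | insert a s ha ih => rw [Finset.sum_insert ha, Finset.sum_insert ha, pair_add_right, ih]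

/-- `Θ` of two eigenforms -/
theorem theta_eig (h : Ctx k arm J B N W g) (h2 : (2 : K) ≠ 0) (hf : f ∈ N ⊓ W)
    (hq : Spec arm J N g f p.1 S q) (c c' : K) :
    pair J B (Pg arm g (q c)) (act arm (q c').2 g) = 0 := by
  by_cases hc : c = c'
  · subst hc
    exact theta_self h h2 (hq.mem c)
  · have h1 := theta_sa h h2 (hq.mem c) (hq.mem c')
      ((NN arm J N g).smul_mem c (hq.mem c)) ((NN arm J N g).smul_mem c' (hq.mem c')) hf
      (by rw [hq.eig c, Prod.smul_fst, Matrix.smul_mul, Matrix.mul_smul])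
      (by rw [hq.eig c', Prod.smul_fst, Matrix.smul_mul, Matrix.mul_smul])
    have e1 : Pg arm g (c • q c) = c • Pg arm g (q c) := by
      unfold Pg
      rw [show (c • q c).2 = fun s => c • (q c).2 s from rfl, act_smul_left,
        show (c • q c).1 = c • (q c).1 from rfl, Matrix.smul_mul, smul_sub]
    have e2 : act arm (c' • q c').2 g = c' • act arm (q c').2 g := by
      rw [show (c' • q c').2 = fun s => c' • (q c').2 s from rfl, act_smul_left]
    rw [e1, e2, pair_smul_left, pair_smul_right] at h1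
    have h3 : (c - c') * pair J B (Pg arm g (q c)) (act arm (q c').2 g) = 0 := by
      linear_combination h1
    exact (mul_eq_zero.1 h3).resolve_left (sub_ne_zero.2 hc)

/-- **`Θ(p, q_c) = 0`** -/
theorem theta_spec (h : Ctx k arm J B N W g) (h2 : (2 : K) ≠ 0) (hp : p ∈ NN arm J N g)
    (hf : f ∈ N ⊓ W) (hq : Spec arm J N g f p.1 S q) (c : K) :
    pair J B (Pg arm g p) (act arm (q c).2 g) = 0 := by
  have hs : ∑ c ∈ S, q c ∈ NN arm J N g := Submodule.sum_mem _ fun c _ => hq.mem c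
  have hd : p - ∑ c ∈ S, q c ∈ NN arm J N g := (NN arm J N g).sub_mem hp hs
  have hfst : (∑ c ∈ S, q c).1 = ∑ c ∈ S, (q c).1 := Prod.fst_sum
  have hd0 : gᵀ * J * ((p - ∑ c ∈ S, q c).1 * g) = 0 := by
    rw [Prod.fst_sub, hfst, Matrix.sub_mul, Matrix.mul_sub, hq.sum, Matrix.sum_mul,
      Matrix.mul_sum, sub_self]
  -- first slot
  have h1 : pair J B (Pg arm g (q c)) (act arm (p - ∑ c ∈ S, q c).2 g) = 0 :=
    theta_form h (hq.mem c) hd hd0
  have h3 := h.skew_w (hq.mem c) hp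
  have h4 : act arm (p - ∑ c ∈ S, q c).2 g =
      act arm p.2 g - ∑ c ∈ S, act arm (q c).2 g := by
    rw [← act_sum_NN]
    exact act_sub_left arm p.2 (∑ c ∈ S, q c).2 g
  rw [h4, pair_sub_right, pair_sum_right',
    Finset.sum_eq_zero (fun c' _ => theta_eig h h2 hf hq c c'), sub_zero] at h1
  rw [h3, h1, neg_zero]

/-- `η = ∑ J q_c` on `im g × im g` -/
theorem spec_sum (hq : Spec arm J N g f p.1 S q) (u' u : δ → K) :
    (g *ᵥ u') ⬝ᵥ ((J * p.1) *ᵥ (g *ᵥ u)) =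
      ∑ c ∈ S, (g *ᵥ u') ⬝ᵥ ((J * (q c).1) *ᵥ (g *ᵥ u)) := by
  rw [form_gg]
  have e1 : gᵀ * (J * p.1) * g = ∑ c ∈ S, gᵀ * (J * (q c).1) * g := by
    have h1 : gᵀ * (J * p.1) * g = gᵀ * J * (p.1 * g) := by simp only [Matrix.mul_assoc]
    rw [h1, hq.sum]
    exact Finset.sum_congr rfl fun c _ => by simp only [Matrix.mul_assoc]
  rw [e1, sum_mulVec, dotProduct_sum]
  exact Finset.sum_congr rfl fun c _ => by rw [form_gg]

/-- `q_c` vanishes on the block `PB ν`, `c ≠ ν` -/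
theorem spec_block (h : Ctx k arm J B N W g) (hR : g * R * g = g) (hf : f ∈ N ⊓ W)
    (hq : Spec arm J N g f p.1 S q) {D : End K (CoreM (Ph arm J B g R p.1))}
    (hD : IsD (Ph arm J B g R p.1) (Nh arm J B g f R p.1) D) {ν c : K} (hne : c ≠ ν)
    {v : Sg g} (hv : v ∈ PB (Ph arm J B g R p.1) D ν) (u : δ → K) :
    (v : ι → K) ⬝ᵥ ((J * (q c).1) *ᵥ (g *ᵥ u)) = 0 := by
  have hle := (hq.par h hf hR).PB_le hD.1 hD.2 ν
  obtain ⟨w, hw⟩ := (Submodule.mem_iSup_finset_iff_exists_sum (s := Finset.univ)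
      (fun s => LinearMap.range (Be (Mg arm B g) (bil g R (gᵀ * (J * (q ν).1) * g)) s)) v).1
      (by simpa using hle hv)
  have hu : ∀ s, ∃ u, Be (Mg arm B g) (bil g R (gᵀ * (J * (q ν).1) * g)) s u = (w s : Sg g) :=
      fun s => (w s).2
  choose u' hu' using hu
  choose z hz using fun s => gS_surj g (u' s)
  have hva : (v : ι → K) = ∑ s, (M arm B s g g * (J * (q ν).1)) *ᵥ (g *ᵥ z s) := by
    rw [← hw, Submodule.coe_sum]
    refine Finset.sum_congr rfl fun s _ => ?_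
    rw [← hu' s, Be_coe hR, ← hz s, gS_coe]
  rw [hva, sum_dotProduct]
  refine Finset.sum_eq_zero fun s _ => ?_
  have hsk := (Phi_adj h.data h.mem (hq.mem ν).1 s).1
  have e1 : ((M arm B s g g * (J * (q ν).1)) *ᵥ (g *ᵥ z s)) ⬝ᵥ ((J * (q c).1) *ᵥ (g *ᵥ u)) =
      z s ⬝ᵥ ((gᵀ * (J * (q ν).1)ᵀ * (M arm B s g g)ᵀ * ((J * (q c).1) * g)) *ᵥ u) := by
    rw [mulVec_mulVec, ← vecMul_transpose, ← dotProduct_mulVec, mulVec_mulVec, mulVec_mulVec]
    congr 2
    rw [transpose_mul, transpose_mul]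
    simp only [Matrix.mul_assoc]
  have e2 : gᵀ * (J * (q ν).1)ᵀ * (M arm B s g g)ᵀ * ((J * (q c).1) * g) =
      -((gᵀ * J * ((q ν).1 * g)) * (E K arm s * B) * (gᵀ * J * ((q c).1 * g))) := by
    rw [M_symm h.data h.mem h.mem, hsk]
    unfold M
    simp only [Matrix.mul_neg, Matrix.neg_mul, Matrix.mul_assoc]
  rw [e1, e2, hq.cross h hf (fun hc => hne hc.symm), neg_zero, zero_mulVec, dotProduct_zero]


end Crest.Agent.R172.SEnd4
end

-- ▼ part R172/SEnd5

/-!
Row 172 (S0260), tame node (t2): membership in `GoodSW` from the L-side values of the correction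
(block scalars plus radical).
-/

set_option autoImplicit false
set_option linter.unusedSectionVars false

namespace Crest.Agent.R172.SEnd5

open Matrix Module Crest.Agent.R172.FO Crest.Agent.R172.Qt Crest.Agent.R172.SpS
open Crest.Agent.R172.SEnd Crest.Agent.R172.SEnd2 Crest.Agent.R172.SEnd3 Crest.Agent.R172.SBlk
open Crest.Agent.R172.SEnd4 Crest.Agent.R172.SEndW
open Crest.Agent.R172.SC (PB)
open Crest.Agent.R172.St (Nk T)
open Crest.Agent.R172.PL (Wk Ainf Rad CoreM coreOp resOp)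

variable {ι : Type*} [Fintype ι] [DecidableEq ι] {δ : Type*} [Fintype δ] [DecidableEq δ]
variable {k K : Type*} [Field k] [Field K] [Algebra k K]
variable {arm : δ → Fin 3} {J : Matrix ι ι K} {B : Matrix δ δ K}
  {N W : Submodule K (Matrix ι δ K)} {g f : Matrix ι δ K} {R : Matrix δ ι K}
  {p : Matrix ι ι K × (Fin 3 → Matrix ι ι K)} {S : Finset K}
  {q : K → Matrix ι ι K × (Fin 3 → Matrix ι ι K)}


/-- the eigenform `q_c` pairs to zero with a block vector in the second slot -/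
theorem spec_block' (h : Ctx k arm J B N W g) (hR : g * R * g = g) (hf : f ∈ N ⊓ W)
    (hq : Spec arm J N g f p.1 S q) {D : End K (CoreM (Ph arm J B g R p.1))}
    (hD : IsD (Ph arm J B g R p.1) (Nh arm J B g f R p.1) D) {ν c : K} (hne : c ≠ ν)
    {v : ι → K} (hv : v ∈ (PB (Ph arm J B g R p.1) D ν).map (Sg g).subtype) (u : δ → K) :
    (g *ᵥ u) ⬝ᵥ ((J * (q c).1) *ᵥ v) = 0 := by
  obtain ⟨v', hv', rfl⟩ := hv
  have h1 := spec_block h hR hf hq hD hne hv' u
  have hsk := (Phi_adj h.data h.mem (hq.mem c).1 0).1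
  change (g *ᵥ u) ⬝ᵥ ((J * (q c).1) *ᵥ ((v' : Sg g) : ι → K)) = 0
  rw [dotProduct_mulVec, ← mulVec_transpose, hsk, neg_mulVec, neg_dotProduct,
    dotProduct_comm, h1, neg_zero]

/-- **membership in `GoodSW` from the L-side values of the correction.** -/
theorem GoodSW_of_uside (h : Ctx k arm J B N W g) (h2 : (2 : K) ≠ 0) (hR : g * R * g = g)
    (hp : p ∈ NN arm J N g) (hf : f ∈ N ⊓ W) (hq : Spec arm J N g f p.1 S q)
    {D : End K (CoreM (Ph arm J B g R p.1))}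
    (hD : IsD (Ph arm J B g R p.1) (Nh arm J B g f R p.1) D)
    {α : Type*} {nu : α → K} {P : Submodule K (ι → K)} (hPg : ∀ a ∈ P, ∃ u, g *ᵥ u = a)
    {Pb : α → Submodule K (ι → K)} (hP : P = ⨆ i, Pb i)
    (hPb : ∀ i, Pb i ≤ (PB (Ph arm J B g R p.1) D (nu i)).map (Sg g).subtype)
    (hst : ∀ i r, ∀ c ∈ Pb i, (M arm B r g g * (J * p.1)) *ᵥ c ∈ Pb i)
    {s : Fin 3} {x : Matrix ι ι K} {w : Matrix ι δ K} (hw : w ∈ W)
    (hN : x * (J * p.1) * g * E K arm s - w ∈ N)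
    (hwP : ∀ a ∈ P, ∀ v, a ⬝ᵥ ((J * w) *ᵥ v) = 0) (μ : K → K)
    (hV : ∀ i, ∀ c ∈ Pb i, ∀ r, ∀ a ∈ P,
      a ⬝ᵥ ((J * p.1 * w) *ᵥ ((E K arm r * B * gᵀ * (J * p.1)) *ᵥ c)) =
        μ (nu i) * (a ⬝ᵥ ((J * p.1) *ᵥ ((M arm B r g g * (J * p.1)) *ᵥ c)))) :
    x ∈ GoodSW arm J B N W g p P s := by
  refine ⟨w, hw, hN, hwP, ∑ c ∈ S, μ c • q c,
    Submodule.sum_mem _ fun c _ => (NN arm J N g).smul_mem _ (hq.mem c), ?_, ?_⟩
  · rw [act_sum_NN, pair_sum_right']
    refine Finset.sum_eq_zero fun c _ => ?_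
    rw [show act arm (μ c • q c).2 g = μ c • act arm (q c).2 g from act_smul_left arm _ _ _,
      pair_smul_right, theta_spec h h2 hp hf hq, mul_zero]
  · have hfst : (∑ c ∈ S, μ c • q c).1 = ∑ c ∈ S, μ c • (q c).1 := Prod.fst_sum
    intro a ha c hc r
    obtain ⟨u', rfl⟩ := hPg a ha
    rw [hP] at hc
    induction hc using Submodule.iSup_induction' with
    | mem i c hc =>
      rw [hV i c hc r _ ha]
      obtain ⟨v, hv⟩ : ∃ v, v = (M arm B r g g * (J * p.1)) *ᵥ c := ⟨_, rfl⟩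
      have hvb : v ∈ (PB (Ph arm J B g R p.1) D (nu i)).map (Sg g).subtype :=
        hPb i (by rw [hv]; exact hst i r c hc)
      have hvg : ∃ z, g *ᵥ z = v := by
        obtain ⟨v', -, rfl⟩ := hvb
        obtain ⟨z, hz⟩ := gS_surj g v'
        exact ⟨z, by rw [← hz]; exact (gS_coe g z).symm⟩
      rw [← hv, hfst, Matrix.mul_sum, sum_mulVec, dotProduct_sum]
      obtain ⟨z, hz⟩ := hvg
      have h5 : (g *ᵥ u') ⬝ᵥ ((J * p.1) *ᵥ v) =
          ∑ c ∈ S, (g *ᵥ u') ⬝ᵥ ((J * (q c).1) *ᵥ v) := by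
        rw [← hz]; exact spec_sum hq u' z
      rw [h5, Finset.mul_sum]
      refine Finset.sum_congr rfl fun c _ => ?_
      rw [Matrix.mul_smul, smul_mulVec, dotProduct_smul, smul_eq_mul]
      by_cases hc : c = nu i
      · rw [hc]
      · rw [spec_block' h hR hf hq hD hc hvb u', mul_zero, mul_zero]
    | zero => simp only [mulVec_zero, dotProduct_zero]
    | add b c _ _ h1 h2 =>
      rw [mulVec_add, mulVec_add, dotProduct_add, h1, h2, mulVec_add, mulVec_add, dotProduct_add]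

/-- **membership in `GoodSW` from 'scalar plus radical' on the blocks.** -/
theorem GoodSW_of_good (h : Ctx k arm J B N W g) (h2 : (2 : K) ≠ 0) (hR : g * R * g = g)
    (hp : p ∈ NN arm J N g) (hf : f ∈ N ⊓ W) (hq : Spec arm J N g f p.1 S q)
    {D : End K (CoreM (Ph arm J B g R p.1))}
    (hD : IsD (Ph arm J B g R p.1) (Nh arm J B g f R p.1) D)
    {α : Type*} {nu : α → K} {P : Submodule K (ι → K)} (hPg : ∀ a ∈ P, ∃ u, g *ᵥ u = a)
    {Pb : α → Submodule K (ι → K)} (hP : P = ⨆ i, Pb i)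
    (hPb : ∀ i, Pb i ≤ (PB (Ph arm J B g R p.1) D (nu i)).map (Sg g).subtype)
    (hst : ∀ i r, ∀ c ∈ Pb i, (M arm B r g g * (J * p.1)) *ᵥ c ∈ Pb i)
    {s : Fin 3} {x : Matrix ι ι K} {w : Matrix ι δ K} (hw : w ∈ W)
    (hN : x * (J * p.1) * g * E K arm s - w ∈ N)
    (hwP : ∀ a ∈ P, ∀ v, a ⬝ᵥ ((J * w) *ᵥ v) = 0) (μ : K → K)
    (hV : ∀ i, ∀ c ∈ Pb i, ∀ r, ∃ rr : ι → K, (∀ a ∈ P, a ⬝ᵥ ((J * p.1) *ᵥ rr) = 0) ∧
      w *ᵥ ((E K arm r * B * gᵀ * (J * p.1)) *ᵥ c) =
        μ (nu i) • ((M arm B r g g * (J * p.1)) *ᵥ c) + rr) :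
    x ∈ GoodSW arm J B N W g p P s := by
  refine GoodSW_of_uside h h2 hR hp hf hq hD hPg hP hPb hst hw hN hwP μ fun i c hc r a ha => ?_
  obtain ⟨rr, hrr, hwv⟩ := hV i c hc r
  rw [← mulVec_mulVec, hwv, mulVec_add, dotProduct_add, hrr a ha, add_zero, mulVec_smul,
    dotProduct_smul, smul_eq_mul]

end Crest.Agent.R172.SEnd5
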