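import Crest.Agent.R172.RJP
import Crest.Agent.R172.RJZ
import Crest.Agent.R172.SEnd5
import Crest.Agent.R172.SCore2
import Crest.Agent.R172.Dual3

-- ▼ part R172/RJPZ
section

/-! # Row 172: the abstract end with a two-term relation, correction only modulo `Z`.

`RJPZ.main` is `RJP.main` (helper737) with `RJZ.Cor` (helper719): the equation of the correction only
modulo a submodule `Z` of `P1` which is stable under the `A t` and harmless. -/

set_option autoImplicit false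
set_option linter.unusedSectionVars false

open TensorProduct Module

namespace Crest.Agent.R172.RJPZ

variable {K : Type*} [Field K] {P1 P2 E τ : Type*} [AddCommGroup P1] [Module K P1]
  [AddCommGroup P2] [Module K P2] [AddCommGroup E] [Module K E] [Fintype τ]

open RJM (DD Ex ev)
open RJP (Pr Gr alP beP F1 F1L par_sep pencil_iff)
open RJZ (Cor)

section pencil
variable (A : τ → End K P1) (B : τ → End K P2) (R1 Z : Submodule K P1) (R2 : Submodule K P2)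
  (g : P2 →ₗ[K] P2 →ₗ[K] K) (eps : K)

/-- the values of the pencil modulo `Z` -/
abbrev GrZ (τ : Type*) (R1 Z : Submodule K P1) (R2 : Submodule K P2) :=
  ((P2 ⊗[K] P1) × (τ → (P2 ⊗[K] P1) ⧸ (RJM.RT R2 ⊔ RJM.TR R1 : Submodule K (P2 ⊗[K] P1)))) ×
    ((τ → P2 →ₗ[K] (P1 ⧸ Z)) × (P2 →ₗ[K] (P1 ⧸ R1)))

/-- reduction of the values -/
noncomputable def red : Gr τ R1 R2 →ₗ[K] GrZ τ R1 Z R2 where
  toFun z := (z.1, (fun t => Z.mkQ ∘ₗ z.2.1 t, z.2.2))
  map_add' a b := by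
    refine Prod.ext rfl (Prod.ext ?_ rfl)
    funext t; ext p; simp
  map_smul' c a := by
    refine Prod.ext rfl (Prod.ext ?_ rfl)
    funext t; ext p; simp

theorem pencil_iffZ (c : K) (y : Pr K P1 P2 τ) :
    (red R1 Z R2 ∘ₗ alP A R1 R2 g) y = c • (red R1 Z R2 ∘ₗ beP B R1 R2 g eps) y ↔
      Ex A B R1 R2 c y.1 ∧ Cor A B R1 Z g eps c y.1 y.2 := by
  have hx : (∑ t, (A t).lTensor P2 (y.1 t) = c • ∑ t, (B t).rTensor P1 (y.1 t)) ↔
      ∑ t, DD A B c t (y.1 t) = 0 := by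
    simp only [DD, LinearMap.sub_apply, LinearMap.smul_apply, Finset.sum_sub_distrib,
      ← Finset.smul_sum]
    rw [sub_eq_zero]
  rw [LinearMap.comp_apply, LinearMap.comp_apply]
  constructor
  · intro h
    have h1 := congrArg (fun z => z.1.1) h
    have h2 := congrArg (fun z => z.1.2) h
    have h3 := congrArg (fun z => z.2.1) h
    have h4 := congrArg (fun z => z.2.2) h
    refine ⟨⟨hx.1 (by simpa [alP, beP, red] using h1), fun t => ?_⟩,
      ⟨fun p => ?_, fun t p => ?_⟩⟩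
    · have h5 := congrFun h2 t
      simp only [alP, beP, red, LinearMap.coe_mk, AddHom.coe_mk, Prod.smul_fst, Prod.smul_snd,
        Pi.smul_apply, ← Submodule.Quotient.mk_smul] at h5
      rw [DD, LinearMap.sub_apply, LinearMap.smul_apply]
      exact (Submodule.Quotient.eq _).1 h5
    · have h5 := LinearMap.congr_fun h4 p
      simp only [alP, beP, red, LinearMap.coe_mk, AddHom.coe_mk, Prod.smul_snd, smul_zero,
        LinearMap.comp_apply, LinearMap.zero_apply] at h5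
      exact (Submodule.Quotient.mk_eq_zero _).1 h5
    · have h5 := LinearMap.congr_fun (congrFun h3 t) p
      simp only [alP, beP, red, LinearMap.coe_mk, AddHom.coe_mk, Prod.smul_fst, Prod.smul_snd,
        Pi.smul_apply, LinearMap.comp_apply, LinearMap.sub_apply, LinearMap.smul_apply,
        ← map_smul] at h5
      have h6 := (Submodule.Quotient.eq Z).1 h5
      have h7 : (A t (y.2 p) - (eps * c) • y.2 (B t p))
          - (A t (ev g (y.1 t) p) - (eps * c) • ev g (y.1 t) (B t p)) =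
          A t (y.2 p) - A t (ev g (y.1 t) p)
            - c • eps • (y.2 (B t p) - ev g (y.1 t) (B t p)) := by module
      rw [h7]
      exact h6
  · rintro ⟨h1, h2⟩
    refine Prod.ext (Prod.ext ?_ ?_) (Prod.ext ?_ ?_)
    · simpa [alP, beP, red] using hx.2 h1.sum
    · funext t
      have h3 := h1.arm t
      rw [DD, LinearMap.sub_apply, LinearMap.smul_apply] at h3
      simp only [alP, beP, red, LinearMap.coe_mk, AddHom.coe_mk, Prod.smul_fst, Prod.smul_snd,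
        Pi.smul_apply, ← Submodule.Quotient.mk_smul]
      exact (Submodule.Quotient.eq _).2 h3
    · funext t
      ext p
      have h3 := h2.eq t p
      simp only [alP, beP, red, LinearMap.coe_mk, AddHom.coe_mk, Prod.smul_fst, Prod.smul_snd,
        Pi.smul_apply, LinearMap.comp_apply, LinearMap.sub_apply, LinearMap.smul_apply,
        ← map_smul]
      refine (Submodule.Quotient.eq Z).2 ?_
      have h7 : (A t (y.2 p) - (eps * c) • y.2 (B t p))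
          - (A t (ev g (y.1 t) p) - (eps * c) • ev g (y.1 t) (B t p)) =
          A t (y.2 p) - A t (ev g (y.1 t) p)
            - c • eps • (y.2 (B t p) - ev g (y.1 t) (B t p)) := by module
      rw [h7] at h3
      exact h3
    · ext p
      have h3 := h2.mem p
      simp only [alP, beP, red, LinearMap.coe_mk, AddHom.coe_mk, Prod.smul_snd, smul_zero,
        LinearMap.comp_apply, LinearMap.zero_apply]
      exact (Submodule.Quotient.mk_eq_zero _).2 h3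

end pencil

variable {A : τ → End K P1} {B : τ → End K P2} {R1 Z : Submodule K P1} {R2 : Submodule K P2}
  {l : τ → ℕ} {g : P2 →ₗ[K] P2 →ₗ[K] K} {eps : K}

/-- **`RJZ.main` with a two-term relation.** -/
theorem main [FiniteDimensional K P1] [FiniteDimensional K P2]
    (sZ : ∀ t, ∀ z ∈ Z, A t z ∈ Z)
    (hA : ⨆ t, LinearMap.range (A t) = ⊤) (hB : ⨆ t, LinearMap.range (B t) = ⊤)
    (hR1 : ∀ t, ∀ r ∈ R1, A t r ∈ R1) (hR2 : ∀ t, ∀ r ∈ R2, B t r ∈ R2) {m : ℕ}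
    (hN1 : ∀ w : List τ, w.length = m → ∀ r ∈ R1, (w.map A).prod r = 0)
    (hN2 : ∀ w : List τ, w.length = m → ∀ r ∈ R2, (w.map B).prod r = 0)
    (hl : ∀ s, 1 ≤ l s)
    (hl1 : ∀ s p, (A s ^ l s) p ∈ R1) (hl2 : ∀ s p, (B s ^ l s) p ∈ R2)
    (gen1 : ∀ S : Submodule K P1, (∀ t, ∀ v ∈ S, A t v ∈ S) → (∀ s p, (A s ^ l s) p ∈ S) → R1 ≤ S)
    (gen2 : ∀ S : Submodule K P2, (∀ t, ∀ v ∈ S, B t v ∈ S) → (∀ s p, (B s ^ l s) p ∈ S) → R2 ≤ S)
    (heps : eps ≠ 0) (gR1 : ∀ r ∈ R2, ∀ p, g r p = 0) (gR2 : ∀ r ∈ R2, ∀ p, g p r = 0)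
    (gB : ∀ t p p', g (B t p) p' = eps * g p (B t p'))
    (gtop : ∀ s, ∃ p p', g ((B s ^ (l s - 1)) p) p' ≠ 0)
    {R : Set K} (hR : R.Infinite) (h0 : (0 : K) ∉ R)
    (q : τ → P1 →ₗ[K] P1 →ₗ[K] E) (Q : Submodule K E) {a1 a2 a3 : K}
    (ha1 : a1 ≠ 0) (ha2 : a2 ≠ 0) (ha3 : a3 ≠ 0)
    (hZq : ∀ t, ∀ z ∈ Z, ∀ p, q t z p ∈ Q) (hqZ : ∀ t, ∀ z ∈ Z, ∀ p, q t p z ∈ Q)
    (hex : ∀ ρ ∈ R, ∀ x, Ex A B R1 R2 (ρ ^ 2) x → ∃ b, Cor A B R1 Z g eps (ρ ^ 2) x b)
    (F2 : Pr K P1 P2 τ → (Pr K P1 P2 τ →ₗ[K] E))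
    (hrel : ∀ ρ ∈ R, ∀ ρ' ∈ R, ∀ x b x' b', Ex A B R1 R2 (ρ ^ 2) x →
      Cor A B R1 Z g eps (ρ ^ 2) x b →
      Ex A B R1 R2 (ρ' ^ 2) x' → Cor A B R1 Z g eps (ρ' ^ 2) x' b' →
      ∑ t, (a1 • TensorProduct.lift ((q t) ∘ₗ b') (x t)
        + a2 • TensorProduct.lift ((q t).flip ∘ₗ b) (x' t)
        + a3 • TensorProduct.lift ((q t) ∘ₗ (ev g (x' t))) (x t)) + ρ' • F2 (x, b) (x', b') ∈ Q) :
    (∀ t, ∀ r ∈ R1, ∀ p, q t r p ∈ Q ∧ q t p r ∈ Q) ∧
      (∀ s i j, i + j + 1 = l s → ∀ p p', q s ((A s ^ i) p) ((A s ^ j) p') ∈ Q) := by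
  classical
  -- parameters: exact decorated pairs at some `ρ ^ 2`
  let T := {u : Pr K P1 P2 τ // ∃ ρ ∈ R, Ex A B R1 R2 (ρ ^ 2) u.1 ∧
    Cor A B R1 Z g eps (ρ ^ 2) u.1 u.2}
  have hkey : ∀ r ∈ R, ∀ y : Pr K P1 P2 τ,
      (red R1 Z R2 ∘ₗ alP A R1 R2 g) y = r ^ 2 • (red R1 Z R2 ∘ₗ beP B R1 R2 g eps) y →
      ∀ u : T, F1L g q a1 a2 a3 u.1 y + r • F2 u.1 y ∈ Q := by
    rintro ρ' hρ' v hv ⟨u, ρ, hρ, hu1, hu2⟩
    obtain ⟨hv1, hv2⟩ := (pencil_iffZ A B R1 Z R2 g eps (ρ' ^ 2) v).1 hv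
    exact hrel ρ hρ ρ' hρ' u.1 u.2 v.1 v.2 hu1 hu2 hv1 hv2
  obtain ⟨S, hS, h⟩ := par_sep (T := T) (red R1 Z R2 ∘ₗ alP A R1 R2 g)
    (red R1 Z R2 ∘ₗ beP B R1 R2 g eps) Q
    (fun u => F1L g q a1 a2 a3 u.1) (fun u => F2 u.1) hR hkey
  · -- `Λ`
    have hsq : ((fun ρ : K => ρ ^ 2) '' R).Infinite := by
      intro hfin
      refine hR (Set.Finite.of_finite_fibers _ hfin ?_)
      rintro _ ⟨r, -, rfl⟩
      refine Set.Finite.subset (Set.toFinite {r, -r}) ?_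
      rintro ρ ⟨-, hρ⟩
      exact sq_eq_sq_iff_eq_or_eq_neg.1 hρ
    refine RJZ.main sZ hA hB hR1 hR2 hN1 hN2 hl hl1 hl2 gen1 gen2 heps gR1 gR2 gB gtop
      (Λ := ((fun ρ : K => ρ ^ 2) '' R) \ S) (hsq.sdiff hS) ?_ q Q ha1 ha2 ha3 hZq hqZ ?_ ?_
    · rintro ⟨⟨ρ, hρ, h1⟩, -⟩
      have h2 : ρ = 0 := by simpa using h1
      exact h0 (h2 ▸ hρ)
    · rintro _ ⟨⟨ρ, hρ, rfl⟩, -⟩ x hx
      exact hex ρ hρ x hx
    · rintro _ ⟨⟨ρ, hρ, rfl⟩, -⟩ c' ⟨-, hc'⟩ x b x' b' hx hb hx' hb'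
      exact (h c' hc' (x', b') ((pencil_iffZ A B R1 Z R2 g eps c' (x', b')).2 ⟨hx', hb'⟩)
        ⟨(x, b), ρ, hρ, hx, hb⟩).1

end Crest.Agent.R172.RJPZ
end

-- ▼ part R172/SLev0

/-!
Row 172 (S0260), tame node (t2): the final translation on the block packages `BPkg`.
* `QG` : the good class in `Matrix ι δ K`; `Gens` : the generators of a pair of blocks lie in `Q`;
* `hSLW_of_Gens` : the weak slack from `Gens QG` for all pairs of blocks;
* `lev1`, `lev2`, `lev2Z` : `Gens` from `span_exact2`, `RJP.main`, `RJPZ.main`.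
-/

set_option autoImplicit false
set_option linter.unusedSectionVars false

namespace Crest.Agent.R172.SLev0

open Matrix Module Crest.Agent.R172.FO Crest.Agent.R172.Qt Crest.Agent.R172.SpS
open Crest.Agent.R172.SEnd Crest.Agent.R172.SEnd2 Crest.Agent.R172.SEnd3 Crest.Agent.R172.SBlk
open Crest.Agent.R172.SEnd4 Crest.Agent.R172.SEndW Crest.Agent.R172.SEnd5 Crest.Agent.R172.SCM
open Crest.Agent.R172.SC (PB)
open Crest.Agent.R172.PL (Wk Ainf Rad CoreM coreOp resOp)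
open scoped TensorProduct

variable {ι : Type*} [Fintype ι] [DecidableEq ι] {δ : Type*} [Fintype δ] [DecidableEq δ]
variable {k K : Type*} [Field k] [Field K] [Algebra k K]
variable {arm : δ → Fin 3} {J : Matrix ι ι K} {B : Matrix δ δ K}
  {N W : Submodule K (Matrix ι δ K)} {g f : Matrix ι δ K} {R : Matrix δ ι K}
  {p : Matrix ι ι K × (Fin 3 → Matrix ι ι K)} {S : Finset K}
  {q : K → Matrix ι ι K × (Fin 3 → Matrix ι ι K)}

/-- **the good class**: modulo `N` a `w ∈ W` with `Pᵀ J w = 0`, which is 'block scalar plus radical' on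
the tested vectors. -/
def QG (arm : δ → Fin 3) (J : Matrix ι ι K) (B : Matrix δ δ K) (N W : Submodule K (Matrix ι δ K))
    (g : Matrix ι δ K) (p : Matrix ι ι K × (Fin 3 → Matrix ι ι K)) (P : Submodule K (ι → K))
    {α : Type*} (Pb : α → Submodule K (ι → K)) (nu : α → K) : Submodule K (Matrix ι δ K) where
  carrier := {m | ∃ w ∈ W, m - w ∈ N ∧ (∀ a ∈ P, ∀ v, a ⬝ᵥ ((J * w) *ᵥ v) = 0) ∧
    ∃ μ : K → K, ∀ i, ∀ c ∈ Pb i, ∀ r, ∃ rr : ι → K, (∀ a ∈ P, a ⬝ᵥ ((J * p.1) *ᵥ rr) = 0) ∧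
      w *ᵥ ((E K arm r * B * gᵀ * (J * p.1)) *ᵥ c) =
        μ (nu i) • ((M arm B r g g * (J * p.1)) *ᵥ c) + rr}
  zero_mem' := ⟨0, W.zero_mem, by simp, fun a _ v => by simp, 0, fun i c _ r => ⟨0, fun a _ => by
    simp, by simp⟩⟩
  add_mem' := by
    rintro m m' ⟨w, h1, h2, h3, μ, h4⟩ ⟨w', h1', h2', h3', μ', h4'⟩
    refine ⟨w + w', W.add_mem h1 h1', ?_, fun a ha v => ?_, fun x => μ x + μ' x,
      fun i c hc r => ?_⟩
    · rw [show m + m' - (w + w') = (m - w) + (m' - w') by abel]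
      exact N.add_mem h2 h2'
    · rw [Matrix.mul_add, add_mulVec, dotProduct_add, h3 a ha, h3' a ha, add_zero]
    · obtain ⟨rr, h5, h6⟩ := h4 i c hc r
      obtain ⟨rr', h5', h6'⟩ := h4' i c hc r
      refine ⟨rr + rr', fun a ha => ?_, ?_⟩
      · rw [mulVec_add, dotProduct_add, h5 a ha, h5' a ha, add_zero]
      · rw [add_mulVec, h6, h6', add_smul]; abel
  smul_mem' := by
    rintro t m ⟨w, h1, h2, h3, μ, h4⟩
    refine ⟨t • w, W.smul_mem t h1, ?_, fun a ha v => ?_, fun x => t * μ x,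
      fun i c hc r => ?_⟩
    · rw [← smul_sub]
      exact N.smul_mem t h2
    · rw [Matrix.mul_smul, smul_mulVec, dotProduct_smul, h3 a ha, smul_zero]
    · obtain ⟨rr, h5, h6⟩ := h4 i c hc r
      refine ⟨t • rr, fun a ha => ?_, ?_⟩
      · rw [mulVec_smul, dotProduct_smul, h5 a ha, smul_zero]
      · rw [smul_mulVec, h6, smul_add, smul_smul]

theorem mem_QG {P : Submodule K (ι → K)} {α : Type*} {Pb : α → Submodule K (ι → K)} {nu : α → K}
    {m : Matrix ι δ K} : m ∈ QG arm J B N W g p P Pb nu ↔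
    ∃ w ∈ W, m - w ∈ N ∧ (∀ a ∈ P, ∀ v, a ⬝ᵥ ((J * w) *ᵥ v) = 0) ∧
    ∃ μ : K → K, ∀ i, ∀ c ∈ Pb i, ∀ r, ∃ rr : ι → K, (∀ a ∈ P, a ⬝ᵥ ((J * p.1) *ᵥ rr) = 0) ∧
      w *ᵥ ((E K arm r * B * gᵀ * (J * p.1)) *ᵥ c) =
        μ (nu i) • ((M arm B r g g * (J * p.1)) *ᵥ c) + rr := Iff.rfl

theorem N_le_QG {P : Submodule K (ι → K)} {α : Type*} {Pb : α → Submodule K (ι → K)}
    {nu : α → K} : N ≤ QG arm J B N W g p P Pb nu := fun m hm =>
  ⟨0, W.zero_mem, by rwa [sub_zero], fun a _ v => by simp, 0, fun i c _ r => ⟨0, fun a _ => by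
    simp, by simp⟩⟩

/-- **the good class gives `GoodSW`.** -/
theorem GoodSW_of_QG (h : Ctx k arm J B N W g) (h2 : (2 : K) ≠ 0) (hR : g * R * g = g)
    (hp : p ∈ NN arm J N g) (hf : f ∈ N ⊓ W) (hq : Spec arm J N g f p.1 S q)
    {D : End K (CoreM (Ph arm J B g R p.1))}
    (hD : IsD (Ph arm J B g R p.1) (Nh arm J B g f R p.1) D)
    {α : Type*} {nu : α → K} {P : Submodule K (ι → K)} (hPg : ∀ a ∈ P, ∃ u, g *ᵥ u = a)
    {Pb : α → Submodule K (ι → K)} (hP : P = ⨆ i, Pb i)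
    (hPb : ∀ i, Pb i ≤ (PB (Ph arm J B g R p.1) D (nu i)).map (Sg g).subtype)
    (hst : ∀ i r, ∀ c ∈ Pb i, (M arm B r g g * (J * p.1)) *ᵥ c ∈ Pb i)
    {s : Fin 3} {x : Matrix ι ι K}
    (hx : x * (J * p.1) * g * E K arm s ∈ QG arm J B N W g p P Pb nu) :
    x ∈ GoodSW arm J B N W g p P s := by
  obtain ⟨w, h1, h3, h4, μ, h5⟩ := hx
  exact GoodSW_of_good h h2 hR hp hf hq hD hPg hP hPb hst h1 h3 h4 μ h5

/-- the generators of the pair `(Pa, Pc)` lie in `Q` -/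
structure Gens (arm : δ → Fin 3) (J : Matrix ι ι K) (B : Matrix δ δ K) (g : Matrix ι δ K)
    (X : Matrix ι ι K) (l : Fin 3 → ℕ) (Q : Submodule K (Matrix ι δ K))
    (Pa Pc : Submodule K (ι → K)) : Prop where
  g1 : ∀ s i j, i + j + 1 = l s → ∀ a ∈ Pa, ∀ c ∈ Pc,
    vecMulVec (((M arm B s g g * (J * X)) ^ i) *ᵥ a) (((M arm B s g g * (J * X)) ^ j) *ᵥ c) *
      (J * X) * g * E K arm s ∈ Q
  g2 : ∀ s, ∀ r ∈ Rd (J * X) Pa, ∀ c ∈ Pc, vecMulVec r c * (J * X) * g * E K arm s ∈ Q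
  g3 : ∀ s, ∀ a ∈ Pa, ∀ r ∈ Rd (J * X) Pc, vecMulVec a r * (J * X) * g * E K arm s ∈ Q


section pkg

variable {X : Matrix ι ι K} {D : End K (CoreM (PhS arm J B g R X))} {ν ν' : K} {l : Fin 3 → ℕ}
  {n n' : ℕ} {P : Matrix ι (Fin n) K} {P' : Matrix ι (Fin n') K}
  {A : Fin 3 → Matrix (Fin n) (Fin n) K} {A' : Fin 3 → Matrix (Fin n') (Fin n') K}

/-- the one-arm tensors as a bilinear map -/
def bq (arm : δ → Fin 3) (J : Matrix ι ι K) (g : Matrix ι δ K) (X : Matrix ι ι K)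
    (P : Matrix ι (Fin n) K) (P' : Matrix ι (Fin n') K) (s : Fin 3) :
    (Fin n → K) →ₗ[K] (Fin n' → K) →ₗ[K] Matrix ι δ K :=
  LinearMap.mk₂ K (fun x y => vecMulVec (P *ᵥ x) (P' *ᵥ y) * (J * X) * g * E K arm s)
    (fun x x' y => by
      rw [mulVec_add, add_vecMulVec, Matrix.add_mul, Matrix.add_mul, Matrix.add_mul])
    (fun c x y => by
      rw [mulVec_smul, smul_vecMulVec, Matrix.smul_mul, Matrix.smul_mul, Matrix.smul_mul])
    (fun x y y' => by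
      rw [mulVec_add, vecMulVec_add, Matrix.add_mul, Matrix.add_mul, Matrix.add_mul])
    (fun c x y => by
      rw [mulVec_smul, vecMulVec_smul, Matrix.smul_mul, Matrix.smul_mul, Matrix.smul_mul])

theorem bq_apply (P : Matrix ι (Fin n) K) (P' : Matrix ι (Fin n') K) (s : Fin 3)
    (x : Fin n → K) (y : Fin n' → K) :
    bq arm J g X P P' s x y = vecMulVec (P *ᵥ x) (P' *ᵥ y) * (J * X) * g * E K arm s := rfl

/-- the block in `K^ι` -/
abbrev PbK (arm : δ → Fin 3) (J : Matrix ι ι K) (B : Matrix δ δ K) (g : Matrix ι δ K)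
    (R : Matrix δ ι K) (X : Matrix ι ι K) (D : End K (CoreM (PhS arm J B g R X))) (ν : K) :
    Submodule K (ι → K) := (PB (PhS arm J B g R X) D ν).map (Sg g).subtype

theorem pow_act (b : BPkg arm J B g R X D ν l P A) (s : Fin 3) (i : ℕ) (x : Fin n → K) :
    ((M arm B s g g * (J * X)) ^ i) *ᵥ (P *ᵥ x) = P *ᵥ ((A s ^ i) *ᵥ x) := by
  induction i generalizing x with
  | zero => simp
  | succ i ih =>
    rw [pow_succ, pow_succ, ← mulVec_mulVec, ← mulVec_mulVec _ _ (A s), ← ih]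
    congr 1
    rw [mulVec_mulVec, b.act, ← mulVec_mulVec]

theorem exists_coord (b : BPkg arm J B g R X D ν l P A) {a : ι → K}
    (ha : a ∈ PbK arm J B g R X D ν) : ∃ x, a = P *ᵥ x := by
  obtain ⟨v, hv, rfl⟩ := ha
  exact b.span v hv

theorem coord_mem (b : BPkg arm J B g R X D ν l P A) (x : Fin n → K) :
    P *ᵥ x ∈ PbK arm J B g R X D ν := by
  obtain ⟨v, hv, h⟩ := b.mem x
  exact ⟨v, hv, h⟩

theorem exists_coord_Rd (b : BPkg arm J B g R X D ν l P A) {a : ι → K}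
    (ha : a ∈ Rd (J * X) (PbK arm J B g R X D ν)) :
    ∃ x ∈ LinearMap.ker (Pᵀ * (J * X) * P).mulVecLin, a = P *ᵥ x := by
  obtain ⟨x, rfl⟩ := exists_coord b ha.1
  refine ⟨x, ?_, rfl⟩
  rw [LinearMap.mem_ker, mulVecLin_apply]
  funext j
  have h1 := ha.2 _ (coord_mem b (Pi.single j 1))
  rw [form_gg, single_one_dotProduct] at h1
  exact h1

/-- **the two generator families of a pair of blocks from `span_exact2`** -/
theorem lev1 (b : BPkg arm J B g R X D ν l P A) (b' : BPkg arm J B g R X D ν' l P' A')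
    {Λ : Set K} (hΛ : Λ.Infinite) (h0 : (0 : K) ∉ Λ) (c1 c2 : K) (hc1 : c1 ≠ 0) (hc2 : c2 ≠ 0)
    (Q : Submodule K (Matrix ι δ K))
    (h : ∀ ρ ∈ Λ, ∀ x : Fin 3 → (Fin n' → K) ⊗[K] (Fin n → K),
      Dual.Exact (fun s => (A s).mulVecLin) (fun s => (A' s).mulVecLin)
        (LinearMap.ker (Pᵀ * (J * X) * P).mulVecLin)
        (LinearMap.ker (P'ᵀ * (J * X) * P').mulVecLin) (ρ ^ 2) x →
      ∑ t, TensorProduct.lift (c1 • bq arm J g X P' P t) (x t) +
        ρ • ∑ t, TensorProduct.lift (c2 • (bq arm J g X P P' t).flip) (x t) ∈ Q) :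
    Gens arm J B g X l Q (PbK arm J B g R X D ν') (PbK arm J B g R X D ν) ∧
      Gens arm J B g X l Q (PbK arm J B g R X D ν) (PbK arm J B g R X D ν') := by
  obtain ⟨m, hm⟩ := b.blk.kills
  obtain ⟨m', hm'⟩ := b'.blk.kills
  obtain ⟨h1, h2, h3⟩ := Dual.span_exact2 (A := fun s => (A s).mulVecLin)
    (B := fun s => (A' s).mulVecLin) (R1 := LinearMap.ker (Pᵀ * (J * X) * P).mulVecLin)
    (R2 := LinearMap.ker (P'ᵀ * (J * X) * P').mulVecLin) (l := l) hΛ h0 b.blk.perf b'.blk.perf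
    b.blk.st b'.blk.st ⟨m, fun r hr w hw => hm w hw.ge r hr⟩ ⟨m', fun r hr w hw => hm' w hw.ge r hr⟩
    b.blk.pow b'.blk.pow (fun Z h1 h2 => b.blk.gen Z h2 h1) (fun Z h1 h2 => b'.blk.gen Z h2 h1)
    (fun t => c1 • bq arm J g X P' P t) (fun t => c2 • (bq arm J g X P P' t).flip) Q h
  have u1 : ∀ m : Matrix ι δ K, c1 • m ∈ Q → m ∈ Q := fun m hm => by
    have := Q.smul_mem c1⁻¹ hm
    rwa [smul_smul, inv_mul_cancel₀ hc1, one_smul] at this
  have u2 : ∀ m : Matrix ι δ K, c2 • m ∈ Q → m ∈ Q := fun m hm => by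
    have := Q.smul_mem c2⁻¹ hm
    rwa [smul_smul, inv_mul_cancel₀ hc2, one_smul] at this
  refine ⟨⟨fun s i j hij a ha c hc => ?_, fun s r hr c hc => ?_, fun s a ha r hr => ?_⟩,
    ⟨fun s i j hij a ha c hc => ?_, fun s r hr c hc => ?_, fun s a ha r hr => ?_⟩⟩
  · obtain ⟨x, rfl⟩ := exists_coord b' ha
    obtain ⟨y, rfl⟩ := exists_coord b hc
    rw [pow_act b', pow_act b]
    have h4 := (h1 s j i (by omega) x y).1
    rw [mulVecLin_pow_apply, mulVecLin_pow_apply] at h4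
    exact u1 _ h4
  · obtain ⟨x, hx, rfl⟩ := exists_coord_Rd b' hr
    obtain ⟨y, rfl⟩ := exists_coord b hc
    exact u1 _ (h2 s x hx y).1
  · obtain ⟨x, rfl⟩ := exists_coord b' ha
    obtain ⟨y, hy, rfl⟩ := exists_coord_Rd b hr
    exact u1 _ (h3 s y hy x).1
  · obtain ⟨x, rfl⟩ := exists_coord b ha
    obtain ⟨y, rfl⟩ := exists_coord b' hc
    rw [pow_act b', pow_act b]
    have h4 := (h1 s i j hij y x).2
    rw [mulVecLin_pow_apply, mulVecLin_pow_apply] at h4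
    exact u2 _ h4
  · obtain ⟨x, hx, rfl⟩ := exists_coord_Rd b hr
    obtain ⟨y, rfl⟩ := exists_coord b' hc
    exact u2 _ (h3 s x hx y).2
  · obtain ⟨x, rfl⟩ := exists_coord b ha
    obtain ⟨y, hy, rfl⟩ := exists_coord_Rd b' hr
    exact u2 _ (h2 s y hy x).2

/-- the form of a block package -/
def gF (J X : Matrix ι ι K) (P : Matrix ι (Fin n) K) : (Fin n → K) →ₗ[K] (Fin n → K) →ₗ[K] K :=
  LinearMap.mk₂ K (fun x y => x ⬝ᵥ ((Pᵀ * (J * X) * P) *ᵥ y))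
    (fun x x' y => by rw [add_dotProduct]) (fun c x y => by rw [smul_dotProduct])
    (fun x y y' => by rw [mulVec_add, dotProduct_add])
    (fun c x y => by rw [mulVec_smul, dotProduct_smul])

theorem gF_apply (P : Matrix ι (Fin n) K) (x y : Fin n → K) :
    gF J X P x y = x ⬝ᵥ ((Pᵀ * (J * X) * P) *ᵥ y) := rfl

theorem gF_flip (b : BPkg arm J B g R X D ν l P A) (x y : Fin n → K) :
    gF J X P x y = -gF J X P y x := by
  rw [gF_apply, gF_apply, dotProduct_mulVec, ← mulVec_transpose, b.skew, neg_mulVec,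
    neg_dotProduct, dotProduct_comm]

/-- conclusion of `RJM.main` in the form `Gens` -/
theorem gens_self (b : BPkg arm J B g R X D ν l P A) (Q : Submodule K (Matrix ι δ K))
    (h1 : ∀ t, ∀ r ∈ LinearMap.ker (Pᵀ * (J * X) * P).mulVecLin, ∀ y,
      bq arm J g X P P t r y ∈ Q ∧ bq arm J g X P P t y r ∈ Q)
    (h2 : ∀ s i j, i + j + 1 = l s → ∀ x y, bq arm J g X P P s (((A s).mulVecLin ^ i) x)
      (((A s).mulVecLin ^ j) y) ∈ Q) :
    Gens arm J B g X l Q (PbK arm J B g R X D ν) (PbK arm J B g R X D ν) := by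
  refine ⟨fun s i j hij a ha c hc => ?_, fun s r hr c hc => ?_, fun s a ha r hr => ?_⟩
  · obtain ⟨x, rfl⟩ := exists_coord b ha
    obtain ⟨y, rfl⟩ := exists_coord b hc
    rw [pow_act b, pow_act b]
    have h4 := h2 s i j hij x y
    rw [mulVecLin_pow_apply, mulVecLin_pow_apply] at h4
    exact h4
  · obtain ⟨x, hx, rfl⟩ := exists_coord_Rd b hr
    obtain ⟨y, rfl⟩ := exists_coord b hc
    exact (h1 s x hx y).1
  · obtain ⟨x, rfl⟩ := exists_coord b ha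
    obtain ⟨y, hy, rfl⟩ := exists_coord_Rd b hr
    exact (h1 s y hy x).2


end pkg

end Crest.Agent.R172.SLev0
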