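import Crest.Agent.R172.SUX3
import Crest.Agent.R172.RJP

/-!
Row 172 (S0260), S-side: the class `QQ5` of first level relations with all values and the
parity separation of the first derivative of `k_1`.
-/

set_option autoImplicit false
set_option linter.unusedSectionVars false
set_option linter.unusedFintypeInType false
set_option linter.unusedDecidableInType false

namespace Crest.Agent.R172.SUX

open Matrix Module Crest.Agent.R172.FO Crest.Agent.R172.Qt Crest.Agent.R172.SpS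
  Crest.Agent.R172.Om

variable {ι : Type*} [Fintype ι] [DecidableEq ι] {δ : Type*} [Fintype δ] [DecidableEq δ]
variable {k K : Type*} [Field k] [Field K] [Algebra k K]
variable {arm : δ → Fin 3} {J : Matrix ι ι K} {B : Matrix δ δ K}
  {N W : Submodule K (Matrix ι δ K)} {H F f q : Matrix ι δ K}
variable {n1 n2 : Type*} [Fintype n1] [Fintype n2]
variable {P : Matrix ι ι K × (Fin 3 → Matrix ι ι K)} {S0 : Matrix δ δ K} {c1 c2 : K}
  {U1 : Matrix δ n1 K} {U2 : Matrix δ n2 K} {Y : Fin 3 → Matrix δ δ K} {d dY : Derivation k K K}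
  {Γ1 : Matrix n1 n1 K} {Γ2 : Matrix n2 n2 K} {β : Matrix n1 n2 K} {γ : Matrix n2 n1 K}
  {X : Fin 3 → Matrix n2 n1 K}

/-- relation, `L`-values, rows -/
abbrev E5 (K ι δ n1 n2 : Type*) := Matrix ι δ K × (Matrix ι n1 K × Matrix ι n2 K) ×
  (Matrix n1 δ K × Matrix n2 δ K)

theorem row_smul (dY : Derivation k K K) (c : K) {w : Matrix ι δ K} (hw : Fᵀ * J * w = 0) :
    Fᵀ * J * (c • w).map dY = c • (Fᵀ * J * w.map dY) := by
  rw [map_smul_der, Matrix.mul_add, Matrix.mul_smul, Matrix.mul_smul, hw, smul_zero, zero_add]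

/-- first level relations with values, modulo the scalars on the two blocks -/
def QQ5 (J : Matrix ι ι K) (N W : Submodule K (Matrix ι δ K)) (F f : Matrix ι δ K)
    (dY : Derivation k K K) (S0 : Matrix δ δ K) (U1 : Matrix δ n1 K) (U2 : Matrix δ n2 K) :
    Submodule K (E5 K ι δ n1 n2) where
  carrier := {z | ∃ w ∈ W, Fᵀ * J * w = 0 ∧ fᵀ * J * w = 0 ∧ z.1 - w ∈ N ∧
    (∃ μ : K, w * U1 = z.2.1.1 + μ • (F * U1)) ∧ (∃ μ : K, w * U2 = z.2.1.2 + μ • (F * U2)) ∧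
    (∃ ν : K, U1ᵀ * (Fᵀ * J * w.map dY) = z.2.2.1 + ν • (U1ᵀ * S0)) ∧
    (∃ ν : K, U2ᵀ * (Fᵀ * J * w.map dY) = z.2.2.2 + ν • (U2ᵀ * S0))}
  add_mem' := by
    rintro a b ⟨w, hw, h1, h2, h3, ⟨m1, h4⟩, ⟨m2, h5⟩, ⟨m3, h6⟩, ⟨m4, h7⟩⟩
      ⟨w', hw', h1', h2', h3', ⟨m1', h4'⟩, ⟨m2', h5'⟩, ⟨m3', h6'⟩, ⟨m4', h7'⟩⟩
    have hd : (w + w').map dY = w.map dY + w'.map dY := by
      ext i j; simp
    refine ⟨w + w', W.add_mem hw hw', by rw [Matrix.mul_add, h1, h1', add_zero],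
      by rw [Matrix.mul_add, h2, h2', add_zero], ?_, ⟨m1 + m1', ?_⟩, ⟨m2 + m2', ?_⟩,
      ⟨m3 + m3', ?_⟩, ⟨m4 + m4', ?_⟩⟩
    · have : (a + b).1 - (w + w') = (a.1 - w) + (b.1 - w') := by rw [Prod.fst_add]; abel
      rw [this]; exact N.add_mem h3 h3'
    · rw [Matrix.add_mul, h4, h4', add_smul]
      simp only [Prod.snd_add, Prod.fst_add]; abel
    · rw [Matrix.add_mul, h5, h5', add_smul]
      simp only [Prod.snd_add, Prod.fst_add]; abel
    · rw [hd, Matrix.mul_add, Matrix.mul_add, h6, h6', add_smul]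
      simp only [Prod.snd_add, Prod.fst_add]; abel
    · rw [hd, Matrix.mul_add, Matrix.mul_add, h7, h7', add_smul]
      simp only [Prod.snd_add]; abel
  zero_mem' := by
    have hd : (0 : Matrix ι δ K).map dY = 0 := map_zero_der' dY
    refine ⟨0, W.zero_mem, by simp, by simp, by simp, ⟨0, by simp⟩, ⟨0, by simp⟩, ⟨0, ?_⟩,
      ⟨0, ?_⟩⟩
    · rw [hd]; simp
    · rw [hd]; simp
  smul_mem' := by
    rintro c a ⟨w, hw, h1, h2, h3, ⟨m1, h4⟩, ⟨m2, h5⟩, ⟨m3, h6⟩, ⟨m4, h7⟩⟩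
    refine ⟨c • w, W.smul_mem c hw, by rw [Matrix.mul_smul, h1, smul_zero],
      by rw [Matrix.mul_smul, h2, smul_zero], ?_, ⟨c * m1, ?_⟩, ⟨c * m2, ?_⟩,
      ⟨c * m3, ?_⟩, ⟨c * m4, ?_⟩⟩
    · have : (c • a).1 - c • w = c • (a.1 - w) := by rw [Prod.smul_fst, smul_sub]
      rw [this]; exact N.smul_mem c h3
    · rw [Matrix.smul_mul, h4, smul_add, smul_smul]; rfl
    · rw [Matrix.smul_mul, h5, smul_add, smul_smul]; rfl
    · rw [row_smul dY c h1, Matrix.mul_smul, h6, smul_add, smul_smul]; rfl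
    · rw [row_smul dY c h1, Matrix.mul_smul, h7, smul_add, smul_smul]; rfl

/-- triples `(X, β, γ)` -/
abbrev D3 (K n1 n2 : Type*) := (Fin 3 → Matrix n2 n1 K) × Matrix n1 n2 K × Matrix n2 n1 K

/-- the even part of the first derivative of `k_1` -/
noncomputable def I1 (arm : δ → Fin 3) (F : Matrix ι δ K) (S0 : Matrix δ δ K)
    (U1 : Matrix δ n1 K) (U2 : Matrix δ n2 K) : D3 K n1 n2 →ₗ[K] E5 K ι δ n1 n2 where
  toFun y := (∑ s, F * (U2 * y.1 s * U1ᵀ * S0) * E K arm s, (F * (U2 * y.2.2), 0),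
    (0, -(y.2.1ᵀ * (U1ᵀ * S0))))
  map_add' a b := by
    refine Prod.ext ?_ (Prod.ext (Prod.ext ?_ ?_) (Prod.ext ?_ ?_))
    · simp only [Prod.fst_add, Pi.add_apply, Matrix.mul_add, Matrix.add_mul,
        Finset.sum_add_distrib]
    · simp only [Prod.fst_add, Prod.snd_add, Matrix.mul_add]
    · simp only [Prod.fst_add, Prod.snd_add, add_zero]
    · simp only [Prod.fst_add, Prod.snd_add, add_zero]
    · simp only [Prod.fst_add, Prod.snd_add, Matrix.add_mul, transpose_add]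
      abel
  map_smul' c a := by
    refine Prod.ext ?_ (Prod.ext (Prod.ext ?_ ?_) (Prod.ext ?_ ?_))
    · simp only [Prod.smul_fst, Pi.smul_apply, Matrix.smul_mul, Matrix.mul_smul,
        Finset.smul_sum, RingHom.id_apply]
    · simp only [Prod.smul_fst, Prod.smul_snd, Matrix.mul_smul, RingHom.id_apply]
    · simp only [Prod.smul_fst, Prod.smul_snd, smul_zero]
    · simp only [Prod.smul_fst, Prod.smul_snd, smul_zero]
    · simp only [Prod.smul_fst, Prod.smul_snd, Matrix.smul_mul, transpose_smul, smul_neg,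
        RingHom.id_apply]

/-- the odd part of the first derivative of `k_1` -/
noncomputable def I2 (arm : δ → Fin 3) (F : Matrix ι δ K) (S0 : Matrix δ δ K)
    (U1 : Matrix δ n1 K) (U2 : Matrix δ n2 K) : D3 K n1 n2 →ₗ[K] E5 K ι δ n1 n2 where
  toFun y := (-∑ s, F * (U1 * (y.1 s)ᵀ * U2ᵀ * S0) * E K arm s, (0, -(F * (U1 * y.2.1))),
    (y.2.2ᵀ * (U2ᵀ * S0), 0))
  map_add' a b := by
    refine Prod.ext ?_ (Prod.ext (Prod.ext ?_ ?_) (Prod.ext ?_ ?_))
    · simp only [Prod.fst_add, Pi.add_apply, Matrix.mul_add, Matrix.add_mul, transpose_add,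
        Finset.sum_add_distrib]
      abel
    · simp only [Prod.fst_add, Prod.snd_add, add_zero]
    · simp only [Prod.fst_add, Prod.snd_add, Matrix.mul_add]
      abel
    · simp only [Prod.fst_add, Prod.snd_add, Matrix.add_mul, transpose_add]
    · simp only [Prod.snd_add, add_zero]
  map_smul' c a := by
    refine Prod.ext ?_ (Prod.ext (Prod.ext ?_ ?_) (Prod.ext ?_ ?_))
    · simp only [Prod.smul_fst, Pi.smul_apply, Matrix.smul_mul, Matrix.mul_smul,
        Finset.smul_sum, RingHom.id_apply, transpose_smul, smul_neg]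
    · simp only [Prod.smul_fst, Prod.smul_snd, smul_zero]
    · simp only [Prod.smul_fst, Prod.smul_snd, Matrix.mul_smul, RingHom.id_apply, smul_neg]
    · simp only [Prod.smul_fst, Prod.smul_snd, Matrix.smul_mul, transpose_smul,
        RingHom.id_apply]
    · simp only [Prod.smul_snd, smul_zero]

theorem row_of_Y {n : Type*} [Fintype n] {U : Matrix δ n K} {c : K} {P : Matrix ι ι K}
    {w : Matrix ι δ K} (hU : H * U = c • (F * U)) (hr : Hᵀ * J * (P * w) = Hᵀ * J * w.map dY) :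
    Uᵀ * th J H P w = c • (Uᵀ * (Fᵀ * J * w.map dY)) := by
  unfold th
  rw [hr]
  have h : Uᵀ * Hᵀ = c • (Uᵀ * Fᵀ) := by
    rw [← transpose_mul, hU, transpose_smul, transpose_mul]
  calc Uᵀ * (Hᵀ * J * w.map dY) = (Uᵀ * Hᵀ) * J * w.map dY := by simp only [Matrix.mul_assoc]
    _ = _ := by rw [h]; simp only [Matrix.smul_mul, Matrix.mul_assoc]




/-- the hypotheses `hn, L1, L2, V1, V2` of `second_blocks` from the even part. -/
theorem even_data (hm : I1 arm F S0 U1 U2 (X, β, γ) ∈ QQ5 J N W F f dY S0 U1 U2) :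
    ∃ w ∈ W, Fᵀ * J * w = 0 ∧ fᵀ * J * w = 0 ∧
      ∑ s, F * (U2 * X s * U1ᵀ * S0) * E K arm s - w ∈ N ∧
      ∃ μ1 μ2 ν1 ν2 : K, w * U1 = μ1 • (F * U1) + F * (U2 * γ) ∧ w * U2 = μ2 • (F * U2) ∧
        U1ᵀ * (Fᵀ * J * w.map dY) = ν1 • (U1ᵀ * S0) ∧
        U2ᵀ * (Fᵀ * J * w.map dY) = ν2 • (U2ᵀ * S0) - βᵀ * (U1ᵀ * S0) := by
  obtain ⟨w, hw, h1, h2, h3, ⟨m1, h4⟩, ⟨m2, h5⟩, ⟨m3, h6⟩, ⟨m4, h7⟩⟩ := hm
  refine ⟨w, hw, h1, h2, h3, m1, m2, m3, m4, ?_, ?_, ?_, ?_⟩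
  · rw [h4, add_comm]; rfl
  · rw [h5]; change 0 + _ = _; rw [zero_add]
  · rw [h6]; change 0 + _ = _; rw [zero_add]
  · rw [h7]; change -(βᵀ * (U1ᵀ * S0)) + _ = _; rw [add_comm, ← sub_eq_add_neg]

end Crest.Agent.R172.SUX
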