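import Crest.Agent.R172.STop
import Crest.Agent.R172.SLev0
import Crest.Agent.R172.UFr
import Crest.Agent.R172.SUX6

/-!
Row 172 (S0260), tame node (t2), level 2: the interface `Dec` between the geometry (moves at
`H_t`) and the abstract end (`RJP3.mainG`).
-/

set_option autoImplicit false
set_option linter.unusedSectionVars false

namespace Crest.Agent.R172.SDec

open Matrix Module Crest.Agent.R172.FO Crest.Agent.R172.Qt Crest.Agent.R172.SpS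
open Crest.Agent.R172.SEnd2 (PC PhS)
open Crest.Agent.R172.SUX (D3 th)
open Crest.Agent.R172.PL (CoreM)

section defs

variable {ι : Type*} [Fintype ι] [DecidableEq ι] {δ : Type*} [Fintype δ] [DecidableEq δ]
variable {K : Type*} [Field K]
variable {m1 m2 : ℕ}

/-- decorated exact families at `c` (`c = -(c₂/c₁)²`), `K^δ`-level frames `U_i`, `a_i`:
`B E_s S₀ U_i = U_i a_i s`. -/
structure Dec (F : Matrix ι δ K) (S0 : Matrix δ δ K) (U1 : Matrix δ (Fin m1) K)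
    (U2 : Matrix δ (Fin m2) K) (a1 : Fin 3 → Matrix (Fin m1) (Fin m1) K)
    (a2 : Fin 3 → Matrix (Fin m2) (Fin m2) K) (c : K) (y : D3 K (Fin m1) (Fin m2)) : Prop where
  sum : ∑ s, (y.1 s * (a1 s)ᵀ - c • (a2 s * y.1 s)) = 0
  arm : ∀ s, (U2ᵀ * S0 * U2) * (y.1 s * (a1 s)ᵀ - c • (a2 s * y.1 s)) * (U1ᵀ * S0 * U1) = 0
  rb : (U1ᵀ * S0 * U1) * y.2.1 = 0
  rk : (U2ᵀ * S0 * U2) * y.2.2 = 0
  cb : ∀ s, F * (U1 * (a1 s * (y.2.1 - (y.1 s)ᵀ * (U2ᵀ * S0 * U2)) +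
    c • ((y.2.1 - (y.1 s)ᵀ * (U2ᵀ * S0 * U2)) * a2 s))) = 0
  ck : ∀ s, F * (U2 * (c • (a2 s * (y.2.2 - y.1 s * (U1ᵀ * S0 * U1))) +
    (y.2.2 - y.1 s * (U1ᵀ * S0 * U1)) * a1 s)) = 0

/-- the relation of level 2 for two decorated families -/
def Rel2 (arm : δ → Fin 3) (F : Matrix ι δ K) (S0 : Matrix δ δ K) (U1 : Matrix δ (Fin m1) K)
    (U2 : Matrix δ (Fin m2) K) (r : K) (y y' : D3 K (Fin m1) (Fin m2)) : Matrix ι δ K :=
  ∑ s, F * (U1 * (y'.2.1 * y.1 s - (y'.1 s)ᵀ * (U2ᵀ * S0 * U2) * y.1 s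
      - (y'.1 s)ᵀ * y.2.1ᵀ) * U1ᵀ) * S0 * E K arm s +
    r • ∑ s, F * (U2 * (y.1 s * y'.2.2ᵀ + y.1 s * (U1ᵀ * S0 * U1) * (y'.1 s)ᵀ
      - y.2.2 * (y'.1 s)ᵀ) * U2ᵀ) * S0 * E K arm s

end defs


end Crest.Agent.R172.SDec
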