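import Crest.Agent.R172.SNabI934_Mg
import Crest.Agent.R172.SDec
import Crest.Agent.R172.St1

/-!
Row 172 (S0260), S-side, leaf B2 of `SDec.Geo2`: the decoration `Dec` from the block inclusions of
the connection (B1).
-/

set_option autoImplicit false
set_option linter.unusedSectionVars false

namespace Crest.Agent.R172.SB2H16

open Matrix Module Crest.Agent.R172.FO Crest.Agent.R172.Qt Crest.Agent.R172.SUX
  Crest.Agent.R172.SpS Crest.Agent.R172.SNF16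

variable {ι : Type*} [Fintype ι] [DecidableEq ι] {δ : Type*} [Fintype δ] [DecidableEq δ]
variable {k K : Type*} [Field k] [Field K] [Algebra k K]
variable {arm : δ → Fin 3} {J : Matrix ι ι K} {B : Matrix δ δ K}
  {N W : Submodule K (Matrix ι δ K)} {F H : Matrix ι δ K}

/-- the radical of a perfect `Q` is orthogonal to `Q` -/
theorem orth_T {S0 : Matrix δ δ K} (hS : S0ᵀ = -S0) (hB : Bᵀ = B)
    (hE : ∀ s, E K arm s * B = B * E K arm s) {Q : Submodule K (δ → K)}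
    (hp : ∀ u ∈ Q, ∃ c : Fin 3 → δ → K, (∀ s, c s ∈ Q) ∧
      ∑ s, (B * E K arm s * S0) *ᵥ c s = u) :
    ∀ (q : ℕ) (r : δ → K), r ∈ St.Nk (fun s => (B * E K arm s * S0).mulVecLin) q →
      ∀ u ∈ Q, u ⬝ᵥ (S0 *ᵥ r) = 0
  | 0, r, hr, u, _ => by
      rw [St.mem_Nk_zero] at hr
      rw [hr, mulVec_zero, dotProduct_zero]
  | q + 1, r, hr, u, hu => by
      rw [St.mem_Nk_succ] at hr
      obtain ⟨c, hc, rfl⟩ := hp u hu
      rw [sum_dotProduct]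
      refine Finset.sum_eq_zero fun s _ => ?_
      have e1 : (B * E K arm s * S0)ᵀ * S0 = -(S0 * (B * E K arm s * S0)) := by
        rw [transpose_mul, transpose_mul, E_transpose, hB, hS, hE]
        simp only [Matrix.neg_mul, Matrix.mul_assoc]
      have e2 : ((B * E K arm s * S0) *ᵥ c s) ⬝ᵥ (S0 *ᵥ r) =
          c s ⬝ᵥ (((B * E K arm s * S0)ᵀ * S0) *ᵥ r) := by
        rw [← mulVec_mulVec r, dotProduct_comm, dotProduct_mulVec, ← mulVec_transpose,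
          dotProduct_comm]
      rw [e2, e1, neg_mulVec, dotProduct_neg, neg_eq_zero, ← mulVec_mulVec]
      have := orth_T hS hB hE hp q _ (hr s) (c s) (hc s)
      rwa [mulVecLin_apply] at this

/-- the columns of `∇U` -/
theorem col_nab {P : Matrix ι ι K × (Fin 3 → Matrix ι ι K)} {Y : Fin 3 → Matrix δ δ K}
    {d : Derivation k K K} {n : Type*} [Fintype n] (U : Matrix δ n K) (j : n) :
    (fun i => (U.map d + ZY arm J H P.1 Y * U) i j) =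
      SUB.nab arm J H P.1 Y d (fun i => U i j) := by
  funext i
  simp only [SUB.nab, Matrix.add_apply, Matrix.map_apply, Matrix.mul_apply, Pi.add_apply,
    mulVec, dotProduct]
  rfl

variable {P : Matrix ι ι K × (Fin 3 → Matrix ι ι K)} {S0 : Matrix δ δ K} {c1 c2 : K}
  {m1 m2 : ℕ} {U1 : Matrix δ (Fin m1) K} {U2 : Matrix δ (Fin m2) K} {Y : Fin 3 → Matrix δ δ K}
  {d : Derivation k K K} {A1 : Fin 3 → Matrix (Fin m1) (Fin m1) K}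
  {A2 : Fin 3 → Matrix (Fin m2) (Fin m2) K} {X : Fin 3 → Matrix (Fin m2) (Fin m1) K}
  {Q1 Q2 : Submodule K (δ → K)}

/-- `G1 β = 0` for radical-valued `β` -/
theorem gram_zero (hD : Data k arm J B N W) (hS : S0ᵀ = -S0)
    (hC1 : ∀ j, (fun i => U1 i j) ∈ Q1)
    (hp1 : ∀ u ∈ Q1, ∃ c : Fin 3 → δ → K, (∀ s, c s ∈ Q1) ∧
      ∑ s, (B * E K arm s * S0) *ᵥ c s = u) {n : Type*} [Fintype n] [DecidableEq n]
    {β : Matrix (Fin m1) n K}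
    (hβ : ∀ y, U1 *ᵥ (β *ᵥ y) ∈ Q1 ⊓ St.T (fun s => (B * E K arm s * S0).mulVecLin)) :
    (U1ᵀ * S0 * U1) * β = 0 := by
  apply Matrix.ext_of_mulVec_single
  intro j
  rw [zero_mulVec]
  funext i
  obtain ⟨q, hq⟩ := St.mem_T.1 (hβ (Pi.single j 1)).2
  have h := orth_T hS hD.B_symm hD.B_arm hp1 q _ hq _ (hC1 i)
  have e : ((U1ᵀ * S0 * U1) * β) *ᵥ Pi.single j 1 =
      U1ᵀ *ᵥ (S0 *ᵥ (U1 *ᵥ (β *ᵥ Pi.single j 1))) := by
    simp only [mulVec_mulVec, Matrix.mul_assoc]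
  rw [e]
  exact h

/-- **B2** -/
theorem dec_of_B1 (h : Ctx k arm J B N W H) (hP : P ∈ NN arm J N H)
    (m : Mv k arm J N W H P.1 Y d) (fr : Fr J F H P.1 S0 c1 c2 U1 U2) (hne : c1 ≠ c2)
    (hC1 : ∀ j, (fun i => U1 i j) ∈ Q1) (hs1 : ∀ u ∈ Q1, ∃ x, u = U1 *ᵥ x)
    (hA1 : ∀ r, B * E K arm r * S0 * U1 = U1 * A1 r)
    (hp1 : ∀ u ∈ Q1, ∃ c : Fin 3 → δ → K, (∀ s, c s ∈ Q1) ∧
      ∑ s, (B * E K arm s * S0) *ᵥ c s = u)
    (hC2 : ∀ j, (fun i => U2 i j) ∈ Q2) (hs2 : ∀ u ∈ Q2, ∃ x, u = U2 *ᵥ x)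
    (hA2 : ∀ r, B * E K arm r * S0 * U2 = U2 * A2 r)
    (hp2 : ∀ u ∈ Q2, ∃ c : Fin 3 → δ → K, (∀ s, c s ∈ Q2) ∧
      ∑ s, (B * E K arm s * S0) *ᵥ c s = u)
    (hY : ∀ r, Y r = U2 * X r * U1ᵀ + U1 * (X r)ᵀ * U2ᵀ)
    (i1 : ∀ u ∈ Q1, ∃ v ∈ Q1, ∃ r ∈ Q2, r ∈ St.T (fun s => (B * E K arm s * S0).mulVecLin) ∧
      SUB.nab arm J H P.1 Y d u = v + r)
    (i2 : ∀ u ∈ Q2, ∃ v ∈ Q2, ∃ r ∈ Q1, r ∈ St.T (fun s => (B * E K arm s * S0).mulVecLin) ∧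
      SUB.nab arm J H P.1 Y d u = v + r)
    {ρ : K} (hρ : ρ = c2 / c1)
    (hsum : ∑ s, (X s * (A1 s)ᵀ - (-(ρ ^ 2)) • (A2 s * X s)) = 0)
    (harm : ∀ s, (U2ᵀ * S0 * U2) * (X s * (A1 s)ᵀ - (-(ρ ^ 2)) • (A2 s * X s)) *
      (U1ᵀ * S0 * U1) = 0) :
    ∃ (Γ1 : Matrix (Fin m1) (Fin m1) K) (Γ2 : Matrix (Fin m2) (Fin m2) K)
      (β : Matrix (Fin m1) (Fin m2) K) (γ : Matrix (Fin m2) (Fin m1) K),
      U2.map d + ZY arm J H P.1 Y * U2 = U2 * Γ2 + c2 ^ 2 • (U1 * β) ∧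
      U1.map d + ZY arm J H P.1 Y * U1 = U1 * Γ1 + c1 ^ 2 • (U2 * γ) ∧
      SDec.Dec F S0 U1 U2 A1 A2 (-(ρ ^ 2)) (X, β, γ) := by
  have hYs : ∀ r, (Y r)ᵀ = Y r := by
    intro r
    rw [hY, transpose_add, transpose_mul, transpose_mul, transpose_mul, transpose_mul,
      transpose_transpose, transpose_transpose, transpose_transpose, add_comm]
    simp only [Matrix.mul_assoc]
  have hc1 := fr.hc1
  have hc2 := fr.hc2
  obtain ⟨Γ2, β, hN2, hβ⟩ := frame_of_incl (U1 := U1) (U2 := U2) (Q2 := Q2)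
    (R1 := Q1 ⊓ St.T (fun s => (B * E K arm s * S0).mulVecLin)) hs2
    (fun r hr => hs1 r hr.1) (c := c2 ^ 2) (pow_ne_zero 2 hc2)
    (Nb := U2.map d + ZY arm J H P.1 Y * U2) (fun j => by
      rw [col_nab]
      obtain ⟨v, hv, r, hr, hrT, e⟩ := i2 _ (hC2 j)
      rw [e]
      exact Submodule.add_mem_sup hv ⟨hr, hrT⟩)
  obtain ⟨Γ1, γ, hN1, hγ⟩ := frame_of_incl (U1 := U2) (U2 := U1) (Q2 := Q1)
    (R1 := Q2 ⊓ St.T (fun s => (B * E K arm s * S0).mulVecLin)) hs1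
    (fun r hr => hs2 r hr.1) (c := c1 ^ 2) (pow_ne_zero 2 hc1)
    (Nb := U1.map d + ZY arm J H P.1 Y * U1) (fun j => by
      rw [col_nab]
      obtain ⟨v, hv, r, hr, hrT, e⟩ := i1 _ (hC1 j)
      rw [e]
      exact Submodule.add_mem_sup hv ⟨hr, hrT⟩)
  refine ⟨Γ1, Γ2, β, γ, hN2, hN1, ?_⟩
  refine ⟨hsum, harm, gram_zero h.data fr.skew hC1 hp1 hβ, gram_zero h.data fr.skew hC2 hp2 hγ,
    fun s => ?_, fun s => ?_⟩
  · have e := (cor_beta h hP hYs m fr hne hA1 hA2 hY hN2 s).1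
    rw [← hρ] at e
    change F * (U1 * (A1 s * (β - (X s)ᵀ * (U2ᵀ * S0 * U2)) +
      (-(ρ ^ 2)) • ((β - (X s)ᵀ * (U2ᵀ * S0 * U2)) * A2 s))) = 0
    rw [← e, neg_smul, ← sub_eq_add_neg]
  · have e := (cor_gamma h hP hYs m fr hne hA1 hA2 hY hN1 s).1
    have hr2 : ρ ^ 2 * (c1 / c2) ^ 2 = 1 := by
      rw [hρ]
      field_simp
    have e2 : (-(ρ ^ 2)) • (A2 s * (γ - X s * (U1ᵀ * S0 * U1))) +
        (γ - X s * (U1ᵀ * S0 * U1)) * A1 s = (-(ρ ^ 2)) •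
        (A2 s * (γ - X s * (U1ᵀ * S0 * U1)) -
          (c1 / c2) ^ 2 • ((γ - X s * (U1ᵀ * S0 * U1)) * A1 s)) := by
      rw [smul_sub, smul_smul, neg_mul, hr2, neg_smul, neg_smul, one_smul, sub_neg_eq_add]
    change F * (U2 * ((-(ρ ^ 2)) • (A2 s * (γ - X s * (U1ᵀ * S0 * U1))) +
        (γ - X s * (U1ᵀ * S0 * U1)) * A1 s)) = 0
    rw [e2, Matrix.mul_smul, Matrix.mul_smul, e, smul_zero]

end Crest.Agent.R172.SB2H16
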