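import Mathlib
import Crest.Agent.R172.SBad102

/-!
Row 172 (S0260), (t2): the finite bad set of the pairings
`b(A_r u, q) = s b(u, C_r q)` between two modules, the second of which is perfect.
-/

set_option autoImplicit false
set_option linter.unusedSectionVars false

namespace Crest.Agent.R172.SBad97

open Module LinearMap

variable {K : Type*} [Field K]
variable {V1 : Type*} [AddCommGroup V1] [Module K V1] [FiniteDimensional K V1]
variable {V2 : Type*} [AddCommGroup V2] [Module K V2] [FiniteDimensional K V2]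
variable {κ : Type*} [Fintype κ]

/-- the bilinear forms -/
abbrev Bil (K V1 V2 : Type*) [Field K] [AddCommGroup V1] [Module K V1] [AddCommGroup V2]
    [Module K V2] : Type _ := V1 →ₗ[K] V2 →ₗ[K] K


/-- `t ↦ -((1 + t μ')/(1 + t μ))²` is finite-to-one for `μ ≠ μ'` -/
theorem ratio_finite {μ μ' : K} (hμ : μ ≠ μ') (h2 : (2 : K) ≠ 0) (σ : K) :
    {t : K | 1 + t * μ ≠ 0 ∧ -((1 + t * μ') ^ 2 / (1 + t * μ) ^ 2) = σ}.Finite := by
  classical
  -- the polynomial `(1 + X μ')² + σ (1 + X μ)²`
  let p : Polynomial K := (1 + Polynomial.X * Polynomial.C μ') ^ 2 +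
    Polynomial.C σ * (1 + Polynomial.X * Polynomial.C μ) ^ 2
  have hp : p ≠ 0 := by
    intro h0
    have e0 : p.coeff 0 = 1 + σ := by
      have : p.coeff 0 = p.eval 0 := Polynomial.coeff_zero_eq_eval_zero p
      rw [this]
      simp [p]
    have hσ : σ = -1 := by
      rw [h0, Polynomial.coeff_zero] at e0
      linear_combination -e0
    have e1 : (Polynomial.derivative p).eval 0 = 2 * μ' + σ * (2 * μ) := by
      simp only [p, Polynomial.derivative_add, Polynomial.derivative_mul, Polynomial.derivative_C,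
        Polynomial.derivative_pow, Polynomial.derivative_one, Polynomial.derivative_X]
      simp
      try ring
    rw [h0, Polynomial.derivative_zero, Polynomial.eval_zero, hσ] at e1
    have e2 : 2 * (μ - μ') = 0 := by linear_combination e1
    rcases mul_eq_zero.1 e2 with h3 | h3
    · exact h2 h3
    · exact hμ (sub_eq_zero.1 h3)
  refine (p.roots.toFinset.finite_toSet).subset ?_
  rintro t ⟨h1, h3⟩
  rw [Finset.mem_coe, Multiset.mem_toFinset, Polynomial.mem_roots hp, Polynomial.IsRoot.def]
  simp only [p, Polynomial.eval_add, Polynomial.eval_mul, Polynomial.eval_pow, Polynomial.eval_one,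
    Polynomial.eval_X, Polynomial.eval_C]
  rw [← h3]
  field_simp
  ring

/-- **all parameters but finitely many kill the pairings of two blocks** -/
theorem bad_t {μ μ' : K} (hμ : μ ≠ μ') (h2 : (2 : K) ≠ 0) (A : κ → End K V1) {C : κ → End K V2}
    (hC : ∀ q, ∃ f : κ → V2, q = ∑ r, C r (f r)) :
    {t : K | 1 + t * μ = 0 ∨ ∃ b : Bil K V1 V2, b ≠ 0 ∧
      ∀ r u q, (1 + t * μ) ^ 2 * b (A r u) q = -((1 + t * μ') ^ 2 * b u (C r q))}.Finite := by
  classical
  have hfin := SBad102.finite_bad A C hC
  have h1 : {t : K | 1 + t * μ = 0}.Finite := by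
    refine Set.Subsingleton.finite ?_
    intro s hs t ht
    have hs' : 1 + s * μ = 0 := hs
    have ht' : 1 + t * μ = 0 := ht
    have hμ0 : μ ≠ 0 := by
      rintro rfl
      rw [mul_zero, add_zero] at hs'
      exact one_ne_zero hs'
    have : (s - t) * μ = 0 := by linear_combination hs' - ht'
    rcases mul_eq_zero.1 this with h | h
    · exact sub_eq_zero.1 h
    · exact absurd h hμ0
  refine (h1.union (hfin.biUnion fun σ _ => ratio_finite hμ h2 σ)).subset ?_
  intro t ht
  by_cases h0 : 1 + t * μ = 0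
  · exact Or.inl h0
  · right
    rcases ht with h | ⟨b, hb, h⟩
    · exact absurd h h0
    · rw [Set.mem_iUnion₂]
      refine ⟨-((1 + t * μ') ^ 2 / (1 + t * μ) ^ 2), ⟨b, hb, fun r u q => ?_⟩, h0, rfl⟩
      have h3 := h r u q
      field_simp
      linear_combination h3

/-- usable form: for `t` outside a finite set every such pairing is zero -/
theorem exists_bad {μ μ' : K} (hμ : μ ≠ μ') (h2 : (2 : K) ≠ 0) (A : κ → End K V1)
    {C : κ → End K V2} (hC : ∀ q, ∃ f : κ → V2, q = ∑ r, C r (f r)) :
    ∃ S : Set K, S.Finite ∧ ∀ t ∉ S, 1 + t * μ ≠ 0 ∧ ∀ b : Bil K V1 V2,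
      (∀ r u q, (1 + t * μ) ^ 2 * b (A r u) q = -((1 + t * μ') ^ 2 * b u (C r q))) → b = 0 := by
  refine ⟨_, bad_t hμ h2 A hC, fun t ht => ?_⟩
  have ht := not_or.1 ht
  refine ⟨ht.1, fun b hb => ?_⟩
  by_contra h0
  exact ht.2 ⟨b, h0, hb⟩

end Crest.Agent.R172.SBad97
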