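import Crest.Agent.R172.SCoreA
import Crest.Agent.R172.QBlk
import Crest.Agent.R172.RRk

/-!
Row 172 (S0260), S-side (t2), node S-Core, BLOCK part (helper580).

`BlkD A R l`: the data of one block `P` with operators `A s : End P`, nilpotent submodule `R` and type
`l` in the form consumed by `SL` (518), `RJM.main` / `Span2` (719).
`SCB.blkD`: the block `PB a D ν` (503's SCoreA) of a family `a : Fin 3 → End X` has this data, if
`Core.Tame (coreOp a) D`.
`BlkD.equiv`: transport.
-/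

set_option autoImplicit false
set_option linter.unusedSectionVars false

namespace Crest.Agent.R172.SCB

open Module LinearMap
open Crest.Agent.R172.St (T Nk mem_T T_stable T_closed mem_Nk_succ mem_Nk_zero Nk_le_T T_eq_Nk
  Nk_mono Nk_le_succ)
open Crest.Agent.R172.PL (Ainf CoreM coreOp resOp Rad)
open Crest.Agent.R172.SC

variable {K : Type*} [Field K]

/-- the data of one block -/
structure BlkD {P : Type*} [AddCommGroup P] [Module K P] (A : Fin 3 → End K P)
    (R : Submodule K P) (l : Fin 3 → ℕ) : Prop where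
  top : ⨆ t, range (A t) = ⊤
  perf : ∀ p, ∃ f : Fin 3 → P, p = ∑ t, A t (f t)
  sum : ∀ p, ∑ t, A t p = 0
  st : ∀ t, ∀ r ∈ R, A t r ∈ R
  kills : ∃ n, ∀ w : List (Fin 3), n ≤ w.length → ∀ r ∈ R, (w.map A).prod r = 0
  two_le : ∀ s, 2 ≤ l s
  pow : ∀ s p, (A s ^ l s) p ∈ R
  gen : ∀ S : Submodule K P, (∀ t, ∀ v ∈ S, A t v ∈ S) → (∀ s p, (A s ^ l s) p ∈ S) → R ≤ S
  ne : ∀ s, ∃ p, (A s ^ (l s - 1)) p ∉ R
  two : ∀ t u, t ≠ u → ∃ x y, A t x + A u y ∈ R ∧ A t x ∉ R

section equiv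

variable {P P' : Type*} [AddCommGroup P] [Module K P] [AddCommGroup P'] [Module K P']
  {A : Fin 3 → End K P} {A' : Fin 3 → End K P'} {R : Submodule K P} {l : Fin 3 → ℕ}

theorem equiv_pow (e : P ≃ₗ[K] P') (h : ∀ s p, e (A s p) = A' s (e p)) (s : Fin 3) (k : ℕ) (p : P) :
    e ((A s ^ k) p) = (A' s ^ k) (e p) := by
  induction k generalizing p with
  | zero => rfl
  | succ k ih => rw [pow_succ, pow_succ, Module.End.mul_apply, Module.End.mul_apply, ih, h]

theorem equiv_word (e : P ≃ₗ[K] P') (h : ∀ s p, e (A s p) = A' s (e p)) (w : List (Fin 3)) (p : P) :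
    e ((w.map A).prod p) = (w.map A').prod (e p) := by
  induction w with
  | nil => simp
  | cons s w ih =>
    simp only [List.map_cons, List.prod_cons, Module.End.mul_apply]
    rw [h, ih]

/-- transport of block data -/
theorem BlkD.equiv (hd : BlkD A R l) (e : P ≃ₗ[K] P') (h : ∀ s p, e (A s p) = A' s (e p)) :
    BlkD A' (R.map e.toLinearMap) l := by
  have hperf : ∀ p, ∃ f : Fin 3 → P', p = ∑ t, A' t (f t) := by
    intro p
    obtain ⟨f, hf⟩ := hd.perf (e.symm p)
    refine ⟨fun t => e (f t), ?_⟩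
    have h1 := congrArg e hf
    rw [e.apply_symm_apply, map_sum] at h1
    rw [h1]
    exact Finset.sum_congr rfl fun t _ => h t (f t)
  have hmem : ∀ p, e p ∈ R.map e.toLinearMap ↔ p ∈ R := by
    intro p
    constructor
    · rintro ⟨q, hq, hqp⟩
      have : q = p := e.injective hqp
      rwa [← this]
    · intro hp; exact ⟨p, hp, rfl⟩
  refine
    { top := ?_
      perf := hperf
      sum := ?_
      st := ?_
      kills := ?_
      two_le := hd.two_le
      pow := ?_
      gen := ?_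
      ne := ?_
      two := ?_ }
  · rw [eq_top_iff]
    rintro p -
    obtain ⟨f, hf⟩ := hperf p
    rw [hf]
    exact Submodule.sum_mem _ fun t _ => Submodule.mem_iSup_of_mem t ⟨f t, rfl⟩
  · intro p
    obtain ⟨q, rfl⟩ := e.surjective p
    have h1 := congrArg e (hd.sum q)
    rw [map_zero, map_sum] at h1
    rw [← h1]
    exact Finset.sum_congr rfl fun t _ => (h t q).symm
  · rintro t _ ⟨r, hr, rfl⟩
    have := hd.st t r hr
    exact ⟨_, this, h t r⟩
  · obtain ⟨n, hn⟩ := hd.kills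
    refine ⟨n, fun w hw => ?_⟩
    rintro _ ⟨r, hr, rfl⟩
    have h1 := equiv_word e h w r
    rw [hn w hw r hr, map_zero] at h1
    exact h1.symm
  · intro s p
    obtain ⟨q, rfl⟩ := e.surjective p
    rw [← equiv_pow e h s (l s) q, hmem]
    exact hd.pow s q
  · intro S hS1 hS2
    rw [Submodule.map_le_iff_le_comap]
    refine hd.gen (S.comap e.toLinearMap) ?_ ?_
    · intro t v hv
      have := hS1 t _ hv
      change e (A t v) ∈ S
      rw [h]
      exact this
    · intro s p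
      change e ((A s ^ l s) p) ∈ S
      rw [equiv_pow e h]
      exact hS2 s _
  · intro s
    obtain ⟨p, hp⟩ := hd.ne s
    refine ⟨e p, ?_⟩
    rw [← equiv_pow e h, hmem]
    exact hp
  · intro t u htu
    obtain ⟨x, y, h1, h2⟩ := hd.two t u htu
    refine ⟨e x, e y, ?_, ?_⟩
    · rw [← h, ← h, ← map_add, hmem]; exact h1
    · rw [← h, hmem]; exact h2

end equiv

section block

variable {X : Type*} [AddCommGroup X] [Module K X] {a : Fin 3 → End K X} {D : End K (CoreM a)}

/-- the operators on the block `PB a D ν` -/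
def bA (hD : ∀ s x, D (coreOp a s x) = coreOp a s (D x)) (ν : K) (s : Fin 3) :
    End K (PB a D ν) :=
  (a s).restrict fun _ hv => PB_stable hD ν s hv

/-- the nilpotent part of the block -/
def bR (a : Fin 3 → End K X) (D : End K (CoreM a)) (ν : K) : Submodule K (PB a D ν) :=
  (T a).comap (PB a D ν).subtype

theorem bA_coe (hD : ∀ s x, D (coreOp a s x) = coreOp a s (D x)) (ν : K) (s : Fin 3)
    (p : PB a D ν) : ((bA hD ν s p : PB a D ν) : X) = a s p := rfl


theorem bA_word_coe (hD : ∀ s x, D (coreOp a s x) = coreOp a s (D x)) (ν : K) (w : List (Fin 3))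
    (p : PB a D ν) : (((w.map (bA hD ν)).prod p : PB a D ν) : X) = (w.map a).prod p := by
  induction w with
  | nil => rfl
  | cons s w ih =>
    simp only [List.map_cons, List.prod_cons, Module.End.mul_apply]
    rw [bA_coe, ih]

theorem bA_perf [FiniteDimensional K X] (hD : ∀ s x, D (coreOp a s x) = coreOp a s (D x)) (ν : K)
    (p : PB a D ν) : ∃ f : Fin 3 → PB a D ν, p = ∑ t, bA hD ν t (f t) := by
  obtain ⟨f, hf1, hf2⟩ := PB_exists hD ν p.2
  refine ⟨fun t => ⟨f t, hf1 t⟩, ?_⟩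
  apply Subtype.ext
  rw [← hf2, Submodule.coe_sum]
  rfl

/-- words of length `≥ k` kill `Nk k`. -/
theorem word_Nk (a : Fin 3 → End K X) (k : ℕ) : ∀ w : List (Fin 3), k ≤ w.length →
    ∀ v ∈ Nk a k, (w.map a).prod v = 0 := by
  induction k with
  | zero => intro w _ v hv; rw [mem_Nk_zero.1 hv, map_zero]
  | succ k ih =>
    intro w hw v hv
    obtain ⟨w', s, rfl⟩ : ∃ w' s, w = w' ++ [s] := by
      rcases List.eq_nil_or_concat w with h | ⟨w', s, h⟩
      · rw [h] at hw; simp at hw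
      · exact ⟨w', s, by rw [h, List.concat_eq_append]⟩
    rw [List.map_append, List.prod_append, Module.End.mul_apply]
    have h1 : ([s].map a).prod v = a s v := by simp
    rw [h1]
    exact ih w' (by simp at hw; omega) _ (mem_Nk_succ.1 hv s)

theorem bR_kills [FiniteDimensional K X] (hD : ∀ s x, D (coreOp a s x) = coreOp a s (D x))
    (ν : K) : ∃ n, ∀ w : List (Fin 3), n ≤ w.length → ∀ r ∈ bR a D ν,
      (w.map (bA hD ν)).prod r = 0 := by
  obtain ⟨n, hn⟩ := T_eq_Nk a
  refine ⟨n, fun w hw r hr => ?_⟩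
  apply Subtype.ext
  rw [bA_word_coe]
  have hr' : (r : X) ∈ T a := hr
  rw [hn] at hr'
  exact word_Nk a n w hw _ hr'

/-- `Nk` of the restricted family -/
theorem mem_Nk_bA (hD : ∀ s x, D (coreOp a s x) = coreOp a s (D x)) (ν : K) (k : ℕ) :
    ∀ p : PB a D ν, p ∈ Nk (bA hD ν) k ↔ (p : X) ∈ Nk a k := by
  induction k with
  | zero => intro p; rw [mem_Nk_zero, mem_Nk_zero]; exact Subtype.ext_iff
  | succ k ih =>
    intro p
    rw [mem_Nk_succ, mem_Nk_succ]
    exact forall_congr' fun s => ih _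

theorem T_bA (hD : ∀ s x, D (coreOp a s x) = coreOp a s (D x)) (ν : K) :
    T (bA hD ν) = bR a D ν := by
  ext p
  change p ∈ T (bA hD ν) ↔ (p : X) ∈ T a
  rw [mem_T, mem_T]
  exact exists_congr fun k => mem_Nk_bA hD ν k p

/-- the map of the block to the generalised eigenspace -/
noncomputable def toE (a : Fin 3 → End K X) (D : End K (CoreM a)) (ν : K) :
    PB a D ν →ₗ[K] D.maxGenEigenspace ν :=
  LinearMap.codRestrict _ ((Rad a).mkQ ∘ₗ Submodule.inclusion (PB_le_Ainf ν))
    fun p => (PB_mem p.2).2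

theorem toE_coe (ν : K) (p : PB a D ν) :
    ((toE a D ν p : D.maxGenEigenspace ν) : CoreM a) = (Rad a).mkQ ⟨(p : X), PB_le_Ainf ν p.2⟩ := rfl

theorem toE_surj [FiniteDimensional K X] (hD : ∀ s x, D (coreOp a s x) = coreOp a s (D x))
    (hs : ⨆ ν, D.maxGenEigenspace ν = ⊤) (ν : K) : Function.Surjective (toE a D ν) := by
  intro m
  obtain ⟨v, h, hv, hm⟩ := PB_surj hD hs ν m.1 m.2
  exact ⟨⟨v, hv⟩, Subtype.ext hm⟩

theorem toE_zero (ν : K) (p : PB a D ν) : toE a D ν p = 0 ↔ p ∈ bR a D ν := by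
  constructor
  · intro h
    have h1 : (Rad a).mkQ ⟨(p : X), PB_le_Ainf ν p.2⟩ = 0 := by
      rw [← toE_coe, h]; rfl
    exact (mk_zero_iff _).1 h1
  · intro h
    apply Subtype.ext
    rw [toE_coe]
    exact (mk_zero_iff (PB_le_Ainf ν p.2)).2 h

theorem toE_bA (hD : ∀ s x, D (coreOp a s x) = coreOp a s (D x)) (ν : K) (s : Fin 3)
    (p : PB a D ν) : ((toE a D ν (bA hD ν s p) : D.maxGenEigenspace ν) : CoreM a) =
      coreOp a s (toE a D ν p : D.maxGenEigenspace ν) := rfl

theorem toE_bA_pow (hD : ∀ s x, D (coreOp a s x) = coreOp a s (D x)) (ν : K) (s : Fin 3) (k : ℕ)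
    (p : PB a D ν) : ((toE a D ν ((bA hD ν s ^ k) p) : D.maxGenEigenspace ν) : CoreM a) =
      (coreOp a s ^ k) (toE a D ν p : D.maxGenEigenspace ν) := by
  induction k generalizing p with
  | zero => rfl
  | succ k ih =>
    rw [pow_succ, pow_succ, Module.End.mul_apply, Module.End.mul_apply, ih, toE_bA]

theorem Pinf_bA [FiniteDimensional K X] (hD : ∀ s x, D (coreOp a s x) = coreOp a s (D x)) (ν : K) :
    Mix.Pinf (bA hD ν) = ⊤ := by
  have key : ∀ k, ∀ p : PB a D ν, p ∈ Mix.Rg (bA hD ν) k := by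
    intro k
    induction k with
    | zero => intro p; trivial
    | succ k ih =>
      intro p
      obtain ⟨f, rfl⟩ := bA_perf hD ν p
      exact Submodule.sum_mem _ fun t _ => Mix.map_mem_Rg t (ih _)
  rw [eq_top_iff]
  rintro p -
  exact Mix.mem_Pinf.2 fun k => key k p

/-- the map of `Pinf` of the restricted family onto the generalised eigenspace -/
noncomputable def f0 (hD : ∀ s x, D (coreOp a s x) = coreOp a s (D x)) (ν : K) :
    Mix.Pinf (bA hD ν) →ₗ[K] D.maxGenEigenspace ν :=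
  toE a D ν ∘ₗ (Mix.Pinf (bA hD ν)).subtype

theorem f0_surj [FiniteDimensional K X] (hD : ∀ s x, D (coreOp a s x) = coreOp a s (D x))
    (hs : ⨆ ν, D.maxGenEigenspace ν = ⊤) (ν : K) : Function.Surjective (f0 hD ν) := by
  intro m
  obtain ⟨p, hp⟩ := toE_surj hD hs ν m
  exact ⟨⟨p, by rw [Pinf_bA]; trivial⟩, hp⟩

theorem f0_ker (hD : ∀ s x, D (coreOp a s x) = coreOp a s (D x)) (ν : K) :
    Mix.TP (bA hD ν) = ker (f0 hD ν) := by
  ext p
  rw [Mix.mem_TP, T_bA, LinearMap.mem_ker]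
  exact (toE_zero ν (p : PB a D ν)).symm

/-- the core of the restricted family is the generalised eigenspace -/
noncomputable def eE [FiniteDimensional K X] (hD : ∀ s x, D (coreOp a s x) = coreOp a s (D x))
    (hs : ⨆ ν, D.maxGenEigenspace ν = ⊤) (ν : K) :
    Mix.Cor (bA hD ν) ≃ₗ[K] D.maxGenEigenspace ν :=
  (Submodule.quotEquivOfEq _ _ (f0_ker hD ν)).trans
    ((f0 hD ν).quotKerEquivOfSurjective (f0_surj hD hs ν))

theorem eE_mk [FiniteDimensional K X] (hD : ∀ s x, D (coreOp a s x) = coreOp a s (D x))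
    (hs : ⨆ ν, D.maxGenEigenspace ν = ⊤) (ν : K) (p : Mix.Pinf (bA hD ν)) :
    eE hD hs ν (Submodule.Quotient.mk p) = toE a D ν (p : PB a D ν) := rfl

theorem eE_ac [FiniteDimensional K X] (hD : ∀ s x, D (coreOp a s x) = coreOp a s (D x))
    (hs : ⨆ ν, D.maxGenEigenspace ν = ⊤) (ν : K) (s : Fin 3) (x : Mix.Cor (bA hD ν)) :
    eE hD hs ν (Mix.ac (bA hD ν) s x) =
      (coreOp a s).restrict (Core.gen_stable (hD s) ν) (eE hD hs ν x) := by
  obtain ⟨p, rfl⟩ := Submodule.Quotient.mk_surjective _ x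
  rw [Mix.ac_mk, eE_mk, eE_mk]
  apply Subtype.ext
  rfl

theorem finrank_ker_equiv {M N : Type*} [AddCommGroup M] [Module K M] [AddCommGroup N] [Module K N]
    (e : M ≃ₗ[K] N) (f : End K M) (g : End K N) (h : ∀ x, e (f x) = g (e x)) :
    finrank K (ker f) = finrank K (ker g) := by
  have h1 : ker g = (ker f).map e.toLinearMap := by
    ext y
    constructor
    · intro hy
      refine ⟨e.symm y, ?_, e.apply_symm_apply y⟩
      change f (e.symm y) = 0
      apply e.injective
      rw [h, e.apply_symm_apply, map_zero]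
      exact hy
    · rintro ⟨x, hx, rfl⟩
      change g (e x) = 0
      rw [← h, show f x = 0 from hx, map_zero]
  rw [h1]
  exact (LinearEquiv.finrank_map_eq e _).symm

/-- **block data from `Tame`.** -/
theorem blkD [FiniteDimensional K X] (hD : ∀ s x, D (coreOp a s x) = coreOp a s (D x))
    (hs : ⨆ ν, D.maxGenEigenspace ν = ⊤) (hsum : ∀ v, ∑ s, a s v = 0)
    (hT : Core.Tame (coreOp a) D) :
    ∃ l : Fin 3 → ℕ, ∑ s, (1 - 1 / (l s : ℚ)) = 2 ∧
      ∀ ν, D.maxGenEigenspace ν ≠ ⊥ → BlkD (bA hD ν) (bR a D ν) l := by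
  obtain ⟨-, -, l, h1, h3, h4⟩ := hT
  refine ⟨l, h4, fun ν hν => ?_⟩
  have hst : ∀ s, ∀ m ∈ D.maxGenEigenspace ν, coreOp a s m ∈ D.maxGenEigenspace ν :=
    fun s m hm => Core.gen_stable (hD s) ν m hm
  have hpow : ∀ s, ∀ m ∈ D.maxGenEigenspace ν, (coreOp a s ^ l s) m = 0 :=
    fun s => ((h3 s ν hν).1 (l s)).2 le_rfl
  have hfree : ∀ s, l s * finrank K (ker (coreOp a s) ⊓ D.maxGenEigenspace ν :
      Submodule K (CoreM a)) = finrank K (D.maxGenEigenspace ν) := fun s => (h3 s ν hν).2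
  have hbsum : ∀ p : PB a D ν, ∑ t, bA hD ν t p = 0 := by
    intro p
    apply Subtype.ext
    rw [Submodule.coe_sum]
    exact hsum p
  have hbpow : ∀ s (p : PB a D ν), (bA hD ν s ^ l s) p ∈ bR a D ν := by
    intro s p
    rw [← toE_zero]
    apply Subtype.ext
    rw [toE_bA_pow]
    exact hpow s _ (toE a D ν p).2
  have hnil : ∀ s, Mix.ac (bA hD ν) s ^ l s = 0 := by
    intro s
    apply LinearMap.ext
    intro x
    obtain ⟨p, rfl⟩ := Submodule.Quotient.mk_surjective _ x
    rw [QBlk.ac_pow_mk, LinearMap.zero_apply]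
    refine Mix.mk_eq_zero.2 ?_
    rw [QBlk.ap_pow_coe, T_bA]
    exact hbpow s _
  have hfree' : ∀ s, l s * finrank K (ker (Mix.ac (bA hD ν) s)) =
      finrank K (Mix.Cor (bA hD ν)) := by
    intro s
    rw [(eE hD hs ν).finrank_eq,
      finrank_ker_equiv (eE hD hs ν) _ ((coreOp a s).restrict (hst s)) (eE_ac hD hs ν s),
      RRk.finrank_ker_restrict (hst s)]
    exact hfree s
  refine
    { top := ?_
      perf := bA_perf hD ν
      sum := hbsum
      st := fun t r hr => T_stable t hr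
      kills := bR_kills hD ν
      two_le := RRk.two_le h1 h4
      pow := hbpow
      gen := ?_
      ne := ?_
      two := ?_ }
  · rw [eq_top_iff]
    rintro p -
    obtain ⟨f, hf⟩ := bA_perf hD ν p
    rw [hf]
    exact Submodule.sum_mem _ fun t _ => Submodule.mem_iSup_of_mem t ⟨f t, rfl⟩
  · intro S hS1 hS2 r hr
    have h5 := QBlk.gen hbsum h1 hnil hfree' h4 (S.comap (Mix.Pinf (bA hD ν)).subtype)
      (fun s p => by
        change (((QBlk.ap (bA hD ν) s ^ l s) p : Mix.Pinf (bA hD ν)) : PB a D ν) ∈ S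
        rw [QBlk.ap_pow_coe]
        exact hS2 s _)
      (fun t r hr => hS1 t _ hr)
    have h6 : (⟨r, by rw [Pinf_bA]; trivial⟩ : Mix.Pinf (bA hD ν)) ∈ Mix.TP (bA hD ν) := by
      rw [Mix.mem_TP, T_bA]
      exact hr
    exact h5 h6
  · intro s
    obtain ⟨v, hv, hne⟩ := RRk.block_pow (hst s) hν (h1 s) (hfree s)
    obtain ⟨p, hp⟩ := toE_surj hD hs ν ⟨v, hv⟩
    refine ⟨p, fun h => hne ?_⟩
    have h5 := (toE_zero ν _).2 h
    have h6 := toE_bA_pow hD ν s (l s - 1) p
    rw [h5, hp] at h6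
    exact h6.symm
  · intro t u htu
    obtain ⟨s, hst', hsu⟩ : ∃ s : Fin 3, s ≠ t ∧ s ≠ u := by
      revert htu; revert t u; decide
    obtain ⟨x, hx, y, hy, h5, h6⟩ := RRk.block_ab hst hν h1 hfree h4 hst' hsu htu
    obtain ⟨p, hp⟩ := toE_surj hD hs ν ⟨x, hx⟩
    obtain ⟨q, hq⟩ := toE_surj hD hs ν ⟨y, hy⟩
    refine ⟨p, q, ?_, ?_⟩
    · rw [← toE_zero, map_add]
      apply Subtype.ext
      rw [Submodule.coe_add, toE_bA, toE_bA, hp, hq]
      exact h5
    · intro h
      have h7 := (toE_zero ν _).2 h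
      have h8 := toE_bA hD ν t p
      rw [h7, hp] at h8
      exact h6 h8.symm

end block

end Crest.Agent.R172.SCB
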