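import Crest.Agent.R172.SUX1
import Crest.Agent.R172.Dual3

/-!
Row 172 (S0260), S-side (t2), arbitrary radical: the first derivative at `H_t` and the span lemma
for a pair of different blocks, tensors in `U`.
-/

set_option autoImplicit false
set_option linter.unusedSectionVars false
set_option linter.unusedFintypeInType false
set_option linter.unusedDecidableInType false

namespace Crest.Agent.R172.SGl1

open Matrix Module TensorProduct Crest.Agent.R172.FO Crest.Agent.R172.Qt Crest.Agent.R172.SpS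
  Crest.Agent.R172.Om Crest.Agent.R172.SUX

variable {ι : Type*} [Fintype ι] [DecidableEq ι] {δ : Type*} [Fintype δ] [DecidableEq δ]
variable {k K : Type*} [Field k] [Field K] [Algebra k K]
variable {arm : δ → Fin 3} {J : Matrix ι ι K} {B : Matrix δ δ K}
  {N W : Submodule K (Matrix ι δ K)}

/-- `a ⊗ b` as a bilinear map -/
def vm (K : Type*) [Field K] (α β : Type*) : (α → K) →ₗ[K] (β → K) →ₗ[K] Matrix α β K :=
  LinearMap.mk₂ K vecMulVec (fun a b c => add_vecMulVec a b c)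
    (fun t a b => smul_vecMulVec t a b) (fun a b c => vecMulVec_add a b c)
    (fun t a b => by rw [vecMulVec_smul])

@[simp] theorem vm_apply {α β : Type*} (a : α → K) (b : β → K) : vm K α β a b = vecMulVec a b :=
  rfl

/-- the matrix of a tensor of `Q2 ⊗ Q1` -/
noncomputable def ten (Q2 Q1 : Submodule K (δ → K)) : Q2 ⊗[K] Q1 →ₗ[K] Matrix δ δ K :=
  TensorProduct.lift ((vm K δ δ).compl₁₂ Q2.subtype Q1.subtype)

@[simp] theorem ten_tmul {Q2 Q1 : Submodule K (δ → K)} (a : Q2) (b : Q1) :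
    ten Q2 Q1 (a ⊗ₜ[K] b) = vecMulVec (a : δ → K) (b : δ → K) := by
  simp [ten]

/-- `ω_r = B E_r S` -/
def om (arm : δ → Fin 3) (B S : Matrix δ δ K) (r : Fin 3) : Matrix δ δ K := B * E K arm r * S

/-- restriction of a matrix to a stable submodule -/
def rs (M : Matrix δ δ K) (Q : Submodule K (δ → K)) (h : ∀ u ∈ Q, M *ᵥ u ∈ Q) : End K Q :=
  (Matrix.toLin' M).restrict h

theorem rs_coe {M : Matrix δ δ K} {Q : Submodule K (δ → K)} (h : ∀ u ∈ Q, M *ᵥ u ∈ Q) (u : Q) :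
    ((rs M Q h u : Q) : δ → K) = M *ᵥ (u : δ → K) := rfl

/-- right multiplication by `E_s` -/
def mE (arm : δ → Fin 3) (s : Fin 3) : Matrix ι δ K →ₗ[K] Matrix ι δ K where
  toFun M := M * E K arm s
  map_add' a b := Matrix.add_mul a b _
  map_smul' t a := Matrix.smul_mul t a _

@[simp] theorem mE_apply (s : Fin 3) (M : Matrix ι δ K) : mE arm s M = M * E K arm s := rfl

/-- the form `q(a,b) = (F a)(S b)ᵀ E_s` -/
noncomputable def qa (arm : δ → Fin 3) (F : Matrix ι δ K) (S : Matrix δ δ K)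
    (Q2 Q1 : Submodule K (δ → K)) (s : Fin 3) : Q2 →ₗ[K] Q1 →ₗ[K] Matrix ι δ K :=
  ((vm K ι δ).compl₁₂ (Matrix.toLin' F ∘ₗ Q2.subtype) (Matrix.toLin' S ∘ₗ Q1.subtype)).compr₂
    (mE arm s)

theorem qa_apply (F : Matrix ι δ K) (S : Matrix δ δ K) (Q2 Q1 : Submodule K (δ → K)) (s : Fin 3)
    (a : Q2) (b : Q1) : qa arm F S Q2 Q1 s a b =
      vecMulVec (F *ᵥ (a : δ → K)) (S *ᵥ (b : δ → K)) * E K arm s := by
  simp [qa]

section alg

variable {F H kk : Matrix ι δ K} {S SH Sk : Matrix δ δ K} {Q1 Q2 : Submodule K (δ → K)}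
  {c1 c2 : K}

/-- the relations of a pair of blocks at one parameter -/
structure Rel (F H kk : Matrix ι δ K) (S SH Sk : Matrix δ δ K) (Q1 Q2 : Submodule K (δ → K))
    (c1 c2 : K) : Prop where
  Hskew : SHᵀ = -SH
  kskew : Skᵀ = -Sk
  S1 : ∀ u ∈ Q1, SH *ᵥ u = c1 ^ 2 • S *ᵥ u
  S2 : ∀ u ∈ Q2, SH *ᵥ u = c2 ^ 2 • S *ᵥ u
  k1 : ∀ u ∈ Q1, kk *ᵥ u = F *ᵥ u
  k2 : ∀ u ∈ Q2, kk *ᵥ u = 0
  H1 : ∀ u ∈ Q1, H *ᵥ u = c1 • F *ᵥ u
  H2 : ∀ u ∈ Q2, H *ᵥ u = c2 • F *ᵥ u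
  t1 : ∀ u ∈ Q1, Sk *ᵥ u = c1 • S *ᵥ u
  t2 : ∀ u ∈ Q2, Sk *ᵥ u = 0

theorem vecMul_skew {A : Matrix δ δ K} (hA : Aᵀ = -A) (u : δ → K) : u ᵥ* A = -(A *ᵥ u) := by
  rw [← mulVec_transpose, hA, neg_mulVec]

/-- the exactness of the family of matrices -/
theorem ten_defect (hB : Bᵀ = B)
    (R : Rel F H kk S SH Sk Q1 Q2 c1 c2)
    (h1 : ∀ r, ∀ u ∈ Q1, om arm B S r *ᵥ u ∈ Q1) (h2 : ∀ r, ∀ u ∈ Q2, om arm B S r *ᵥ u ∈ Q2)
    {ρ : K} (hρ : c1 * ρ = c2) (r : Fin 3) (z : Q2 ⊗[K] Q1) :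
    ten Q2 Q1 z * SH * E K arm r * B - B * E K arm r * SH * ten Q2 Q1 z =
      -(c1 ^ 2 • ten Q2 Q1 (Dual.defect (rs (om arm B S r) Q1 (h1 r))
        (-(rs (om arm B S r) Q2 (h2 r))) (ρ ^ 2) z)) := by
  induction z using TensorProduct.induction_on with
  | zero => simp
  | tmul a b =>
    have e1 : ten Q2 Q1 (Dual.defect (rs (om arm B S r) Q1 (h1 r))
        (-(rs (om arm B S r) Q2 (h2 r))) (ρ ^ 2) (a ⊗ₜ[K] b)) =
        vecMulVec (a : δ → K) (om arm B S r *ᵥ (b : δ → K)) +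
          ρ ^ 2 • vecMulVec (om arm B S r *ᵥ (a : δ → K)) (b : δ → K) := by
      rw [Dual.defect_tmul]
      simp only [map_sub, map_smul, ten_tmul, LinearMap.neg_apply, rs_coe, neg_vecMulVec,
        Submodule.coe_neg, smul_neg, sub_neg_eq_add]
    have e2 : (SH * E K arm r * B)ᵀ *ᵥ (b : δ → K) = -(c1 ^ 2 • (om arm B S r *ᵥ (b : δ → K))) := by
      rw [transpose_mul, transpose_mul, R.Hskew, E_transpose, hB, ← Matrix.mul_assoc,
        Matrix.mul_neg, neg_mulVec, ← mulVec_mulVec, R.S1 _ b.2, mulVec_smul, mulVec_mulVec]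
      rfl
    have e3 : (B * E K arm r * SH) *ᵥ (a : δ → K) = c2 ^ 2 • (om arm B S r *ᵥ (a : δ → K)) := by
      rw [← mulVec_mulVec, R.S2 _ a.2, mulVec_smul, mulVec_mulVec]
      rfl
    rw [e1, ten_tmul]
    have e4 : vecMulVec (a : δ → K) (b : δ → K) * SH * E K arm r * B =
        vecMulVec (a : δ → K) ((SH * E K arm r * B)ᵀ *ᵥ (b : δ → K)) := by
      rw [Matrix.mul_assoc, Matrix.mul_assoc, Matrix.vecMulVec_mul, mulVec_transpose,
        Matrix.mul_assoc]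
    rw [e4, e2, Matrix.mul_vecMulVec, e3, ← hρ]
    ext i j
    simp only [vecMulVec_apply, Matrix.sub_apply, Matrix.neg_apply, Matrix.smul_apply,
      Matrix.add_apply, Pi.neg_apply, Pi.smul_apply, smul_eq_mul]
    ring
  | add x y hx hy =>
    simp only [map_add, Matrix.add_mul, Matrix.mul_add, smul_add, neg_add]
    rw [← hx, ← hy]
    abel

theorem ten_defect_t (hB : Bᵀ = B)
    (R : Rel F H kk S SH Sk Q1 Q2 c1 c2) (r : Fin 3) (X : Matrix δ δ K) :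
    Xᵀ * SH * E K arm r * B - B * E K arm r * SH * Xᵀ =
      (X * SH * E K arm r * B - B * E K arm r * SH * X)ᵀ := by
  rw [transpose_sub]
  simp only [transpose_mul, R.Hskew, E_transpose, hB, Matrix.neg_mul, Matrix.mul_neg,
    Matrix.mul_assoc]
  abel

/-- **exactness** -/
theorem exact_of (hB : Bᵀ = B)
    {P : Matrix ι ι K} (hSH : SH = th J H P H)
    (R : Rel F H kk S SH Sk Q1 Q2 c1 c2)
    (h1 : ∀ r, ∀ u ∈ Q1, om arm B S r *ᵥ u ∈ Q1) (h2 : ∀ r, ∀ u ∈ Q2, om arm B S r *ᵥ u ∈ Q2)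
    {ρ : K} (hρ : c1 * ρ = c2) {x : Fin 3 → Q2 ⊗[K] Q1}
    (hx : ∑ r, Dual.defect (rs (om arm B S r) Q1 (h1 r))
        (-(rs (om arm B S r) Q2 (h2 r))) (ρ ^ 2) (x r) = 0) :
    SUX.Exact arm J B H P (fun r => ten Q2 Q1 (x r) + (ten Q2 Q1 (x r))ᵀ) := by
  unfold SUX.Exact
  rw [← hSH]
  have e1 : ∀ r, (ten Q2 Q1 (x r) + (ten Q2 Q1 (x r))ᵀ) * SH * E K arm r * B -
      B * E K arm r * SH * (ten Q2 Q1 (x r) + (ten Q2 Q1 (x r))ᵀ) =
      -(c1 ^ 2 • ten Q2 Q1 (Dual.defect (rs (om arm B S r) Q1 (h1 r))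
        (-(rs (om arm B S r) Q2 (h2 r))) (ρ ^ 2) (x r))) +
      (-(c1 ^ 2 • ten Q2 Q1 (Dual.defect (rs (om arm B S r) Q1 (h1 r))
        (-(rs (om arm B S r) Q2 (h2 r))) (ρ ^ 2) (x r))))ᵀ := by
    intro r
    rw [← ten_defect hB R h1 h2 hρ, ← ten_defect_t hB R]
    simp only [Matrix.add_mul, Matrix.mul_add]
    abel
  rw [Finset.sum_congr rfl fun r _ => e1 r, Finset.sum_add_distrib, ← transpose_sum,
    Finset.sum_neg_distrib, ← Finset.smul_sum, ← map_sum, hx, map_zero, smul_zero, neg_zero,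
    transpose_zero, add_zero]

/-- the first derivative on tensors -/
theorem first_ten (R : Rel F H kk S SH Sk Q1 Q2 c1 c2) (r : Fin 3) (z : Q2 ⊗[K] Q1) :
    (kk * (ten Q2 Q1 z + (ten Q2 Q1 z)ᵀ) * SH - H * (ten Q2 Q1 z + (ten Q2 Q1 z)ᵀ) * Sk) *
      E K arm r = (c1 * c2) • TensorProduct.lift (qa arm F S Q2 Q1 r) z -
        c2 ^ 2 • TensorProduct.lift ((qa arm F S Q1 Q2 r).flip) z := by
  induction z using TensorProduct.induction_on with
  | zero => simp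
  | tmul a b =>
    have hT : (vecMulVec (a : δ → K) (b : δ → K))ᵀ = vecMulVec (b : δ → K) (a : δ → K) := by
      rw [transpose_vecMulVec]
    have a1 : kk * vecMulVec (a : δ → K) (b : δ → K) * SH = 0 := by
      rw [Matrix.mul_vecMulVec, R.k2 _ a.2, zero_vecMulVec, Matrix.zero_mul]
    have a2 : kk * vecMulVec (b : δ → K) (a : δ → K) * SH =
        -(c2 ^ 2 • vecMulVec (F *ᵥ (b : δ → K)) (S *ᵥ (a : δ → K))) := by
      rw [Matrix.mul_vecMulVec, R.k1 _ b.2, Matrix.vecMulVec_mul, vecMul_skew R.Hskew,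
        R.S2 _ a.2]
      ext i j
      simp only [vecMulVec_apply, Matrix.neg_apply, Matrix.smul_apply, Pi.neg_apply,
        Pi.smul_apply, smul_eq_mul]
      ring
    have a3 : H * vecMulVec (a : δ → K) (b : δ → K) * Sk =
        -((c1 * c2) • vecMulVec (F *ᵥ (a : δ → K)) (S *ᵥ (b : δ → K))) := by
      rw [Matrix.mul_vecMulVec, R.H2 _ a.2, Matrix.vecMulVec_mul, vecMul_skew R.kskew,
        R.t1 _ b.2]
      ext i j
      simp only [vecMulVec_apply, Matrix.neg_apply, Matrix.smul_apply, Pi.neg_apply,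
        Pi.smul_apply, smul_eq_mul]
      ring
    have a4 : H * vecMulVec (b : δ → K) (a : δ → K) * Sk = 0 := by
      rw [Matrix.mul_vecMulVec, Matrix.vecMulVec_mul, vecMul_skew R.kskew, R.t2 _ a.2, neg_zero]
      ext i j
      simp [vecMulVec_apply]
    rw [ten_tmul, hT, TensorProduct.lift.tmul, TensorProduct.lift.tmul, LinearMap.flip_apply,
      qa_apply, qa_apply, Matrix.mul_add, Matrix.add_mul, a1, a2, Matrix.mul_add, Matrix.add_mul,
      a3, a4, zero_add, add_zero, sub_neg_eq_add, Matrix.add_mul, Matrix.neg_mul,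
      Matrix.smul_mul, Matrix.smul_mul]
    abel
  | add x y hx hy =>
    simp only [map_add, smul_add, transpose_add]
    have e1 : (kk * (ten Q2 Q1 x + ten Q2 Q1 y + ((ten Q2 Q1 x)ᵀ + (ten Q2 Q1 y)ᵀ)) * SH -
        H * (ten Q2 Q1 x + ten Q2 Q1 y + ((ten Q2 Q1 x)ᵀ + (ten Q2 Q1 y)ᵀ)) * Sk) * E K arm r =
        (kk * (ten Q2 Q1 x + (ten Q2 Q1 x)ᵀ) * SH - H * (ten Q2 Q1 x + (ten Q2 Q1 x)ᵀ) * Sk) *
          E K arm r +
        (kk * (ten Q2 Q1 y + (ten Q2 Q1 y)ᵀ) * SH - H * (ten Q2 Q1 y + (ten Q2 Q1 y)ᵀ) * Sk) *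
          E K arm r := by
      simp only [Matrix.mul_add, Matrix.add_mul, Matrix.sub_mul]
      abel
    rw [e1, hx, hy]
    abel

end alg

/-- good classes -/
def QG (N G : Submodule K (Matrix ι δ K)) : Submodule K (Matrix ι δ K) := N ⊔ G

theorem mem_QG {G : Submodule K (Matrix ι δ K)} {y w : Matrix ι δ K} (hw : w ∈ G)
    (h : y - w ∈ N) : y ∈ QG N G := by
  have : y = (y - w) + w := by abel
  rw [this]
  exact Submodule.add_mem_sup h hw


/-- **one parameter** -/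
theorem first_pair {F H kk : Matrix ι δ K} {S : Matrix δ δ K} {Q1 Q2 : Submodule K (δ → K)}
    {c1 c2 ρ : K} (h : Ctx k arm J B N W H) (h2 : (2 : K) ≠ 0) {Ri : Matrix δ ι K}
    (hR : H * Ri * H = H) {P : Matrix ι ι K × (Fin 3 → Matrix ι ι K)} (hP : P ∈ NN arm J N H)
    (hV : Vert k arm J N W H P) (hk : kk ∈ N ⊓ W)
    (R : Rel F H kk S (th J H P.1 H) (th J H P.1 kk) Q1 Q2 c1 c2) (hc1 : c1 ≠ 0) (hc2 : c2 ≠ 0)
    (hρ : c1 * ρ = c2)
    (h1 : ∀ r, ∀ u ∈ Q1, om arm B S r *ᵥ u ∈ Q1) (h2' : ∀ r, ∀ u ∈ Q2, om arm B S r *ᵥ u ∈ Q2)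
    {x : Fin 3 → Q2 ⊗[K] Q1}
    (hx : ∑ r, Dual.defect (rs (om arm B S r) Q1 (h1 r))
        (-(rs (om arm B S r) Q2 (h2' r))) (ρ ^ 2) (x r) = 0)
    (G : Submodule K (Matrix ι δ K))
    (hG : ∀ d : Derivation k K K,
      Mv k arm J N W H P.1 (fun r => ten Q2 Q1 (x r) + (ten Q2 Q1 (x r))ᵀ) d →
      wd arm J H P.1 (fun r => ten Q2 Q1 (x r) + (ten Q2 Q1 (x r))ᵀ) d kk ∈ G) :
    ∑ r, TensorProduct.lift (qa arm F S Q2 Q1 r) (x r) +
      ρ • ∑ r, TensorProduct.lift (-(qa arm F S Q1 Q2 r).flip) (x r) ∈ QG N G := by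
  have hD := h.data
  have hex : SUX.Exact arm J B H P.1 (fun r => ten Q2 Q1 (x r) + (ten Q2 Q1 (x r))ᵀ) :=
    exact_of hD.B_symm rfl R h1 h2' hρ hx
  obtain ⟨d, hd⟩ := SUX.exists_move h h2 hR hP hV
    (Y := fun r => ten Q2 Q1 (x r) + (ten Q2 Q1 (x r))ᵀ) (fun r => by
      rw [transpose_add, transpose_transpose, add_comm]) hex
  have hf := hd.first hk.1 (h.perp kk hk)
  rw [Finset.sum_congr rfl fun r _ => first_ten (arm := arm) R r (x r),
    Finset.sum_sub_distrib, ← Finset.smul_sum, ← Finset.smul_sum] at hf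
  have hg := hG d hd
  set w := wd arm J H P.1 (fun r => ten Q2 Q1 (x r) + (ten Q2 Q1 (x r))ᵀ) d kk with hw
  have hc : c1 * c2 ≠ 0 := mul_ne_zero hc1 hc2
  refine mem_QG (w := -((c1 * c2)⁻¹ • w)) (G.neg_mem (G.smul_mem _ hg)) ?_
  have h3 := N.smul_mem (c1 * c2)⁻¹ hf
  convert h3 using 1
  rw [smul_add, smul_sub, smul_smul, smul_smul, inv_mul_cancel₀ hc, one_smul, sub_neg_eq_add]
  have e1 : (c1 * c2)⁻¹ * c2 ^ 2 = ρ := by
    rw [← hρ]
    have h4 : ρ ≠ 0 := by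
      rintro rfl
      exact hc2 (by rw [← hρ, mul_zero])
    field_simp
  rw [e1]
  have e2 : ∀ r, TensorProduct.lift (-(qa arm F S Q1 Q2 r).flip) (x r) =
      -(TensorProduct.lift ((qa arm F S Q1 Q2 r).flip) (x r)) := by
    intro r
    have : TensorProduct.lift (-(qa arm F S Q1 Q2 r).flip) =
        -(TensorProduct.lift ((qa arm F S Q1 Q2 r).flip)) :=
      TensorProduct.ext' fun a b => by simp
    rw [this, LinearMap.neg_apply]
  rw [Finset.sum_congr rfl fun r _ => e2 r, Finset.sum_neg_distrib, smul_neg]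
  abel




end Crest.Agent.R172.SGl1
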