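import Crest.Agent.R172.TInj
import Crest.Agent.R172.SpS10
import Crest.Agent.R172.Fin4
import Crest.Agent.R172.SEnd
import Crest.Agent.R172.SEnd2
import Crest.Agent.R172.SEndW
import Crest.Agent.R172.SCore2
import Crest.Agent.R172.SEnd5
import Crest.Agent.R172.PTy
import Crest.Agent.R172.Qt9

-- ▼ part R172/TGlue
section

/-!
Row 172 (S0260): the lemma (INJ) for the generic element `P` of `NN F` (`step2` of `GenQ`).
-/

set_option autoImplicit false
set_option linter.unusedSectionVars false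
set_option maxHeartbeats 800000

namespace Crest.Agent.R172.TI

open Matrix Module Crest.AlgebraR.SpinSaturation Crest.Agent.R172.SoGrade
open Crest.Agent.R172.FO Crest.Agent.R172.Qt
open Crest.Agent.R172.Gen (Jm Ix emb IsSo)
open Crest.Agent.R172.CF Crest.Agent.R172.HM8 Crest.Agent.R172.HM9
open Crest.Agent.R172.Ind (GI kk mu perp Bd Inst)
open Crest.Agent.R172.Ext Crest.Agent.R172.GenP Crest.Agent.R172.GenQ
open Crest.Agent.R172.Om (Kiso Scal)

section defs

variable {ι δ K : Type*} [Fintype ι] [DecidableEq ι] [Fintype δ] [DecidableEq δ] [Field K]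

/-- **(INJ) at `(F, P)`**: an element of `NN F` whose form is trace-orthogonal to all long words in
the form of `P` has form `0`. -/
def InjP (arm : δ → Fin 3) (J : Matrix ι ι K) (B : Matrix δ δ K) (N : Submodule K (Matrix ι δ K))
    (F : Matrix ι δ K) (P : Matrix ι ι K) : Prop :=
  ∀ p' ∈ NN arm J N F, (∃ m : ℕ, ∀ s, ∀ l : List (Fin 3), m ≤ l.length →
    Matrix.trace ((Fᵀ * J * (p'.1 * F)) * (E K arm s * B) *
      (l.map fun s => (Fᵀ * J * (P * F)) * (E K arm s * B)).prod) = 0) → Fᵀ * J * (p'.1 * F) = 0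

/-- word identity: `X_s (φX)…(φX) = (Xφ)…(Xφ) X_t` -/
theorem word_shift (φ : Matrix δ δ K) (X : Fin 3 → Matrix δ δ K) (l : List (Fin 3)) :
    ∀ s, ∃ (w : List (Fin 3)) (t : Fin 3), w.length = l.length ∧
      X s * (l.map fun s => φ * X s).prod = (w.map fun s => X s * φ).prod * X t := by
  induction l with
  | nil => intro s; exact ⟨[], s, rfl, by simp⟩
  | cons u l ih =>
    intro s
    obtain ⟨w, t, hw, h⟩ := ih u
    refine ⟨s :: w, t, by rw [List.length_cons, List.length_cons, hw], ?_⟩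
    rw [List.map_cons, List.prod_cons, List.map_cons, List.prod_cons,
      Matrix.mul_assoc (X s * φ), ← h]
    simp only [Matrix.mul_assoc]

/-- (INJ), form with two words -/
theorem InjP.two {arm : δ → Fin 3} {J : Matrix ι ι K} {B : Matrix δ δ K}
    {N : Submodule K (Matrix ι δ K)} {F : Matrix ι δ K} {P : Matrix ι ι K}
    (h : InjP arm J B N F P) {p' : Matrix ι ι K × (Fin 3 → Matrix ι ι K)}
    (hp' : p' ∈ NN arm J N F) {m : ℕ}
    (hm : ∀ l1 l2 : List (Fin 3), m ≤ l1.length → m ≤ l2.length →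
      (l1.map fun s => (Fᵀ * J * (P * F)) * (E K arm s * B)).prod * (Fᵀ * J * (p'.1 * F)) *
        (l2.map fun s => (E K arm s * B) * (Fᵀ * J * (P * F))).prod = 0) :
    Fᵀ * J * (p'.1 * F) = 0 := by
  refine h p' hp' ⟨m + m, fun s l hl => ?_⟩
  obtain ⟨w, t, hw, e⟩ := word_shift (Fᵀ * J * (P * F)) (fun s => E K arm s * B) (l.take m) s
  rw [List.length_take] at hw
  rw [← List.take_append_drop m l, List.map_append, List.prod_append, ← Matrix.mul_assoc,
    Matrix.mul_assoc _ (E K arm s * B), e, Matrix.trace_mul_comm, ← Matrix.mul_assoc,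
    ← Matrix.mul_assoc, hm _ _ (by rw [List.length_drop]; omega) (by omega), Matrix.zero_mul,
    Matrix.trace_zero]

theorem word_transpose {φ : Matrix δ δ K} {X : Fin 3 → Matrix δ δ K} (hφ : φᵀ = -φ)
    (hX : ∀ s, (X s)ᵀ = -X s) (l : List (Fin 3)) :
    ((l.map fun s => X s * φ).prod)ᵀ = (l.reverse.map fun s => φ * X s).prod := by
  induction l with
  | nil => simp
  | cons s l ih =>
    rw [List.map_cons, List.prod_cons, Matrix.transpose_mul, ih, List.reverse_cons,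
      List.map_append, List.prod_append, List.map_singleton, List.prod_singleton,
      Matrix.transpose_mul, hφ, hX, neg_mul_neg]

/-- **(INJ), core form**: `ψ'` vanishes on `P × P`, `P` = the columns of `F *` (long words). -/
theorem InjP.core {arm : δ → Fin 3} {J : Matrix ι ι K} {B : Matrix δ δ K}
    {N : Submodule K (Matrix ι δ K)} {F : Matrix ι δ K} {P : Matrix ι ι K}
    (h : InjP arm J B N F P) (hφ : (Fᵀ * J * (P * F))ᵀ = -(Fᵀ * J * (P * F)))
    (hX : ∀ s, (E K arm s * B)ᵀ = -(E K arm s * B))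
    {p' : Matrix ι ι K × (Fin 3 → Matrix ι ι K)} (hp' : p' ∈ NN arm J N F) {m : ℕ}
    (hm : ∀ l1 l2 : List (Fin 3), m ≤ l1.length → m ≤ l2.length →
      (F * (l1.map fun s => (E K arm s * B) * (Fᵀ * J * (P * F))).prod)ᵀ * J *
        (p'.1 * (F * (l2.map fun s => (E K arm s * B) * (Fᵀ * J * (P * F))).prod)) = 0) :
    Fᵀ * J * (p'.1 * F) = 0 := by
  refine h.two hp' (m := m) fun l1 l2 h1 h2 => ?_
  have e := hm l1.reverse l2 (by rw [List.length_reverse]; exact h1) h2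
  rw [Matrix.transpose_mul, word_transpose hφ hX, List.reverse_reverse] at e
  rw [← e]
  simp only [Matrix.mul_assoc]

end defs

/-- a left inverse for a linearly independent family of matrices -/
theorem exists_coef {α β : Type*} [Fintype α] [Fintype β] [DecidableEq α] [DecidableEq β]
    {K : Type*} [Field K] {r : ℕ}
    {ψ : Fin r → Matrix α β K} (hψ : LinearIndependent K ψ) :
    ∃ Λ : Fin r → Matrix α β K, ∀ i j, ∑ x, ∑ y, Λ i x y * ψ j x y = if i = j then 1 else 0 := by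
  have hinj : LinearMap.ker (Fintype.linearCombination K ψ) = ⊥ := by
    rw [LinearMap.ker_eq_bot]
    exact hψ.fintypeLinearCombination_injective
  obtain ⟨S, hS⟩ := (Fintype.linearCombination K ψ).exists_leftInverse_of_injective hinj
  refine ⟨fun i x y => S (Matrix.single x y 1) i, fun i j => ?_⟩
  have h1 : S (ψ j) = Pi.single j 1 := by
    have := LinearMap.congr_fun hS (Pi.single j 1)
    rw [LinearMap.comp_apply, Fintype.linearCombination_apply_single, one_smul] at this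
    exact this
  have h2 : ψ j = ∑ x, ∑ y, ψ j x y • Matrix.single x y (1 : K) := by
    conv_lhs => rw [Matrix.matrix_eq_sum_single (ψ j)]
    simp only [Matrix.smul_single, smul_eq_mul, mul_one]
  have h3 : S (ψ j) i = ∑ x, ∑ y, S (Matrix.single x y 1) i * ψ j x y := by
    conv_lhs => rw [h2]
    simp only [map_sum, map_smul, Finset.sum_apply, Pi.smul_apply, smul_eq_mul, mul_comm]
  rw [← h3, h1, Pi.single_apply]

theorem indep_emb {α β : Type*} [Fintype α] [Fintype β] [DecidableEq α] [DecidableEq β]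
    {K κ : Type*} [Field K] [Field κ] (f : K →+* κ) {r : ℕ}
    {ψ : Fin r → Matrix α β K} (hψ : LinearIndependent K ψ) {c : Fin r → κ}
    (h : ∑ j, c j • (ψ j).map f = 0) : c = 0 := by
  obtain ⟨Λ, hΛ⟩ := exists_coef hψ
  funext i
  have h1 : ∑ x, ∑ y, f (Λ i x y) * (∑ j, c j • (ψ j).map f) x y = 0 := by
    rw [h]
    simp
  have h2 : ∑ x, ∑ y, f (Λ i x y) * (∑ j, c j • (ψ j).map f) x y =
      ∑ j, c j * f (∑ x, ∑ y, Λ i x y * ψ j x y) := by
    have h3 : ∀ x y, f (Λ i x y) * (∑ j, c j • (ψ j).map f) x y =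
        ∑ j, c j * f (Λ i x y * ψ j x y) := by
      intro x y
      rw [Matrix.sum_apply, Finset.mul_sum]
      refine Finset.sum_congr rfl fun j _ => ?_
      rw [Matrix.smul_apply, Matrix.map_apply, smul_eq_mul, map_mul]
      ring
    calc ∑ x, ∑ y, f (Λ i x y) * (∑ j, c j • (ψ j).map f) x y
        = ∑ x, ∑ y, ∑ j, c j * f (Λ i x y * ψ j x y) := by
          exact Finset.sum_congr rfl fun x _ => Finset.sum_congr rfl fun y _ => h3 x y
      _ = ∑ x, ∑ j, ∑ y, c j * f (Λ i x y * ψ j x y) := by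
          exact Finset.sum_congr rfl fun x _ => Finset.sum_comm
      _ = ∑ j, ∑ x, ∑ y, c j * f (Λ i x y * ψ j x y) := Finset.sum_comm
      _ = ∑ j, c j * f (∑ x, ∑ y, Λ i x y * ψ j x y) := by
          refine Finset.sum_congr rfl fun j _ => ?_
          rw [map_sum, Finset.mul_sum]
          refine Finset.sum_congr rfl fun x _ => ?_
          rw [map_sum, Finset.mul_sum]
  rw [h2] at h1
  simp only [hΛ] at h1
  simpa using h1

section cfg

variable {n : ℕ} {a : Fin 3 → Fin n → ℤ} {c : Cfg n a} {q : SPol c} {R : Ranked c}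
  {K : Type} [Field K] [Algebra ℂ K]

/-- the form of an element of `NN F`, as a linear map -/
def fm (F : Matrix (Ix n) c.δ K) :
    (Matrix (Ix n) (Ix n) K × (Fin 3 → Matrix (Ix n) (Ix n) K)) →ₗ[K] Matrix c.δ c.δ K where
  toFun p := Fᵀ * Jm n K * (p.1 * F)
  map_add' p q := by rw [Prod.fst_add, Matrix.add_mul, Matrix.mul_add]
  map_smul' t p := by rw [Prod.smul_fst, Matrix.smul_mul, Matrix.mul_smul, RingHom.id_apply]

theorem E_emb (L : Type) [Field L] [Algebra K L] (arm : c.δ → Fin 3) (s : Fin 3) :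
    emb K L (E K arm s) = E L arm s := by
  ext d e
  unfold E
  rw [FO3.emb_apply', Matrix.diagonal_apply, Matrix.diagonal_apply]
  split_ifs <;> simp

theorem lc_eq {κ : Type} [Field κ] [Algebra K κ] {b : ℕ} (ψ : Fin b → Matrix c.δ c.δ K)
    (x : Fin b → κ) (s : Fin 3) :
    lc (algebraMap K κ) (fun j s => ψ j * (E K c.arm s * c.B K)) x s =
      (∑ j, x j • (ψ j).map (algebraMap K κ)) * (E κ c.arm s * c.B κ) := by
  rw [lc, Finset.sum_mul]
  refine Finset.sum_congr rfl fun j _ => ?_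
  rw [Matrix.map_mul, Matrix.map_mul, Matrix.smul_mul, c.B_map K κ (algebraMap K κ)]
  congr 3
  exact E_emb κ c.arm s

/-- the trace invariants of `T_Q` have no common zero (over all extensions) -/
theorem nilZ_of {g : Fin 3 → Matrix (Ix n) (Ix n) K} {H : Matrix (Fin q.toPol.m) (Fin q.toPol.m) K}
    (h : Inst c q R K g H) {F : Matrix (Ix n) c.δ K}
    (hF : F ∈ Kiso (Jm n K) (c.N g) (VL (q.toPol.LH H))) {b : ℕ}
    {ψ : Fin b → Matrix c.δ c.δ K} (hψ : LinearIndependent K ψ)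
    {π : Fin b → Matrix (Ix n) (Ix n) K × (Fin 3 → Matrix (Ix n) (Ix n) K)}
    (hπ : ∀ j, π j ∈ NN c.arm (Jm n K) (c.N g) F) (hπψ : ∀ j, fm F (π j) = ψ j) :
    NilZ (fun j s => ψ j * (E K c.arm s * c.B K)) := by
  intro κ iκ f x hx
  obtain ⟨m, hm⟩ := hx
  let _ : Algebra K κ := f.toAlgebra
  let _ : Algebra ℂ κ := (f.comp (algebraMap ℂ K)).toAlgebra
  have _ : IsScalarTower ℂ K κ := IsScalarTower.of_algebraMap_eq' rfl
  have hκ := h.bc κ
  have hKi := bcKiso (L := κ) q.toPol h.gi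
  have hFκ := hKi.up F hF
  have hP : (∑ j, x j • embP κ (π j)) ∈
      NN c.arm (Jm n κ) (c.N fun s => emb K κ (g s)) (emb K κ F) :=
    Submodule.sum_mem _ fun j _ => Submodule.smul_mem _ _ (nn_up (hπ j))
  have hform : (emb K κ F)ᵀ * Jm n κ * ((∑ j, x j • embP κ (π j)).1 * emb K κ F) =
      ∑ j, x j • (ψ j).map f := by
    have h1 : (emb K κ F)ᵀ * Jm n κ * ((∑ j, x j • embP κ (π j)).1 * emb K κ F) =
        fm (emb K κ F) (∑ j, x j • embP κ (π j)) := rfl
    rw [h1, map_sum]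
    refine Finset.sum_congr rfl fun j _ => ?_
    rw [map_smul, ← hπψ j]
    congr 1
    change (emb K κ F)ᵀ * Jm n κ * (emb K κ (π j).1 * emb K κ F) =
      emb K κ (Fᵀ * Jm n K * ((π j).1 * F))
    rw [FO3.emb_mul', FO3.emb_mul', FO3.emb_mul',
      show emb K κ (Jm n K) = Jm n κ from Pol.Jm_map (algebraMap K κ)]
    rfl
  have hw := SpS.nilW_cfg R q.toPol hκ.gi.orth hκ.gi.skew hκ.hgen hκ.data.J_symm hFκ.1.1 hFκ.1.2
    (hFκ.2 _ hFκ.1) _ hP m (fun l hl => by
      rw [← hm l hl.ge]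
      congr 1
      refine List.map_congr_left fun s _ => ?_
      change (emb K κ F)ᵀ * Jm n κ * ((∑ j, x j • embP κ (π j)).1 * emb K κ F) *
        (E κ c.arm s * c.B κ) = _
      rw [hform]
      exact (lc_eq ψ x s).symm)
  rw [hform] at hw
  exact indep_emb f hψ hw

/-- **(INJ) at the generic element of `NN F`** (the output of `GenQ.step2`). -/
theorem injP_of {g : Fin 3 → Matrix (Ix n) (Ix n) K} {H : Matrix (Fin q.toPol.m) (Fin q.toPol.m) K}
    (h : Inst c q R K g H) {F : Matrix (Ix n) c.δ K}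
    (hF : F ∈ Kiso (Jm n K) (c.N g) (VL (q.toPol.LH H))) {r : ℕ}
    {π : Fin r → Matrix (Ix n) (Ix n) K × (Fin 3 → Matrix (Ix n) (Ix n) K)}
    (hπ : Submodule.span K (Set.range π) = NN c.arm (Jm n K) (c.N g) F)
    {L : Type} [Field L] [Algebra K L] [Algebra ℂ L] [IsScalarTower ℂ K L] (u : Fin r → L)
    (hV2 : ∀ p' ∈ NN c.arm (Jm n L) (c.N (fun s => emb K L (g s))) (emb K L F),
      ∃ d : Derivation ℂ L L, (∀ x, d (algebraMap K L x) = 0) ∧
        (∑ i, u i • embP L (π i)).1.map d = p'.1) :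
    InjP c.arm (Jm n L) (c.B L) (c.N (fun s => emb K L (g s))) (emb K L F)
      (∑ i, u i • embP L (π i)).1 := by
  classical
  intro p' hp' hm
  obtain ⟨m, hm⟩ := hm
  obtain ⟨b, ψ, hψ, hψT⟩ := exists_family ((NN c.arm (Jm n K) (c.N g) F).map (fm F))
  have h1 : ∀ j, ∃ p ∈ NN c.arm (Jm n K) (c.N g) F, fm F p = ψ j := by
    intro j
    have : ψ j ∈ (NN c.arm (Jm n K) (c.N g) F).map (fm F) := by
      rw [← hψT]; exact Submodule.subset_span ⟨j, rfl⟩
    exact Submodule.mem_map.1 this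
  choose ρ hρ hρψ using h1
  have h2 : ∀ i, ∃ A : Fin b → K, ∑ j, A j • ψ j = fm F (π i) := by
    intro i
    have : fm F (π i) ∈ Submodule.span K (Set.range ψ) := by
      rw [hψT]
      refine Submodule.mem_map_of_mem ?_
      rw [← hπ]; exact Submodule.subset_span ⟨i, rfl⟩
    exact (Submodule.mem_span_range_iff_exists_fun K).1 this
  choose A hA using h2
  set P := ∑ i, u i • embP L (π i) with hPdef
  set x : Fin b → L := fun j => ∑ i, u i * algebraMap K L (A i j) with hx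
  have hfe : ∀ p : Matrix (Ix n) (Ix n) K × (Fin 3 → Matrix (Ix n) (Ix n) K),
      fm (emb K L F) (embP L p) = emb K L (fm F p) := by
    intro p
    change (emb K L F)ᵀ * Jm n L * (emb K L p.1 * emb K L F) =
      emb K L (Fᵀ * Jm n K * (p.1 * F))
    rw [FO3.emb_mul', FO3.emb_mul', FO3.emb_mul',
      show emb K L (Jm n K) = Jm n L from Pol.Jm_map (algebraMap K L)]
    rfl
  have hform : fm (emb K L F) P = ∑ j, x j • (ψ j).map (algebraMap K L) := by
    rw [hPdef, map_sum]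
    have h3 : ∀ i, fm (emb K L F) (u i • embP L (π i)) =
        ∑ j, (u i * algebraMap K L (A i j)) • (ψ j).map (algebraMap K L) := by
      intro i
      rw [map_smul, hfe, ← hA i, emb_sum2, Finset.smul_sum]
      refine Finset.sum_congr rfl fun j _ => ?_
      rw [emb_smul2, smul_smul]
    rw [Finset.sum_congr rfl fun i _ => h3 i, Finset.sum_comm]
    refine Finset.sum_congr rfl fun j _ => ?_
    rw [hx, ← Finset.sum_smul]
  obtain ⟨d, hd0, hdP⟩ := hV2 p' hp'
  have hdF : (emb K L F).map d = 0 := by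
    ext i j
    exact hd0 _
  have hdform : (fm (emb K L F) P).map d = fm (emb K L F) p' := by
    change ((emb K L F)ᵀ * Jm n L * (P.1 * emb K L F)).map d =
      (emb K L F)ᵀ * Jm n L * (p'.1 * emb K L F)
    rw [FO.map_mul_der, FO.map_mul_der, FO.map_mul_der, hdF, hdP, Matrix.mul_zero, add_zero,
      FO3.Jm_der, Matrix.mul_zero, add_zero, FO.map_transpose_der, hdF, Matrix.transpose_zero,
      Matrix.zero_mul, Matrix.zero_mul, zero_add]
  have hdx : fm (emb K L F) p' = ∑ j, d (x j) • (ψ j).map (algebraMap K L) := by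
    rw [← hdform, hform]
    ext y z
    simp only [Matrix.map_apply, Matrix.sum_apply, Matrix.smul_apply, map_sum, smul_eq_mul,
      d.leibniz, hd0, mul_zero, zero_add]
    exact Finset.sum_congr rfl fun j _ => mul_comm _ _
  have : CharZero K := charZero_of_injective_algebraMap (algebraMap ℂ K).injective
  have hinj := inj (nilZ_of h hF hψ hρ hρψ) (algebraMap K L) x (d.restrictScalars ℤ) hd0 (m := m)
    (fun s l hl => by
      rw [← hm s l hl, lc_eq]
      change Matrix.trace ((∑ j, d (x j) • (ψ j).map (algebraMap K L)) * _ * _) =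
        Matrix.trace (fm (emb K L F) p' * _ * (l.map fun s => fm (emb K L F) P * _).prod)
      rw [← hdx, hform]
      congr 3
      exact List.map_congr_left fun s _ => lc_eq ψ x s)
  change fm (emb K L F) p' = 0
  rw [hdx]
  refine Finset.sum_eq_zero fun j _ => ?_
  rw [show d (x j) = 0 from hinj j, zero_smul]

end cfg

end Crest.Agent.R172.TI
end

-- ▼ part R172/Fin5
section

/-!
Row 172 (S0260): the inputs (t2), (t3) with the additional hypothesis (INJ) (`TI.InjP`).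
-/

set_option autoImplicit false
set_option linter.unusedSectionVars false
set_option linter.unusedFintypeInType false
set_option linter.unusedDecidableInType false
set_option maxHeartbeats 400000

namespace Crest.Agent.R172.Fin5

open Matrix Module Crest.Agent.R172.FO
open Crest.AlgebraR.SpinSaturation Crest.Agent.R172.SoGrade Crest.Agent.R172.Sp
open Crest.Agent.R172.CF Crest.Agent.R172.CSys
open Crest.Agent.R172.Gen (Jm Ix emb IsSo)
open Crest.Agent.R172.GenP
open Crest.Agent.R172.GenQ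
open Crest.Agent.R172.SpS
open Crest.Agent.R172.Qt (NN Ctx TameMix)
open Crest.Agent.R172.Om (Kiso Scal)
open Crest.Agent.R172.Ind (GI Inst)
open Crest.Agent.R172.Fin4

variable {n : ℕ} {a : Fin 3 → Fin n → ℤ} {c : Cfg n a} {q : SPol c}

/-- **(t2)** with (INJ) -/
def NoTameS2I (c : Cfg n a) (q : SPol c) (R : Ranked c) : Prop :=
  ∀ (L : Type) [Field L] [Algebra ℂ L] [IsAlgClosed L] (g : Fin 3 → Matrix (Ix n) (Ix n) L)
    (H : Matrix (Fin q.toPol.m) (Fin q.toPol.m) L), Inst c q R L g H →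
    2 ≤ finrank L ↥(Kiso (Jm n L) (c.N g) (VL (q.toPol.LH H))) →
    ∀ F ∈ Kiso (Jm n L) (c.N g) (VL (q.toPol.LH H)),
    ∀ f ∈ Kiso (Jm n L) (c.N g) (VL (q.toPol.LH H)), V1 c q g H F f →
    ∀ P ∈ NN c.arm (Jm n L) (c.N g) F, V2 c q g H F f P →
    TI.InjP c.arm (Jm n L) (c.B L) (c.N g) F P.1 →
    ∀ G : Matrix c.δ (Ix n) L, F * G * F = F →
      ¬ TameD (Mg c.arm (c.B L) F) (Ng c.arm (c.B L) F G f)
        (bil F G (Fᵀ * (Jm n L * P.1) * F))

/-- **`InS2`-input for one instance from (t2)** -/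
theorem scal_inst2I {q : SPol c} {R : Ranked c} (hNT : NoTameS2I c q R) {K : Type} [Field K]
    [Algebra ℂ K] {g : Fin 3 → Matrix (Ix n) (Ix n) K}
    {H : Matrix (Fin q.toPol.m) (Fin q.toPol.m) K} (h : Inst c q R K g H)
    (h2 : 2 ≤ finrank K ↥(Kiso (Jm n K) (c.N g) (VL (q.toPol.LH H)))) :
    Scal ℂ c.arm (Jm n K) (c.B K) (c.N g) (VL (q.toPol.LH H)) := by
  classical
  obtain ⟨r, κ, -, hκ⟩ := exists_family (Kiso (Jm n K) (c.N g) (VL (q.toPol.LH H)))
  obtain ⟨L, iL, iKL, iCL, ist, icl, icz, t, ht, hF1, hVc⟩ := step1c q.toPol h.gi hκ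
  have hV1 : ∀ w ∈ Kiso (Jm n L) (c.N (fun s => emb K L (g s)))
      (VL (q.toPol.LH (emb K L H))), VertH c (fun s => emb K L (g s)) (emb K L H)
        (∑ j, t j • emb K L (κ j)) w := fun w hw => by
    obtain ⟨D, h1, h2, h3, -⟩ := hVc w hw
    exact ⟨D, h1, h2, h3⟩
  have hL : Inst c q R L (fun s => emb K L (g s)) (emb K L H) := h.bc L
  have hJ : (Jm n K).map (algebraMap K L) = Jm n L := Pol.Jm_map (algebraMap K L)
  have hB : (c.B K).map (algebraMap K L) = c.B L := c.B_map K L (algebraMap K L)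
  have hbc := bcNW (L := L) q.toPol h.gi
  have hKiL := bcKiso (L := L) q.toPol h.gi
  have h2L : 2 ≤ finrank L ↥(Kiso (Jm n L) (c.N (fun s => emb K L (g s)))
      (VL (q.toPol.LH (emb K L H)))) := by
    rw [finrank_bc hKiL]; exact h2
  set F : Matrix (Ix n) c.δ L := ∑ j, t j • emb K L (κ j) with hF
  refine scal_of_generic (L := L) hbc.1 hbc.2 h.data ?_ (fun F hF => h.ctx hF) (g0 := F) ?_ ?_ ?_ ?_
  · rw [hJ, hB]; exact hL.data
  · rw [hJ]; exact hF1
  · rw [hJ, hB]; exact hL.ctx hF1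
  · intro P hP F0 hF0
    rw [hF] at hP
    exact spec_of_coord ht P hP (by rw [hκ]; exact hF0)
  · rw [hJ]
    have hκm : ∀ j, κ j ∈ Kiso (Jm n K) (c.N g) (VL (q.toPol.LH H)) := fun j => by
      rw [← hκ]; exact Submodule.subset_span ⟨j, rfl⟩
    -- the claim for the constant elements
    have key : ∀ j, ∃ e : L, ∀ p ∈ NN c.arm (Jm n L) (c.N fun s => emb K L (g s)) F,
        Fᵀ * Jm n L * (p.1 * emb K L (κ j)) = e • (Fᵀ * Jm n L * (p.1 * F)) := by
      intro j
      set f : Matrix (Ix n) c.δ L := emb K L (κ j) with hfdef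
      have hf : f ∈ Kiso (Jm n L) (c.N fun s => emb K L (g s)) (VL (q.toPol.LH (emb K L H))) :=
        hKiL.up _ (hκm j)
      -- second extension
      obtain ⟨r', π, -, hπ⟩ := exists_family (NN c.arm (Jm n L) (c.N fun s => emb K L (g s)) F)
      obtain ⟨L', iL', iLL', iCL', ist', icl', icz', u, hu, hP1, hW1, hW2⟩ :=
        step2 q.toPol hL.gi hV1 hπ
      have hL' := hL.bc L'
      have hJ' : (Jm n L).map (algebraMap L L') = Jm n L' := Pol.Jm_map (algebraMap L L')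
      have hKi := bcKiso (L := L') q.toPol hL.gi
      have hFL' := hKi.up F hF1
      have hfL' := hKi.up f hf
      set P : Matrix (Ix n) (Ix n) L' × (Fin 3 → Matrix (Ix n) (Ix n) L') :=
        ∑ i, u i • embP L' (π i) with hP
      have hP1' : P.1 = ∑ i, u i • emb L L' (π i).1 := by
        rw [hP, Prod.fst_sum]; rfl
      obtain ⟨G, hG⟩ := Qt.exists_pinv (F.map (algebraMap L L'))
      have hctx := hL'.ctx hFL'
      have hV : Vert ℂ c.arm (Jm n L') (c.N fun s => emb L L' (emb K L (g s)))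
          (VL (q.toPol.LH (emb L L' (emb K L H)))) (F.map (algebraMap L L')) P := by
        refine ⟨fun w hw => hW1 w hw, fun p' hp' => ?_⟩
        obtain ⟨d, -, h1, h2, h3, -⟩ := hW2 p' hp'
        exact ⟨d, h1, h2, by rw [h3]⟩
      have hskL : (emb L L' (emb K L H))ᵀ = -(emb L L' (emb K L H)) :=
        FO3.emb_skew hL.gi.skew
      have hVV1 : V1 c q (fun s => emb L L' (emb K L (g s))) (emb L L' (emb K L H))
          (F.map (algebraMap L L')) (f.map (algebraMap L L')) := by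
        intro w hw
        obtain ⟨D, e1, e2, e3, e4⟩ := vert_bc_pair (c := c) (L := L')
          (g := fun s => emb K L (g s)) (H := emb K L H) (F0 := F) (f0 := f)
          (Y := Kiso (Jm n L) (c.N fun s => emb K L (g s)) (VL (q.toPol.LH (emb K L H))))
          (fun w hw => by
            obtain ⟨D, e1, e2, e3, e4⟩ := hVc w hw
            exact ⟨D, e1, e2, e3, emb_map_zero e4 (κ j)⟩) (w := w) (hKi.down w hw)
        exact ⟨D, e3, e4, realises_of q.toPol hskL e1 e2⟩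
      have hVV2 : V2 c q (fun s => emb L L' (emb K L (g s))) (emb L L' (emb K L H))
          (F.map (algebraMap L L')) (f.map (algebraMap L L')) P := by
        intro p' hp'
        obtain ⟨d, h0, h1, h2, h3, h4⟩ := hW2 p' hp'
        exact ⟨d, h1, emb_map_zero h0 f, h2, h3, h4⟩
      refine uniform_of_generic (L := L') (hL.ctx hF1) (f := f) hf.1 (p0 := P.1) ?_ ?_
      · intro Q hQ p hp
        rw [hP1'] at hQ
        refine spec_of_coord hu Q hQ ?_
        rw [← hπ] at hp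
        obtain ⟨b, hb⟩ := (Submodule.mem_span_range_iff_exists_fun L).1 hp
        rw [← hb, Prod.fst_sum]
        refine Submodule.sum_mem _ fun i _ => ?_
        exact Submodule.smul_mem _ _ (Submodule.subset_span ⟨i, rfl⟩)
      · rw [hJ']
        have hsc := scalar_at (k := ℂ) hctx hL'.two_ne hG
          (nilW_cfg R q.toPol hL'.gi.orth hL'.gi.skew hL'.hgen hL'.data.J_symm hFL'.1.1 hFL'.1.2
            (hFL'.2 _ hFL'.1)) hP1
          (armNil_cfg R hL'.gi.orth hFL'.1.1 (hFL'.2 _ hFL'.1) hP1) hV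
          (f := f.map (algebraMap L L')) hfL'.1
        rcases hsc with hc | hT
        · exact hc
        · exact absurd hT (hNT L' _ _ hL' (by rw [finrank_bc hKi]; exact h2L) _ hFL' _ hfL'
            hVV1 P hP1 hVV2 (TI.injP_of hL hF1 hπ u (fun p' hp' => by
              obtain ⟨d, h0, -, -, h3, -⟩ := hW2 p' hp'
              exact ⟨d, h0, h3⟩)) G hG)
    intro f hf
    choose e he using key
    obtain ⟨b, hb⟩ := exists_coord hκ (hKiL.down f hf)
    refine ⟨∑ j, b j * e j, fun p hp => ?_⟩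
    rw [hb, Matrix.mul_sum, Matrix.mul_sum, Finset.sum_smul]
    refine Finset.sum_congr rfl fun j _ => ?_
    rw [Matrix.mul_smul, Matrix.mul_smul, he j p hp, smul_smul]

/-- **(S2) from (t2)** -/
theorem inS2_ofI (hNT : ∀ (n : ℕ) (a : Fin 3 → Fin n → ℤ) (c : Cfg n a) (q : SPol c)
    (R : Ranked c), NoTameS2I c q R) : Ind.InS2 := by
  intro n a c q R K _ _ _ g H hI h2
  exact scal_inst2I (hNT n a c q R) hI h2




end Crest.Agent.R172.Fin5
end

-- ▼ part R172/TGlue2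
section

/-!
Row 172 (S0260): `TI.InjP` (the form of (INJ) in `Fin5`) gives `SEnd.INJ` for every submodule which
contains the images of the long words.
-/

set_option autoImplicit false
set_option linter.unusedSectionVars false
set_option maxHeartbeats 400000

namespace Crest.Agent.R172.TI

open Matrix Module Crest.Agent.R172.FO Crest.Agent.R172.Qt

variable {ι δ K k : Type*} [Fintype ι] [DecidableEq ι] [Fintype δ] [DecidableEq δ] [Field k]
  [Field K] [Algebra k K]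

theorem word_transpose' {φ : Matrix δ δ K} {X : Fin 3 → Matrix δ δ K} (hφ : φᵀ = -φ)
    (hX : ∀ s, (X s)ᵀ = X s) (l : List (Fin 3)) :
    ∃ e : K, ((l.reverse.map fun s => φ * X s).prod) = e • ((l.map fun s => X s * φ).prod)ᵀ := by
  induction l with
  | nil => exact ⟨1, by simp⟩
  | cons s l ih =>
    obtain ⟨e, he⟩ := ih
    refine ⟨-e, ?_⟩
    rw [List.map_cons, List.prod_cons, Matrix.transpose_mul, List.reverse_cons,
      List.map_append, List.prod_append, List.map_singleton, List.prod_singleton,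
      Matrix.transpose_mul, hφ, hX, he]
    simp only [Matrix.smul_mul, Matrix.neg_mul, Matrix.mul_neg, smul_neg, neg_smul, neg_neg]

/-- **(INJ), core form** (with `B` symmetric) -/
theorem InjP.core' {arm : δ → Fin 3} {J : Matrix ι ι K} {B : Matrix δ δ K}
    {N : Submodule K (Matrix ι δ K)} {F : Matrix ι δ K} {P : Matrix ι ι K}
    (h : InjP arm J B N F P) (hφ : (Fᵀ * J * (P * F))ᵀ = -(Fᵀ * J * (P * F)))
    (hX : ∀ s, (E K arm s * B)ᵀ = E K arm s * B)
    {p' : Matrix ι ι K × (Fin 3 → Matrix ι ι K)} (hp' : p' ∈ NN arm J N F) {m : ℕ}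
    (hm : ∀ l1 l2 : List (Fin 3), m ≤ l1.length → m ≤ l2.length →
      (F * (l1.map fun s => (E K arm s * B) * (Fᵀ * J * (P * F))).prod)ᵀ * J *
        (p'.1 * (F * (l2.map fun s => (E K arm s * B) * (Fᵀ * J * (P * F))).prod)) = 0) :
    Fᵀ * J * (p'.1 * F) = 0 := by
  refine h.two hp' (m := m) fun l1 l2 h1 h2 => ?_
  have e := hm l1.reverse l2 (by rw [List.length_reverse]; exact h1) h2
  obtain ⟨t, ht⟩ := word_transpose' hφ hX l1.reverse
  rw [List.reverse_reverse] at ht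
  rw [Matrix.transpose_mul] at e
  rw [ht, Matrix.smul_mul, Matrix.smul_mul]
  have e2 : ((l1.reverse.map fun s => (E K arm s * B) * (Fᵀ * J * (P * F))).prod)ᵀ *
      (Fᵀ * J * (p'.1 * F)) * (l2.map fun s => (E K arm s * B) * (Fᵀ * J * (P * F))).prod = 0 := by
    rw [← e]
    simp only [Matrix.mul_assoc]
  rw [e2, smul_zero]

/-- `F * (word in E_s B φ) = (word in Φ_s) * F` -/
theorem word_F (arm : δ → Fin 3) (J : Matrix ι ι K) (B : Matrix δ δ K) (F : Matrix ι δ K)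
    (P : Matrix ι ι K) (l : List (Fin 3)) :
    F * (l.map fun s => (E K arm s * B) * (Fᵀ * J * (P * F))).prod =
      (l.map fun s => M arm B s F F * (J * P)).prod * F := by
  induction l with
  | nil => simp
  | cons s l ih =>
    rw [List.map_cons, List.prod_cons, List.map_cons, List.prod_cons, Matrix.mul_assoc _ _ F,
      ← ih]
    unfold M
    simp only [Matrix.mul_assoc]

theorem entry_eq (A C : Matrix ι δ K) (Y : Matrix ι ι K) (d e : δ) :
    (Aᵀ * Y * C) d e = (A *ᵥ Pi.single d 1) ⬝ᵥ (Y *ᵥ (C *ᵥ Pi.single e 1)) := by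
  rw [mulVec_single_one, mulVec_single_one, Matrix.mul_assoc, Matrix.mul_apply, dotProduct]
  exact Finset.sum_congr rfl fun j _ => by rw [Matrix.mul_apply]; rfl

/-- **`InjP` gives `SEnd.INJ`** for every submodule containing the images of the long words. -/
theorem InjP.sEnd {arm : δ → Fin 3} {J : Matrix ι ι K} {B : Matrix δ δ K}
    {N W : Submodule K (Matrix ι δ K)} (hD : Data k arm J B N W) {F : Matrix ι δ K}
    {p : Matrix ι ι K × (Fin 3 → Matrix ι ι K)} (h : InjP arm J B N F p.1)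
    (hp : p ∈ NN arm J N F) {Q : Submodule K (ι → K)}
    (hQ : ∃ m : ℕ, ∀ l : List (Fin 3), m ≤ l.length → ∀ u : δ → K,
      (l.map fun s => M arm B s F F * (J * p.1)).prod *ᵥ (F *ᵥ u) ∈ Q) :
    SEnd.INJ arm J N F Q := by
  intro ψ hψ h0
  obtain ⟨m, hm⟩ := hQ
  refine h.core' (skew_gXg hD.J_symm hp.1 F) (fun s => ?_) hψ (m := m) fun l1 l2 h1 h2 => ?_
  · rw [Matrix.transpose_mul, hD.B_symm, E_transpose, hD.B_arm]
  · rw [word_F, word_F]
    ext d e
    have e1 := h0 _ (hm l1 h1 (Pi.single d 1)) _ (hm l2 h2 (Pi.single e 1))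
    rw [mulVec_mulVec, mulVec_mulVec] at e1
    rw [Matrix.zero_apply, ← e1, ← entry_eq]
    simp only [Matrix.mul_assoc]

end Crest.Agent.R172.TI
end

-- ▼ part R172/SAsm0
section

/-!
Row 172 (S0260): assembly of (t2): `NoTameS2I` from the slack `(SL)`.
-/

set_option autoImplicit false
set_option linter.unusedSectionVars false
set_option maxHeartbeats 400000

namespace Crest.Agent.R172.SAsm0

open Matrix Module Crest.Agent.R172.FO Crest.Agent.R172.Qt
open Crest.AlgebraR.SpinSaturation Crest.Agent.R172.SoGrade Crest.Agent.R172.Sp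
open Crest.Agent.R172.CF Crest.Agent.R172.CSys
open Crest.Agent.R172.Gen (Jm Ix emb IsSo)
open Crest.Agent.R172.SpS Crest.Agent.R172.SEnd Crest.Agent.R172.SEnd2
open Crest.Agent.R172.Om (Kiso Scal)
open Crest.Agent.R172.Ind (GI Inst)
open Crest.Agent.R172.Fin4 Crest.Agent.R172.Fin5
open Crest.Agent.R172.Core Crest.Agent.R172.PL

section abs

variable {ι : Type*} [Fintype ι] [DecidableEq ι] {δ : Type*} [Fintype δ] [DecidableEq δ]
variable {k K : Type*} [Field k] [Field K] [Algebra k K]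


variable {arm : δ → Fin 3} {J : Matrix ι ι K} {B : Matrix δ δ K}
  {N W : Submodule K (Matrix ι δ K)} {g : Matrix ι δ K} {R : Matrix δ ι K}

/-- the long words map `im g` into `PC` -/
theorem words_PC (hR : g * R * g = g) (X : Matrix ι ι K) :
    ∃ m : ℕ, ∀ l : List (Fin 3), m ≤ l.length → ∀ u : δ → K,
      (l.map fun s => M arm B s g g * (J * X)).prod *ᵥ (g *ᵥ u) ∈ PC arm J B g R X := by
  obtain ⟨m, hm, -⟩ := Ainf_eq_Wk (PhS arm J B g R X)
  refine ⟨m, fun l hl u => ?_⟩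
  have key : ∀ (l : List (Fin 3)) (v : SpS.Sg g), ∃ w ∈ Wk (PhS arm J B g R X) l.length,
      ((w : SpS.Sg g) : ι → K) = (l.map fun s => M arm B s g g * (J * X)).prod *ᵥ (v : ι → K) := by
    intro l
    induction l with
    | nil => 
      intro v
      exact ⟨v, by simp [Wk], by simp⟩
    | cons s l ih =>
      intro v
      obtain ⟨w, hw, hw2⟩ := ih v
      refine ⟨PhS arm J B g R X s w, Wk_succ_mem hw s, ?_⟩
      rw [PhS_coe hR, hw2, List.map_cons, List.prod_cons, mulVec_mulVec]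
  obtain ⟨w, hw, hw2⟩ := key l (gS g u)
  refine ⟨w, ?_, ?_⟩
  · change w ∈ Ainf _
    rw [hm]
    exact Wk_anti _ hl hw
  · rw [← gS_coe g u]
    exact hw2

/-- a form which is zero is not tame -/
theorem not_tame_zero {V : Type*} [AddCommGroup V] [Module K V] [FiniteDimensional K V]
    {η : LinearMap.BilinForm K V} (hη : η = 0)
    {Mt Nt : Fin 3 → (Dual K V →ₗ[K] V)} : ¬ TameD Mt Nt η := by
  intro hT
  obtain ⟨D, -, -, -, ⟨lam, mu, -, hlam, -⟩, -, -⟩ := hT
  have h0 : ∀ s v, Be Mt η s v = 0 := by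
    intro s v
    rw [hη]
    change Mt s ((0 : LinearMap.BilinForm K V) v) = 0
    rw [LinearMap.zero_apply, map_zero]
  have hA : ∀ v ∈ Ainf (Be Mt η), v = 0 := by
    intro v hv
    obtain ⟨f, -, hs⟩ := Ainf_exists (Be Mt η) hv
    rw [← hs]
    exact Finset.sum_eq_zero fun s _ => h0 s _
  have hM : ∀ x : CoreM (Be Mt η), x = 0 := by
    intro x
    obtain ⟨v, rfl⟩ := (Rad (Be Mt η)).mkQ_surjective x
    have : v = 0 := Subtype.ext (hA v v.2)
    rw [this, map_zero]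
  exact hlam ((Submodule.eq_bot_iff _).2 fun x _ => hM x)

end abs

variable {n : ℕ} {a : Fin 3 → Fin n → ℤ} {c : Cfg n a} {q : SPol c}



end Crest.Agent.R172.SAsm0
end

-- ▼ part R172/SAsmW
section

/-!
Row 172 (S0260): assembly of (t2): `NoTameS2I` from the slack `(SL)` with the WEAK test
(`SEndW.false_of_slackW`): the corrections are tested only on `(E_r B gᵀ η) c`, `c ∈ P`.
-/

set_option autoImplicit false
set_option linter.unusedSectionVars false
set_option maxHeartbeats 400000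

namespace Crest.Agent.R172.SAsmW

open Matrix Module Crest.Agent.R172.FO Crest.Agent.R172.Qt
open Crest.AlgebraR.SpinSaturation Crest.Agent.R172.SoGrade Crest.Agent.R172.Sp
open Crest.Agent.R172.CF Crest.Agent.R172.CSys
open Crest.Agent.R172.Gen (Jm Ix emb IsSo)
open Crest.Agent.R172.SpS Crest.Agent.R172.SEnd Crest.Agent.R172.SEnd2
open Crest.Agent.R172.Om (Kiso Scal)
open Crest.Agent.R172.Ind (GI Inst)
open Crest.Agent.R172.Fin4 Crest.Agent.R172.Fin5
open Crest.Agent.R172.Core Crest.Agent.R172.PL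
open Crest.Agent.R172.SAsm0 (words_PC not_tame_zero)
open Crest.Agent.R172.SEndW

section abs

variable {ι : Type*} [Fintype ι] [DecidableEq ι] {δ : Type*} [Fintype δ] [DecidableEq δ]
variable {k K : Type*} [Field k] [Field K] [Algebra k K]

/-- **(SL)**, hypothesis of `SEndW.false_of_slackW` (weak test) -/
def SLW (arm : δ → Fin 3) (J : Matrix ι ι K) (B : Matrix δ δ K) (N W : Submodule K (Matrix ι δ K))
    (g : Matrix ι δ K) (p : Matrix ι ι K × (Fin 3 → Matrix ι ι K)) (P : Submodule K (ι → K)) :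
    Prop :=
  ∀ s x, PP P x → Fil (M arm B s g g * (J * p.1)) (J * p.1) P x →
    ∃ w ∈ W, x * (J * p.1) * g * E K arm s - w ∈ N ∧
      (∀ a ∈ P, ∀ v, a ⬝ᵥ ((J * w) *ᵥ v) = 0) ∧
      ∃ ζ ∈ NN arm J N g, pair J B (Pg arm g p) (act arm ζ.2 g) = 0 ∧
        ∀ a ∈ P, ∀ c ∈ P, ∀ r,
          a ⬝ᵥ ((J * p.1 * w) *ᵥ ((E K arm r * B * gᵀ * (J * p.1)) *ᵥ c)) =
            a ⬝ᵥ ((J * ζ.1) *ᵥ ((M arm B r g g * (J * p.1)) *ᵥ c))

end abs

variable {n : ℕ} {a : Fin 3 → Fin n → ℤ} {c : Cfg n a} {q : SPol c}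

/-- **(SL), weak test, for all tame pairs** (same hypotheses as `NoTameS2I`) -/
def SLCfgW (c : Cfg n a) (q : SPol c) (R : Ranked c) : Prop :=
  ∀ (L : Type) [Field L] [Algebra ℂ L] [IsAlgClosed L] (g : Fin 3 → Matrix (Ix n) (Ix n) L)
    (H : Matrix (Fin q.toPol.m) (Fin q.toPol.m) L), Inst c q R L g H →
    2 ≤ finrank L ↥(Kiso (Jm n L) (c.N g) (VL (q.toPol.LH H))) →
    ∀ F ∈ Kiso (Jm n L) (c.N g) (VL (q.toPol.LH H)),
    ∀ f ∈ Kiso (Jm n L) (c.N g) (VL (q.toPol.LH H)), V1 c q g H F f →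
    ∀ P ∈ NN c.arm (Jm n L) (c.N g) F, V2 c q g H F f P →
    TI.InjP c.arm (Jm n L) (c.B L) (c.N g) F P.1 →
    ∀ G : Matrix c.δ (Ix n) L, F * G * F = F →
      TameD (Mg c.arm (c.B L) F) (Ng c.arm (c.B L) F G f)
        (bil F G (Fᵀ * (Jm n L * P.1) * F)) →
      SLW c.arm (Jm n L) (c.B L) (c.N g) (VL (q.toPol.LH H)) F P
        (PC c.arm (Jm n L) (c.B L) F G P.1)

theorem noTameS2I_ofW {R : Ranked c} (h : SLCfgW c q R) : NoTameS2I c q R := by
  intro L _ _ _ g H hI h2 F hF f hf hV1 P hP hV2 hInj G hG hT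
  have hctx := hI.ctx hF
  have hD := hI.data
  obtain ⟨l, -, -, hl⟩ := core_data (k := ℂ) hD hG hP.1 hT
  have hSL := h L g H hI h2 F hF f hf hV1 P hP hV2 hInj G hG hT
  have h0 := false_of_slackW hctx hI.two_ne hP (P := PC c.arm (Jm n L) (c.B L) F G P.1)
    PC_im (fun s => PC_stable hG s) (PC_perf hG) (fun s => ⟨l s, hl s⟩) hSL
    (hInj.sEnd hD hP (words_PC hG P.1))
  refine not_tame_zero ?_ hT
  have h1 : Fᵀ * (Jm n L * P.1) * F = 0 := by
    rw [← h0]
    simp only [Matrix.mul_assoc]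
  rw [h1, map_zero]

end Crest.Agent.R172.SAsmW
end

-- ▼ part R172/STop

/-!
Row 172 (S0260), tame node (t2), TOP of the S-side: `SLCfgW` from the two levels in `Ctx` letters.
-/

set_option autoImplicit false
set_option linter.unusedSectionVars false
set_option linter.unusedVariables false
set_option maxHeartbeats 400000

namespace Crest.Agent.R172.STop

open Matrix Module Crest.Agent.R172.FO Crest.Agent.R172.Qt
open Crest.AlgebraR.SpinSaturation Crest.Agent.R172.SoGrade Crest.Agent.R172.Sp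
open Crest.Agent.R172.CF Crest.Agent.R172.CSys
open Crest.Agent.R172.Gen (Jm Ix emb IsSo)
open Crest.Agent.R172.SpS Crest.Agent.R172.SEnd Crest.Agent.R172.SEnd2
open Crest.Agent.R172.Om (Kiso Scal)
open Crest.Agent.R172.Ind (GI Inst)
open Crest.Agent.R172.Fin4 Crest.Agent.R172.Fin5
open Crest.Agent.R172.PL (Wk Ainf Rad CoreM coreOp resOp Ainf_exists Ainf_stable)
open Crest.Agent.R172.St (Nk T mem_T mem_Nk_zero mem_Nk_succ Nk_le_T T_stable T_closed T_eq_Nk)
open Crest.Agent.R172.SEndW Crest.Agent.R172.SAsmW Crest.Agent.R172.SCM Crest.Agent.R172.SCB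
open Crest.Agent.R172.SC (PB PB_mem PB_exists PB_stable PB_orth iSup_PB PB_le_Ainf)
open LinearMap (ker range)

section letters

variable {ι : Type} [Fintype ι] [DecidableEq ι] {δ : Type} [Fintype δ] [DecidableEq δ]
variable {K : Type} [Field K] [Algebra ℂ K]

/-- **the letters of (t2)** : one derivation-rich situation `(F, f, P)` with a tame core of `P`. -/
structure Setup (arm : δ → Fin 3) (J : Matrix ι ι K) (B : Matrix δ δ K)
    (N W : Submodule K (Matrix ι δ K)) (F f : Matrix ι δ K)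
    (P : Matrix ι ι K × (Fin 3 → Matrix ι ι K)) (R : Matrix δ ι K)
    (D : End K (CoreM (PhS arm J B F R P.1))) (l : Fin 3 → ℕ) : Prop where
  hCtx : ∀ g ∈ Kiso J N W, Ctx ℂ arm J B N W g
  hNm : ∀ F, (∀ F' ∈ N, pair J B F' F = 0) → F ∈ N
  hWm : ∀ F, (∀ F' ∈ W, pair J B F' F = 0) → F ∈ W
  hNil : ∀ g ∈ Kiso J N W, NilW arm J B N g
  hF : F ∈ Kiso J N W
  hf : f ∈ Kiso J N W
  hP : P ∈ NN arm J N F
  hV1 : ∀ w ∈ Kiso J N W, ∃ d : Derivation ℂ K K, F.map d = w ∧ f.map d = 0 ∧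
    Realises arm N W (0 : Fin 3 → Matrix ι ι K) (0 : Matrix δ δ K) d
  hV2 : ∀ p' ∈ NN arm J N F, ∃ d : Derivation ℂ K K, F.map d = 0 ∧ f.map d = 0 ∧
    Realises arm N W (0 : Fin 3 → Matrix ι ι K) (0 : Matrix δ δ K) d ∧
      P.1.map d = p'.1 ∧ ∀ s, (P.2 s).map d = p'.2 s
  hR : F * R * F = F
  hD : SBlk.IsD (PhS arm J B F R P.1) (Be (Ng arm B F R f) (bil F R (Fᵀ * (J * P.1) * F))) D
  hDB : ∀ x y, BC (Mg arm B F) (bil F R (Fᵀ * (J * P.1) * F)) (D x) y =
    BC (Mg arm B F) (bil F R (Fᵀ * (J * P.1) * F)) x (D y)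
  hT : Core.Tame (coreOp (PhS arm J B F R P.1)) D
  hl : ∑ s, (1 - 1 / (l s : ℚ)) = 2
  top : ⨆ c, D.eigenspace c = ⊤
  free : ∀ s, (∀ c ∈ PC arm J B F R P.1, ((M arm B s F F * (J * P.1)) ^ l s) *ᵥ c ∈
      Rd (J * P.1) (PC arm J B F R P.1)) ∧
    ∀ v ≤ l s, ∀ c ∈ PC arm J B F R P.1,
      ((M arm B s F F * (J * P.1)) ^ (l s - v)) *ᵥ c ∈ Rd (J * P.1) (PC arm J B F R P.1) →
      ∃ c' ∈ PC arm J B F R P.1, c - ((M arm B s F F * (J * P.1)) ^ v) *ᵥ c' ∈
        Rd (J * P.1) (PC arm J B F R P.1)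
  pkg : ∀ ν, D.maxGenEigenspace ν ≠ ⊥ → ∃ (n : ℕ) (Q : Matrix ι (Fin n) K)
    (A : Fin 3 → Matrix (Fin n) (Fin n) K), BPkg arm J B F R P.1 D ν l Q A

/-- the generators of the filtered tensors of the blocks `Q1 ⊗ Q2` are good -/
def Gens (arm : δ → Fin 3) (J : Matrix ι ι K) (B : Matrix δ δ K)
    (N W : Submodule K (Matrix ι δ K)) (F : Matrix ι δ K)
    (P : Matrix ι ι K × (Fin 3 → Matrix ι ι K)) (R : Matrix δ ι K) (l : Fin 3 → ℕ)
    {n1 n2 : ℕ} (Q1 : Matrix ι (Fin n1) K) (A1 : Fin 3 → Matrix (Fin n1) (Fin n1) K)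
    (Q2 : Matrix ι (Fin n2) K) (A2 : Fin 3 → Matrix (Fin n2) (Fin n2) K) : Prop :=
  ∀ s, (∀ i j, i + j + 1 = l s → ∀ x y, vecMulVec (Q1 *ᵥ ((A1 s ^ i) *ᵥ x))
      (Q2 *ᵥ ((A2 s ^ j) *ᵥ y)) ∈ GoodSW arm J B N W F P (PC arm J B F R P.1) s) ∧
    (∀ x y, (Q1ᵀ * (J * P.1) * Q1) *ᵥ x = 0 →
      vecMulVec (Q1 *ᵥ x) (Q2 *ᵥ y) ∈ GoodSW arm J B N W F P (PC arm J B F R P.1) s) ∧
    (∀ x y, (Q2ᵀ * (J * P.1) * Q2) *ᵥ y = 0 →
      vecMulVec (Q1 *ᵥ x) (Q2 *ᵥ y) ∈ GoodSW arm J B N W F P (PC arm J B F R P.1) s)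

end letters

/-- **LEVEL 1**: two different blocks -/
def Lev1 : Prop :=
  ∀ {ι : Type} [Fintype ι] [DecidableEq ι] {δ : Type} [Fintype δ] [DecidableEq δ]
    {K : Type} [Field K] [Algebra ℂ K] [IsAlgClosed K]
    {arm : δ → Fin 3} {J : Matrix ι ι K} {B : Matrix δ δ K} {N W : Submodule K (Matrix ι δ K)}
    {F f : Matrix ι δ K} {P : Matrix ι ι K × (Fin 3 → Matrix ι ι K)} {R : Matrix δ ι K}
    {D : End K (CoreM (PhS arm J B F R P.1))} {l : Fin 3 → ℕ}
    (_ : Setup arm J B N W F f P R D l) {ν ν' : K} (_ : ν ≠ ν')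
    {n1 n2 : ℕ} {Q1 : Matrix ι (Fin n1) K} {A1 : Fin 3 → Matrix (Fin n1) (Fin n1) K}
    {Q2 : Matrix ι (Fin n2) K} {A2 : Fin 3 → Matrix (Fin n2) (Fin n2) K}
    (_ : BPkg arm J B F R P.1 D ν l Q1 A1) (_ : BPkg arm J B F R P.1 D ν' l Q2 A2),
    Gens arm J B N W F P R l Q1 A1 Q2 A2

/-- **LEVEL 2**: one block, in the presence of a second one -/
def Lev2 : Prop :=
  ∀ {ι : Type} [Fintype ι] [DecidableEq ι] {δ : Type} [Fintype δ] [DecidableEq δ]
    {K : Type} [Field K] [Algebra ℂ K] [IsAlgClosed K]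
    {arm : δ → Fin 3} {J : Matrix ι ι K} {B : Matrix δ δ K} {N W : Submodule K (Matrix ι δ K)}
    {F f : Matrix ι δ K} {P : Matrix ι ι K × (Fin 3 → Matrix ι ι K)} {R : Matrix δ ι K}
    {D : End K (CoreM (PhS arm J B F R P.1))} {l : Fin 3 → ℕ}
    (_ : Setup arm J B N W F f P R D l) {ν ν' : K} (_ : ν ≠ ν')
    {n1 n2 : ℕ} {Q1 : Matrix ι (Fin n1) K} {A1 : Fin 3 → Matrix (Fin n1) (Fin n1) K}
    {Q2 : Matrix ι (Fin n2) K} {A2 : Fin 3 → Matrix (Fin n2) (Fin n2) K}
    (_ : BPkg arm J B F R P.1 D ν l Q1 A1) (_ : BPkg arm J B F R P.1 D ν' l Q2 A2),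
    Gens arm J B N W F P R l Q1 A1 Q1 A1

section free

variable {K : Type*} [Field K] {V : Type*} [AddCommGroup V] [Module K V] [FiniteDimensional K V]

/-- the exponents of `free_of_tame` are those of `Tame` -/
theorem free_l {Φ : Fin 3 → End K V} {D : End K V}
    (hDΦ : ∀ s v, D (Φ s v) = Φ s (D v)) (hD : ⨆ ν, D.maxGenEigenspace ν = ⊤)
    (hne : ∃ ν, D.maxGenEigenspace ν ≠ ⊥) {l : Fin 3 → ℕ}
    (hl : ∀ s nu, D.maxGenEigenspace nu ≠ ⊥ →
      (∀ j, (∀ v ∈ D.maxGenEigenspace nu, (Φ s ^ j) v = 0) ↔ l s ≤ j))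
    {l' : Fin 3 → ℕ} (h3 : ∀ s, Φ s ^ l' s = 0)
    (h4 : ∀ s, l' s * finrank K (ker (Φ s)) = finrank K V) : l' = l := by
  obtain ⟨ν, hν⟩ := hne
  funext s
  have h5 : l s ≤ l' s := ((hl s ν hν) (l' s)).1 fun v _ => by rw [h3 s, LinearMap.zero_apply]
  have h6 : Φ s ^ l s = 0 := by
    apply LinearMap.ext
    intro v
    have hv : v ∈ ⨆ ν, D.maxGenEigenspace ν := by rw [hD]; trivial
    rw [LinearMap.zero_apply]
    refine Submodule.iSup_induction (p := fun ν => D.maxGenEigenspace ν)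
      (motive := fun v => (Φ s ^ l s) v = 0) hv ?_ (map_zero _) ?_
    · intro μ v hv
      by_cases hμ : D.maxGenEigenspace μ = ⊥
      · rw [hμ] at hv
        rw [(Submodule.mem_bot K).1 hv, map_zero]
      · exact ((hl s μ hμ) (l s)).2 le_rfl v hv
    · intro x y hx hy
      rw [map_add, hx, hy, add_zero]
  by_contra hne'
  have h7 : 1 ≤ l' s - l s := by omega
  have h8 := TC.ker_eq_range (h3 s) (h4 s) h5
  rw [h6, LinearMap.ker_zero] at h8
  have h9 : ∀ m v, ∃ u, (Φ s ^ ((l' s - l s) * m)) u = v := by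
    intro m
    induction m with
    | zero => intro v; exact ⟨v, by rw [Nat.mul_zero, pow_zero]; rfl⟩
    | succ m ih =>
      intro v
      have h10 : v ∈ range (Φ s ^ (l' s - l s)) := by rw [← h8]; trivial
      obtain ⟨u, hu⟩ := h10
      obtain ⟨u', hu'⟩ := ih u
      refine ⟨u', ?_⟩
      rw [Nat.mul_succ, Nat.add_comm, pow_add, Module.End.mul_apply, hu', hu]
  have h11 : ∀ v : V, v = 0 := by
    intro v
    obtain ⟨u, hu⟩ := h9 (l' s) v
    have h12 : Φ s ^ ((l' s - l s) * l' s) = 0 := by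
      rw [Nat.mul_comm, pow_mul, h3 s, zero_pow (by omega)]
    rw [h12, LinearMap.zero_apply] at hu
    exact hu.symm
  exact hν ((Submodule.eq_bot_iff _).2 fun x _ => h11 x)

/-- freeness of the core with the exponents of `Tame` -/
theorem free_Ainf_l (Φ : Fin 3 → End K V) {D : End K (CoreM Φ)} [IsAlgClosed K]
    (hD : ∀ s x, D (coreOp Φ s x) = coreOp Φ s (D x)) (hT : Core.Tame (coreOp Φ) D)
    {l : Fin 3 → ℕ} (hl : ∀ s nu, D.maxGenEigenspace nu ≠ ⊥ →
      (∀ j, (∀ v ∈ D.maxGenEigenspace nu, (coreOp Φ s ^ j) v = 0) ↔ l s ≤ j)) :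
      (∀ s, ∀ v ∈ Ainf Φ, (Φ s ^ l s) v ∈ T Φ) ∧
      ∀ s, ∀ j ≤ l s, ∀ v ∈ Ainf Φ, (Φ s ^ (l s - j)) v ∈ T Φ →
        ∃ w ∈ Ainf Φ, v - (Φ s ^ j) w ∈ T Φ := by
  obtain ⟨l', h1, h2, h3, h4, -, -⟩ := TC.free_of_tame hD
    (Module.End.iSup_maxGenEigenspace_eq_top D) hT
  obtain ⟨lam, -, -, hlam, -⟩ := hT.1
  have hll : l' = l := free_l hD (Module.End.iSup_maxGenEigenspace_eq_top D) ⟨lam, hlam⟩ hl h3 h4
  subst hll
  refine ⟨fun s v hv => ?_, fun s j hj v hv hvT => ?_⟩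
  · obtain ⟨w, hw1, hw2⟩ := coreOp_pow Φ s (l' s) ⟨v, hv⟩
    rw [h3 s, LinearMap.zero_apply] at hw2
    have h5 := (Submodule.Quotient.mk_eq_zero _).1 hw2.symm
    change (w : V) ∈ T Φ at h5
    rw [hw1] at h5
    exact h5
  · obtain ⟨w, hw1, hw2⟩ := coreOp_pow Φ s (l' s - j) ⟨v, hv⟩
    have h5 : (coreOp Φ s ^ (l' s - j)) ((Rad Φ).mkQ ⟨v, hv⟩) = 0 := by
      rw [hw2]
      refine (Submodule.Quotient.mk_eq_zero _).2 ?_
      change (w : V) ∈ T Φ
      rw [hw1]
      exact hvT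
    have h6 : (Rad Φ).mkQ ⟨v, hv⟩ ∈ LinearMap.ker (coreOp Φ s ^ (l' s - j)) := h5
    rw [TC.ker_eq_range (h3 s) (h4 s) (Nat.sub_le _ _), Nat.sub_sub_self hj] at h6
    obtain ⟨y, hy⟩ := h6
    obtain ⟨y, rfl⟩ := (Rad Φ).mkQ_surjective y
    obtain ⟨z, hz1, hz2⟩ := coreOp_pow Φ s j y
    refine ⟨y, y.2, ?_⟩
    rw [hz2] at hy
    have h7 := SpS.mk_eq.1 hy.symm
    rw [hz1] at h7
    exact h7

/-- the exponents of `BlkD` are those of `Tame` -/
theorem blk_l {Φ : Fin 3 → End K V} {D : End K (CoreM Φ)} [IsAlgClosed K]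
    (hD : ∀ s x, D (coreOp Φ s x) = coreOp Φ s (D x)) {l : Fin 3 → ℕ}
    (hl : ∀ s nu, D.maxGenEigenspace nu ≠ ⊥ →
      (∀ j, (∀ v ∈ D.maxGenEigenspace nu, (coreOp Φ s ^ j) v = 0) ↔ l s ≤ j)) {ν : K}
    (hν : D.maxGenEigenspace ν ≠ ⊥) {l' : Fin 3 → ℕ}
    (hb : BlkD (bA hD ν) (bR Φ D ν) l') : l' = l := by
  have hs := Module.End.iSup_maxGenEigenspace_eq_top D
  have key : ∀ s j, (∀ v ∈ D.maxGenEigenspace ν, (coreOp Φ s ^ j) v = 0) ↔
      ∀ p, (bA hD ν s ^ j) p ∈ bR Φ D ν := by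
    intro s j
    constructor
    · intro h p
      rw [← toE_zero]
      apply Subtype.ext
      rw [toE_bA_pow]
      exact h _ (toE Φ D ν p).2
    · intro h v hv
      obtain ⟨p, hp⟩ := toE_surj hD hs ν ⟨v, hv⟩
      have h1 := h p
      rw [← toE_zero] at h1
      have h2 := congrArg (fun x : D.maxGenEigenspace ν => (x : CoreM Φ)) h1
      simp only [toE_bA_pow, hp] at h2
      exact h2
  funext s
  have h5 : l s ≤ l' s := ((hl s ν hν) (l' s)).1 ((key s _).2 fun p => hb.pow s p)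
  have h6 : ¬ l s ≤ l' s - 1 := by
    intro h7
    obtain ⟨p, hp⟩ := hb.ne s
    exact hp ((key s _).1 (((hl s ν hν) _).2 h7) p)
  have := hb.two_le s
  omega

/-- no block at a non-eigenvalue -/
theorem PB_bot {Φ : Fin 3 → End K V} {D : End K (CoreM Φ)}
    (hD : ∀ s x, D (coreOp Φ s x) = coreOp Φ s (D x)) {ν : K}
    (hν : D.maxGenEigenspace ν = ⊥) : PB Φ D ν = ⊥ := by
  obtain ⟨m, hm⟩ := T_eq_Nk Φ
  have h0 : PB Φ D ν ≤ Nk Φ m := by
    intro v hv
    obtain ⟨h, h1⟩ := PB_mem hv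
    rw [hν, Submodule.mem_bot] at h1
    rw [← hm]
    exact (SC.mk_zero_iff h).1 h1
  have h1 : ∀ j, PB Φ D ν ≤ Nk Φ j → PB Φ D ν ≤ Nk Φ 0 := by
    intro j
    induction j with
    | zero => exact id
    | succ j ih =>
      intro h
      refine ih fun v hv => ?_
      obtain ⟨f, hf, hs⟩ := PB_exists hD ν hv
      rw [← hs]
      exact Submodule.sum_mem _ fun s _ => mem_Nk_succ.1 (h (hf s)) s
  rw [eq_bot_iff]
  intro v hv
  exact (Submodule.mem_bot K).2 (mem_Nk_zero.1 (h1 m h0 hv))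

end free

section top

variable {ι : Type} [Fintype ι] [DecidableEq ι] {δ : Type} [Fintype δ] [DecidableEq δ]
variable {K : Type} [Field K] [Algebra ℂ K] [IsAlgClosed K]
variable {arm : δ → Fin 3} {J : Matrix ι ι K} {B : Matrix δ δ K} {N W : Submodule K (Matrix ι δ K)}
  {F f : Matrix ι δ K} {P : Matrix ι ι K × (Fin 3 → Matrix ι ι K)} {R : Matrix δ ι K}

/-- the package with the exponents of `Tame` -/
theorem pow_act {n : ℕ} {Q : Matrix ι (Fin n) K} {A : Matrix (Fin n) (Fin n) K} {Φ : Matrix ι ι K}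
    (h : Φ * Q = Q * A) (j : ℕ) (x : Fin n → K) : (Φ ^ j) *ᵥ (Q *ᵥ x) = Q *ᵥ ((A ^ j) *ᵥ x) := by
  have e : Φ ^ j * Q = Q * A ^ j := by
    induction j with
    | zero => rw [pow_zero, pow_zero, Matrix.one_mul, Matrix.mul_one]
    | succ j ih => rw [pow_succ, Matrix.mul_assoc, h, ← Matrix.mul_assoc, ih, pow_succ,
        Matrix.mul_assoc]
  rw [mulVec_mulVec, e, ← mulVec_mulVec]

/-- **`SLW` from the two levels** -/
theorem slw_of (h1 : Lev1) (h2 : Lev2) {D : End K (CoreM (PhS arm J B F R P.1))} {l : Fin 3 → ℕ}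
    (S : Setup arm J B N W F f P R D l) : SLW arm J B N W F P (PC arm J B F R P.1) := by
  classical
  have hctx := S.hCtx F S.hF
  have hDt := hctx.data
  have hDc : ∀ s x, D (coreOp (PhS arm J B F R P.1) s x) =
      coreOp (PhS arm J B F R P.1) s (D x) := S.hD.2
  have hfin : {ν | D.maxGenEigenspace ν ≠ ⊥}.Finite :=
    WellFoundedGT.finite_ne_bot_of_iSupIndep (Module.End.independent_maxGenEigenspace D)
  let α : Type := {ν // D.maxGenEigenspace ν ≠ ⊥}
  have : Fintype α := hfin.fintype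
  choose n Q A hpkg using fun i : α => S.pkg i.1 i.2
  obtain ⟨⟨lam, mu, hne, hlam, hmu⟩, -⟩ := S.hT
  have hgen : ∀ i j : α, Gens arm J B N W F P R l (Q i) (A i) (Q j) (A j) := by
    intro i j
    by_cases hij : i = j
    · subst hij
      by_cases hi : i.1 = lam
      · exact h2 S (ν' := mu) (by rw [hi]; exact hne) (hpkg i) (hpkg ⟨mu, hmu⟩)
      · exact h2 S hi (hpkg i) (hpkg ⟨lam, hlam⟩)
    · exact h1 S (fun h => hij (Subtype.ext h)) (hpkg i) (hpkg j)
  let Pb : α → Submodule K (ι → K) := fun i =>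
    (PB (PhS arm J B F R P.1) D i.1).map (SpS.Sg F).subtype
  have hmem : ∀ i : α, ∀ a, a ∈ Pb i → ∃ x, a = Q i *ᵥ x := by
    rintro i _ ⟨v, hv, rfl⟩
    obtain ⟨x, hx⟩ := (hpkg i).span v hv
    exact ⟨x, hx⟩
  have hmem' : ∀ i : α, ∀ x, Q i *ᵥ x ∈ Pb i := by
    intro i x
    obtain ⟨v, hv, hvx⟩ := (hpkg i).mem x
    exact ⟨v, hv, hvx⟩
  have hrd : ∀ i : α, ∀ x, Q i *ᵥ x ∈ Rd (J * P.1) (Pb i) →
      ((Q i)ᵀ * (J * P.1) * Q i) *ᵥ x = 0 := by
    intro i x hx
    funext a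
    have h3 := hx.2 _ (hmem' i (Pi.single a 1))
    have h4 : (Q i *ᵥ Pi.single a 1) ⬝ᵥ ((J * P.1) *ᵥ (Q i *ᵥ x)) =
        (Pi.single a (1 : K)) ⬝ᵥ (((Q i)ᵀ * (J * P.1) * Q i) *ᵥ x) := by
      rw [Matrix.mul_assoc, ← mulVec_mulVec x (Q i)ᵀ, dotProduct_mulVec (Pi.single a 1) (Q i)ᵀ,
        vecMul_transpose]
      simp only [mulVec_mulVec, Matrix.mul_assoc]
    rw [h4, single_one_dotProduct] at h3
    exact h3
  have hP : PC arm J B F R P.1 = ⨆ i, Pb i := by
    have h3 : Ainf (PhS arm J B F R P.1) = ⨆ ν, PB (PhS arm J B F R P.1) D ν :=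
      (iSup_PB hDc (Module.End.iSup_maxGenEigenspace_eq_top D)).symm
    unfold PC
    rw [h3, Submodule.map_iSup]
    refine le_antisymm (iSup_le fun ν => ?_) (iSup_le fun i => ?_)
    · by_cases hν : D.maxGenEigenspace ν = ⊥
      · rw [PB_bot hDc hν, Submodule.map_bot]
        exact bot_le
      · exact le_iSup Pb ⟨ν, hν⟩
    · exact le_iSup (fun ν => (PB (PhS arm J B F R P.1) D ν).map (SpS.Sg F).subtype) i.1
  have horth : ∀ i j, i ≠ j → ∀ a ∈ Pb i, ∀ b ∈ Pb j, a ⬝ᵥ ((J * P.1) *ᵥ b) = 0 := by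
    rintro i j hij _ ⟨v, hv, rfl⟩ _ ⟨w, hw, rfl⟩
    exact SCM.orth (k := ℂ) (N := N) (W := W) hDt S.hR S.hP.1 S.hDB
      (fun h => hij (Subtype.ext h)) hv hw
  intro s x hx hF
  refine mem_GoodSW.1 (hSLW_of_blocks hDt hctx.mem S.hP.1 hP horth
    (fun s => PC_stable S.hR s) S.free ?_ ?_ ?_ s x hx hF)
  · intro s i j i' j' hij a ha b hb
    obtain ⟨x, rfl⟩ := hmem i a ha
    obtain ⟨y, rfl⟩ := hmem j b hb
    rw [pow_act ((hpkg i).act s), pow_act ((hpkg j).act s)]
    exact (hgen i j s).1 i' j' hij x y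
  · intro s i j r hr b hb
    obtain ⟨x, rfl⟩ := hmem i r hr.1
    obtain ⟨y, rfl⟩ := hmem j b hb
    exact (hgen i j s).2.1 x y (hrd i x hr)
  · intro s i j r hr b hb
    obtain ⟨x, rfl⟩ := hmem i r hr.1
    obtain ⟨y, rfl⟩ := hmem j b hb
    exact (hgen j i s).2.2 y x (hrd i x hr)

end top

section cfg

variable {n : ℕ} {a : Fin 3 → Fin n → ℤ} {c : Cfg n a} {q : SPol c}

/-- the setup for a configuration -/
theorem setup_of {R : Ranked c} {L : Type} [Field L] [Algebra ℂ L] [IsAlgClosed L]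
    {g : Fin 3 → Matrix (Ix n) (Ix n) L} {H : Matrix (Fin q.toPol.m) (Fin q.toPol.m) L}
    (hI : Inst c q R L g H) {F f : Matrix (Ix n) c.δ L}
    (hF : F ∈ Kiso (Jm n L) (c.N g) (VL (q.toPol.LH H)))
    (hf : f ∈ Kiso (Jm n L) (c.N g) (VL (q.toPol.LH H))) (hV1 : V1 c q g H F f)
    {P : Matrix (Ix n) (Ix n) L × (Fin 3 → Matrix (Ix n) (Ix n) L)}
    (hP : P ∈ NN c.arm (Jm n L) (c.N g) F) (hV2 : V2 c q g H F f P)
    {G : Matrix c.δ (Ix n) L} (hG : F * G * F = F)
    (hT : TameD (Mg c.arm (c.B L) F) (Ng c.arm (c.B L) F G f)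
        (bil F G (Fᵀ * (Jm n L * P.1) * F))) :
    ∃ (D : End L (CoreM (PhS c.arm (Jm n L) (c.B L) F G P.1))) (l : Fin 3 → ℕ),
      Setup c.arm (Jm n L) (c.B L) (c.N g) (VL (q.toPol.LH H)) F f P G D l := by
  obtain ⟨D, hD1, hD2, hD3, hD4⟩ := hT
  have hT0 := hD4
  obtain ⟨hE, hH, l, hl1, hl2, hl3⟩ := hD4
  have hl : ∀ s nu, D.maxGenEigenspace nu ≠ ⊥ → (∀ j, (∀ v ∈ D.maxGenEigenspace nu,
      (coreOp (PhS c.arm (Jm n L) (c.B L) F G P.1) s ^ j) v = 0) ↔ l s ≤ j) :=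
    fun s nu hnu => (hl2 s nu hnu).1
  have hctx := hI.ctx hF
  have hNil : ∀ g' ∈ Kiso (Jm n L) (c.N g) (VL (q.toPol.LH H)),
      NilW c.arm (Jm n L) (c.B L) (c.N g) g' := by
    intro g' hg'
    exact nilW_cfg R q.toPol hI.gi.orth hI.gi.skew hI.hgen (Jm_transpose _ _) hg'.1.1 hg'.1.2
      (hI.ctx hg').iso
  have hDc : ∀ s x, D (coreOp (PhS c.arm (Jm n L) (c.B L) F G P.1) s x) =
      coreOp (PhS c.arm (Jm n L) (c.B L) F G P.1) s (D x) := hD2
  refine ⟨D, l,
    { hCtx := fun g' hg' => hI.ctx hg'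
      hNm := maxN hI.gi.orth
      hWm := maxW q.toPol hI.gi.skew
      hNil := hNil
      hF := hF
      hf := hf
      hP := hP
      hV1 := hV1
      hV2 := hV2
      hR := hG
      hD := ⟨hD1, hD2⟩
      hDB := hD3
      hT := hT0
      hl := hl3
      top := SBlk.D_top hctx hG (hNil F hF) hP hf.1 ⟨hD1, hD2⟩
      free := ?_
      pkg := ?_ }⟩
  · obtain ⟨h7, h8⟩ := free_Ainf_l _ hDc hT0 hl
    have hpow : ∀ (s : Fin 3) (j : ℕ), ∀ w ∈ Ainf (PhS c.arm (Jm n L) (c.B L) F G P.1),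
        (PhS c.arm (Jm n L) (c.B L) F G P.1 s ^ j) w ∈ Ainf (PhS c.arm (Jm n L) (c.B L) F G P.1) := by
      intro s j
      induction j with
      | zero => intro w hw; exact hw
      | succ j ih =>
        intro w hw
        rw [pow_succ', Module.End.mul_apply]
        exact Ainf_stable s (ih w hw)
    refine fun s => ⟨?_, fun v hv => ?_⟩
    · rintro _ ⟨w, hw, rfl⟩
      have h9 := h7 s w hw
      rw [← mem_Rd_PC (k := ℂ) (N := c.N g) (W := VL (q.toPol.LH H)) hctx.data hG hP.1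
        (hpow s (l s) w hw), PhS_pow_coe hG] at h9
      exact h9
    · rintro _ ⟨w, hw, rfl⟩ hc
      have h9 : (PhS c.arm (Jm n L) (c.B L) F G P.1 s ^ (l s - v)) w ∈
          T (PhS c.arm (Jm n L) (c.B L) F G P.1) := by
        rw [← mem_Rd_PC (k := ℂ) (N := c.N g) (W := VL (q.toPol.LH H)) hctx.data hG hP.1
          (hpow s _ w hw), PhS_pow_coe hG]
        exact hc
      obtain ⟨y, hy, hy2⟩ := h8 s v hv w hw h9
      refine ⟨(y : Ix n → L), ⟨y, hy, rfl⟩, ?_⟩
      have h10 : w - (PhS c.arm (Jm n L) (c.B L) F G P.1 s ^ v) y ∈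
          Ainf (PhS c.arm (Jm n L) (c.B L) F G P.1) :=
        Submodule.sub_mem _ hw (hpow s v y hy)
      rw [← mem_Rd_PC (k := ℂ) (N := c.N g) (W := VL (q.toPol.LH H)) hctx.data hG hP.1 h10,
        Submodule.coe_sub, PhS_pow_coe hG] at hy2
      exact hy2
  · intro ν hν
    obtain ⟨l', -, hb⟩ := SCB.blkD hDc (Module.End.iSup_maxGenEigenspace_eq_top D)
      (fun v => sum_PhS (X := P.1) hctx hG v) hT0
    have hb' := hb ν hν
    have hll : l' = l := blk_l hDc hl hν hb'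
    rw [hll] at hb'
    exact pkg hctx hG hP.1 hDc hD3 hb'

/-- **`SLCfgW` from the two levels** -/
theorem slCfgW_of (h1 : Lev1) (h2 : Lev2) (R : Ranked c) : SLCfgW c q R := by
  intro L _ _ _ g H hI _ F hF f hf hV1 P hP hV2 _ G hG hT
  obtain ⟨D, l, S⟩ := setup_of hI hF hf hV1 hP hV2 hG hT
  exact slw_of h1 h2 S

/-- **(t2) from the two levels** -/
theorem noTameS2I (h1 : Lev1) (h2 : Lev2) (R : Ranked c) : NoTameS2I c q R :=
  noTameS2I_ofW (slCfgW_of h1 h2 R)

end cfg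

/-- **`InS2` from the two levels** -/
theorem inS2_of (h1 : Lev1) (h2 : Lev2) : Ind.InS2 :=
  inS2_ofI fun _ _ _ _ R => noTameS2I h1 h2 R

end Crest.Agent.R172.STop
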