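import Crest.Agent.R172.SpS2
import Crest.Agent.R172.Core4
import Crest.Agent.R172.Qt3
import Crest.Agent.R172.Om1

-- ▼ part R172/SpS3
section

/-!
Row 172, G1 Step 2 (`T_f` is scalar), part 3: lifting of symplectic cocycles of the core to symmetric
tensors, and descent of the derivation hypothesis to the core.
-/

set_option autoImplicit false
set_option linter.unusedSectionVars false

namespace Crest.Agent.R172.SpS

open Module LinearMap Crest.Agent.R172.Core
open Crest.Agent.R172.St (Nk T mem_T mem_Nk_zero mem_Nk_succ Nk_le_T T_stable T_closed T_eq_Nk)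
open Crest.Agent.R172.PL (Wk Ainf Rad CoreM coreOp resOp)

variable {K : Type*} [Field K] {V : Type*} [AddCommGroup V] [Module K V] {ι : Type*}
variable {M : ι → (Dual K V →ₗ[K] V)} {η : LinearMap.BilinForm K V} [FiniteDimensional K V]

/-- the map `V* → core` dual to the section. -/
noncomputable def kap (h : Dat M η) : Dual K V →ₗ[K] CoreM (Be M η) :=
  ((BC M η).toDual h.NA_BC.nondeg).symm.toLinearMap ∘ₗ
    ((Ainf (Be M η)).subtype ∘ₗ sec (Be M η)).dualMap

theorem kap_spec (h : Dat M η) (ζ : Dual K V) (q : CoreM (Be M η)) :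
    BC M η (kap h ζ) q = ζ (sec (Be M η) q : V) := by
  rw [← LinearMap.BilinForm.toDual_def (B := BC M η) h.NA_BC.nondeg]
  change ((BC M η).toDual h.NA_BC.nondeg) (((BC M η).toDual h.NA_BC.nondeg).symm
    (((Ainf (Be M η)).subtype ∘ₗ sec (Be M η)).dualMap ζ)) q = _
  rw [LinearEquiv.apply_symm_apply]
  rfl

theorem NA.ext {W : Type*} [AddCommGroup W] [Module K W] {B : LinearMap.BilinForm K W} (hB : NA B)
    {a b : W} (h : ∀ w, B a w = B b w) : a = b := by
  rw [← sub_eq_zero]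
  apply hB.nd
  intro w
  rw [map_sub, LinearMap.sub_apply, h, sub_self]

theorem kap_eta (h : Dat M η) (v : Ainf (Be M η)) : kap h (η (v : V)) = (Rad (Be M η)).mkQ v := by
  apply h.NA_BC.ext
  intro q
  rw [kap_spec, h.BC_mk_right]

theorem kap_t (h : Dat M η) {ζ : Dual K V} (hζ : ζ ∈ T (Al M η)) : kap h ζ = 0 := by
  apply h.NA_BC.nd
  intro q
  rw [kap_spec]
  exact h.t_ainf hζ (sec (Be M η) q).2

/-- **Lifting**: a symplectic cocycle of the core is induced by symmetric tensors with values in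
`Ainf` which form an exact cocycle. -/
theorem Dat.lift [Fintype ι] (h : Dat M η) (h2 : (2 : K) ≠ 0) (ξ : ι → End K (CoreM (Be M η)))
    (hξ : ∀ s p q, BC M η (ξ s p) q = - BC M η p (ξ s q))
    (hsum : ∑ s, (ξ s * coreOp (Be M η) s - coreOp (Be M η) s * ξ s) = 0) :
    ∃ x : ι → (Dual K V →ₗ[K] V), (∀ s (ζ ζ' : Dual K V), ζ (x s ζ') = ζ' (x s ζ)) ∧
      (∀ s ζ, x s ζ ∈ Ainf (Be M η)) ∧ (∀ s, ∀ ζ ∈ T (Al M η), x s ζ = 0) ∧
      (∀ ζ, ∑ s, (Be M η s (x s ζ) - x s (Al M η s ζ)) = 0) ∧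
      ∀ s (v w : Ainf (Be M η)), (w : V) = x s (η (v : V)) →
        (Rad (Be M η)).mkQ w = ξ s ((Rad (Be M η)).mkQ v) := by
  classical
  -- the first approximation
  let x0 : ι → (Dual K V →ₗ[K] V) := fun s =>
    (Ainf (Be M η)).subtype ∘ₗ sec (Be M η) ∘ₗ ξ s ∘ₗ kap h
  have hx0 : ∀ s ζ, x0 s ζ = (sec (Be M η) (ξ s (kap h ζ)) : V) := fun s ζ => rfl
  have hx0s : ∀ s (ζ ζ' : Dual K V), ζ (x0 s ζ') = ζ' (x0 s ζ) := by
    intro s ζ ζ'
    rw [hx0, hx0, ← kap_spec h, ← kap_spec h, h.NA_BC.alt (kap h ζ') , hξ, neg_neg]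
  obtain ⟨x', k1, k2, k3, k4⟩ := PL.lift (Al M η) (Be M η) x0
    (by
      intro s ζ hζ
      rw [hx0, kap_t h hζ, map_zero, map_zero]
      rfl)
    (fun s ζ => (sec (Be M η) (ξ s (kap h ζ))).2)
    (by
      intro ζ hζ
      obtain ⟨v, hv, rfl⟩ := ainf_eta hζ
      -- the value in the core
      have e1 : ∀ s, Be M η s (x0 s (η v)) - x0 s (Al M η s (η v)) =
          (((resOp (Be M η) s (sec (Be M η) (ξ s ((Rad (Be M η)).mkQ ⟨v, hv⟩))) -
            sec (Be M η) (ξ s (coreOp (Be M η) s ((Rad (Be M η)).mkQ ⟨v, hv⟩))) :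
              Ainf (Be M η))) : V) := by
        intro s
        have a1 : kap h (η v) = (Rad (Be M η)).mkQ ⟨v, hv⟩ := kap_eta h ⟨v, hv⟩
        have a2 : kap h (Al M η s (η v)) = coreOp (Be M η) s ((Rad (Be M η)).mkQ ⟨v, hv⟩) := by
          rw [← eta_be]
          exact kap_eta h (resOp (Be M η) s ⟨v, hv⟩)
        rw [hx0, hx0, a1, a2]
        rfl
      rw [Finset.sum_congr rfl fun s _ => e1 s, ← Submodule.coe_sum]
      refine (Submodule.Quotient.mk_eq_zero (Rad (Be M η))).1 ?_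
      rw [← Submodule.mkQ_apply, map_sum]
      have e2 : ∀ s, (Rad (Be M η)).mkQ (resOp (Be M η) s (sec (Be M η)
          (ξ s ((Rad (Be M η)).mkQ ⟨v, hv⟩))) -
            sec (Be M η) (ξ s (coreOp (Be M η) s ((Rad (Be M η)).mkQ ⟨v, hv⟩)))) =
          - ((ξ s * coreOp (Be M η) s - coreOp (Be M η) s * ξ s)
            ((Rad (Be M η)).mkQ ⟨v, hv⟩)) := by
        intro s
        rw [map_sub, ← PL.coreOp_mk, mk_sec, mk_sec]
        simp only [LinearMap.sub_apply, Module.End.mul_apply]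
        abel
      rw [Finset.sum_congr rfl fun s _ => e2 s, Finset.sum_neg_distrib, ← LinearMap.sum_apply, hsum]
      simp)
  -- the transpose
  have t1 : ∀ s, ∀ ζ ∈ T (Al M η), tr (x' s) ζ = 0 := by
    intro s ζ hζ
    rw [← Module.forall_dual_apply_eq_zero_iff K]
    intro φ
    rw [tr_apply]
    exact h.t_ainf hζ (k2 s φ)
  have t2 : ∀ s ζ, tr (x' s) ζ ∈ Ainf (Be M η) := by
    intro s ζ
    rw [← Subspace.dualAnnihilator_dualCoannihilator_eq (W := Ainf (Be M η)),
      Submodule.mem_dualCoannihilator]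
    intro φ hφ
    rw [Submodule.mem_dualAnnihilator] at hφ
    rw [tr_apply, k1 s φ (h.mem_t hφ), map_zero]
  have t3 : ∀ s, ∀ u ∈ Ainf (Al M η), tr (x' s) u - x0 s u ∈ T (Be M η) := by
    intro s u hu
    apply h.mem_t'
    intro w hw
    rw [map_sub, tr_apply, hx0s s w u, ← map_sub]
    exact h.ainf_t hu (k3 s w hw)
  have t4 : ∀ ζ, ∑ s, (Be M η s (tr (x' s) ζ) - tr (x' s) (Al M η s ζ)) = 0 := by
    intro ζ
    rw [← Module.forall_dual_apply_eq_zero_iff K]
    intro φ
    have e : ∀ s, φ (Be M η s (tr (x' s) ζ) - tr (x' s) (Al M η s ζ)) =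
        ζ (Be M η s (x' s φ) - x' s (Al M η s φ)) := by
      intro s
      rw [map_sub, map_sub, h.pair, tr_apply, tr_apply, h.pair]
      ring
    rw [map_sum, Finset.sum_congr rfl fun s _ => e s, ← map_sum, k4, map_zero]
  let x : ι → (Dual K V →ₗ[K] V) := fun s => (2⁻¹ : K) • (x' s + tr (x' s))
  have hx : ∀ s ζ, x s ζ = (2⁻¹ : K) • (x' s ζ + tr (x' s) ζ) := fun s ζ => rfl
  refine ⟨x, ?_, ?_, ?_, ?_, ?_⟩
  · intro s ζ ζ'
    rw [hx, hx, map_smul, map_smul, map_add, map_add, tr_apply, tr_apply, add_comm]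
  · intro s ζ
    rw [hx]
    exact Submodule.smul_mem _ _ (Submodule.add_mem _ (k2 s ζ) (t2 s ζ))
  · intro s ζ hζ
    rw [hx, k1 s ζ hζ, t1 s ζ hζ, add_zero, smul_zero]
  · intro ζ
    have e : ∀ s, Be M η s (x s ζ) - x s (Al M η s ζ) =
        (2⁻¹ : K) • ((Be M η s (x' s ζ) - x' s (Al M η s ζ)) +
          (Be M η s (tr (x' s) ζ) - tr (x' s) (Al M η s ζ))) := by
      intro s
      rw [hx, hx, map_smul, map_add, ← smul_sub]
      congr 1
      abel
    rw [Finset.sum_congr rfl fun s _ => e s, ← Finset.smul_sum, Finset.sum_add_distrib, k4, t4,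
      add_zero, smul_zero]
  · intro s v w hw
    have hηv : η (v : V) ∈ Ainf (Al M η) := eta_ainf v.2
    have e0 : x0 s (η (v : V)) = (sec (Be M η) (ξ s ((Rad (Be M η)).mkQ v)) : V) := by
      rw [hx0, kap_eta]
    have e1 : (w : V) - (sec (Be M η) (ξ s ((Rad (Be M η)).mkQ v)) : V) ∈ T (Be M η) := by
      rw [← e0, hw, hx]
      have e2 : (2⁻¹ : K) • (x' s (η (v : V)) + tr (x' s) (η (v : V))) - x0 s (η (v : V)) =
          (2⁻¹ : K) • ((x' s (η (v : V)) - x0 s (η (v : V))) +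
            (tr (x' s) (η (v : V)) - x0 s (η (v : V)))) := by
        have e3 : x0 s (η (v : V)) = (2⁻¹ : K) • (x0 s (η (v : V)) + x0 s (η (v : V))) := by
          rw [← two_smul K (x0 s (η (v : V))), smul_smul, inv_mul_cancel₀ h2, one_smul]
        conv_lhs => rw [e3]
        rw [← smul_sub]
        congr 1
        abel
      rw [e2]
      exact Submodule.smul_mem _ _ (Submodule.add_mem _ (k3 s _ hηv) (t3 s _ hηv))
    rw [mk_eq.2 e1, mk_sec]

/-- The derivation hypothesis on `(V, η, M)`: every exact symmetric cocycle is realised by a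
semilinear `δ` which is compatible with `η`. -/
def DerSp [Fintype ι] (M : ι → (Dual K V →ₗ[K] V)) (η : LinearMap.BilinForm K V) : Prop :=
  ∀ x : ι → (Dual K V →ₗ[K] V), (∀ s (ζ ζ' : Dual K V), ζ (x s ζ') = ζ' (x s ζ)) →
    (∀ s ζ, x s ζ ∈ Ainf (Be M η)) → (∀ s, ∀ ζ ∈ T (Al M η), x s ζ = 0) →
    (∀ ζ, ∑ s, (Be M η s (x s ζ) - x s (Al M η s ζ)) = 0) →
    ∃ (d : Derivation ℤ K K) (δ : V →+ V), (∀ (c : K) (v : V), δ (c • v) = d c • v + c • δ v) ∧
      (∀ v w, η (δ v) w + η v (δ w) = d (η v w)) ∧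
      ∀ s v, δ (Be M η s v) - Be M η s (δ v) =
        x s (η (Be M η s v)) - Be M η s (x s (η v))

/-- **Descent** of the derivation hypothesis to the core. -/
theorem Dat.der_core [Fintype ι] (h : Dat M η) (h2 : (2 : K) ≠ 0) (hDer : DerSp M η) :
    Der (BC M η) (coreOp (Be M η)) := by
  classical
  intro ξ hξ hsum
  obtain ⟨x, x1, x2, x3, x4, x5⟩ := h.lift h2 ξ hξ hsum
  obtain ⟨d, δ, hδs, hδη, hδΦ⟩ := hDer x x1 x2 x3 x4
  -- `δ` preserves `T`
  have hδN : ∀ k, ∀ v ∈ Nk (Be M η) k, δ v ∈ T (Be M η) := by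
    intro k
    induction k with
    | zero =>
      intro v hv
      rw [mem_Nk_zero] at hv
      rw [hv, map_zero]
      exact Submodule.zero_mem _
    | succ k ih =>
      intro v hv
      have hvT : v ∈ T (Be M η) := Nk_le_T _ _ hv
      apply T_closed
      intro s
      have e1 := ih _ (mem_Nk_succ.1 hv s)
      have e2 := hδΦ s v
      rw [x3 s _ (eta_t hvT), x3 s _ (eta_t (T_stable s hvT)), map_zero, sub_zero,
        sub_eq_zero] at e2
      rw [← e2]
      exact e1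
  have hδT : ∀ v ∈ T (Be M η), δ v ∈ T (Be M η) := by
    intro v hv
    obtain ⟨k, hk⟩ := mem_T.1 hv
    exact hδN k v hk
  -- `δ` preserves `Ainf`
  have hδW : ∀ k, ∀ v ∈ Wk (Be M η) k, δ v ∈ Wk (Be M η) k := by
    intro k
    induction k with
    | zero => intro v _; simp [Wk]
    | succ k ih =>
      intro v hv
      refine Submodule.iSup_induction (p := fun s => (Wk (Be M η) k).map (Be M η s))
        (motive := fun v => δ v ∈ Wk (Be M η) (k + 1)) hv ?_ ?_ ?_
      · rintro s _ ⟨u, hu, rfl⟩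
        have e1 : δ (Be M η s u) = Be M η s (δ u) + (x s (η (Be M η s u)) -
            Be M η s (x s (η u))) := by rw [← hδΦ]; abel
        rw [e1]
        exact Submodule.add_mem _ (PL.Wk_succ_mem (ih u hu) s)
          (Submodule.sub_mem _ (PL.Ainf_le_Wk _ _ (x2 s _))
            (PL.Ainf_le_Wk _ _ (PL.Ainf_stable s (x2 s _))))
      · rw [map_zero]; exact Submodule.zero_mem _
      · intro a b ha hb; rw [map_add]; exact Submodule.add_mem _ ha hb
  have hδA : ∀ v ∈ Ainf (Be M η), δ v ∈ Ainf (Be M η) := fun v hv =>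
    (Submodule.mem_iInf _).2 (fun k => hδW k v (PL.Ainf_le_Wk _ k hv))
  let δA : Ainf (Be M η) →+ Ainf (Be M η) :=
    { toFun := fun v => ⟨δ v, hδA v v.2⟩
      map_zero' := Subtype.ext (map_zero δ)
      map_add' := fun v w => Subtype.ext (map_add δ (v : V) (w : V)) }
  have hδAc : ∀ v, ((δA v : Ainf (Be M η)) : V) = δ v := fun v => rfl
  let δC : CoreM (Be M η) →+ CoreM (Be M η) :=
    { toFun := fun p => (Rad (Be M η)).mkQ (δA (sec (Be M η) p))
      map_zero' := by rw [map_zero, map_zero, map_zero]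
      map_add' := fun p q => by rw [map_add, map_add, map_add] }
  have hδC : ∀ v : Ainf (Be M η), δC ((Rad (Be M η)).mkQ v) = (Rad (Be M η)).mkQ (δA v) := by
    intro v
    apply mk_eq.2
    rw [hδAc, hδAc, ← map_sub]
    exact hδT _ (sec_mk v)
  refine ⟨d, δC, ?_, ?_, ?_⟩
  · intro c p
    obtain ⟨v, rfl⟩ := (Rad (Be M η)).mkQ_surjective p
    rw [← map_smul, hδC, hδC, ← map_smul, ← map_smul, ← map_add]
    congr 1
    exact Subtype.ext (hδs c v)
  · intro p q
    obtain ⟨v, rfl⟩ := (Rad (Be M η)).mkQ_surjective p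
    obtain ⟨w, rfl⟩ := (Rad (Be M η)).mkQ_surjective q
    rw [hδC, hδC, h.BC_mk, h.BC_mk, h.BC_mk]
    exact hδη v w
  · intro s p
    obtain ⟨v, rfl⟩ := (Rad (Be M η)).mkQ_surjective p
    have hxA : ∀ s ζ, x s ζ ∈ Ainf (Be M η) := x2
    have e1 : ξ s ((Rad (Be M η)).mkQ v) = (Rad (Be M η)).mkQ ⟨x s (η (v : V)), x2 s _⟩ :=
      (x5 s v ⟨x s (η (v : V)), x2 s _⟩ rfl).symm
    have e2 : ξ s (coreOp (Be M η) s ((Rad (Be M η)).mkQ v)) =
        (Rad (Be M η)).mkQ ⟨x s (η (Be M η s (v : V))), x2 s _⟩ := by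
      rw [PL.coreOp_mk]
      exact (x5 s (resOp (Be M η) s v) ⟨x s (η (Be M η s (v : V))), x2 s _⟩ rfl).symm
    rw [e1, e2, PL.coreOp_mk, hδC, hδC, PL.coreOp_mk, PL.coreOp_mk, ← map_sub, ← map_sub]
    congr 1
    exact Subtype.ext (hδΦ s v)

end Crest.Agent.R172.SpS
end

-- ▼ part R172/SpS4
section

/-!
Row 172, G1 Step 2 (`T_f` is scalar), part 4: the operator `D_f` on the core, the alternative
(one eigenvalue or tame), and `T_f η = c η` from `NIL^sp` (notes 14005 Step 2, 13981 (A2), 13937 (I2)).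
-/

set_option autoImplicit false
set_option linter.unusedSectionVars false

namespace Crest.Agent.R172.SpS

open Module LinearMap Crest.Agent.R172.Core
open Crest.Agent.R172.St (Nk T mem_T mem_Nk_zero mem_Nk_succ Nk_le_T T_stable T_closed T_eq_Nk)
open Crest.Agent.R172.PL (Wk Ainf Rad CoreM coreOp resOp)

variable {K : Type*} [Field K] {V : Type*} [AddCommGroup V] [Module K V] {ι : Type*}

variable {E : Type*} [AddCommGroup E] [Module K E]

/-- `E` a space of alternating forms (embedded by `b`), `M_s = M_s(g)`, `N_s = M_s(f, g)` symmetric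
tensors, `T_f` the operator of `E` with `M_s (T_f η) = N_s η`. -/
structure Step (M N : ι → (Dual K V →ₗ[K] V)) (b : E →ₗ[K] LinearMap.BilinForm K V)
    (Tf : End K E) : Prop where
  symM : ∀ s (ζ ξ : Dual K V), ζ (M s ξ) = ξ (M s ζ)
  symN : ∀ s (ζ ξ : Dual K V), ζ (N s ξ) = ξ (N s ζ)
  skew : ∀ (η : E) (v w : V), (b η) v w = - (b η) w v
  rel : ∀ (η : E) s (v : V), M s ((b (Tf η)) v) = N s ((b η) v)

variable {M N : ι → (Dual K V →ₗ[K] V)} {b : E →ₗ[K] LinearMap.BilinForm K V}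
  {Tf : End K E}

theorem Step.dat (h : Step M N b Tf) (η : E) : Dat M (b η) := ⟨h.symM, h.skew η⟩

theorem Step.datN (h : Step M N b Tf) (η : E) : Dat N (b η) := ⟨h.symN, h.skew η⟩

theorem Step.rel' (h : Step M N b Tf) (η : E) (s : ι) (ζ : Dual K V) :
    (b (Tf η)) (M s ζ) = (b η) (N s ζ) := by
  apply LinearMap.ext
  intro w
  rw [h.skew (Tf η), h.skew η, h.symM s, h.rel, h.symN s]

/-- `(T η) M η' = η M (T η')`. -/
theorem Step.move (h : Step M N b Tf) (η η' : E) (s t : ι) (v : V) :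
    Be M (b (Tf η)) s (Be M (b η') t v) = Be M (b η) s (Be M (b (Tf η')) t v) := by
  rw [Be_apply, Be_apply, Be_apply, Be_apply, h.rel', h.rel]

/-- subtract a scalar -/
theorem Step.shift (h : Step M N b Tf) (c : K) :
    Step M (fun s => N s - c • M s) b (Tf - c • (1 : End K E)) where
  symM := h.symM
  symN s ζ ξ := by
    change ζ (N s ξ - c • M s ξ) = ξ (N s ζ - c • M s ζ)
    rw [map_sub, map_sub, map_smul, map_smul, h.symN s ζ ξ, h.symM s ζ ξ]
  skew := h.skew
  rel η s v := by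
    have e : (Tf - c • (1 : End K E)) η = Tf η - c • η := rfl
    change M s ((b ((Tf - c • (1 : End K E)) η)) v) = N s ((b η) v) - c • M s ((b η) v)
    rw [e, map_sub, map_smul, LinearMap.sub_apply, LinearMap.smul_apply, map_sub, map_smul, h.rel]

/-- iterates -/
theorem Step.move_pow (h : Step M N b Tf) (η η' : E) (k : ℕ) (s t : ι) (v : V) :
    Be M (b ((Tf ^ k) η)) s (Be M (b η') t v) = Be M (b η) s (Be M (b ((Tf ^ k) η')) t v) := by
  induction k generalizing η η' with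
  | zero => rfl
  | succ k ih =>
    have e1 : (Tf ^ (k + 1)) η = (Tf ^ k) (Tf η) := by rw [pow_succ]; rfl
    have e2 : (Tf ^ (k + 1)) η' = Tf ((Tf ^ k) η') := by rw [pow_succ']; rfl
    rw [e1, ih, e2, h.move]

theorem Step.move' (h : Step M N b Tf) (η : E) (i j : ℕ) (s t : ι) (v : V) :
    Be M (b ((Tf ^ i) η)) s (Be M (b ((Tf ^ j) η)) t v) =
      Be M (b ((Tf ^ (i + j)) η)) s (Be M (b η) t v) := by
  rw [← h.move_pow ((Tf ^ i) η) η j s t v]
  have e : (Tf ^ j) ((Tf ^ i) η) = (Tf ^ (i + j)) η := by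
    rw [add_comm, pow_add]; rfl
  rw [e]

theorem wd_cons (Φ : ι → End K V) (s : ι) (l : List ι) (v : V) :
    wd Φ (s :: l) v = Φ s (wd Φ l v) := by simp [wd]

theorem wd_nil (Φ : ι → End K V) (v : V) : wd Φ [] v = v := by simp [wd]

/-- a word in `M_s (T^n η)`. -/
theorem Step.word (h : Step M N b Tf) (η : E) (n : ℕ) (l : List ι) (s : ι) (v : V) :
    wd (Be M (b ((Tf ^ n) η))) (s :: l) v =
      Be M (b ((Tf ^ (n * (l.length + 1))) η)) s (wd (Be M (b η)) l v) := by
  induction l generalizing s with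
  | nil => rw [wd_cons, wd_nil, wd_nil, List.length_nil, zero_add, mul_one]
  | cons t l ih =>
    have e : n + n * (l.length + 1) = n * (l.length + 1 + 1) := by ring
    rw [wd_cons, ih, h.move', ← wd_cons (Be M (b η)) t l v, List.length_cons, e]

theorem wd_Wk (Φ : ι → End K V) (l : List ι) (v : V) : wd Φ l v ∈ Wk Φ l.length := by
  induction l with
  | nil => simp [Wk]
  | cons s l ih => rw [wd_cons]; exact PL.Wk_succ_mem ih s

/-- NILPOTENT ⇒ ZERO. -/
theorem Step.nil_zero (h : Step M N b Tf)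
    (hNIL : ∀ η : E, ∀ k, (∀ v, v ∈ Nk (Be M (b η)) k) → η = 0) (η : E) (n : ℕ)
    (hn : (Tf ^ n) η = 0) : Tf η = 0 := by
  have step : ∀ j, (Tf ^ (j + 2)) η = 0 → (Tf ^ (j + 1)) η = 0 := by
    intro j hj
    apply hNIL _ 2
    intro v
    rw [mem_Nk_iff]
    intro l hl
    match l, hl with
    | [s, t], _ =>
      rw [h.word]
      have e : (Tf ^ ((j + 1) * ([t].length + 1))) η = 0 := by
        have e1 : (j + 1) * ([t].length + 1) = j + (j + 2) := by
          simp only [List.length_cons, List.length_nil]; ring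
        rw [e1, pow_add]
        change (Tf ^ j) ((Tf ^ (j + 2)) η) = 0
        rw [hj, map_zero]
      rw [e]
      rw [Be_apply]
      simp
  have key : ∀ m, (Tf ^ (m + 1)) η = 0 → (Tf ^ 1) η = 0 := by
    intro m
    induction m with
    | zero => intro h0; exact h0
    | succ m ih => intro hm; exact ih (step m hm)
  have h1 := key n (by rw [pow_succ']; change Tf ((Tf ^ n) η) = 0; rw [hn, map_zero])
  rwa [pow_one] at h1

section coreN

theorem Step.be_ne (h : Step M N b Tf) (η : E) (s t : ι) (v : V) :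
    Be M (b η) t (Be N (b η) s v) = Be N (b η) t (Be M (b η) s v) := by
  rw [Be_apply, Be_apply, Be_apply, Be_apply, ← h.rel', h.rel]

theorem Step.ne_Wk (h : Step M N b Tf) (η : E) (k : ℕ) :
    ∀ s, ∀ v ∈ Wk (Be M (b η)) k, Be N (b η) s v ∈ Wk (Be M (b η)) k := by
  induction k with
  | zero => intro s v _; simp [Wk]
  | succ k ih =>
    intro s v hv
    refine Submodule.iSup_induction (p := fun s => (Wk (Be M (b η)) k).map (Be M (b η) s))
      (motive := fun v => Be N (b η) s v ∈ Wk (Be M (b η)) (k + 1)) hv ?_ ?_ ?_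
    · rintro t _ ⟨u, hu, rfl⟩
      rw [← h.be_ne]
      exact PL.Wk_succ_mem (ih t u hu) s
    · rw [map_zero]; exact Submodule.zero_mem _
    · intro x y hx hy; rw [map_add]; exact Submodule.add_mem _ hx hy

theorem Step.ne_Nk (h : Step M N b Tf) (η : E) (k : ℕ) :
    ∀ s, ∀ v ∈ Nk (Be M (b η)) k, Be N (b η) s v ∈ Nk (Be M (b η)) k := by
  induction k with
  | zero => intro s v hv; rw [mem_Nk_zero] at hv ⊢; rw [hv, map_zero]
  | succ k ih =>
    intro s v hv
    rw [mem_Nk_succ] at hv ⊢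
    intro t
    rw [h.be_ne]
    exact ih t _ (hv s)

theorem Step.ne_ainf (h : Step M N b Tf) (η : E) (s : ι) {v : V} (hv : v ∈ Ainf (Be M (b η))) :
    Be N (b η) s v ∈ Ainf (Be M (b η)) :=
  (Submodule.mem_iInf _).2 (fun k => h.ne_Wk η k s v (PL.Ainf_le_Wk _ k hv))

theorem Step.ne_t (h : Step M N b Tf) (η : E) (s : ι) {v : V} (hv : v ∈ T (Be M (b η))) :
    Be N (b η) s v ∈ T (Be M (b η)) := by
  obtain ⟨k, hk⟩ := mem_T.1 hv
  exact Nk_le_T _ k (h.ne_Nk η k s v hk)

/-- `N_s η` on `Ainf`. -/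
def resN (h : Step M N b Tf) (η : E) (s : ι) : End K (Ainf (Be M (b η))) :=
  (Be N (b η) s).restrict (fun _ hv => h.ne_ainf η s hv)

/-- `N_s η` on the core. -/
def coreN (h : Step M N b Tf) (η : E) (s : ι) : End K (CoreM (Be M (b η))) :=
  (Rad (Be M (b η))).mapQ (Rad (Be M (b η))) (resN h η s) (fun _ hv => h.ne_t η s hv)

theorem coreN_mk (h : Step M N b Tf) (η : E) (s : ι) (v : Ainf (Be M (b η))) :
    coreN h η s ((Rad (Be M (b η))).mkQ v) = (Rad (Be M (b η))).mkQ (resN h η s v) := rfl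

theorem core_comm (h : Step M N b Tf) (η : E) (s t : ι) (p : CoreM (Be M (b η))) :
    coreOp (Be M (b η)) t (coreN h η s p) = coreN h η t (coreOp (Be M (b η)) s p) := by
  obtain ⟨v, rfl⟩ := (Rad (Be M (b η))).mkQ_surjective p
  rw [coreN_mk, PL.coreOp_mk, PL.coreOp_mk, coreN_mk]
  congr 1
  exact Subtype.ext (h.be_ne η s t v)

variable [FiniteDimensional K V]

theorem coreN_skew (h : Step M N b Tf) (η : E) (s : ι) (p q : CoreM (Be M (b η))) :
    BC M (b η) (coreN h η s p) q = - BC M (b η) p (coreN h η s q) := by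
  obtain ⟨v, rfl⟩ := (Rad (Be M (b η))).mkQ_surjective p
  obtain ⟨w, rfl⟩ := (Rad (Be M (b η))).mkQ_surjective q
  rw [coreN_mk, coreN_mk, (h.dat η).BC_mk, (h.dat η).BC_mk]
  exact (h.datN η).be_skew s v w

variable [Fintype ι]

/-- The operator `D_f` of the core. -/
theorem Step.exists_D (h : Step M N b Tf) (η : E) :
    ∃ D : End K (CoreM (Be M (b η))), (∀ s p, D (coreOp (Be M (b η)) s p) = coreN h η s p) ∧
      (∀ s p, D (coreOp (Be M (b η)) s p) = coreOp (Be M (b η)) s (D p)) ∧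
      ∀ p q, BC M (b η) (D p) q = BC M (b η) p (D q) := by
  classical
  let F : (ι → CoreM (Be M (b η))) →ₗ[K] CoreM (Be M (b η)) :=
    ∑ s, coreOp (Be M (b η)) s ∘ₗ LinearMap.proj s
  let G : (ι → CoreM (Be M (b η))) →ₗ[K] CoreM (Be M (b η)) :=
    ∑ s, coreN h η s ∘ₗ LinearMap.proj s
  have hF : ∀ f, F f = ∑ s, coreOp (Be M (b η)) s (f s) := by
    intro f; simp [F, LinearMap.sum_apply]
  have hG : ∀ f, G f = ∑ s, coreN h η s (f s) := by
    intro f; simp [G, LinearMap.sum_apply]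
  have hker : LinearMap.ker F ≤ LinearMap.ker G := by
    intro f hf
    rw [LinearMap.mem_ker, hF] at hf
    rw [LinearMap.mem_ker, hG]
    apply PL.core_noker
    intro t
    rw [map_sum, Finset.sum_congr rfl fun s _ => core_comm h η s t (f s), ← map_sum, hf, map_zero]
  obtain ⟨D, hD⟩ := PL.factor F G hker
  have hD' : ∀ f, D (F f) = G f := fun f => LinearMap.congr_fun hD f
  have h1 : ∀ s p, D (coreOp (Be M (b η)) s p) = coreN h η s p := by
    intro s p
    have e1 : F (Pi.single s p) = coreOp (Be M (b η)) s p := by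
      rw [hF, Finset.sum_eq_single s]
      · rw [Pi.single_eq_same]
      · intro t _ hts; rw [Pi.single_eq_of_ne hts, map_zero]
      · intro hs; exact absurd (Finset.mem_univ s) hs
    have e2 : G (Pi.single s p) = coreN h η s p := by
      rw [hG, Finset.sum_eq_single s]
      · rw [Pi.single_eq_same]
      · intro t _ hts; rw [Pi.single_eq_of_ne hts, map_zero]
      · intro hs; exact absurd (Finset.mem_univ s) hs
    rw [← e1, hD', e2]
  have h2 : ∀ s p, D (coreOp (Be M (b η)) s p) = coreOp (Be M (b η)) s (D p) := by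
    intro t p
    obtain ⟨f, rfl⟩ := PL.core_exists (Be M (b η)) p
    rw [h1, map_sum, map_sum, map_sum]
    refine Finset.sum_congr rfl (fun s _ => ?_)
    rw [h1, core_comm]
  refine ⟨D, h1, h2, ?_⟩
  intro p q
  obtain ⟨f, rfl⟩ := PL.core_exists (Be M (b η)) p
  rw [map_sum, map_sum, map_sum, LinearMap.sum_apply, LinearMap.sum_apply]
  refine Finset.sum_congr rfl (fun s _ => ?_)
  rw [h1, coreN_skew, (h.dat η).BC_op, ← h2, h1]

/-- the alternative on the core. -/
theorem Step.alt [IsAlgClosed K] (h : Step M N b Tf) (h2 : (2 : K) ≠ 0) (η : E)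
    (hnil : ∃ k, ∀ s, Be M (b η) s ^ k = 0) (hsum : ∀ ζ, ∑ s, M s ζ = 0) (hDer : DerSp M (b η))
    {D : End K (CoreM (Be M (b η)))}
    (hD1 : ∀ s p, D (coreOp (Be M (b η)) s p) = coreOp (Be M (b η)) s (D p))
    (hD2 : ∀ p q, BC M (b η) (D p) q = BC M (b η) p (D q)) :
    (∃ lam, D.maxGenEigenspace lam = ⊤) ∨ Tame (coreOp (Be M (b η))) D := by
  obtain ⟨k, hk⟩ := hnil
  exact core_altA (h.dat η).NA_BC (fun s v w => (h.dat η).BC_op s v w)
    ⟨k, fun s => PL.core_pow (Be M (b η)) s k (hk s)⟩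
    (fun p => PL.core_sum (Be M (b η)) (fun v => hsum ((b η) v)) p)
    (fun p hp => PL.core_noker (Be M (b η)) p hp)
    ((h.dat η).der_core h2 hDer) hD2 hD1 (Module.End.iSup_maxGenEigenspace_eq_top _)

/-- The action of `M_s (T^j η)` on the core is `Φ_s D^j`. -/
theorem Step.core_pow (h : Step M N b Tf) (η : E) {D : End K (CoreM (Be M (b η)))}
    (hD : ∀ s p, D (coreOp (Be M (b η)) s p) = coreN h η s p) (j : ℕ) :
    ∀ (s : ι) (v : Ainf (Be M (b η))), ∃ w : Ainf (Be M (b η)),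
      (w : V) = Be M (b ((Tf ^ j) η)) s (v : V) ∧
      (Rad (Be M (b η))).mkQ w = coreOp (Be M (b η)) s ((D ^ j) ((Rad (Be M (b η))).mkQ v)) := by
  induction j with
  | zero => intro s v; exact ⟨resOp (Be M (b η)) s v, rfl, rfl⟩
  | succ j ih =>
    intro s v
    obtain ⟨f, hf1, hf2⟩ := PL.Ainf_exists (Be M (b η)) v.2
    let u : Ainf (Be M (b η)) := ∑ t, resN h η t ⟨f t, hf1 t⟩
    have hu : (u : V) = ∑ t, Be N (b η) t (f t) := by
      change ((∑ t, resN h η t ⟨f t, hf1 t⟩ : Ainf (Be M (b η))) : V) = _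
      rw [Submodule.coe_sum]
      rfl
    have hv : v = ∑ t, resOp (Be M (b η)) t ⟨f t, hf1 t⟩ := by
      apply Subtype.ext
      rw [Submodule.coe_sum, ← hf2]
      rfl
    have hmu : (Rad (Be M (b η))).mkQ u = D ((Rad (Be M (b η))).mkQ v) := by
      rw [hv]
      change (Rad (Be M (b η))).mkQ (∑ t, resN h η t ⟨f t, hf1 t⟩) = _
      rw [map_sum, map_sum, map_sum]
      refine Finset.sum_congr rfl (fun t _ => ?_)
      rw [← coreN_mk, ← PL.coreOp_mk, hD]
    obtain ⟨w, hw1, hw2⟩ := ih s u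
    refine ⟨w, ?_, ?_⟩
    · rw [hw1, hu, ← hf2, map_sum, map_sum]
      refine Finset.sum_congr rfl (fun t _ => ?_)
      have e1 : Be N (b η) t (f t) = Be M (b (Tf η)) t (f t) := by
        rw [Be_apply, Be_apply, h.rel]
      have e2 : (Tf ^ (j + 1)) η = Tf ((Tf ^ j) η) := by rw [pow_succ']; rfl
      rw [e1, e2, h.move]
    · rw [hw2, hmu, pow_succ]
      rfl

/-- If `D` is nilpotent on the core then `T_f` is nilpotent on `η`. -/
theorem Step.nilp (h : Step M N b Tf)
    (hNIL : ∀ η : E, ∀ k, (∀ v, v ∈ Nk (Be M (b η)) k) → η = 0) (η : E)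
    {D : End K (CoreM (Be M (b η)))}
    (hD : ∀ s p, D (coreOp (Be M (b η)) s p) = coreN h η s p) (n : ℕ) (hn : D ^ n = 0) :
    (Tf ^ n) η = 0 := by
  obtain ⟨a, ha, -⟩ := PL.Ainf_eq_Wk (Be M (b η))
  obtain ⟨b', hb⟩ := T_eq_Nk (Be M (b η))
  -- one long word maps `V` into `T`
  have hDn : ∀ m, 1 ≤ m → D ^ (n * m) = 0 := by
    intro m hm
    obtain ⟨m', rfl⟩ := Nat.exists_eq_add_of_le hm
    rw [Nat.mul_add, mul_one, pow_add, hn, zero_mul]
  have w2 : ∀ (s : ι) (l : List ι), l.length = a → ∀ v,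
      wd (Be M (b ((Tf ^ n) η))) (s :: l) v ∈ T (Be M (b η)) := by
    intro s l hl v
    rw [h.word]
    have hA : wd (Be M (b η)) l v ∈ Ainf (Be M (b η)) := by
      rw [ha, ← hl]; exact wd_Wk _ l v
    obtain ⟨w, hw1, hw2⟩ := h.core_pow η hD (n * (l.length + 1)) s ⟨_, hA⟩
    rw [hDn _ (Nat.le_add_left 1 _), LinearMap.zero_apply, map_zero] at hw2
    rw [← hw1]
    exact (Submodule.Quotient.mk_eq_zero (Rad (Be M (b η)))).1 hw2
  have w1 : ∀ (s : ι) (l : List ι), l.length = b' → ∀ v ∈ T (Be M (b η)),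
      wd (Be M (b ((Tf ^ n) η))) (s :: l) v = 0 := by
    intro s l hl v hv
    rw [h.word]
    rw [hb, mem_Nk_iff] at hv
    rw [hv l hl, map_zero]
  apply hNIL _ ((b' + 1) + (a + 1))
  intro v
  rw [mem_Nk_iff]
  intro l hl
  rw [← List.take_append_drop (b' + 1) l, wd_append]
  have l1 : (l.take (b' + 1)).length = b' + 1 := by rw [List.length_take]; omega
  have l2 : (l.drop (b' + 1)).length = a + 1 := by rw [List.length_drop]; omega
  obtain ⟨s1, r1, hr1⟩ := List.exists_cons_of_length_eq_add_one l1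
  obtain ⟨s2, r2, hr2⟩ := List.exists_cons_of_length_eq_add_one l2
  rw [hr1] at l1
  rw [hr2] at l2
  rw [List.length_cons] at l1 l2
  rw [hr1, hr2]
  exact w1 s1 r1 (by omega) _ (w2 s2 r2 (by omega) v)

/-- **G1, Step 2** (`T_f` is scalar at `η`, or the core of `(V, M_s η)` with `D_f` is tame). -/
theorem Step.scalar [IsAlgClosed K] (h : Step M N b Tf) (h2 : (2 : K) ≠ 0)
    (hNIL : ∀ η : E, ∀ k, (∀ v, v ∈ Nk (Be M (b η)) k) → η = 0)
    (hsum : ∀ ζ, ∑ s, M s ζ = 0) (η : E) (hnil : ∃ k, ∀ s, Be M (b η) s ^ k = 0)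
    (hDer : DerSp M (b η)) :
    (∃ c : K, Tf η = c • η) ∨
      ∃ D : End K (CoreM (Be M (b η))), (∀ s p, D (coreOp (Be M (b η)) s p) = coreN h η s p) ∧
        (∀ s p, D (coreOp (Be M (b η)) s p) = coreOp (Be M (b η)) s (D p)) ∧
        (∀ p q, BC M (b η) (D p) q = BC M (b η) p (D q)) ∧ Tame (coreOp (Be M (b η))) D := by
  obtain ⟨D, hD1, hD2, hD3⟩ := h.exists_D η
  rcases h.alt h2 η hnil hsum hDer hD2 hD3 with ⟨c, hc⟩ | ht
  · left
    refine ⟨c, ?_⟩
    have h' := h.shift c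
    set n : ℕ := finrank K (CoreM (Be M (b η))) with hn
    have h1 : (D - c • 1) ^ n = 0 := by
      apply LinearMap.ext
      intro v
      have hv : v ∈ D.maxGenEigenspace c := by rw [hc]; trivial
      rw [Module.End.maxGenEigenspace_eq_genEigenspace_finrank,
        Module.End.mem_genEigenspace_nat] at hv
      exact hv
    have h3 : ∀ s p, (D - c • 1) (coreOp (Be M (b η)) s p) = coreN h' η s p := by
      intro s p
      obtain ⟨v, rfl⟩ := (Rad (Be M (b η))).mkQ_surjective p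
      change D (coreOp (Be M (b η)) s ((Rad (Be M (b η))).mkQ v)) -
        c • (coreOp (Be M (b η)) s ((Rad (Be M (b η))).mkQ v)) = _
      rw [hD1, coreN_mk, coreN_mk, PL.coreOp_mk, ← map_smul, ← map_sub]
      congr 1
    have h4 := h'.nil_zero hNIL η n (h'.nilp hNIL η h3 n h1)
    have h5 : Tf η - c • η = 0 := h4
    exact sub_eq_zero.1 h5
  · right
    exact ⟨D, hD1, hD2, hD3, ht⟩

end coreN

end Crest.Agent.R172.SpS
end

-- ▼ part R172/SpS5
section

/-!
Row 172, G1 Step 2 (`T_f` is scalar), part 5: the abstract data `Step` of `SpS4` for an isotropic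
element `g` in the context `Qt.Ctx` (helper860): `V = im g`, `M_s = M_s(g)`, `N_s = M_s(f,g)`,
`E = {gᵀ J X₀ g}`, `T_f (gᵀ J X₀ g) = gᵀ J X₀ f`.
-/

set_option autoImplicit false
set_option linter.unusedSectionVars false

namespace Crest.Agent.R172.SpS

open Matrix Module Crest.Agent.R172.FO Crest.Agent.R172.Qt
open Crest.Agent.R172.St (Nk T mem_T mem_Nk_zero mem_Nk_succ Nk_le_T T_stable T_closed T_eq_Nk)

variable {ι : Type*} [Fintype ι] [DecidableEq ι] {δ : Type*} [Fintype δ] [DecidableEq δ]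
variable {k K : Type*} [Field k] [Field K] [Algebra k K]
variable {arm : δ → Fin 3} {J : Matrix ι ι K} {B : Matrix δ δ K}
  {N W : Submodule K (Matrix ι δ K)} {g : Matrix ι δ K}

theorem tdot {α β : Type*} [Fintype α] [Fintype β] (A : Matrix α β K) (a : α → K) (b : β → K) :
    (Aᵀ *ᵥ a) ⬝ᵥ b = a ⬝ᵥ (A *ᵥ b) := by
  rw [mulVec_transpose, dotProduct_mulVec]

/-- `S = im g` -/
abbrev Sg (g : Matrix ι δ K) : Submodule K (ι → K) := LinearMap.range (Matrix.mulVecLin g)

/-- the surjection `U → S` -/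
def gS (g : Matrix ι δ K) : (δ → K) →ₗ[K] Sg g := (Matrix.mulVecLin g).rangeRestrict

theorem gS_coe (g : Matrix ι δ K) (z : δ → K) : ((gS g z : Sg g) : ι → K) = g *ᵥ z := rfl

theorem gS_surj (g : Matrix ι δ K) (x : Sg g) : ∃ z, gS g z = x := by
  obtain ⟨z, hz⟩ := x.2
  exact ⟨z, Subtype.ext hz⟩

/-- the vector of a functional on `S`. -/
def uu (g : Matrix ι δ K) : Dual K (Sg g) →ₗ[K] (δ → K) where
  toFun ξ := fun d => ξ (gS g (Pi.single d 1))
  map_add' _ _ := rfl
  map_smul' _ _ := rfl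

theorem uu_spec (g : Matrix ι δ K) (ξ : Dual K (Sg g)) (y : δ → K) :
    ξ (gS g y) = uu g ξ ⬝ᵥ y := by
  have h1 : y = ∑ d, y d • (Pi.single d (1 : K) : δ → K) := by
    funext i
    rw [Finset.sum_apply, Finset.sum_eq_single i]
    · simp
    · intro b _ hb
      simp [hb.symm]
    · simp
  conv_lhs => rw [h1, map_sum, map_sum]
  unfold dotProduct
  refine Finset.sum_congr rfl fun d _ => ?_
  rw [map_smul, map_smul, smul_eq_mul, mul_comm]
  rfl

theorem uu_eq (g : Matrix ι δ K) (ξ : Dual K (Sg g)) {w : δ → K}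
    (h : ∀ y, ξ (gS g y) = w ⬝ᵥ y) : uu g ξ = w := by
  apply dotProduct_eq
  intro y
  rw [← uu_spec, h]

/-- the tensor of a matrix `A`. -/
def Tn (g : Matrix ι δ K) (A : Matrix δ δ K) : Dual K (Sg g) →ₗ[K] Sg g :=
  gS g ∘ₗ Matrix.mulVecLin A ∘ₗ uu g

theorem Tn_apply (A : Matrix δ δ K) (ξ : Dual K (Sg g)) :
    Tn g A ξ = gS g (A *ᵥ uu g ξ) := rfl

theorem Tn_pair (A : Matrix δ δ K) (ζ ξ : Dual K (Sg g)) :
    ζ (Tn g A ξ) = uu g ζ ⬝ᵥ (A *ᵥ uu g ξ) := by
  rw [Tn_apply, uu_spec]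

theorem uu_R {R : Matrix δ ι K} (hR : g * R * g = g) (ξ : Dual K (Sg g)) :
    uu g ξ = (R * g)ᵀ *ᵥ uu g ξ := by
  apply uu_eq
  intro y
  rw [← vecMul_transpose, transpose_transpose, ← dotProduct_mulVec, ← uu_spec]
  congr 1
  apply Subtype.ext
  rw [gS_coe, gS_coe, mulVec_mulVec, ← Matrix.mul_assoc, hR]

/-- `M_s = M_s(g)` on `S`. -/
def Mg (arm : δ → Fin 3) (B : Matrix δ δ K) (g : Matrix ι δ K) (s : Fin 3) :
    Dual K (Sg g) →ₗ[K] Sg g := Tn g (E K arm s * B)

/-- the bilinear form on `S` of a matrix `φ` on `U` (`R` a pseudo inverse of `g`). -/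
def bil (g : Matrix ι δ K) (R : Matrix δ ι K) :
    Matrix δ δ K →ₗ[K] LinearMap.BilinForm K (Sg g) where
  toFun φ := LinearMap.mk₂ K (fun x y : Sg g => (R *ᵥ (y : ι → K)) ⬝ᵥ (φ *ᵥ (R *ᵥ (x : ι → K))))
    (by intro x x' y; rw [Submodule.coe_add, mulVec_add, mulVec_add, dotProduct_add])
    (by intro c x y; rw [Submodule.coe_smul, mulVec_smul, mulVec_smul, dotProduct_smul])
    (by intro x y y'; rw [Submodule.coe_add, mulVec_add, add_dotProduct])
    (by intro c x y; rw [Submodule.coe_smul, mulVec_smul, smul_dotProduct])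
  map_add' φ ψ := by
    ext x y
    change (R *ᵥ (y : ι → K)) ⬝ᵥ ((φ + ψ) *ᵥ (R *ᵥ (x : ι → K))) =
      (R *ᵥ (y : ι → K)) ⬝ᵥ (φ *ᵥ (R *ᵥ (x : ι → K))) +
      (R *ᵥ (y : ι → K)) ⬝ᵥ (ψ *ᵥ (R *ᵥ (x : ι → K)))
    rw [add_mulVec, dotProduct_add]
  map_smul' c φ := by
    ext x y
    change (R *ᵥ (y : ι → K)) ⬝ᵥ ((c • φ) *ᵥ (R *ᵥ (x : ι → K))) =
      c • ((R *ᵥ (y : ι → K)) ⬝ᵥ (φ *ᵥ (R *ᵥ (x : ι → K))))
    rw [smul_mulVec, dotProduct_smul]

theorem bil_apply (R : Matrix δ ι K) (φ : Matrix δ δ K) (x y : Sg g) :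
    bil g R φ x y = (R *ᵥ (y : ι → K)) ⬝ᵥ (φ *ᵥ (R *ᵥ (x : ι → K))) := rfl

/-- `φ = gᵀ A g`. -/
theorem bil_gS {R : Matrix δ ι K} (hR : g * R * g = g) (A : Matrix ι ι K) (z y : δ → K) :
    bil g R (gᵀ * A * g) (gS g z) (gS g y) = y ⬝ᵥ ((gᵀ * A * g) *ᵥ z) := by
  rw [bil_apply, gS_coe, gS_coe]
  have e1 : (gᵀ * A * g) *ᵥ (R *ᵥ (g *ᵥ z)) = (gᵀ * A * g) *ᵥ z := by
    rw [mulVec_mulVec, mulVec_mulVec]
    congr 1
    calc gᵀ * A * g * R * g = gᵀ * A * (g * R * g) := by simp only [Matrix.mul_assoc]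
      _ = _ := by rw [hR]
  rw [e1, dotProduct_comm, dotProduct_mulVec, dotProduct_mulVec, dotProduct_comm]
  congr 1
  rw [← mulVec_transpose, ← mulVec_transpose, mulVec_mulVec, mulVec_mulVec]
  congr 1
  have h1 : gᵀ * Rᵀ * gᵀ = gᵀ := by
    rw [← transpose_mul, ← transpose_mul, ← Matrix.mul_assoc, hR]
  calc gᵀ * Rᵀ * (gᵀ * A * g) = (gᵀ * Rᵀ * gᵀ) * A * g := by simp only [Matrix.mul_assoc]
    _ = _ := by rw [h1]

theorem uu_bil {R : Matrix δ ι K} (hR : g * R * g = g) (A : Matrix ι ι K) (z : δ → K) :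
    uu g (bil g R (gᵀ * A * g) (gS g z)) = (gᵀ * A * g) *ᵥ z := by
  apply uu_eq
  intro y
  rw [bil_gS hR, dotProduct_comm]

/-- `M_s η` on `S`. -/
theorem Be_gS {R : Matrix δ ι K} (hR : g * R * g = g) (A : Matrix ι ι K) (s : Fin 3) (z : δ → K) :
    Be (Mg arm B g) (bil g R (gᵀ * A * g)) s (gS g z) =
      gS g ((E K arm s * B) *ᵥ ((gᵀ * A * g) *ᵥ z)) := by
  rw [Be_apply, Mg, Tn_apply, uu_bil hR]

/-- the map `p ↦ gᵀ J X₀ F` -/
def AF (J : Matrix ι ι K) (N : Submodule K (Matrix ι δ K)) (arm : δ → Fin 3) (g F : Matrix ι δ K) :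
    NN arm J N g →ₗ[K] Matrix δ δ K where
  toFun p := gᵀ * J * (p.1.1 * F)
  map_add' p q := by
    change gᵀ * J * ((p.1.1 + q.1.1) * F) = _
    rw [Matrix.add_mul, Matrix.mul_add]
  map_smul' c p := by
    change gᵀ * J * ((c • p.1.1) * F) = c • (gᵀ * J * (p.1.1 * F))
    rw [Matrix.smul_mul, Matrix.mul_smul]

theorem AF_apply (F : Matrix ι δ K) (p : NN arm J N g) : AF J N arm g F p = gᵀ * J * (p.1.1 * F) :=
  rfl

theorem AF_eq (p : NN arm J N g) : AF J N arm g g p = gᵀ * (J * p.1.1) * g := by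
  rw [AF_apply]; simp only [Matrix.mul_assoc]

/-- the space `{gᵀ J X₀ g}` -/
abbrev Xi (J : Matrix ι ι K) (N : Submodule K (Matrix ι δ K)) (arm : δ → Fin 3)
    (g : Matrix ι δ K) : Submodule K (Matrix δ δ K) := LinearMap.range (AF J N arm g g)

theorem Xi_eq (φ : Xi J N arm g) : ∃ p : NN arm J N g, (φ : Matrix δ δ K) = gᵀ * (J * p.1.1) * g := by
  obtain ⟨p, hp⟩ := φ.2
  exact ⟨p, by rw [← hp, AF_eq]⟩

theorem Xi_skew (hJ : Jᵀ = J) (p : NN arm J N g) :
    (gᵀ * (J * p.1.1) * g)ᵀ = -(gᵀ * (J * p.1.1) * g) := by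
  have h1 : p.1.1ᵀ * J = -(J * p.1.1) := (mem_NN.1 p.2).1.eq
  rw [transpose_mul, transpose_mul, transpose_mul, transpose_transpose, hJ, h1]
  simp only [Matrix.neg_mul, Matrix.mul_neg, Matrix.mul_assoc]

/-- `gᵀ J X₀ f = fᵀ J X₀ g` when the matrix is skew. -/
theorem AF_flip (hJ : Jᵀ = J) (p p' : NN arm J N g) {f : Matrix ι δ K}
    (h : gᵀ * J * (p.1.1 * f) = gᵀ * J * (p'.1.1 * g)) :
    gᵀ * J * (p.1.1 * f) = fᵀ * (J * p.1.1) * g := by
  have h1 : p.1.1ᵀ * J = -(J * p.1.1) := (mem_NN.1 p.2).1.eq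
  have h2 : (gᵀ * J * (p.1.1 * f))ᵀ = -(gᵀ * J * (p.1.1 * f)) := by
    have h3 := Xi_skew hJ p'
    rw [h, ← Matrix.mul_assoc, Matrix.mul_assoc gᵀ J]
    exact h3
  have h4 : (gᵀ * J * (p.1.1 * f))ᵀ = -(fᵀ * (J * p.1.1) * g) := by
    rw [transpose_mul, transpose_mul, transpose_mul, transpose_transpose, hJ,
      Matrix.mul_assoc fᵀ, ← Matrix.mul_assoc p.1.1ᵀ, h1]
    simp only [Matrix.neg_mul, Matrix.mul_neg, Matrix.mul_assoc]
  rw [h4] at h2
  exact (neg_inj.1 h2).symm

theorem EB_symm (hD : Data k arm J B N W) (s : Fin 3) :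
    (E K arm s * B)ᵀ = E K arm s * B := by
  rw [transpose_mul, E_transpose, hD.B_symm, hD.B_arm]

/-- **The data `Step` of an isotropic element.** -/
theorem exists_step (h : Ctx k arm J B N W g) {R : Matrix δ ι K} (hR : g * R * g = g)
    {f : Matrix ι δ K} (hf : f ∈ N ⊓ W) :
    ∃ Tf : End K (Xi J N arm g),
      Step (Mg arm B g) (fun s => Tn g (R * (f * E K arm s * B)))
        (bil g R ∘ₗ (Xi J N arm g).subtype) Tf ∧
      ∀ (φ : Xi J N arm g) (p : NN arm J N g), (φ : Matrix δ δ K) = gᵀ * J * (p.1.1 * g) →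
        ((Tf φ : Xi J N arm g) : Matrix δ δ K) = gᵀ * J * (p.1.1 * f) := by
  have hD := h.data
  have hker : LinearMap.ker (AF J N arm g g) ≤ LinearMap.ker (AF J N arm g f) := by
    intro p hp
    rw [LinearMap.mem_ker, AF_apply] at hp ⊢
    exact h.tf_zero hf p.2 hp
  obtain ⟨u, hu⟩ := PL.factor (AF J N arm g g) (AF J N arm g f) hker
  have hu' : ∀ p, u (AF J N arm g g p) = AF J N arm g f p := fun p => LinearMap.congr_fun hu p
  have hres : ∀ φ ∈ Xi J N arm g, u φ ∈ Xi J N arm g := by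
    rintro _ ⟨p, rfl⟩
    obtain ⟨p', hp', e⟩ := h.tf hf p.2
    rw [hu']
    exact ⟨⟨p', hp'⟩, e.symm⟩
  have hTf : ∀ (φ : Xi J N arm g) (p : NN arm J N g), (φ : Matrix δ δ K) = gᵀ * J * (p.1.1 * g) →
      ((u.restrict hres φ : Xi J N arm g) : Matrix δ δ K) = gᵀ * J * (p.1.1 * f) := by
    intro φ p hp
    rw [LinearMap.coe_restrict_apply, hp, ← AF_apply g p, hu', AF_apply]
  have hsymf : ∀ s, f * E K arm s * B * gᵀ = g * E K arm s * B * fᵀ := fun s =>
    hD.symm_arm hf h.mem s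
  have hgR : ∀ s, g * (R * (f * E K arm s * B)) * gᵀ = f * E K arm s * B * gᵀ := by
    intro s
    calc g * (R * (f * E K arm s * B)) * gᵀ = g * R * (f * E K arm s * B * gᵀ) := by
          simp only [Matrix.mul_assoc]
      _ = (g * R * g) * E K arm s * B * fᵀ := by rw [hsymf]; simp only [Matrix.mul_assoc]
      _ = f * E K arm s * B * gᵀ := by rw [hR, hsymf]
  refine ⟨u.restrict hres, ⟨?_, ?_, ?_, ?_⟩, hTf⟩
  · -- symmetry of `M_s`
    intro s ζ ξ
    rw [Mg, Tn_pair, Tn_pair, dotProduct_mulVec, ← mulVec_transpose, EB_symm hD,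
      dotProduct_comm]
  · -- symmetry of `N_s`
    intro s ζ ξ
    rw [Tn_pair, Tn_pair]
    have e : ∀ ζ ξ : Dual K (Sg g), uu g ζ ⬝ᵥ ((R * (f * E K arm s * B)) *ᵥ uu g ξ) =
        (Rᵀ *ᵥ uu g ζ) ⬝ᵥ ((f * E K arm s * B * gᵀ) *ᵥ (Rᵀ *ᵥ uu g ξ)) := by
      intro ζ ξ
      have h1 : uu g ζ ⬝ᵥ ((R * (f * E K arm s * B)) *ᵥ uu g ξ) =
          ((R * g)ᵀ *ᵥ uu g ζ) ⬝ᵥ ((R * (f * E K arm s * B)) *ᵥ ((R * g)ᵀ *ᵥ uu g ξ)) := by
        rw [← uu_R hR, ← uu_R hR]
      rw [h1, tdot, tdot, mulVec_mulVec, mulVec_mulVec, mulVec_mulVec, mulVec_mulVec]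
      congr 2
      rw [transpose_mul]
      calc R * g * (R * (f * E K arm s * B)) * (gᵀ * Rᵀ)
          = R * (g * (R * (f * E K arm s * B)) * gᵀ) * Rᵀ := by simp only [Matrix.mul_assoc]
        _ = R * (f * E K arm s * B * gᵀ) * Rᵀ := by rw [hgR]
    have hsymm : (f * E K arm s * B * gᵀ)ᵀ = f * E K arm s * B * gᵀ := by
      conv_lhs => rw [hsymf s]
      rw [transpose_mul, transpose_mul, transpose_mul, transpose_transpose, E_transpose,
        hD.B_symm]
      simp only [Matrix.mul_assoc]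
      rw [← Matrix.mul_assoc B, ← hD.B_arm, Matrix.mul_assoc]
    rw [e, e, dotProduct_mulVec, ← mulVec_transpose, hsymm, dotProduct_comm]
  · -- skewness
    intro φ v w
    obtain ⟨p, hp⟩ := Xi_eq φ
    obtain ⟨z, rfl⟩ := gS_surj g v
    obtain ⟨y, rfl⟩ := gS_surj g w
    change bil g R (φ : Matrix δ δ K) (gS g z) (gS g y) =
      - bil g R (φ : Matrix δ δ K) (gS g y) (gS g z)
    rw [hp, bil_gS hR, bil_gS hR, dotProduct_mulVec, ← mulVec_transpose, Xi_skew hD.J_symm,
      neg_mulVec, neg_dotProduct, dotProduct_comm]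
  · -- the relation
    intro φ s v
    obtain ⟨p, hp⟩ := φ.2
    obtain ⟨z, rfl⟩ := gS_surj g v
    obtain ⟨p', hp', e⟩ := h.tf hf p.2
    have hφ : (φ : Matrix δ δ K) = gᵀ * (J * p.1.1) * g := by rw [← hp, AF_eq]
    have hTφ : ((u.restrict hres φ : Xi J N arm g) : Matrix δ δ K) = gᵀ * (J * p'.1) * g := by
      rw [hTf φ p (by rw [← hp, AF_apply]), e]
      simp only [Matrix.mul_assoc]
    change Mg arm B g s (bil g R ((u.restrict hres φ : Xi J N arm g) : Matrix δ δ K) (gS g z)) =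
      Tn g (R * (f * E K arm s * B)) (bil g R (φ : Matrix δ δ K) (gS g z))
    rw [hTφ, hφ, Mg, Tn_apply, Tn_apply, uu_bil hR, uu_bil hR]
    apply Subtype.ext
    rw [gS_coe, gS_coe, mulVec_mulVec, mulVec_mulVec, mulVec_mulVec, mulVec_mulVec]
    congr 1
    have e2 : gᵀ * (J * p'.1) * g = fᵀ * (J * p.1.1) * g := by
      rw [← AF_flip hD.J_symm p ⟨p', hp'⟩ e, e]
      simp only [Matrix.mul_assoc]
    calc g * (E K arm s * B) * (gᵀ * (J * p'.1) * g)
        = (g * E K arm s * B * fᵀ) * (J * p.1.1) * g := by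
          rw [e2]; simp only [Matrix.mul_assoc]
      _ = (g * (R * (f * E K arm s * B)) * gᵀ) * (J * p.1.1) * g := by rw [hgR, hsymf]
      _ = _ := by simp only [Matrix.mul_assoc]

end Crest.Agent.R172.SpS
end

-- ▼ part R172/SpS6
section

/-!
Row 172, G1 Step 2 (`T_f` is scalar), part 6: the directions `X_s = x_s J X₀ + X₀ x_s J`
(`x_s` a symmetric tensor of `S = im g`).
* they preserve `S`, `[X_s, X₀] S ⊆ S`;
* `dp = (X₀.map d, X.map d - [X_s, X]) ∈ NN` for `d` realising `(X, ξ)` with `dg = X g`;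
* for `d` realising `(X, ξ)`, `g ξᵀ = X g`, the difference `dg - X g` lies in `Kiso`.
-/

set_option autoImplicit false
set_option linter.unusedSectionVars false

namespace Crest.Agent.R172.SpS

open Matrix Module Crest.Agent.R172.FO Crest.Agent.R172.Qt
open Crest.Agent.R172.Om (Kiso)

variable {ι : Type*} [Fintype ι] [DecidableEq ι] {δ : Type*} [Fintype δ] [DecidableEq δ]
variable {k K : Type*} [Field k] [Field K] [Algebra k K]
variable {arm : δ → Fin 3} {J : Matrix ι ι K} {B : Matrix δ δ K}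
  {N W : Submodule K (Matrix ι δ K)} {g : Matrix ι δ K}

/-- the direction `x J P + P x J` -/
def XX (J x P : Matrix ι ι K) : Matrix ι ι K := x * J * P + P * x * J

/-- a symmetric tensor with values in `im g` -/
structure SymS (g : Matrix ι δ K) (R : Matrix δ ι K) (x : Matrix ι ι K) : Prop where
  symm : xᵀ = x
  im : g * (R * x) = x

theorem SymS.right {R : Matrix δ ι K} {x : Matrix ι ι K} (h : SymS g R x) :
    x = (R * x)ᵀ * gᵀ := by
  rw [← transpose_mul, h.im, h.symm]

theorem SymS.kill {R : Matrix δ ι K} {x : Matrix ι ι K} (h : SymS g R x) {α : Type*}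
    {F : Matrix ι α K} (hF : gᵀ * J * F = 0) : x * J * F = 0 := by
  rw [h.right]
  calc (R * x)ᵀ * gᵀ * J * F = (R * x)ᵀ * (gᵀ * J * F) := by simp only [Matrix.mul_assoc]
    _ = 0 := by rw [hF, Matrix.mul_zero]

theorem skw_XX (hJ : Jᵀ = J) {x P : Matrix ι ι K} (hx : xᵀ = x) (hP : Skw J P) :
    Skw J (XX J x P) := by
  unfold Skw XX
  have h1 := hP.eq
  rw [transpose_add, transpose_mul, transpose_mul, transpose_mul, transpose_mul, hx, hJ,
    Matrix.add_mul, Matrix.mul_add]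
  have e1 : Pᵀ * (J * x) * J = -(J * (P * x * J)) := by
    rw [← Matrix.mul_assoc, h1]; simp only [Matrix.neg_mul, Matrix.mul_assoc]
  have e2 : J * (x * Pᵀ) * J = -(J * (x * J * P)) := by
    calc J * (x * Pᵀ) * J = J * x * (Pᵀ * J) := by simp only [Matrix.mul_assoc]
      _ = _ := by rw [h1]; simp only [Matrix.mul_neg, Matrix.mul_assoc]
  rw [e1, e2]
  abel

/-- `X g = x J P g` -/
theorem XX_g {R : Matrix δ ι K} {x P : Matrix ι ι K} (hx : SymS g R x) (hiso : gᵀ * J * g = 0) :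
    XX J x P * g = x * J * P * g := by
  unfold XX
  have : P * x * J * g = P * (x * J * g) := by simp only [Matrix.mul_assoc]
  rw [Matrix.add_mul, this, hx.kill hiso, Matrix.mul_zero, add_zero]

/-- `X g = g Γ` -/
theorem XX_g' {R : Matrix δ ι K} {x P : Matrix ι ι K} (hx : SymS g R x) (hiso : gᵀ * J * g = 0) :
    XX J x P * g = g * (R * x * J * P * g) := by
  rw [XX_g hx hiso]
  conv_lhs => rw [← hx.im]
  simp only [Matrix.mul_assoc]

/-- `[X, P] g = x J P P g` -/
theorem XX_comm {R : Matrix δ ι K} {x P : Matrix ι ι K} (hx : SymS g R x)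
    (hiso : gᵀ * J * g = 0) : XX J x P * P * g - P * (XX J x P * g) = x * J * P * P * g := by
  rw [XX_g hx hiso]
  unfold XX
  simp only [Matrix.add_mul, Matrix.mul_assoc]
  abel

/-- `gᵀ J X = gᵀ J P x J` -/
theorem gJ_XX (hJ : Jᵀ = J) {R : Matrix δ ι K} {x P : Matrix ι ι K} (hx : SymS g R x)
    (hP : Skw J P) (hiso : gᵀ * J * g = 0) : gᵀ * J * XX J x P = gᵀ * J * P * x * J := by
  have h1 : gᵀ * J * (XX J x P) = -((XX J x P * g)ᵀ * J) := by
    rw [transpose_mul, Matrix.mul_assoc gᵀ (XX J x P)ᵀ, (skw_XX hJ hx.symm hP).eq,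
      Matrix.mul_neg, neg_neg, Matrix.mul_assoc]
  rw [h1, XX_g hx hiso, transpose_mul, transpose_mul, transpose_mul, hx.symm, hJ]
  calc -(gᵀ * (Pᵀ * (J * x)) * J) = -(gᵀ * (Pᵀ * J) * x * J) := by
        simp only [Matrix.mul_assoc]
    _ = _ := by rw [hP.eq]; simp only [Matrix.mul_neg, Matrix.neg_mul, neg_neg, Matrix.mul_assoc]

theorem act_map_der (arm : δ → Fin 3) (X : Fin 3 → Matrix ι ι K) (F : Matrix ι δ K)
    (d : Derivation k K K) :
    (act arm X F).map d = act arm (fun s => (X s).map d) F + act arm X (F.map d) := by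
  unfold act
  have h1 : ∀ (T : Finset (Fin 3)) (G : Fin 3 → Matrix ι δ K),
      (∑ s ∈ T, G s).map d = ∑ s ∈ T, (G s).map d := by
    intro T G
    ext i j
    simp [Matrix.sum_apply, map_sum]
  rw [h1, ← Finset.sum_add_distrib]
  refine Finset.sum_congr rfl fun s _ => ?_
  rw [map_mul_der, map_mul_der, E_map_der, Matrix.mul_zero, add_zero, Matrix.add_mul]

/-- the derivative of an element of `NN` in the moving frame is in `NN`. -/
theorem NN_der (hD : Data k arm J B N W) {R : Matrix δ ι K}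
    {p : Matrix ι ι K × (Fin 3 → Matrix ι ι K)} (hp : p ∈ NN arm J N g)
    (hiso : gᵀ * J * g = 0) {x : Fin 3 → Matrix ι ι K} (hx : ∀ s, SymS g R (x s))
    {ξ : Matrix δ δ K} {d : Derivation k K K}
    (hd : Realises arm N W (fun s => XX J (x s) p.1) ξ d)
    {Γ : Matrix δ δ K} (hdg : g.map d = g * Γ) :
    (p.1.map d, fun s => (p.2 s).map d - (XX J (x s) p.1 * p.2 s - p.2 s * XX J (x s) p.1)) ∈
      NN arm J N g := by
  have hX : ∀ s, Skw J (XX J (x s) p.1) := fun s => skw_XX hD.J_symm (hx s).symm hp.1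
  have hst := hp.2.1
  refine ⟨hp.1.map_der d (hD.J_const d), ⟨fun s => ?_, fun F hF => ?_⟩, fun s => ?_⟩
  · exact ((hst.skw s).map_der d (hD.J_const d)).sub ((hX s).comm (hst.skw s))
  · have h1 : act arm p.2 F ∈ N := hst.pres F hF
    have h2 := hd.onN _ h1
    rw [act_map_der] at h2
    have h3 : act arm p.2 (F.map d) = act arm p.2 (F.map d - act arm (fun s => XX J (x s) p.1) F) +
        act arm p.2 (act arm (fun s => XX J (x s) p.1) F) := by
      rw [← act_add_right, sub_add_cancel]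
    have h4 := hst.pres _ (hd.onN F hF)
    rw [h3, act_act', act_act'] at h2
    have h5 : act arm (fun s => (p.2 s).map d -
        (XX J (x s) p.1 * p.2 s - p.2 s * XX J (x s) p.1)) F =
        (act arm (fun s => (p.2 s).map d) F +
          (act arm p.2 (F.map d - act arm (fun s => XX J (x s) p.1) F) +
            act arm (fun s => p.2 s * XX J (x s) p.1) F) -
          act arm (fun s => XX J (x s) p.1 * p.2 s) F) -
          act arm p.2 (F.map d - act arm (fun s => XX J (x s) p.1) F) := by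
      rw [act_sub_left arm (fun s => (p.2 s).map d), act_sub_left arm
        (fun s => XX J (x s) p.1 * p.2 s)]
      abel
    change act arm (fun s => (p.2 s).map d -
      (XX J (x s) p.1 * p.2 s - p.2 s * XX J (x s) p.1)) F ∈ N
    rw [h5]
    exact N.sub_mem h2 h4
  · obtain ⟨C, hC⟩ := hp.2.2 s
    have h1 : (p.1.map d - (p.2 s).map d) * g = g * (Γ * C + C.map d - C * Γ) := by
      have h2 : ((p.1 - p.2 s) * g).map d = (g * C).map d := by rw [hC]
      rw [map_mul_der, map_mul_der, map_sub_der, hdg] at h2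
      have h3 : (p.1 - p.2 s) * (g * Γ) = g * (C * Γ) := by
        rw [← Matrix.mul_assoc, hC, Matrix.mul_assoc]
      rw [h3] at h2
      have h4 : (p.1.map d - (p.2 s).map d) * g = g * Γ * C + g * C.map d - g * (C * Γ) := by
        rw [← h2]; abel
      rw [h4]
      simp only [Matrix.mul_add, Matrix.mul_sub, Matrix.mul_assoc]
    set Γs : Matrix δ δ K := R * x s * J * p.1 * g with hΓs
    have hXg : XX J (x s) p.1 * g = g * Γs := XX_g' (hx s) hiso
    have h5 : p.2 s * g = p.1 * g - g * C := by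
      rw [← hC, Matrix.sub_mul]; abel
    have h6 : XX J (x s) p.1 * p.1 * g - p.1 * (XX J (x s) p.1 * g) =
        g * (R * x s * J * p.1 * p.1 * g) := by
      rw [XX_comm (hx s) hiso]
      conv_lhs => rw [← (hx s).im]
      simp only [Matrix.mul_assoc]
    refine ⟨(Γ * C + C.map d - C * Γ) + (R * x s * J * p.1 * p.1 * g) - Γs * C + C * Γs, ?_⟩
    have h7 : (XX J (x s) p.1 * p.2 s - p.2 s * XX J (x s) p.1) * g =
        g * (R * x s * J * p.1 * p.1 * g) - g * (Γs * C) + g * (C * Γs) := by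
      have e1 : XX J (x s) p.1 * p.2 s * g = XX J (x s) p.1 * p.1 * g - g * (Γs * C) := by
        rw [Matrix.mul_assoc, h5, Matrix.mul_sub, ← Matrix.mul_assoc _ g C, hXg]
        simp only [Matrix.mul_assoc]
      have e2 : p.2 s * XX J (x s) p.1 * g = p.1 * (XX J (x s) p.1 * g) - g * (C * Γs) := by
        rw [Matrix.mul_assoc, hXg, ← Matrix.mul_assoc, h5, Matrix.sub_mul]
        simp only [Matrix.mul_assoc]
      rw [Matrix.sub_mul, e1, e2, ← h6]
      abel
    change (p.1.map d - ((p.2 s).map d -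
      (XX J (x s) p.1 * p.2 s - p.2 s * XX J (x s) p.1))) * g = _
    have h8 : (p.1.map d - ((p.2 s).map d -
      (XX J (x s) p.1 * p.2 s - p.2 s * XX J (x s) p.1))) * g =
      (p.1.map d - (p.2 s).map d) * g + (XX J (x s) p.1 * p.2 s - p.2 s * XX J (x s) p.1) * g := by
      rw [← Matrix.add_mul]
      congr 1
      abel
    rw [h8, h1, h7]
    simp only [Matrix.mul_add, Matrix.mul_sub]
    abel

/-- the difference `dg - X g` lies in `Kiso`. -/
theorem kiso_of (h : Ctx k arm J B N W g) (h2 : (2 : K) ≠ 0) {R : Matrix δ ι K}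
    (hR : g * R * g = g)
    {p : Matrix ι ι K × (Fin 3 → Matrix ι ι K)} (hp : p ∈ NN arm J N g)
    {x : Fin 3 → Matrix ι ι K} (hx : ∀ s, SymS g R (x s))
    {ξ : Matrix δ δ K} (hξ : ξᵀ * B + B * ξ = 0)
    (hξg : g * ξᵀ = act arm (fun s => XX J (x s) p.1) g) {d : Derivation k K K}
    (hd : Realises arm N W (fun s => XX J (x s) p.1) ξ d) :
    g.map d - act arm (fun s => XX J (x s) p.1) g ∈ Kiso J N W := by
  have hD := h.data
  set X : Fin 3 → Matrix ι ι K := fun s => XX J (x s) p.1 with hXdef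
  have hX : ∀ s, Skw J (X s) := fun s => skw_XX hD.J_symm (hx s).symm hp.1
  have hXg : ∀ s, X s * g = g * (R * x s * J * p.1 * g) := fun s => XX_g' (hx s) h.iso
  have hact : act arm X g = g * ∑ s, (R * x s * J * p.1 * g) * E K arm s :=
    act_mul_const arm X g hXg
  refine ⟨⟨hd.onN g h.memN, ?_⟩, ?_⟩
  · have := hd.onW g h.memW
    rwa [hξg] at this
  intro f hf
  have hgf := h.perp f hf
  set f' := f.map d with hf'
  have ha : f' - f * ξᵀ ∈ W := hd.onW f hf.2
  have hν : f' - act arm X f ∈ N := hd.onN f hf.1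
  -- the derivative of `gᵀ J f = 0`
  have h1 : (g.map d)ᵀ * J * f + gᵀ * J * f' = 0 := by
    have h0 : (gᵀ * J * f).map d = 0 := by rw [hgf]; ext i j; simp
    rw [map_mul_der, map_mul_der, hD.J_const, Matrix.mul_zero, add_zero, map_transpose_der] at h0
    exact h0
  have h3 : (act arm X g)ᵀ * J * f = 0 := by
    rw [hact, transpose_mul, Matrix.mul_assoc, Matrix.mul_assoc, ← Matrix.mul_assoc gᵀ, hgf,
      Matrix.mul_zero]
  have h4 : gᵀ * J * f' = gᵀ * J * (f' - f * ξᵀ) := by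
    rw [Matrix.mul_sub, ← Matrix.mul_assoc, hgf, Matrix.zero_mul, sub_zero]
  have h5 : gᵀ * J * act arm X f = 0 := by
    unfold act
    rw [Matrix.mul_sum]
    refine Finset.sum_eq_zero fun s _ => ?_
    rw [← Matrix.mul_assoc, perp_stable (hX s) (hXg s) hgf, Matrix.zero_mul]
  have h6 : gᵀ * J * (f' - f * ξᵀ) = gᵀ * J * (f' - act arm X f) := by
    rw [← h4, Matrix.mul_sub, h5, sub_zero]
  -- the functional
  have h7 : fn arm J B N g (f' - act arm X f) = 0 := by
    refine LinearMap.ext fun q => ?_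
    rw [fn_apply, LinearMap.zero_apply]
    have hNq := q.2.2.1.pres g h.memN
    have e0 : Pg arm g q.1 = q.1.1 * g - act arm q.1.2 g := rfl
    rw [e0, pair_sub_left, h.pair_N hNq hν, sub_zero]
    have e1 : f' - act arm X f = (f' - f * ξᵀ) + (f * ξᵀ - act arm X f) := by abel
    rw [e1, pair_add_right, pair_W hD (h.W_mul _ h.memW) ha, zero_add, pair_sub_right]
    have e2 : pair J B (q.1.1 * g) (f * ξᵀ) = - pair J B (q.1.1 * act arm X g) f := by
      have e3 : ξᵀ * B = -(B * ξ) := eq_neg_of_add_eq_zero_left hξ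
      unfold pair
      rw [← hξg]
      have e4 : (q.1.1 * g)ᵀ * J * (f * ξᵀ) * B = -((q.1.1 * g)ᵀ * J * f * B * ξ) := by
        calc (q.1.1 * g)ᵀ * J * (f * ξᵀ) * B = (q.1.1 * g)ᵀ * J * f * (ξᵀ * B) := by
              simp only [Matrix.mul_assoc]
          _ = _ := by rw [e3]; simp only [Matrix.mul_neg, Matrix.mul_assoc]
      have e5 : (q.1.1 * (g * ξᵀ))ᵀ * J * f * B = ξ * ((q.1.1 * g)ᵀ * J * f * B) := by
        rw [← Matrix.mul_assoc, transpose_mul _ ξᵀ, transpose_transpose]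
        simp only [Matrix.mul_assoc]
      rw [e4, e5, trace_neg, trace_mul_comm]
    have e6 : pair J B (q.1.1 * g) (act arm X f) = - pair J B (act arm X (q.1.1 * g)) f := by
      rw [pair_act hD.B_arm hX, neg_neg]
    rw [e2, e6]
    have e7 : -pair J B (q.1.1 * act arm X g) f - -pair J B (act arm X (q.1.1 * g)) f =
        pair J B (act arm X (q.1.1 * g) - q.1.1 * act arm X g) f := by
      rw [pair_sub_left]; ring
    have e8 : act arm X (q.1.1 * g) - q.1.1 * act arm X g =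
        ∑ s, (X s * q.1.1 - q.1.1 * X s) * g * E K arm s := by
      unfold act
      rw [Matrix.mul_sum, ← Finset.sum_sub_distrib]
      refine Finset.sum_congr rfl fun s _ => ?_
      simp only [Matrix.sub_mul, Matrix.mul_assoc]
    rw [e7, e8, Ctx.pair_sum_left]
    refine Finset.sum_eq_zero fun s _ => ?_
    -- the symmetric tensor `M_s(f,g)`
    set Ns : Matrix ι ι K := f * E K arm s * B * gᵀ with hNs
    obtain ⟨D0, hD0⟩ := h.psi_SS hf s
    have hNsym : Nsᵀ = Ns := by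
      have e9 : f * E K arm s * B * gᵀ = g * E K arm s * B * fᵀ := hD.symm_arm hf h.mem s
      conv_lhs => rw [hNs, e9]
      rw [transpose_mul, transpose_mul, transpose_mul, transpose_transpose, E_transpose,
        hD.B_symm, hNs]
      simp only [Matrix.mul_assoc]
      rw [← Matrix.mul_assoc B, ← hD.B_arm, Matrix.mul_assoc]
    have hNR : g * (R * Ns * Rᵀ) * gᵀ = Ns := by
      have e10 : gᵀ * Rᵀ * gᵀ = gᵀ := by
        rw [← transpose_mul, ← transpose_mul, ← Matrix.mul_assoc, hR]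
      have e11 : Ns = g * D0 * gᵀ := hD0
      rw [e11]
      calc g * (R * (g * D0 * gᵀ) * Rᵀ) * gᵀ = (g * R * g) * D0 * (gᵀ * Rᵀ * gᵀ) := by
            simp only [Matrix.mul_assoc]
        _ = _ := by rw [hR, e10]
    set Ds : Matrix δ δ K := R * Ns * Rᵀ with hDs
    have hDsym : Dsᵀ = Ds := by
      rw [hDs, transpose_mul, transpose_mul, transpose_transpose, hNsym]
      exact (Matrix.mul_assoc R Ns Rᵀ).symm
    set G : Matrix δ δ K := gᵀ * J * (X s * q.1.1 - q.1.1 * X s) * g with hG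
    have hGs : Gᵀ = -G := by
      have a1 : gᵀ * J * (X s * q.1.1) * g = gᵀ * (J * p.1) * x s * (J * q.1.1) * g := by
        calc gᵀ * J * (X s * q.1.1) * g = (gᵀ * J * X s) * (q.1.1 * g) := by
              simp only [Matrix.mul_assoc]
          _ = _ := by
            rw [hXdef]
            simp only
            rw [gJ_XX hD.J_symm (hx s) hp.1 h.iso]
            simp only [Matrix.mul_assoc]
      have a2 : gᵀ * J * (q.1.1 * X s) * g = gᵀ * (J * q.1.1) * x s * (J * p.1) * g := by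
        calc gᵀ * J * (q.1.1 * X s) * g = gᵀ * J * q.1.1 * (X s * g) := by
              simp only [Matrix.mul_assoc]
          _ = _ := by
            rw [hXdef]
            simp only
            rw [XX_g (hx s) h.iso]
            simp only [Matrix.mul_assoc]
      have a3 : G = gᵀ * (J * p.1) * x s * (J * q.1.1) * g -
          gᵀ * (J * q.1.1) * x s * (J * p.1) * g := by
        rw [hG, Matrix.mul_sub, Matrix.sub_mul, a1, a2]
      have a4 : ∀ P Q : Matrix ι ι K, Skw J P → Skw J Q →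
          (gᵀ * (J * P) * x s * (J * Q) * g)ᵀ = gᵀ * (J * Q) * x s * (J * P) * g := by
        intro P Q hP hQ
        have b1 : (J * P)ᵀ = -(J * P) := by rw [transpose_mul, hD.J_symm, hP.eq]
        have b2 : (J * Q)ᵀ = -(J * Q) := by rw [transpose_mul, hD.J_symm, hQ.eq]
        rw [transpose_mul _ g, transpose_mul _ (J * Q), transpose_mul _ (x s),
          transpose_mul _ (J * P), transpose_transpose, b1, b2, (hx s).symm]
        simp only [Matrix.neg_mul, Matrix.mul_neg, neg_neg, Matrix.mul_assoc]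
      rw [a3, transpose_sub, a4 _ _ hp.1 q.2.1, a4 _ _ q.2.1 hp.1]
      abel
    have hfin : pair J B ((X s * q.1.1 - q.1.1 * X s) * g * E K arm s) f = trace (Gᵀ * Ds) := by
      have c0 : pair J B ((X s * q.1.1 - q.1.1 * X s) * g * E K arm s) f =
          pair J B ((X s * q.1.1 - q.1.1 * X s) * g) (f * E K arm s) := pair_E hD.B_arm s _ _
      rw [c0]
      unfold pair
      rw [transpose_mul]
      have c1 : gᵀ * (X s * q.1.1 - q.1.1 * X s)ᵀ * J * (f * E K arm s) * B =
          gᵀ * ((X s * q.1.1 - q.1.1 * X s)ᵀ * J * (f * E K arm s * B)) := by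
        simp only [Matrix.mul_assoc]
      rw [c1, trace_mul_comm]
      have c2 : (X s * q.1.1 - q.1.1 * X s)ᵀ * J * (f * E K arm s * B) * gᵀ =
          ((X s * q.1.1 - q.1.1 * X s)ᵀ * J * g * Ds) * gᵀ := by
        calc (X s * q.1.1 - q.1.1 * X s)ᵀ * J * (f * E K arm s * B) * gᵀ =
              (X s * q.1.1 - q.1.1 * X s)ᵀ * J * Ns := by rw [hNs]; simp only [Matrix.mul_assoc]
          _ = _ := by
            conv_lhs => rw [← hNR]
            simp only [Matrix.mul_assoc]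
      rw [c2, trace_mul_comm]
      congr 1
      rw [hG, transpose_mul, transpose_mul, transpose_mul, transpose_transpose, hD.J_symm]
      simp only [Matrix.mul_assoc]
    rw [hfin]
    have hz : trace (Gᵀ * Ds) = - trace (Gᵀ * Ds) := by
      calc trace (Gᵀ * Ds) = trace ((Gᵀ * Ds)ᵀ) := (trace_transpose _).symm
        _ = trace (Ds * G) := by rw [transpose_mul, transpose_transpose, hDsym]
        _ = trace (G * Ds) := trace_mul_comm _ _
        _ = - trace (Gᵀ * Ds) := by rw [hGs, Matrix.neg_mul, trace_neg, neg_neg]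
    have hz2 : (2 : K) * trace (Gᵀ * Ds) = 0 := by
      rw [two_mul]
      nth_rewrite 1 [hz]
      ring
    exact (mul_eq_zero.1 hz2).resolve_left h2
  have h8 := h.onto ha hν h6 h7
  rw [h4, h8, add_zero] at h1
  rw [transpose_sub, Matrix.sub_mul, Matrix.sub_mul, h1, h3, sub_zero]

end Crest.Agent.R172.SpS
end

-- ▼ part R172/SpS7

/-!
Row 172, G1 Step 2 (`T_f` is scalar), part 7: the derivation hypothesis `DerSp` for a pair `(g, p)`
(`g` isotropic, `p ∈ NN g`) with vertical derivations, and the conclusion at `(g, p)`: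
`T_f φ_p = c φ_p` or the core is tame.
-/

set_option autoImplicit false
set_option linter.unusedSectionVars false

namespace Crest.Agent.R172.SpS

open Matrix Module Crest.Agent.R172.FO Crest.Agent.R172.Qt
open Crest.Agent.R172.Om (Kiso)
open Crest.Agent.R172.St (Nk T mem_T mem_Nk_zero mem_Nk_succ Nk_le_T T_stable T_closed T_eq_Nk)
open Crest.Agent.R172.PL (Wk Ainf Rad CoreM coreOp resOp)

variable {ι : Type*} [Fintype ι] [DecidableEq ι] {δ : Type*} [Fintype δ] [DecidableEq δ]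
variable {k K : Type*} [Field k] [Field K] [Algebra k K]
variable {arm : δ → Fin 3} {J : Matrix ι ι K} {B : Matrix δ δ K}
  {N W : Submodule K (Matrix ι δ K)} {g : Matrix ι δ K}

/-- restriction of a vector to a functional on `S`. -/
def res (g : Matrix ι δ K) : (ι → K) →ₗ[K] Dual K (Sg g) where
  toFun w :=
    { toFun := fun y => w ⬝ᵥ (y : ι → K)
      map_add' := fun y y' => by rw [Submodule.coe_add, dotProduct_add]
      map_smul' := fun c y => by rw [Submodule.coe_smul, dotProduct_smul]; rfl }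
  map_add' w w' := LinearMap.ext fun y => add_dotProduct w w' (y : ι → K)
  map_smul' c w := LinearMap.ext fun y => smul_dotProduct c w (y : ι → K)

theorem res_apply (w : ι → K) (y : Sg g) : res g w y = w ⬝ᵥ (y : ι → K) := rfl

theorem uu_res (w : ι → K) : uu g (res g w) = gᵀ *ᵥ w := by
  apply uu_eq
  intro y
  rw [res_apply, gS_coe, tdot]

/-- the matrix of a tensor. -/
noncomputable def xm (x : Dual K (Sg g) →ₗ[K] Sg g) : Matrix ι ι K :=
  LinearMap.toMatrix' ((Sg g).subtype ∘ₗ x ∘ₗ res g)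

theorem xm_mulVec (x : Dual K (Sg g) →ₗ[K] Sg g) (w : ι → K) :
    xm x *ᵥ w = ((x (res g w) : Sg g) : ι → K) := by
  rw [xm, LinearMap.toMatrix'_mulVec]
  rfl

theorem gR_mulVec {R : Matrix δ ι K} (hR : g * R * g = g) (v : Sg g) :
    g *ᵥ (R *ᵥ (v : ι → K)) = v := by
  obtain ⟨z, rfl⟩ := gS_surj g v
  rw [gS_coe, mulVec_mulVec, mulVec_mulVec, hR]

theorem xm_symS {R : Matrix δ ι K} (hR : g * R * g = g) {x : Dual K (Sg g) →ₗ[K] Sg g}
    (hx : ∀ ζ ζ' : Dual K (Sg g), ζ (x ζ') = ζ' (x ζ)) : SymS g R (xm x) where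
  symm := by
    have h1 : ∀ a b : ι → K, a ⬝ᵥ (xm x *ᵥ b) = b ⬝ᵥ (xm x *ᵥ a) := by
      intro a b
      rw [xm_mulVec, xm_mulVec, ← res_apply, ← res_apply, hx]
    ext i j
    have h3 := h1 (Pi.single j 1) (Pi.single i 1)
    simpa [Matrix.mulVec_single_one, single_dotProduct] using h3
  im := by
    apply Matrix.ext_of_mulVec_single
    intro i
    rw [← mulVec_mulVec, ← mulVec_mulVec, xm_mulVec, gR_mulVec hR]

/-- `η v` as a restricted functional. -/
theorem bil_res {R : Matrix δ ι K} (hR : g * R * g = g) (A : Matrix ι ι K) (v : Sg g) :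
    bil g R (gᵀ * A * g) v = res g (A *ᵥ (v : ι → K)) := by
  obtain ⟨z, rfl⟩ := gS_surj g v
  refine LinearMap.ext fun w => ?_
  obtain ⟨y, rfl⟩ := gS_surj g w
  rw [bil_gS hR, res_apply, gS_coe, gS_coe, ← mulVec_mulVec, ← mulVec_mulVec, dotProduct_comm,
    tdot]

theorem Mg_res (s : Fin 3) (w : ι → K) :
    ((Mg arm B g s (res g w) : Sg g) : ι → K) = M arm B s g g *ᵥ w := by
  rw [Mg, Tn_apply, gS_coe, uu_res, mulVec_mulVec, mulVec_mulVec]
  unfold M
  simp only [Matrix.mul_assoc]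

theorem Be_coe {R : Matrix δ ι K} (hR : g * R * g = g) (A : Matrix ι ι K) (s : Fin 3) (v : Sg g) :
    ((Be (Mg arm B g) (bil g R (gᵀ * A * g)) s v : Sg g) : ι → K) =
      (M arm B s g g * A) *ᵥ (v : ι → K) := by
  rw [Be_apply, bil_res hR, Mg_res, mulVec_mulVec]

theorem bil_coe {R : Matrix δ ι K} (hR : g * R * g = g) (A : Matrix ι ι K) (v w : Sg g) :
    bil g R (gᵀ * A * g) v w = (A *ᵥ (v : ι → K)) ⬝ᵥ (w : ι → K) := by
  rw [bil_res hR, res_apply]

/-- coordinatewise derivation -/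
def dv {α : Type*} (d : Derivation k K K) (v : α → K) : α → K := fun i => d (v i)

theorem dv_mulVec {α β : Type*} [Fintype β] (d : Derivation k K K) (A : Matrix α β K) (v : β → K) :
    dv d (A *ᵥ v) = A.map d *ᵥ v + A *ᵥ dv d v := by
  funext i
  change d ((A *ᵥ v) i) = (A.map d *ᵥ v) i + (A *ᵥ dv d v) i
  simp only [mulVec, dotProduct, map_sum, Derivation.leibniz, smul_eq_mul, map_apply, dv]
  rw [Finset.sum_add_distrib, add_comm]
  congr 1
  exact Finset.sum_congr rfl fun x _ => mul_comm _ _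

theorem dv_dot {β : Type*} [Fintype β] (d : Derivation k K K) (a v : β → K) :
    d (a ⬝ᵥ v) = dv d a ⬝ᵥ v + a ⬝ᵥ dv d v := by
  simp only [dotProduct, map_sum, Derivation.leibniz, smul_eq_mul, dv]
  rw [Finset.sum_add_distrib, add_comm]
  congr 1
  exact Finset.sum_congr rfl fun x _ => mul_comm _ _

theorem map_dsub {α β : Type*} (G : Matrix α β K) (d d' : Derivation k K K) :
    G.map (d - d') = G.map d - G.map d' := by
  ext i j; simp

/-- vertical derivations of `g` in `Kiso` and of `p` in `NN g`. -/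
structure Vert (k : Type*) {K : Type*} [Field k] [Field K] [Algebra k K] (arm : δ → Fin 3)
    (J : Matrix ι ι K) (N W : Submodule K (Matrix ι δ K)) (g : Matrix ι δ K)
    (p : Matrix ι ι K × (Fin 3 → Matrix ι ι K)) : Prop where
  v1 : ∀ w ∈ Kiso J N W, ∃ d : Derivation k K K, g.map d = w ∧
    Realises arm N W (0 : Fin 3 → Matrix ι ι K) (0 : Matrix δ δ K) d
  v2 : ∀ p' ∈ NN arm J N g, ∃ d : Derivation k K K, g.map d = 0 ∧
    Realises arm N W (0 : Fin 3 → Matrix ι ι K) (0 : Matrix δ δ K) d ∧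
    gᵀ * J * (p.1.map d * g) = gᵀ * J * (p'.1 * g)

theorem Realises.sub_zero' {X : Fin 3 → Matrix ι ι K} {ξ : Matrix δ δ K} {d d' : Derivation k K K}
    (h : Realises arm N W X ξ d)
    (h' : Realises arm N W (0 : Fin 3 → Matrix ι ι K) (0 : Matrix δ δ K) d') :
    Realises arm N W X ξ (d - d') := by
  have hsub : ∀ G : Matrix ι δ K, G.map (d - d') = G.map d - G.map d' := by
    intro G; ext i j; simp
  refine ⟨fun G hG => ?_, fun G hG => ?_⟩
  · have h2 := h.onN G hG
    have h3 := h'.onN G hG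
    rw [act_zero, sub_zero] at h3
    rw [hsub]
    have : G.map d - G.map d' - act arm X G = (G.map d - act arm X G) - G.map d' := by abel
    rw [this]
    exact N.sub_mem h2 h3
  · have h2 := h.onW G hG
    have h3 := h'.onW G hG
    rw [transpose_zero, Matrix.mul_zero, sub_zero] at h3
    rw [hsub]
    have : G.map d - G.map d' - G * ξᵀ = (G.map d - G * ξᵀ) - G.map d' := by abel
    rw [this]
    exact W.sub_mem h2 h3

/-- **The derivation hypothesis holds at `(g, p)`.** -/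
theorem derSp_of (h : Ctx k arm J B N W g) (h2 : (2 : K) ≠ 0) {R : Matrix δ ι K}
    (hR : g * R * g = g)
    {p : Matrix ι ι K × (Fin 3 → Matrix ι ι K)} (hp : p ∈ NN arm J N g)
    (hV : Vert k arm J N W g p) :
    DerSp (Mg arm B g) (bil g R (gᵀ * (J * p.1) * g)) := by
  have hD := h.data
  have hiso := h.iso
  intro x hx _ _ hcoc
  set xs : Fin 3 → Matrix ι ι K := fun s => xm (x s) with hxs
  have hxS : ∀ s, SymS g R (xs s) := fun s => xm_symS hR (hx s)
  have hΨs : ∀ s, (M arm B s g g)ᵀ = M arm B s g g := by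
    intro s
    unfold M
    rw [transpose_mul, transpose_mul, transpose_mul, transpose_transpose, E_transpose,
      hD.B_symm]
    simp only [Matrix.mul_assoc]
    rw [← Matrix.mul_assoc B, ← hD.B_arm, Matrix.mul_assoc]
  -- the cocycle condition in matrix form
  have hmat : ∑ s, (M arm B s g g * (J * p.1) * xs s - xs s * (J * p.1) * M arm B s g g) = 0 := by
    apply Matrix.ext_of_mulVec_single
    intro i
    have h1 := congrArg Subtype.val (hcoc (res g (Pi.single i 1)))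
    rw [Submodule.coe_sum] at h1
    rw [zero_mulVec, sum_mulVec]
    rw [show ((0 : Sg g) : ι → K) = 0 from rfl] at h1
    rw [← h1]
    refine Finset.sum_congr rfl fun s _ => ?_
    rw [Submodule.coe_sub, Be_coe hR, ← xm_mulVec, Al_apply, bil_res hR, Mg_res, ← xm_mulVec,
      sub_mulVec]
    simp only [mulVec_mulVec, Matrix.mul_assoc, hxs]
  set X : Fin 3 → Matrix ι ι K := fun s => XX J (xs s) p.1 with hXdef
  have hX : ∀ s, Skw J (X s) := fun s => skw_XX hD.J_symm (hxS s).symm hp.1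
  have hXg : ∀ s, X s * g = xs s * J * p.1 * g := fun s => XX_g (hxS s) hiso
  have hXg' : ∀ s, X s * g = g * (R * xs s * J * p.1 * g) := fun s => XX_g' (hxS s) hiso
  have hact : act arm X g = g * ∑ s, (R * xs s * J * p.1 * g) * E K arm s :=
    act_mul_const arm X g hXg'
  set Γ : Matrix δ δ K := ∑ s, (R * xs s * J * p.1 * g) * E K arm s with hΓ
  have hXΨ : ∀ s, X s * M arm B s g g = xs s * (J * p.1) * M arm B s g g := by
    intro s
    unfold M
    calc X s * (g * E K arm s * B * gᵀ) = (X s * g) * E K arm s * B * gᵀ := by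
          simp only [Matrix.mul_assoc]
      _ = _ := by rw [hXg]; simp only [Matrix.mul_assoc]
  -- the isotropy condition
  have hisoX : Iso arm B X g := by
    unfold Iso
    have e1 : act arm X g * B * gᵀ = ∑ s, xs s * (J * p.1) * M arm B s g g := by
      unfold act
      rw [Matrix.sum_mul, Matrix.sum_mul]
      refine Finset.sum_congr rfl fun s _ => ?_
      rw [← hXΨ]
      unfold M
      simp only [Matrix.mul_assoc]
    have e2 : g * B * (act arm X g)ᵀ = - ∑ s, M arm B s g g * (J * p.1) * xs s := by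
      have e3 : g * B * (act arm X g)ᵀ = (act arm X g * B * gᵀ)ᵀ := by
        rw [transpose_mul, transpose_mul, transpose_transpose, hD.B_symm, Matrix.mul_assoc]
      rw [e3, e1, transpose_sum, ← Finset.sum_neg_distrib]
      refine Finset.sum_congr rfl fun s _ => ?_
      have e4 : (J * p.1)ᵀ = -(J * p.1) := by rw [transpose_mul, hD.J_symm, hp.1.eq]
      rw [transpose_mul, transpose_mul, hΨs, e4, (hxS s).symm]
      simp only [Matrix.neg_mul, Matrix.mul_neg, Matrix.mul_assoc]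
    rw [e1, e2, ← sub_eq_add_neg, ← Finset.sum_sub_distrib, ← neg_eq_zero,
      ← Finset.sum_neg_distrib, ← hmat]
    refine Finset.sum_congr rfl fun s _ => ?_
    abel
  have hRact : g * R * act arm X g = act arm X g := by
    rw [hact, ← Matrix.mul_assoc, hR]
  obtain ⟨ξ, hξ, hξg⟩ := exists_xi hD.B_symm hD.B_unit g (act arm X g) R hRact hR hisoX
  obtain ⟨d0, hd0⟩ := hD.dir X ξ hX hξ
  have hw := kiso_of h h2 hR hp hxS hξ hξg hd0
  obtain ⟨d1, hd1, hr1⟩ := hV.v1 _ hw
  have hd2r := Realises.sub_zero' hd0 hr1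
  have hd2g : g.map (d0 - d1) = g * Γ := by
    rw [map_dsub, hd1, ← hact]; abel
  have hp' := NN_der hD hp hiso hxS hd2r hd2g
  obtain ⟨d3, hd3g, hr3, hd3p⟩ := hV.v2 _ hp'
  set d : Derivation k K K := d0 - d1 - d3 with hd
  have hdr : Realises arm N W X ξ d := Realises.sub_zero' hd2r hr3
  have hdg : g.map d = g * Γ := by rw [hd, map_dsub, hd3g, sub_zero, hd2g]
  have hdg' : g.map d = act arm X g := by rw [hdg, hact]
  have hdp : gᵀ * J * (p.1.map d * g) = 0 := by
    rw [hd, map_dsub, Matrix.sub_mul, Matrix.mul_sub, hd3p, sub_self]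
  -- the semilinear map of `S`
  have hmem : ∀ v : Sg g, dv d (v : ι → K) ∈ Sg g := by
    intro v
    obtain ⟨z, rfl⟩ := gS_surj g v
    rw [gS_coe, dv_mulVec, hdg, ← mulVec_mulVec, ← mulVec_add]
    exact ⟨_, rfl⟩
  let δS : Sg g →+ Sg g :=
    { toFun := fun v => ⟨dv d (v : ι → K), hmem v⟩
      map_zero' := Subtype.ext (funext fun i => map_zero d)
      map_add' := fun v w => Subtype.ext (funext fun i => map_add d _ _) }
  have hδS : ∀ v, ((δS v : Sg g) : ι → K) = dv d (v : ι → K) := fun v => rfl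
  -- `Jp₁` moves trivially on `S`
  have hz1 : ∀ v : Sg g, gᵀ *ᵥ ((J * p.1).map d *ᵥ (v : ι → K)) = 0 := by
    intro v
    obtain ⟨z, rfl⟩ := gS_surj g v
    rw [gS_coe, map_mul_der, hD.J_const, Matrix.zero_mul, zero_add, mulVec_mulVec, mulVec_mulVec]
    have : gᵀ * (J * p.1.map d) * g = gᵀ * J * (p.1.map d * g) := by
      simp only [Matrix.mul_assoc]
    rw [this, hdp, zero_mulVec]
  refine ⟨d.restrictScalars ℤ, δS, ?_, ?_, ?_⟩
  · intro c v
    apply Subtype.ext
    rw [Submodule.coe_add, Submodule.coe_smul, Submodule.coe_smul, hδS, hδS, Submodule.coe_smul]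
    funext i
    change d (c * (v : ι → K) i) = d c * (v : ι → K) i + c * d ((v : ι → K) i)
    rw [Derivation.leibniz, smul_eq_mul, smul_eq_mul]
    ring
  · intro v w
    change bil g R (gᵀ * (J * p.1) * g) (δS v) w + bil g R (gᵀ * (J * p.1) * g) v (δS w) =
      d (bil g R (gᵀ * (J * p.1) * g) v w)
    rw [bil_coe hR, bil_coe hR, bil_coe hR, hδS, hδS, dv_dot, dv_mulVec, add_dotProduct]
    have e1 : ((J * p.1).map d *ᵥ (v : ι → K)) ⬝ᵥ (w : ι → K) = 0 := by
      obtain ⟨y, rfl⟩ := gS_surj g w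
      rw [gS_coe, ← tdot, hz1, zero_dotProduct]
    rw [e1, zero_add]
  · intro s v
    apply Subtype.ext
    rw [Submodule.coe_sub, Submodule.coe_sub, hδS, Be_coe hR, Be_coe hR, hδS, Be_coe hR,
      bil_res hR, ← xm_mulVec, bil_res hR, ← xm_mulVec, Be_coe hR, dv_mulVec]
    have hΨd : (M arm B s g g).map d = X s * M arm B s g g + M arm B s g g * (X s)ᵀ :=
      hD.map_M g X d hdg' s
    have e0 : (M arm B s g g * (J * p.1)).map d *ᵥ (v : ι → K) =
        ((X s * M arm B s g g + M arm B s g g * (X s)ᵀ) * (J * p.1)) *ᵥ (v : ι → K) := by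
      rw [map_mul_der, hΨd, add_mulVec]
      have e1 : (M arm B s g g * (J * p.1).map d) *ᵥ (v : ι → K) = 0 := by
        unfold M
        rw [← mulVec_mulVec, ← mulVec_mulVec, hz1, mulVec_zero]
      rw [e1, add_zero]
    rw [e0]
    -- `Ψ X^T J p₁ = - Ψ J X p₁ = - Ψ J p₁ x J p₁`
    have e2 : M arm B s g g * (X s)ᵀ * (J * p.1) =
        -(M arm B s g g * (J * p.1) * xs s * (J * p.1)) := by
      have a1 : M arm B s g g * (X s)ᵀ * (J * p.1) = -(M arm B s g g * J * X s * p.1) := by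
        calc M arm B s g g * (X s)ᵀ * (J * p.1) = M arm B s g g * ((X s)ᵀ * J) * p.1 := by
              simp only [Matrix.mul_assoc]
          _ = _ := by rw [(hX s).eq]; simp only [Matrix.neg_mul, Matrix.mul_neg, Matrix.mul_assoc]
      have a2 : M arm B s g g * J * X s = M arm B s g g * (J * p.1) * xs s * J := by
        have a3 := gJ_XX hD.J_symm (hxS s) hp.1 hiso
        unfold M
        calc g * E K arm s * B * gᵀ * J * X s = g * E K arm s * B * (gᵀ * J * X s) := by
              simp only [Matrix.mul_assoc]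
          _ = _ := by rw [hXdef]; simp only; rw [a3]; simp only [Matrix.mul_assoc]
      rw [a1, a2]
      simp only [Matrix.mul_assoc]
    rw [Matrix.add_mul, e2, hXΨ]
    simp only [mulVec_mulVec, ← sub_eq_add_neg, sub_mulVec, Matrix.mul_assoc]
    abel

end Crest.Agent.R172.SpS
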