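import Crest.Agent.R172.SUX1
import Crest.Agent.R172.SpS7

/-!
Row 172 (S0260), S-side (t2) at the U-level.  `S = th H = Hᵀ J P H`, `om r = B E_r S`,
`nabla v = d v + Z v`.

* `om_map` / `nab_om` : `[nabla, om_r] = [Y_r S, om_r]`.
* `F_om` : `F om_r = H (B E_r th F)`, `omF_om`: `(B E_r th F) om_s = om_r (B E_s th F)`.
* `Wr m` = sum of the ranges of the words of length `m` in the `om_r`: nabla-stable,
  `F (Wr (m+1)) ≤ H (Wr m)`, `wd F (Wr m) ≤ H (Wr m)` for `Wr` stationary.
-/

set_option autoImplicit false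
set_option linter.unusedSectionVars false
set_option linter.unusedFintypeInType false
set_option linter.unusedDecidableInType false

namespace Crest.Agent.R172.SUB

open Matrix Module Crest.Agent.R172.FO Crest.Agent.R172.Qt Crest.Agent.R172.SpS
  Crest.Agent.R172.Om Crest.Agent.R172.SUX

variable {ι : Type*} [Fintype ι] [DecidableEq ι] {δ : Type*} [Fintype δ] [DecidableEq δ]
variable {k K : Type*} [Field k] [Field K] [Algebra k K]
variable {arm : δ → Fin 3} {J : Matrix ι ι K} {B : Matrix δ δ K}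
  {N W : Submodule K (Matrix ι δ K)} {H : Matrix ι δ K}

/-- `omF r F = B E_r θ_F`; `om r = omF r H` -/
def omF (arm : δ → Fin 3) (J : Matrix ι ι K) (B : Matrix δ δ K) (H : Matrix ι δ K)
    (P : Matrix ι ι K) (F : Matrix ι δ K) (r : Fin 3) : Matrix δ δ K :=
  B * E K arm r * th J H P F

/-- `om r = B E_r S` -/
def om (arm : δ → Fin 3) (J : Matrix ι ι K) (B : Matrix δ δ K) (H : Matrix ι δ K)
    (P : Matrix ι ι K) (r : Fin 3) : Matrix δ δ K := omF arm J B H P H r

section deriv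

variable {P : Matrix ι ι K × (Fin 3 → Matrix ι ι K)} {Y : Fin 3 → Matrix δ δ K}
  {d : Derivation k K K}

/-- `d θ_F = Zᵀ θ_F + θ_F Z + θ_{wd F}` -/
theorem th_map (h : Ctx k arm J B N W H) (m : Mv k arm J N W H P.1 Y d) {F : Matrix ι δ K}
    (hF : F ∈ N ⊓ W) :
    (th J H P.1 F).map d = (ZY arm J H P.1 Y)ᵀ * th J H P.1 F + th J H P.1 F * ZY arm J H P.1 Y
      + th J H P.1 (wd arm J H P.1 Y d F) := by
  have hdF : F.map d = F * ZY arm J H P.1 Y + wd arm J H P.1 Y d F := by unfold wd; abel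
  have e1 : Hᵀ * J * (P.1.map d * F) = 0 := m.dP F hF
  unfold th at *
  rw [map_mul_der, map_mul_der, map_mul_der, h.data.J_const, Matrix.mul_zero, add_zero,
    map_transpose_der, m.dH, Matrix.mul_add, e1, zero_add, hdF, Matrix.mul_add, Matrix.mul_add,
    transpose_mul]
  rw [← add_assoc]
  congr 1
  congr 1
  · simp only [Matrix.mul_assoc]
  · simp only [Matrix.mul_assoc]

theorem wd_H (m : Mv k arm J N W H P.1 Y d) : wd arm J H P.1 Y d H = 0 := by
  unfold wd
  rw [m.dH, sub_self]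

/-- `dS = Zᵀ S + S Z` -/
theorem S_map (h : Ctx k arm J B N W H) (m : Mv k arm J N W H P.1 Y d) :
    (th J H P.1 H).map d = (ZY arm J H P.1 Y)ᵀ * th J H P.1 H + th J H P.1 H * ZY arm J H P.1 Y := by
  rw [th_map h m ⟨h.memN, h.memW⟩, wd_H m]
  unfold th
  rw [Matrix.mul_zero, Matrix.mul_zero, add_zero]

theorem E_mul_B_E (hBE : ∀ s, E K arm s * B = B * E K arm s) (s r : Fin 3) :
    E K arm s * (B * E K arm r) = if s = r then B * E K arm r else 0 := by
  rw [← Matrix.mul_assoc, hBE, Matrix.mul_assoc]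
  by_cases hsr : s = r
  · rw [if_pos hsr, hsr, E_mul_self]
  · rw [if_neg hsr, E_mul_ne arm hsr, Matrix.mul_zero]

/-- `Z (B E_r) = Y_r S (B E_r)` -/
theorem Z_BE (hBE : ∀ s, E K arm s * B = B * E K arm s) (P : Matrix ι ι K)
    (Y : Fin 3 → Matrix δ δ K) (r : Fin 3) :
    ZY arm J H P Y * (B * E K arm r) = Y r * th J H P H * (B * E K arm r) := by
  unfold ZY
  rw [Matrix.sum_mul, Finset.sum_eq_single r]
  · rw [Matrix.mul_assoc, E_mul_B_E hBE, if_pos rfl]
  · intro s _ hs
    rw [Matrix.mul_assoc, E_mul_B_E hBE, if_neg hs, Matrix.mul_zero]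
  · intro hr
    exact absurd (Finset.mem_univ r) hr

/-- `(B E_r) Zᵀ = - B E_r S Y_r` -/
theorem BE_Zt (h : Ctx k arm J B N W H) (hP : P ∈ NN arm J N H) (hY : ∀ r, (Y r)ᵀ = Y r)
    (r : Fin 3) :
    B * E K arm r * (ZY arm J H P.1 Y)ᵀ = -(B * E K arm r * th J H P.1 H * Y r) := by
  have hD := h.data
  have hBE := hD.B_arm
  have hS := th_skew h hP ⟨h.memN, h.memW⟩
  have e1 := congrArg transpose (Z_BE (J := J) (H := H) hBE P.1 Y r)
  simp only [transpose_mul, E_transpose, hD.B_symm, hBE, hS, hY, Matrix.neg_mul,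
    Matrix.mul_neg] at e1
  rw [e1, ← Matrix.mul_assoc]

/-- **`d ω_r = ω_r Z - Z ω_r + Y_r S ω_r - ω_r Y_r S`** -/
theorem om_map (h : Ctx k arm J B N W H) (hP : P ∈ NN arm J N H) (hY : ∀ r, (Y r)ᵀ = Y r)
    (m : Mv k arm J N W H P.1 Y d) (r : Fin 3) :
    (om arm J B H P.1 r).map d = om arm J B H P.1 r * ZY arm J H P.1 Y
      - ZY arm J H P.1 Y * om arm J B H P.1 r
      + (Y r * th J H P.1 H * om arm J B H P.1 r - om arm J B H P.1 r * (Y r * th J H P.1 H)) := by
  have hD := h.data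
  have e1 : ZY arm J H P.1 Y * om arm J B H P.1 r = Y r * th J H P.1 H * om arm J B H P.1 r := by
    unfold om omF
    rw [← Matrix.mul_assoc, Z_BE hD.B_arm, Matrix.mul_assoc]
  have e2 : B * E K arm r * (ZY arm J H P.1 Y)ᵀ * th J H P.1 H
      = -(om arm J B H P.1 r * (Y r * th J H P.1 H)) := by
    rw [BE_Zt h hP hY, Matrix.neg_mul]
    unfold om omF
    simp only [Matrix.mul_assoc]
  rw [e1]
  have e3 : (om arm J B H P.1 r).map d = B * E K arm r * (th J H P.1 H).map d := by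
    unfold om omF
    rw [map_mul_der, map_mul_der, hD.B_const, E_map_der, Matrix.zero_mul, Matrix.mul_zero,
      add_zero, Matrix.zero_mul, zero_add]
  rw [e3, S_map h m, Matrix.mul_add, ← Matrix.mul_assoc, e2]
  have e4 : B * E K arm r * (th J H P.1 H * ZY arm J H P.1 Y)
      = om arm J B H P.1 r * ZY arm J H P.1 Y := by
    unfold om omF
    simp only [Matrix.mul_assoc]
  rw [e4]
  abel

/-- the covariant derivative on `δ → K` -/
def nab (arm : δ → Fin 3) (J : Matrix ι ι K) (H : Matrix ι δ K) (P : Matrix ι ι K)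
    (Y : Fin 3 → Matrix δ δ K) (d : Derivation k K K) (v : δ → K) : δ → K :=
  dv d v + ZY arm J H P Y *ᵥ v

theorem dv_add {α : Type*} (d : Derivation k K K) (v w : α → K) :
    dv d (v + w) = dv d v + dv d w := by
  funext i; simp [dv]

theorem dv_smul {α : Type*} (d : Derivation k K K) (a : K) (v : α → K) :
    dv d (a • v) = a • dv d v + d a • v := by
  funext i
  simp only [dv, Pi.smul_apply, Pi.add_apply, smul_eq_mul, Derivation.leibniz]
  ring

theorem nab_add (P : Matrix ι ι K) (v w : δ → K) :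
    nab arm J H P Y d (v + w) = nab arm J H P Y d v + nab arm J H P Y d w := by
  unfold nab
  rw [dv_add, mulVec_add]
  abel

theorem nab_zero (P : Matrix ι ι K) : nab arm J H P Y d (0 : δ → K) = 0 := by
  have h := nab_add (arm := arm) (J := J) (H := H) (Y := Y) (d := d) P 0 0
  rw [add_zero] at h
  exact left_eq_add.1 h

theorem nab_smul (P : Matrix ι ι K) (a : K) (v : δ → K) :
    nab arm J H P Y d (a • v) = a • nab arm J H P Y d v + d a • v := by
  unfold nab
  rw [dv_smul, mulVec_smul, smul_add]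
  abel

/-- `d (H v) = H (nabla v)` -/
theorem H_nab (m : Mv k arm J N W H P.1 Y d) (v : δ → K) :
    dv d (H *ᵥ v) = H *ᵥ nab arm J H P.1 Y d v := by
  rw [dv_mulVec, m.dH]
  unfold nab
  rw [mulVec_add, mulVec_mulVec]
  abel

/-- `d (F v) = F (nabla v) + (wd F) v` -/
theorem F_nab (P : Matrix ι ι K) (F : Matrix ι δ K) (v : δ → K) :
    dv d (F *ᵥ v) = F *ᵥ nab arm J H P Y d v + wd arm J H P Y d F *ᵥ v := by
  rw [dv_mulVec]
  unfold nab wd
  rw [mulVec_add, mulVec_mulVec, sub_mulVec]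
  abel

/-- **`[nabla, ω_r] = [Y_r S, ω_r]`** -/
theorem nab_om (h : Ctx k arm J B N W H) (hP : P ∈ NN arm J N H) (hY : ∀ r, (Y r)ᵀ = Y r)
    (m : Mv k arm J N W H P.1 Y d) (r : Fin 3) (v : δ → K) :
    nab arm J H P.1 Y d (om arm J B H P.1 r *ᵥ v)
      = om arm J B H P.1 r *ᵥ nab arm J H P.1 Y d v
        + (Y r * th J H P.1 H) *ᵥ (om arm J B H P.1 r *ᵥ v)
        - om arm J B H P.1 r *ᵥ ((Y r * th J H P.1 H) *ᵥ v) := by
  unfold nab
  rw [dv_mulVec, om_map h hP hY m, mulVec_add, mulVec_mulVec, mulVec_mulVec, mulVec_mulVec,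
    mulVec_mulVec]
  simp only [add_mulVec, sub_mulVec]
  abel



end deriv

/-! ### the action of `𝒦` on the words -/

section words

variable {P : Matrix ι ι K × (Fin 3 → Matrix ι ι K)}

/-- `F (B E_r θ_{F'}) = F' (B E_r θ_F)` for `F, F' ∈ 𝒦` -- here for `F' = H` -/
theorem F_om (h : Ctx k arm J B N W H) (hP : P ∈ NN arm J N H) {F : Matrix ι δ K}
    (hF : F ∈ N ⊓ W) (r : Fin 3) :
    F * om arm J B H P.1 r = H * omF arm J B H P.1 F r := by
  have hD := h.data
  have hs := hD.symm_arm hF (F' := H) ⟨h.memN, h.memW⟩ r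
  unfold M at hs
  have e1 : F * om arm J B H P.1 r = F * E K arm r * B * Hᵀ * (J * (P.1 * H)) := by
    unfold om omF th
    have := hD.B_arm r
    calc F * (B * E K arm r * (Hᵀ * J * (P.1 * H)))
        = F * (B * E K arm r) * (Hᵀ * (J * (P.1 * H))) := by simp only [Matrix.mul_assoc]
      _ = _ := by rw [← this]; simp only [Matrix.mul_assoc]
  rw [e1, hs]
  have e2 : H * E K arm r * B * Fᵀ * (J * (P.1 * H))
      = H * (E K arm r * B) * (Fᵀ * J * (P.1 * H)) := by simp only [Matrix.mul_assoc]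
  rw [e2, th_flip h hP hF, hD.B_arm]
  unfold omF
  simp only [Matrix.mul_assoc]














end words

/-! ### nabla on the words -/

section nabwords

variable {P : Matrix ι ι K × (Fin 3 → Matrix ι ι K)} {Y : Fin 3 → Matrix δ δ K}
  {d : Derivation k K K}






end nabwords

end Crest.Agent.R172.SUB
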