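import Crest.Agent.R172.SGl1
import Crest.Agent.R172.STop
import Crest.Agent.R172.SLev0
import Crest.Agent.R172.UFr
import Crest.Agent.R172.SULift
import Crest.Agent.R172.SUB
import Crest.Agent.R172.SUX2
import Crest.Agent.R172.SBad97
import Crest.Agent.R172.SInst
import Crest.Agent.R172.SDec

-- ▼ part R172/SGl2
section

/-!
Row 172 (S0260), S-side (t2), arbitrary radical: first level, V-level modules `P_i = F Q_i`.
The exact families of `P2 ⊗ P1` lift to exact families of `Q2 ⊗ Q1`.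
-/

set_option autoImplicit false
set_option linter.unusedSectionVars false
set_option linter.unusedFintypeInType false
set_option linter.unusedDecidableInType false

namespace Crest.Agent.R172.SGl1

open Matrix Module TensorProduct Crest.Agent.R172.FO Crest.Agent.R172.Qt Crest.Agent.R172.SpS
  Crest.Agent.R172.Om Crest.Agent.R172.SUX

section lift

variable {K : Type*} [Field K] {X1 X2 P1 P2 : Type*} [AddCommGroup X1] [Module K X1]
  [AddCommGroup X2] [Module K X2] [AddCommGroup P1] [Module K P1] [AddCommGroup P2] [Module K P2]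
  {a : Fin 3 → End K X1} {b : Fin 3 → End K X2} {A : Fin 3 → End K P1} {Bo : Fin 3 → End K P2}

theorem map_defect {π1 : X1 →ₗ[K] P1} {π2 : X2 →ₗ[K] P2} (ha : ∀ t u, π1 (a t u) = A t (π1 u))
    (hb : ∀ t u, π2 (b t u) = Bo t (π2 u)) (c : K) (t : Fin 3) (v : X2 ⊗[K] X1) :
    TensorProduct.map π2 π1 (Dual.defect (a t) (b t) c v) =
      Dual.defect (A t) (Bo t) c (TensorProduct.map π2 π1 v) := by
  induction v using TensorProduct.induction_on with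
  | zero => simp
  | tmul x y =>
    rw [Dual.defect_tmul, map_sub, map_smul, TensorProduct.map_tmul, TensorProduct.map_tmul,
      TensorProduct.map_tmul, Dual.defect_tmul, ha, hb]
  | add x y hx hy => simp only [map_add, hx, hy]


end lift

variable {ι : Type*} [Fintype ι] [DecidableEq ι] {δ : Type*} [Fintype δ] [DecidableEq δ]
variable {k K : Type*} [Field k] [Field K] [Algebra k K]
variable {arm : δ → Fin 3} {J : Matrix ι ι K} {B : Matrix δ δ K}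
  {N W : Submodule K (Matrix ι δ K)}

/-- the form on `P2 ⊗ P1`: `(a, b) ↦ a (T b)ᵀ E_s` -/
noncomputable def qv (arm : δ → Fin 3) (T : Matrix δ ι K) (P2 P1 : Submodule K (ι → K))
    (s : Fin 3) : P2 →ₗ[K] P1 →ₗ[K] Matrix ι δ K :=
  ((vm K ι δ).compl₁₂ P2.subtype (Matrix.toLin' T ∘ₗ P1.subtype)).compr₂ (mE arm s)


/-- restriction of `F` -/
def rF (F : Matrix ι δ K) (Q : Submodule K (δ → K)) (P : Submodule K (ι → K))
    (h : ∀ u ∈ Q, F *ᵥ u ∈ P) : Q →ₗ[K] P := (Matrix.toLin' F).restrict h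






end Crest.Agent.R172.SGl1
end

-- ▼ part R172/SLevR455
section

/-!
Row 172 (S0260), tame node (t2), LEVEL 1: everything except the vanishing of the off-diagonal part
of the connection (`hval`).
-/

set_option autoImplicit false
set_option linter.unusedSectionVars false
set_option linter.unusedVariables false
set_option maxHeartbeats 400000

namespace Crest.Agent.R172.SLevR455

open Matrix Module TensorProduct Crest.Agent.R172.FO Crest.Agent.R172.Qt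
open Crest.Agent.R172.SpS Crest.Agent.R172.SEnd Crest.Agent.R172.SEnd2
open Crest.Agent.R172.Om (Kiso Scal)
open Crest.Agent.R172.PL (Wk Ainf Rad CoreM coreOp resOp)
open Crest.Agent.R172.SEndW Crest.Agent.R172.SCM Crest.Agent.R172.SCB
open Crest.Agent.R172.SC (PB iSup_PB)
open Crest.Agent.R172.SUX (th wd ZY Mv)
open Crest.Agent.R172.SUB (nab H_nab F_nab)
open Crest.Agent.R172.UBlk (Qb Qb_rel Qb_exists Qb_stable Qb_map Qb_orth)
open Crest.Agent.R172.UFr (at_H)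
open Crest.Agent.R172.STop (Setup)
open Crest.Agent.R172.SLev0 (PbK)

variable {ι : Type} [Fintype ι] [DecidableEq ι] {δ : Type} [Fintype δ] [DecidableEq δ]
variable {K : Type} [Field K] [Algebra ℂ K] [IsAlgClosed K]
variable {arm : δ → Fin 3} {J : Matrix ι ι K} {B : Matrix δ δ K} {N W : Submodule K (Matrix ι δ K)}
  {F f : Matrix ι δ K} {P : Matrix ι ι K × (Fin 3 → Matrix ι ι K)} {R : Matrix δ ι K}
  {D : End K (CoreM (PhS arm J B F R P.1))} {l : Fin 3 → ℕ}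

/-- the U-level block -/
noncomputable abbrev Qn (S : Setup arm J B N W F f P R D l) (μ : K) : Submodule K (δ → K) :=
  Qb (S.hCtx F S.hF).data S.hR P.1 D μ

theorem mem_PbK (S : Setup arm J B N W F f P R D l) {μ : K} {a : ι → K}
    (ha : a ∈ PbK arm J B F R P.1 D μ) : ∃ u ∈ Qn S μ, F *ᵥ u = a := by
  obtain ⟨v, hv, rfl⟩ := ha
  have h1 := Qb_map (S.hCtx F S.hF) S.hR S.hD μ
  have hv' : v ∈ PB (SBlk.Ph arm J B F R P.1) D μ := hv
  rw [← h1] at hv'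
  obtain ⟨u, hu, e⟩ := hv'
  exact ⟨u, hu, congrArg (fun y : SpS.Sg F => (y : ι → K)) e⟩

theorem map_mem_PbK (S : Setup arm J B N W F f P R D l) {μ : K} {u : δ → K}
    (hu : u ∈ Qn S μ) : F *ᵥ u ∈ PbK arm J B F R P.1 D μ := by
  have h1 := Qb_map (S.hCtx F S.hF) S.hR S.hD μ
  have h2 : gS F u ∈ PB (SBlk.Ph arm J B F R P.1) D μ := by
    rw [← h1]; exact ⟨u, hu, rfl⟩
  exact ⟨gS F u, h2, rfl⟩

theorem PC_eq (S : Setup arm J B N W F f P R D l) :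
    PC arm J B F R P.1 = ⨆ μ, PbK arm J B F R P.1 D μ := by
  have h3 : Ainf (PhS arm J B F R P.1) = ⨆ ν, PB (PhS arm J B F R P.1) D ν :=
    (iSup_PB S.hD.2 (Module.End.iSup_maxGenEigenspace_eq_top D)).symm
  unfold PC
  rw [h3, Submodule.map_iSup]

/-- a property of all block vectors holds on `PC` (for a linear test) -/
theorem PC_ind (S : Setup arm J B N W F f P R D l) {b : ι → K}
    (h : ∀ μ, ∀ u ∈ Qn S μ, (F *ᵥ u) ⬝ᵥ b = 0) : ∀ a ∈ PC arm J B F R P.1, a ⬝ᵥ b = 0 := by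
  intro a ha
  rw [PC_eq S] at ha
  refine Submodule.iSup_induction (p := fun μ => PbK arm J B F R P.1 D μ)
    (motive := fun a => a ⬝ᵥ b = 0) ha ?_ (by simp) ?_
  · intro μ a ha
    obtain ⟨u, hu, rfl⟩ := mem_PbK S ha
    exact h μ u hu
  · intro x y hx hy
    rw [add_dotProduct, hx, hy, add_zero]

theorem Qn_zero (S : Setup arm J B N W F f P R D l) {μ : K}
    (hμ : D.maxGenEigenspace μ = ⊥) {u : δ → K} (hu : u ∈ Qn S μ) : F *ᵥ u = 0 := by
  obtain ⟨v, hv, e⟩ := map_mem_PbK S hu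
  have h1 := STop.PB_bot S.hD.2 hμ
  rw [h1] at hv
  rw [← e, (Submodule.mem_bot K).1 hv]
  rfl

/-- `λ_μ = κ_μ / c_μ` -/
noncomputable def lamf (a ν1 ν2 μ : K) : K := (ν1 - ν2)⁻¹ * (μ - ν2) * (1 + a * μ)⁻¹

theorem wd_good (S : Setup arm J B N W F f P R D l) {t : ℂ}
    {Pt : Matrix ι ι K × (Fin 3 → Matrix ι ι K)}
    {Y : Fin 3 → Matrix δ δ K} {d : Derivation ℂ K K}
    (m : Mv ℂ arm J N W (F + (algebraMap ℂ K t) • f) Pt.1 Y d) {ν1 ν2 : K}
    (hc : ∀ μ, D.maxGenEigenspace μ ≠ ⊥ → 1 + algebraMap ℂ K t * μ ≠ 0)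
    (hval : ∀ μ μ', D.maxGenEigenspace μ ≠ ⊥ → D.maxGenEigenspace μ' ≠ ⊥ → μ ≠ μ' →
      ∀ u ∈ Qn S μ, ∀ v ∈ Qn S μ',
      ((Fᵀ * J * (P.1 * F)) *ᵥ v) ⬝ᵥ nab arm J (F + (algebraMap ℂ K t) • f) Pt.1 Y d u = 0) :
    wd arm J (F + (algebraMap ℂ K t) • f) Pt.1 Y d ((ν1 - ν2)⁻¹ • (f - ν2 • F)) ∈
      SLev0.QG arm J B N W F P (PC arm J B F R P.1) (fun μ => PbK arm J B F R P.1 D μ) id := by
  set a : K := algebraMap ℂ K t with ha
  set H : Matrix ι δ K := F + a • f with hH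
  set kk : Matrix ι δ K := (ν1 - ν2)⁻¹ • (f - ν2 • F) with hkk
  have hC := S.hCtx F S.hF
  have hHK : H ∈ Kiso J N W := (Kiso J N W).add_mem S.hF ((Kiso J N W).smul_mem a S.hf)
  have hCH := S.hCtx H hHK
  have hkm : kk ∈ N ⊓ W :=
    (N ⊓ W).smul_mem _ ((N ⊓ W).sub_mem S.hf.1 ((N ⊓ W).smul_mem _ hC.mem))
  have hrel : ∀ {μ : K} {u : δ → K}, u ∈ Qn S μ → f *ᵥ u = μ • (F *ᵥ u) ∧
      (Fᵀ * J * (P.1 * f)) *ᵥ u = μ • ((Fᵀ * J * (P.1 * F)) *ᵥ u) := fun {μ u} hu => by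
    have := Qb_rel hC S.hR S.hD (S.hNil F S.hF) S.hP S.hf.1 hu
    exact ⟨this.1, this.2.1⟩
  have hHu : ∀ {μ : K} {u : δ → K}, u ∈ Qn S μ → H *ᵥ u = (1 + a * μ) • (F *ᵥ u) := by
    intro μ u hu
    rw [hH, add_mulVec, smul_mulVec, (hrel hu).1, smul_smul, add_smul, one_smul]
  have hku : ∀ {μ : K} {u : δ → K}, u ∈ Qn S μ →
      kk *ᵥ u = ((ν1 - ν2)⁻¹ * (μ - ν2)) • (F *ᵥ u) := by
    intro μ u hu
    rw [hkk, smul_mulVec, sub_mulVec, smul_mulVec, (hrel hu).1, ← sub_smul, smul_smul]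
  have hw : wd arm J H Pt.1 Y d kk ∈ W := m.w_mem hkm.2
  have hwH : Hᵀ * J * wd arm J H Pt.1 Y d kk = 0 := m.w_perp hCH (hCH.perp kk hkm)
  refine SLev0.mem_QG.2 ⟨_, hw, by rw [sub_self]; exact N.zero_mem, ?_, ?_⟩
  · intro b hb v
    refine PC_ind S (fun μ u hu => ?_) b hb
    by_cases hμ : D.maxGenEigenspace μ = ⊥
    · rw [Qn_zero S hμ hu, zero_dotProduct]
    · have h1 : (H *ᵥ u) ⬝ᵥ ((J * wd arm J H Pt.1 Y d kk) *ᵥ v) = 0 := by
        rw [form_g, hwH, zero_mulVec, dotProduct_zero]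
      rw [hHu hu, smul_dotProduct, smul_eq_mul] at h1
      exact (mul_eq_zero.1 h1).resolve_left (hc μ hμ)
  · refine ⟨fun μ => d (lamf a ν1 ν2 μ) * (1 + a * μ), fun μ c hcμ r => ?_⟩
    obtain ⟨u0, hu0, rfl⟩ := mem_PbK S hcμ
    obtain ⟨u, hu⟩ : ∃ u : δ → K, u = (E K arm r * B * (Fᵀ * J * (P.1 * F))) *ᵥ u0 := ⟨_, rfl⟩
    have huQ : u ∈ Qn S μ := by
      have h1 := Qb_stable hC S.hR S.hD r hu0
      rw [UBlk.om_eq hC.data, ← hu] at h1
      exact h1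
    have e1 : (E K arm r * B * Fᵀ * (J * P.1)) *ᵥ (F *ᵥ u0) = u := by
      rw [hu, mulVec_mulVec]; simp only [Matrix.mul_assoc]
    have e2 : (M arm B r F F * (J * P.1)) *ᵥ (F *ᵥ u0) = F *ᵥ u := by
      rw [hu, mulVec_mulVec, mulVec_mulVec]; unfold M; simp only [Matrix.mul_assoc]
    rw [e1, e2, id]
    by_cases hμ : D.maxGenEigenspace μ = ⊥
    · -- the block is `0`
      have h0 : (Fᵀ * J * (P.1 * F)) *ᵥ u0 = 0 := by
        have : (Fᵀ * J * (P.1 * F)) *ᵥ u0 = (Fᵀ * J * P.1) *ᵥ (F *ᵥ u0) := by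
          rw [mulVec_mulVec]; simp only [Matrix.mul_assoc]
        rw [this, Qn_zero S hμ hu0, mulVec_zero]
      have hu' : u = 0 := by
        rw [hu, ← mulVec_mulVec, h0, mulVec_zero]
      refine ⟨0, fun b _ => by simp, ?_⟩
      rw [hu', mulVec_zero, mulVec_zero, smul_zero, add_zero]
    have hcμ' := hc μ hμ
    have hl : lamf a ν1 ν2 μ * (1 + a * μ) = (ν1 - ν2)⁻¹ * (μ - ν2) := by
      unfold lamf
      rw [mul_assoc, inv_mul_cancel₀ hcμ', mul_one]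
    refine ⟨lamf a ν1 ν2 μ • (H *ᵥ nab arm J H Pt.1 Y d u) - kk *ᵥ nab arm J H Pt.1 Y d u, ?_, ?_⟩
    · intro b hb
      refine PC_ind S (fun μ' v hv => ?_) b hb
      -- `(F v)ᵀ J P (λ H - k) n`
      have hfl : ∀ G : Matrix ι δ K, G ∈ N ⊓ W → ∀ {x : K},
          (Fᵀ * J * (P.1 * G)) *ᵥ v = x • ((Fᵀ * J * (P.1 * F)) *ᵥ v) →
          ∀ n : δ → K, (F *ᵥ v) ⬝ᵥ ((J * P.1) *ᵥ (G *ᵥ n)) =
            -(x * (((Fᵀ * J * (P.1 * F)) *ᵥ v) ⬝ᵥ n)) := by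
        intro G hG x hx n
        have hsk := SUX.th_skew hC S.hP hG
        unfold SUX.th at hsk
        have e3 : (F *ᵥ v) ⬝ᵥ ((J * P.1) *ᵥ (G *ᵥ n)) = v ⬝ᵥ ((Fᵀ * J * (P.1 * G)) *ᵥ n) := by
          rw [mulVec_mulVec, form_g]
          congr 2
          simp only [Matrix.mul_assoc]
        have e4 : v ⬝ᵥ ((Fᵀ * J * (P.1 * G)) *ᵥ n) =
            -(((Fᵀ * J * (P.1 * G)) *ᵥ v) ⬝ᵥ n) := by
          rw [dotProduct_mulVec, ← mulVec_transpose, hsk, neg_mulVec, neg_dotProduct]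
        rw [e3, e4, hx, smul_dotProduct, smul_eq_mul]
      obtain ⟨-, hfv⟩ := hrel hv
      have hHv : (Fᵀ * J * (P.1 * H)) *ᵥ v = (1 + a * μ') • ((Fᵀ * J * (P.1 * F)) *ᵥ v) := by
        rw [hH, Matrix.mul_add, Matrix.mul_smul, Matrix.mul_add, Matrix.mul_smul, add_mulVec,
          smul_mulVec, hfv, smul_smul, add_smul, one_smul]
      have hkv : (Fᵀ * J * (P.1 * kk)) *ᵥ v =
          ((ν1 - ν2)⁻¹ * (μ' - ν2)) • ((Fᵀ * J * (P.1 * F)) *ᵥ v) := by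
        rw [hkk, Matrix.mul_smul, Matrix.mul_smul, Matrix.mul_sub, Matrix.mul_sub,
          Matrix.mul_smul, Matrix.mul_smul, smul_mulVec, sub_mulVec, smul_mulVec, hfv,
          ← sub_smul, smul_smul]
      rw [mulVec_sub, mulVec_smul, dotProduct_sub, dotProduct_smul, smul_eq_mul,
        hfl H hCH.mem hHv, hfl kk hkm hkv]
      by_cases hμμ : μ = μ'
      · subst hμμ
        linear_combination
          (-(((Fᵀ * J * (P.1 * F)) *ᵥ v) ⬝ᵥ nab arm J H Pt.1 Y d u)) * hl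
      · by_cases hμ' : D.maxGenEigenspace μ' = ⊥
        · have h0 : (Fᵀ * J * (P.1 * F)) *ᵥ v = 0 := by
            have : (Fᵀ * J * (P.1 * F)) *ᵥ v = (Fᵀ * J * P.1) *ᵥ (F *ᵥ v) := by
              rw [mulVec_mulVec]; simp only [Matrix.mul_assoc]
            rw [this, Qn_zero S hμ' hv, mulVec_zero]
          rw [h0, zero_dotProduct]
          ring
        · rw [hval μ μ' hμ hμ' hμμ u huQ v hv]
          ring
    · -- the value
      have h1 : kk *ᵥ u = lamf a ν1 ν2 μ • (H *ᵥ u) := by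
        rw [hku huQ, hHu huQ, smul_smul, hl]
      have h2 := F_nab (arm := arm) (J := J) (H := H) (Y := Y) (d := d) Pt.1 kk u
      rw [h1, SUB.dv_smul, H_nab m, hHu huQ, smul_smul] at h2
      rw [← sub_eq_iff_eq_add'] at h2
      rw [← h2]
      abel

end Crest.Agent.R172.SLevR455
end

-- ▼ part R172/SLevA0
section

/-!
Row 172 (S0260), S-side (t2), first level: the finite bad set and the vanishing of
`β(u,q) = (∇u) · (S q)` on pairs of different blocks.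
-/

set_option autoImplicit false
set_option linter.unusedSectionVars false
set_option linter.unusedFintypeInType false
set_option linter.unusedDecidableInType false

namespace Crest.Agent.R172.SLevA

open Matrix Module TensorProduct Crest.Agent.R172.FO Crest.Agent.R172.Qt Crest.Agent.R172.SpS
  Crest.Agent.R172.Om Crest.Agent.R172.SUX Crest.Agent.R172.SGl1

section bad

variable {K : Type*} [Field K] {V1 V2 : Type*} [AddCommGroup V1] [Module K V1]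
  [FiniteDimensional K V1] [AddCommGroup V2] [Module K V2] [FiniteDimensional K V2]



end bad

variable {ι : Type*} [Fintype ι] [DecidableEq ι] {δ : Type*} [Fintype δ] [DecidableEq δ]
variable {k K : Type*} [Field k] [Field K] [Algebra k K]
variable {arm : δ → Fin 3} {J : Matrix ι ι K} {B : Matrix δ δ K}
  {N W : Submodule K (Matrix ι δ K)} {H : Matrix ι δ K}

theorem skew_dot {S : Matrix δ δ K} (hS : Sᵀ = -S) (u v : δ → K) :
    u ⬝ᵥ (S *ᵥ v) = -(v ⬝ᵥ (S *ᵥ u)) := by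
  rw [dotProduct_mulVec, ← mulVec_transpose, hS, neg_mulVec, neg_dotProduct, dotProduct_comm]

/-- `ω_r` is skew-adjoint -/
theorem om_adj (hB : Bᵀ = B) (hBE : ∀ r, E K arm r * B = B * E K arm r) {S : Matrix δ δ K}
    (hS : Sᵀ = -S) (r : Fin 3) (u v : δ → K) :
    (om arm B S r *ᵥ u) ⬝ᵥ (S *ᵥ v) = -(u ⬝ᵥ (S *ᵥ (om arm B S r *ᵥ v))) := by
  have h1 : (om arm B S r)ᵀ * S = -(S * om arm B S r) := by
    unfold om
    rw [transpose_mul, transpose_mul, E_transpose, hB, hS, ← hBE]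
    simp only [Matrix.neg_mul, Matrix.mul_assoc]
  have h2 : (om arm B S r *ᵥ u) ⬝ᵥ (S *ᵥ v) = u ⬝ᵥ (((om arm B S r)ᵀ * S) *ᵥ v) := by
    rw [← mulVec_mulVec, dotProduct_mulVec u, vecMul_transpose]
  rw [h2, h1, neg_mulVec, dotProduct_neg, mulVec_mulVec]

/-- **`β = 0`** -/
theorem beta_zero (h : Ctx k arm J B N W H) {P : Matrix ι ι K × (Fin 3 → Matrix ι ι K)}
    (hP : P ∈ NN arm J N H) {Y : Fin 3 → Matrix δ δ K} (hY : ∀ r, (Y r)ᵀ = Y r)
    {d : Derivation k K K} (m : Mv k arm J N W H P.1 Y d) {S : Matrix δ δ K}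
    {Qa Qb : Submodule K (δ → K)} {ca cb : K} (hca : ca ≠ 0) (hcb : cb ≠ 0)
    (sa : ∀ u ∈ Qa, th J H P.1 H *ᵥ u = ca ^ 2 • S *ᵥ u)
    (sb : ∀ u ∈ Qb, th J H P.1 H *ᵥ u = cb ^ 2 • S *ᵥ u)
    (sta : ∀ r, ∀ u ∈ Qa, om arm B S r *ᵥ u ∈ Qa) (stb : ∀ r, ∀ u ∈ Qb, om arm B S r *ᵥ u ∈ Qb)
    (orth : ∀ u ∈ Qa, ∀ q ∈ Qb, u ⬝ᵥ (S *ᵥ q) = 0)
    (harm : ∀ r, ∀ u ∈ Qa, ∀ q ∈ Qb,
      ((Y r * th J H P.1 H) *ᵥ (om arm B S r *ᵥ u)) ⬝ᵥ (S *ᵥ q) * ca ^ 2 +
        ((Y r * th J H P.1 H) *ᵥ u) ⬝ᵥ (S *ᵥ (om arm B S r *ᵥ q)) * cb ^ 2 = 0)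
    (hs : ∀ b : Qa →ₗ[K] Qb →ₗ[K] K, (∀ r u q, b (rs (om arm B S r) Qa (sta r) u) q =
      (-(cb ^ 2 / ca ^ 2)) * b u (rs (om arm B S r) Qb (stb r) q)) → b = 0) :
    ∀ u ∈ Qa, ∀ q ∈ Qb, SUB.nab arm J H P.1 Y d u ⬝ᵥ (S *ᵥ q) = 0 := by
  have hD := h.data
  have hSH := th_skew h hP h.mem
  let b : Qa →ₗ[K] Qb →ₗ[K] K := LinearMap.mk₂ K
    (fun u q => SUB.nab arm J H P.1 Y d (u : δ → K) ⬝ᵥ (S *ᵥ (q : δ → K)))
    (fun u v q => by
      rw [Submodule.coe_add, SUB.nab_add, add_dotProduct])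
    (fun t u q => by
      rw [Submodule.coe_smul, SUB.nab_smul, add_dotProduct, smul_dotProduct, smul_dotProduct,
        orth u u.2 q q.2, smul_zero, add_zero])
    (fun u p q => by rw [Submodule.coe_add, mulVec_add, dotProduct_add])
    (fun t u q => by rw [Submodule.coe_smul, mulVec_smul, dotProduct_smul])
  have hb : ∀ u q, b u q = SUB.nab arm J H P.1 Y d (u : δ → K) ⬝ᵥ (S *ᵥ (q : δ → K)) :=
    fun u q => rfl
  have hom : ∀ (Q : Submodule K (δ → K)) (c : K)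
      (s : ∀ u ∈ Q, th J H P.1 H *ᵥ u = c ^ 2 • S *ᵥ u) (r : Fin 3) (u : δ → K) (hu : u ∈ Q),
      SUB.om arm J B H P.1 r *ᵥ u = c ^ 2 • (om arm B S r *ᵥ u) := by
    intro Q c s r u hu
    unfold SUB.om SUB.omF om
    rw [← mulVec_mulVec, s u hu, mulVec_smul, mulVec_mulVec]
  have hb0 : b = 0 := by
    refine hs b fun r u q => ?_
    rw [hb, hb, rs_coe, rs_coe]
    have hu := u.2
    have hq := q.2
    have hou := sta r u u.2
    have hoq := stb r q q.2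
    -- `nab (om_t u)`
    have e1 := SUB.nab_om h hP hY m r (u : δ → K)
    rw [hom Qa ca sa r u hu, SUB.nab_smul] at e1
    have e2 := congrArg (fun v => v ⬝ᵥ (S *ᵥ (q : δ → K))) e1
    simp only [add_dotProduct, sub_dotProduct, smul_dotProduct] at e2
    rw [orth _ hou _ hq, smul_zero, add_zero] at e2
    -- adjointness
    have e3 : ∀ v : δ → K, cb ^ 2 * ((SUB.om arm J B H P.1 r *ᵥ v) ⬝ᵥ (S *ᵥ (q : δ → K))) =
        -(cb ^ 4 * (v ⬝ᵥ (S *ᵥ (om arm B S r *ᵥ (q : δ → K))))) := by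
      intro v
      have a1 := om_adj (arm := arm) hD.B_symm hD.B_arm hSH r v (q : δ → K)
      have a2 : om arm B (th J H P.1 H) r = SUB.om arm J B H P.1 r := rfl
      rw [a2, sb _ hq, dotProduct_smul, hom Qb cb sb r q hq, mulVec_smul, sb _ hoq,
        smul_smul, dotProduct_smul, smul_eq_mul, smul_eq_mul] at a1
      rw [a1]
      ring
    have e4 := e3 (SUB.nab arm J H P.1 Y d (u : δ → K))
    have e5 := e3 ((Y r * th J H P.1 H) *ᵥ (u : δ → K))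
    have e6 := harm r u hu q hq
    rw [mulVec_smul, smul_dotProduct, smul_eq_mul, smul_eq_mul] at e2
    have hca2 : ca ^ 2 ≠ 0 := pow_ne_zero 2 hca
    have hcb2 : cb ^ 2 ≠ 0 := pow_ne_zero 2 hcb
    have e7 : ca ^ 2 * cb ^ 2 * (SUB.nab arm J H P.1 Y d (om arm B S r *ᵥ (u : δ → K)) ⬝ᵥ
        (S *ᵥ (q : δ → K))) = -(cb ^ 4 * (SUB.nab arm J H P.1 Y d (u : δ → K) ⬝ᵥ
          (S *ᵥ (om arm B S r *ᵥ (q : δ → K))))) := by
      linear_combination cb ^ 2 * e2 + e4 - e5 + cb ^ 2 * e6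
    have e8 : ca ^ 2 * (SUB.nab arm J H P.1 Y d (om arm B S r *ᵥ (u : δ → K)) ⬝ᵥ
        (S *ᵥ (q : δ → K))) = -(cb ^ 2 * (SUB.nab arm J H P.1 Y d (u : δ → K) ⬝ᵥ
          (S *ᵥ (om arm B S r *ᵥ (q : δ → K))))) := by
      apply mul_left_cancel₀ hcb2
      linear_combination e7
    field_simp
    linear_combination e8
  intro u hu q hq
  have := LinearMap.congr_fun (LinearMap.congr_fun hb0 ⟨u, hu⟩) ⟨q, hq⟩
  exact this

end Crest.Agent.R172.SLevA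
end

-- ▼ part R172/SLevA1
section

/-!
Row 172 (S0260), S-side (t2), first level: the correction `w = wd k` is good.
-/

set_option autoImplicit false
set_option linter.unusedSectionVars false
set_option linter.unusedFintypeInType false
set_option linter.unusedDecidableInType false

namespace Crest.Agent.R172.SLevA

open Matrix Module TensorProduct Crest.Agent.R172.FO Crest.Agent.R172.Qt Crest.Agent.R172.SpS
  Crest.Agent.R172.Om Crest.Agent.R172.SUX Crest.Agent.R172.SGl1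

variable {ι : Type*} [Fintype ι] [DecidableEq ι] {δ : Type*} [Fintype δ] [DecidableEq δ]
variable {k K : Type*} [Field k] [Field K] [Algebra k K]
variable {arm : δ → Fin 3} {J : Matrix ι ι K} {B : Matrix δ δ K}
  {N W : Submodule K (Matrix ι δ K)} {H F kk : Matrix ι δ K}


/-- the pairing of a tensor with `S u`, `S q` -/
noncomputable def Pr (S : Matrix δ δ K) (Q2 Q1 : Submodule K (δ → K)) (u q : δ → K) :
    Q2 ⊗[K] Q1 →ₗ[K] K :=
  TensorProduct.lift (LinearMap.mk₂ K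
    (fun a b => ((b : δ → K) ⬝ᵥ (S *ᵥ u)) * ((a : δ → K) ⬝ᵥ (S *ᵥ q)))
    (fun a a' b => by rw [Submodule.coe_add, add_dotProduct, mul_add])
    (fun t a b => by
      rw [Submodule.coe_smul, smul_dotProduct, smul_eq_mul, smul_eq_mul]; ring)
    (fun a b b' => by rw [Submodule.coe_add, add_dotProduct, add_mul])
    (fun t a b => by
      rw [Submodule.coe_smul, smul_dotProduct, smul_eq_mul, smul_eq_mul]; ring))

theorem Pr_tmul (S : Matrix δ δ K) {Q2 Q1 : Submodule K (δ → K)} (u q : δ → K) (a : Q2) (b : Q1) :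
    Pr S Q2 Q1 u q (a ⊗ₜ[K] b) = ((b : δ → K) ⬝ᵥ (S *ᵥ u)) * ((a : δ → K) ⬝ᵥ (S *ᵥ q)) := by
  simp [Pr]

theorem ten_pr (S : Matrix δ δ K) {Q2 Q1 : Submodule K (δ → K)} (u q : δ → K) (z : Q2 ⊗[K] Q1) :
    ((ten Q2 Q1 z) *ᵥ (S *ᵥ u)) ⬝ᵥ (S *ᵥ q) = Pr S Q2 Q1 u q z := by
  induction z using TensorProduct.induction_on with
  | zero => simp
  | tmul a b =>
    rw [ten_tmul, Pr_tmul, vecMulVec_mulVec, op_smul_eq_smul, smul_dotProduct, smul_eq_mul]
  | add x y hx hy => rw [map_add, map_add, add_mulVec, add_dotProduct, hx, hy]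

theorem tent_pr (S : Matrix δ δ K) {Q2 Q1 : Submodule K (δ → K)} (u q : δ → K) (z : Q2 ⊗[K] Q1) :
    ((ten Q2 Q1 z)ᵀ *ᵥ (S *ᵥ u)) ⬝ᵥ (S *ᵥ q) = Pr S Q2 Q1 q u z := by
  induction z using TensorProduct.induction_on with
  | zero => simp
  | tmul a b =>
    rw [ten_tmul, Pr_tmul, transpose_vecMulVec, vecMulVec_mulVec, op_smul_eq_smul,
      smul_dotProduct, smul_eq_mul, mul_comm]
  | add x y hx hy => rw [map_add, map_add, transpose_add, add_mulVec, add_dotProduct, hx, hy]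

theorem Pr_zero1 {S : Matrix δ δ K} {Q2 Q1 : Submodule K (δ → K)} {u q : δ → K}
    (h : ∀ b ∈ Q1, b ⬝ᵥ (S *ᵥ u) = 0) (z : Q2 ⊗[K] Q1) : Pr S Q2 Q1 u q z = 0 := by
  induction z using TensorProduct.induction_on with
  | zero => simp
  | tmul a b => rw [Pr_tmul, h b b.2, zero_mul]
  | add x y hx hy => rw [map_add, hx, hy, add_zero]

theorem Pr_zero2 {S : Matrix δ δ K} {Q2 Q1 : Submodule K (δ → K)} {u q : δ → K}
    (h : ∀ a ∈ Q2, a ⬝ᵥ (S *ᵥ q) = 0) (z : Q2 ⊗[K] Q1) : Pr S Q2 Q1 u q z = 0 := by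
  induction z using TensorProduct.induction_on with
  | zero => simp
  | tmul a b => rw [Pr_tmul, h a a.2, mul_zero]
  | add x y hx hy => rw [map_add, hx, hy, add_zero]

theorem Pr_defect (hB : Bᵀ = B) (hBE : ∀ r, E K arm r * B = B * E K arm r) {S : Matrix δ δ K}
    (hS : Sᵀ = -S) {Q1 Q2 : Submodule K (δ → K)}
    (h1 : ∀ r, ∀ u ∈ Q1, om arm B S r *ᵥ u ∈ Q1) (h2 : ∀ r, ∀ u ∈ Q2, om arm B S r *ᵥ u ∈ Q2)
    (ρ : K) (r : Fin 3) (u q : δ → K) (z : Q2 ⊗[K] Q1) :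
    Pr S Q2 Q1 u q (Dual.defect (rs (om arm B S r) Q1 (h1 r))
        (-(rs (om arm B S r) Q2 (h2 r))) (ρ ^ 2) z) =
      -(Pr S Q2 Q1 (om arm B S r *ᵥ u) q z + ρ ^ 2 * Pr S Q2 Q1 u (om arm B S r *ᵥ q) z) := by
  induction z using TensorProduct.induction_on with
  | zero => simp
  | tmul a b =>
    rw [Dual.defect_tmul, map_sub, map_smul, Pr_tmul, Pr_tmul, Pr_tmul, Pr_tmul, rs_coe,
      LinearMap.neg_apply, Submodule.coe_neg, rs_coe, om_adj hB hBE hS, neg_dotProduct,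
      om_adj hB hBE hS, smul_eq_mul]
    ring
  | add x y hx hy =>
    simp only [map_add, hx, hy]
    ring

/-- **the `Y`-terms cancel** -/
theorem harm_all (hB : Bᵀ = B) (hBE : ∀ r, E K arm r * B = B * E K arm r)
    {S SH : Matrix δ δ K} (hS : Sᵀ = -S) {Qb : K → Submodule K (δ → K)} {c : K → K}
    (sH : ∀ ν, ∀ u ∈ Qb ν, SH *ᵥ u = c ν ^ 2 • S *ᵥ u)
    (st : ∀ ν r, ∀ u ∈ Qb ν, om arm B S r *ᵥ u ∈ Qb ν)
    (orth : ∀ ν ν', ν ≠ ν' → ∀ u ∈ Qb ν, ∀ q ∈ Qb ν', u ⬝ᵥ (S *ᵥ q) = 0)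
    {ν1 ν2 : K} (hν : ν1 ≠ ν2) {ρ : K} (hρ : c ν1 * ρ = c ν2) {r : Fin 3}
    {z : Qb ν2 ⊗[K] Qb ν1}
    (hrad : ∀ u ∈ Qb ν1, ∀ q ∈ Qb ν2, Pr S (Qb ν2) (Qb ν1) u q
      (Dual.defect (rs (om arm B S r) (Qb ν1) (st ν1 r))
        (-(rs (om arm B S r) (Qb ν2) (st ν2 r))) (ρ ^ 2) z) = 0)
    {ν ν' : K} (hνν : ν ≠ ν') (u : δ → K) (hu : u ∈ Qb ν) (q : δ → K) (hq : q ∈ Qb ν') :
    (((ten (Qb ν2) (Qb ν1) z + (ten (Qb ν2) (Qb ν1) z)ᵀ) * SH) *ᵥ (om arm B S r *ᵥ u)) ⬝ᵥ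
        (S *ᵥ q) * c ν ^ 2 +
      (((ten (Qb ν2) (Qb ν1) z + (ten (Qb ν2) (Qb ν1) z)ᵀ) * SH) *ᵥ u) ⬝ᵥ
        (S *ᵥ (om arm B S r *ᵥ q)) * c ν' ^ 2 = 0 := by
  have hou := st ν r u hu
  have hoq := st ν' r q hq
  have e1 : ∀ v ∈ Qb ν, ∀ p : δ → K,
      (((ten (Qb ν2) (Qb ν1) z + (ten (Qb ν2) (Qb ν1) z)ᵀ) * SH) *ᵥ v) ⬝ᵥ (S *ᵥ p) =
      c ν ^ 2 * (Pr S (Qb ν2) (Qb ν1) v p z + Pr S (Qb ν2) (Qb ν1) p v z) := by
    intro v hv p
    rw [← mulVec_mulVec, sH ν v hv, mulVec_smul, smul_dotProduct, add_mulVec, add_dotProduct,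
      ten_pr, tent_pr, smul_eq_mul]
  rw [e1 _ hou, e1 _ hu]
  -- zero facts
  have z1 : ∀ v w : δ → K, ∀ μ, μ ≠ ν1 → v ∈ Qb μ → Pr S (Qb ν2) (Qb ν1) v w z = 0 :=
    fun v w μ hμ hv => Pr_zero1 (fun b hb => orth ν1 μ hμ.symm b hb v hv) z
  have z2 : ∀ v w : δ → K, ∀ μ, μ ≠ ν2 → w ∈ Qb μ → Pr S (Qb ν2) (Qb ν1) v w z = 0 :=
    fun v w μ hμ hw => Pr_zero2 (fun a ha => orth ν2 μ hμ.symm a ha w hw) z
  by_cases ha : ν = ν1
  · subst ha
    by_cases hb : ν' = ν2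
    · subst hb
      have h1 := hrad u hu q hq
      rw [Pr_defect hB hBE hS] at h1
      rw [z1 q (om arm B S r *ᵥ u) ν' hνν.symm hq, z1 (om arm B S r *ᵥ q) u ν' hνν.symm hoq,
        ← hρ]
      linear_combination (-(c ν ^ 4)) * h1
    · rw [z2 (om arm B S r *ᵥ u) q ν' hb hq, z1 q (om arm B S r *ᵥ u) ν' hνν.symm hq,
        z2 u (om arm B S r *ᵥ q) ν' hb hoq, z1 (om arm B S r *ᵥ q) u ν' hνν.symm hoq]
      ring
  · by_cases hb : ν = ν2
    · subst hb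
      by_cases hc : ν' = ν1
      · subst hc
        have h1 := hrad q hq u hu
        rw [Pr_defect hB hBE hS] at h1
        rw [z1 (om arm B S r *ᵥ u) q ν ha hou, z1 u (om arm B S r *ᵥ q) ν ha hu, ← hρ]
        linear_combination (-(c ν' ^ 4 * ρ ^ 2)) * h1
      · rw [z1 (om arm B S r *ᵥ u) q ν ha hou, z1 u (om arm B S r *ᵥ q) ν ha hu,
          z1 q (om arm B S r *ᵥ u) ν' hc hq, z1 (om arm B S r *ᵥ q) u ν' hc hoq]
        ring
    · rw [z1 (om arm B S r *ᵥ u) q ν ha hou, z2 q (om arm B S r *ᵥ u) ν hb hou,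
        z1 u (om arm B S r *ᵥ q) ν ha hu, z2 (om arm B S r *ᵥ q) u ν hb hu]
      ring

/-- the radical of the V-level modules is invisible -/
theorem Pr_rad {S : Matrix δ δ K} {η : Matrix ι ι K} (hSη : S = Fᵀ * η * F)
    {Q1 Q2 : Submodule K (δ → K)} {P1 P2 : Type*} [AddCommGroup P1] [Module K P1]
    [AddCommGroup P2] [Module K P2] (π1 : Q1 →ₗ[K] P1) (π2 : Q2 →ₗ[K] P2)
    (i1 : P1 →ₗ[K] (ι → K)) (i2 : P2 →ₗ[K] (ι → K))
    (e1 : ∀ u : Q1, i1 (π1 u) = F *ᵥ (u : δ → K)) (e2 : ∀ u : Q2, i2 (π2 u) = F *ᵥ (u : δ → K))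
    {R1 : Submodule K P1} {R2 : Submodule K P2}
    (r1 : ∀ r ∈ R1, ∀ u ∈ Q1, i1 r ⬝ᵥ (η *ᵥ (F *ᵥ u)) = 0)
    (r2 : ∀ r ∈ R2, ∀ u ∈ Q2, i2 r ⬝ᵥ (η *ᵥ (F *ᵥ u)) = 0) {z : Q2 ⊗[K] Q1}
    (hz : TensorProduct.map π2 π1 z ∈ Dual.Rad R1 R2) :
    ∀ u ∈ Q1, ∀ q ∈ Q2, Pr S Q2 Q1 u q z = 0 := by
  intro u hu q hq
  let V : P2 ⊗[K] P1 →ₗ[K] K := TensorProduct.lift (LinearMap.mk₂ K
    (fun a b => (i1 b ⬝ᵥ (η *ᵥ (F *ᵥ u))) * (i2 a ⬝ᵥ (η *ᵥ (F *ᵥ q))))
    (fun a a' b => by rw [map_add, add_dotProduct, mul_add])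
    (fun t a b => by rw [map_smul, smul_dotProduct, smul_eq_mul, smul_eq_mul]; ring)
    (fun a b b' => by rw [map_add, add_dotProduct, add_mul])
    (fun t a b => by rw [map_smul, smul_dotProduct, smul_eq_mul, smul_eq_mul]; ring))
  have hV : ∀ a b, V (a ⊗ₜ[K] b) = (i1 b ⬝ᵥ (η *ᵥ (F *ᵥ u))) * (i2 a ⬝ᵥ (η *ᵥ (F *ᵥ q))) := by
    intro a b
    simp [V]
  have hSd : ∀ v w : δ → K, v ⬝ᵥ (S *ᵥ w) = (F *ᵥ v) ⬝ᵥ (η *ᵥ (F *ᵥ w)) := by
    intro v w
    rw [hSη, ← mulVec_mulVec, ← mulVec_mulVec, dotProduct_mulVec, vecMul_transpose]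
  have h1 : ∀ y : Q2 ⊗[K] Q1, Pr S Q2 Q1 u q y = V (TensorProduct.map π2 π1 y) := by
    intro y
    induction y using TensorProduct.induction_on with
    | zero => simp
    | tmul a b => rw [Pr_tmul, TensorProduct.map_tmul, hV, e1, e2, hSd, hSd]
    | add x y hx hy => simp only [map_add, hx, hy]
  rw [h1]
  have h2 : Dual.Rad R1 R2 ≤ LinearMap.ker V := by
    unfold Dual.Rad
    refine sup_le (Submodule.span_le.2 ?_) (Submodule.span_le.2 ?_)
    · rintro _ ⟨r, hr, p, rfl⟩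
      change V _ = 0
      rw [hV, r2 r hr q hq, mul_zero]
    · rintro _ ⟨p, r, hr, rfl⟩
      change V _ = 0
      rw [hV, r1 r hr u hu, zero_mul]
  exact h2 hz

end Crest.Agent.R172.SLevA
end

-- ▼ part R172/SRelC
section

/-!
Row 172 (S0260), S-side (t2), level 1: the relation of `SLev0.lev1` in coordinates from
`SGl1.first_pair` and the U-lift `SULift.exists_lift`.
-/

set_option autoImplicit false
set_option linter.unusedSectionVars false
set_option linter.unusedFintypeInType false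
set_option linter.unusedDecidableInType false

namespace Crest.Agent.R172.SRelC

open Matrix Module TensorProduct Crest.Agent.R172.FO Crest.Agent.R172.Qt Crest.Agent.R172.SpS
  Crest.Agent.R172.Om Crest.Agent.R172.SUX Crest.Agent.R172.SGl1
open Crest.Agent.R172.SLev0 (bq bq_apply)

variable {ι : Type*} [Fintype ι] [DecidableEq ι] {δ : Type*} [Fintype δ] [DecidableEq δ]
variable {k K : Type*} [Field k] [Field K] [Algebra k K]
variable {arm : δ → Fin 3} {J : Matrix ι ι K} {B : Matrix δ δ K}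
  {N W : Submodule K (Matrix ι δ K)}

/-- the coordinate map of a `U`-level block -/
theorem exists_pi {Q : Submodule K (δ → K)} {F : Matrix ι δ K} {n : ℕ} {P : Matrix ι (Fin n) K}
    (inj : ∀ x, P *ᵥ x = 0 → x = 0) (h : ∀ u ∈ Q, ∃ x, F *ᵥ u = P *ᵥ x) :
    ∃ π : Q →ₗ[K] (Fin n → K), ∀ u : Q, P *ᵥ (π u) = F *ᵥ (u : δ → K) := by
  have hk : LinearMap.ker P.mulVecLin = ⊥ := by
    rw [LinearMap.ker_eq_bot']
    intro x hx
    exact inj x hx
  obtain ⟨L, hL⟩ := P.mulVecLin.exists_leftInverse_of_injective hk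
  refine ⟨L ∘ₗ F.mulVecLin ∘ₗ Q.subtype, fun u => ?_⟩
  obtain ⟨x, hx⟩ := h u u.2
  have h1 : L (P *ᵥ x) = x := LinearMap.congr_fun hL x
  change P *ᵥ (L (F *ᵥ (u : δ → K))) = _
  rw [hx, h1]


/-- `F ω_r = M_r (J P) F` -/
theorem F_om (hD : Data k arm J B N W) (F : Matrix ι δ K) (P0 : Matrix ι ι K) (r : Fin 3)
    (u : δ → K) : F *ᵥ (om arm B (th J F P0 F) r *ᵥ u) = (M arm B r F F * (J * P0)) *ᵥ (F *ᵥ u) := by
  rw [mulVec_mulVec, mulVec_mulVec]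
  congr 1
  unfold om th M
  rw [← hD.B_arm]
  simp only [Matrix.mul_assoc]

theorem om_zero (F : Matrix ι δ K) (P0 : Matrix ι ι K) (r : Fin 3) {u : δ → K}
    (hu : F *ᵥ u = 0) : om arm B (th J F P0 F) r *ᵥ u = 0 := by
  have : om arm B (th J F P0 F) r = B * E K arm r * (Fᵀ * J * P0) * F := by
    unfold om th
    simp only [Matrix.mul_assoc]
  rw [this, ← mulVec_mulVec, hu, mulVec_zero]

theorem pi_act (hD : Data k arm J B N W) {Q : Submodule K (δ → K)} {F : Matrix ι δ K}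
    {P0 : Matrix ι ι K} {n : ℕ} {P : Matrix ι (Fin n) K}
    (inj : ∀ x, P *ᵥ x = 0 → x = 0) {π : Q →ₗ[K] (Fin n → K)}
    (hπ : ∀ u : Q, P *ᵥ (π u) = F *ᵥ (u : δ → K)) {A : Fin 3 → Matrix (Fin n) (Fin n) K}
    (act : ∀ s, M arm B s F F * (J * P0) * P = P * A s)
    (hs : ∀ r, ∀ u ∈ Q, om arm B (th J F P0 F) r *ᵥ u ∈ Q) (r : Fin 3) (u : Q) :
    π (rs (om arm B (th J F P0 F) r) Q (hs r) u) = (A r).mulVecLin (π u) := by
  have h1 := inj (π (rs (om arm B (th J F P0 F) r) Q (hs r) u) - (A r).mulVecLin (π u)) (by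
    rw [mulVec_sub, hπ, rs_coe, F_om hD, ← hπ, mulVecLin_apply, mulVec_mulVec, mulVec_mulVec,
      act, sub_self])
  exact sub_eq_zero.1 h1

/-- `(J P) F` in a row -/
theorem row_bq (hJ : Jᵀ = J) {P0 : Matrix ι ι K} (hP0 : Skw J P0) (F : Matrix ι δ K)
    {a b : ι → K} {v : δ → K} (hb : b = F *ᵥ v) (s : Fin 3) :
    vecMulVec a b * (J * P0) * F * E K arm s =
      -(vecMulVec a ((th J F P0 F) *ᵥ v) * E K arm s) := by
  have e1 : (J * P0)ᵀ = -(J * P0) := by rw [transpose_mul, hJ, hP0.eq]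
  have e2 : vecMulVec a b * (J * P0) * F = -(vecMulVec a ((th J F P0 F) *ᵥ v)) := by
    rw [Matrix.mul_assoc, Matrix.vecMulVec_mul, ← mulVec_transpose, transpose_mul, e1, hb,
      Matrix.mul_neg, neg_mulVec, mulVec_mulVec]
    have e3 : Fᵀ * (J * P0) * F = th J F P0 F := by
      unfold th; simp only [Matrix.mul_assoc]
    rw [e3]
    ext i j
    simp [vecMulVec_apply]
  rw [e2, Matrix.neg_mul]

/-- **the relation in coordinates.** -/
theorem rel_coord {F H kk : Matrix ι δ K} {P0 : Matrix ι ι K} {Q1 Q2 : Submodule K (δ → K)}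
    {c1 c2 ρ : K} (h : Ctx k arm J B N W H) (h2 : (2 : K) ≠ 0) {Ri : Matrix δ ι K}
    (hR : H * Ri * H = H) {Pt : Matrix ι ι K × (Fin 3 → Matrix ι ι K)} (hPt : Pt ∈ NN arm J N H)
    (hV : Vert k arm J N W H Pt) (hk : kk ∈ N ⊓ W) (hP0 : Skw J P0)
    (Rl : Rel F H kk (th J F P0 F) (th J H Pt.1 H) (th J H Pt.1 kk) Q1 Q2 c1 c2)
    (hc1 : c1 ≠ 0) (hc2 : c2 ≠ 0) (hρ : c1 * ρ = c2)
    (h1 : ∀ r, ∀ u ∈ Q1, om arm B (th J F P0 F) r *ᵥ u ∈ Q1)
    (h2' : ∀ r, ∀ u ∈ Q2, om arm B (th J F P0 F) r *ᵥ u ∈ Q2)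
    (p1 : ∀ u ∈ Q1, ∃ c : Fin 3 → (δ → K), (∀ r, c r ∈ Q1) ∧
      ∑ r, om arm B (th J F P0 F) r *ᵥ (c r) = u)
    (p2 : ∀ u ∈ Q2, ∃ c : Fin 3 → (δ → K), (∀ r, c r ∈ Q2) ∧
      ∑ r, om arm B (th J F P0 F) r *ᵥ (c r) = u)
    {n1 n2 : ℕ} {P1 : Matrix ι (Fin n1) K} {P2 : Matrix ι (Fin n2) K}
    (i1 : ∀ x, P1 *ᵥ x = 0 → x = 0) (i2 : ∀ x, P2 *ᵥ x = 0 → x = 0)
    {A1 : Fin 3 → Matrix (Fin n1) (Fin n1) K} {A2 : Fin 3 → Matrix (Fin n2) (Fin n2) K}
    (a1 : ∀ s, M arm B s F F * (J * P0) * P1 = P1 * A1 s)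
    (a2 : ∀ s, M arm B s F F * (J * P0) * P2 = P2 * A2 s)
    {π1 : Q1 →ₗ[K] (Fin n1 → K)} {π2 : Q2 →ₗ[K] (Fin n2 → K)}
    (e1 : ∀ u : Q1, P1 *ᵥ (π1 u) = F *ᵥ (u : δ → K))
    (e2 : ∀ u : Q2, P2 *ᵥ (π2 u) = F *ᵥ (u : δ → K))
    (s1 : Function.Surjective π1) (s2 : Function.Surjective π2)
    {x : Fin 3 → (Fin n2 → K) ⊗[K] (Fin n1 → K)}
    (hx : ∑ r, Dual.defect ((A1 r).mulVecLin) (-((A2 r).mulVecLin)) (ρ ^ 2) (x r) = 0)
    (G : Submodule K (Matrix ι δ K))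
    (hG : ∀ z : Fin 3 → Q2 ⊗[K] Q1, (∀ r, TensorProduct.map π2 π1 (z r) = x r) →
      ∑ r, Dual.defect (rs (om arm B (th J F P0 F) r) Q1 (h1 r))
        (-(rs (om arm B (th J F P0 F) r) Q2 (h2' r))) (ρ ^ 2) (z r) = 0 →
      ∀ d : Derivation k K K,
        Mv k arm J N W H Pt.1 (fun r => ten Q2 Q1 (z r) + (ten Q2 Q1 (z r))ᵀ) d →
        wd arm J H Pt.1 (fun r => ten Q2 Q1 (z r) + (ten Q2 Q1 (z r))ᵀ) d kk ∈ G) :
    ∑ r, TensorProduct.lift (bq arm J F P0 P2 P1 r) (x r) +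
      ρ • ∑ r, TensorProduct.lift (-(bq arm J F P0 P1 P2 r).flip) (x r) ∈ SGl1.QG N G := by
  have hD := h.data
  have hρ0 : ρ ≠ 0 := by
    rintro rfl
    exact hc2 (by rw [← hρ, mul_zero])
  obtain ⟨z, hz, hz0⟩ := SULift.exists_lift h1 h2' p1 p2 s1 s2
    (fun r u => pi_act hD i1 e1 a1 h1 r u) (fun r u => pi_act hD i2 e2 a2 h2' r u)
    (fun r u hu => om_zero F P0 r (by rw [← e1, hu, mulVec_zero]))
    (fun r u hu => om_zero F P0 r (by rw [← e2, hu, mulVec_zero])) hρ0 x hx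
  have h3 := first_pair h h2 hR hPt hV hk Rl hc1 hc2 hρ h1 h2' hz0 G (hG z hz hz0)
  have h4 := (SGl1.QG N G).neg_mem h3
  convert h4 using 1
  have t1 : ∀ r, TensorProduct.lift (bq arm J F P0 P2 P1 r) (x r) =
      -TensorProduct.lift (qa arm F (th J F P0 F) Q2 Q1 r) (z r) := by
    intro r
    rw [← hz r]
    generalize z r = y
    induction y using TensorProduct.induction_on with
    | zero => simp
    | tmul a b =>
      rw [TensorProduct.map_tmul, TensorProduct.lift.tmul, TensorProduct.lift.tmul, bq_apply,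
        qa_apply, row_bq hD.J_symm hP0 F (e1 b) r, e2]
    | add y y' hy hy' =>
      rw [map_add, map_add, map_add, hy, hy', neg_add]
  have t2 : ∀ r, TensorProduct.lift (-(bq arm J F P0 P1 P2 r).flip) (x r) =
      -TensorProduct.lift (-(qa arm F (th J F P0 F) Q1 Q2 r).flip) (z r) := by
    intro r
    rw [← hz r]
    generalize z r = y
    induction y using TensorProduct.induction_on with
    | zero => simp
    | tmul a b =>
      rw [TensorProduct.map_tmul, TensorProduct.lift.tmul, TensorProduct.lift.tmul,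
        LinearMap.neg_apply, LinearMap.neg_apply, LinearMap.flip_apply, bq_apply,
        LinearMap.neg_apply, LinearMap.neg_apply, LinearMap.flip_apply,
        qa_apply, row_bq hD.J_symm hP0 F (e2 a) r, e1]
    | add y y' hy hy' =>
      rw [map_add, map_add, map_add, hy, hy', neg_add]
  rw [Finset.sum_congr rfl fun r _ => t1 r, Finset.sum_congr rfl fun r _ => t2 r,
    Finset.sum_neg_distrib, Finset.sum_neg_distrib, smul_neg, neg_add]

/-- exactness for the operators `A`, `A'` at `ρ²` is exactness for `A`, `-A'` at `(i ρ)²` -/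
theorem exact_sign {P1 P2 : Type*} [AddCommGroup P1] [Module K P1] [AddCommGroup P2] [Module K P2]
    {A : Fin 3 → End K P1} {A' : Fin 3 → End K P2} {I ρ : K} (hI : I ^ 2 = -1)
    {x : Fin 3 → P2 ⊗[K] P1} (hx : ∑ r, Dual.defect (A r) (A' r) (ρ ^ 2) (x r) = 0) :
    ∑ r, Dual.defect (A r) (-(A' r)) ((I * ρ) ^ 2) (x r) = 0 := by
  rw [← hx]
  refine Finset.sum_congr rfl fun r _ => ?_
  rw [SULift.defect_neg, mul_pow, hI]
  unfold Dual.defect
  rw [LinearMap.sub_apply, LinearMap.smul_apply]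
  congr 2
  ring

/-- the form of the relation used by `SLev0.lev1` (`c1 = 1`, `c2 = -I`) -/
theorem rel_form {F : Matrix ι δ K} {P0 : Matrix ι ι K} {n1 n2 : ℕ} {P1 : Matrix ι (Fin n1) K}
    {P2 : Matrix ι (Fin n2) K} {I ρ : K} {Q : Submodule K (Matrix ι δ K)}
    {x : Fin 3 → (Fin n2 → K) ⊗[K] (Fin n1 → K)}
    (h : ∑ r, TensorProduct.lift (bq arm J F P0 P2 P1 r) (x r) +
      (I * ρ) • ∑ r, TensorProduct.lift (-(bq arm J F P0 P1 P2 r).flip) (x r) ∈ Q) :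
    ∑ t, TensorProduct.lift ((1 : K) • bq arm J F P0 P2 P1 t) (x t) +
      ρ • ∑ t, TensorProduct.lift ((-I) • (bq arm J F P0 P1 P2 t).flip) (x t) ∈ Q := by
  have t1 : ∀ r, TensorProduct.lift (-(bq arm J F P0 P1 P2 r).flip) (x r) =
      -TensorProduct.lift ((bq arm J F P0 P1 P2 r).flip) (x r) := by
    intro r
    generalize x r = y
    induction y using TensorProduct.induction_on with
    | zero => simp
    | tmul a b => simp
    | add y y' hy hy' => rw [map_add, map_add, hy, hy', neg_add]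
  have t2 : ∀ r, TensorProduct.lift ((-I) • (bq arm J F P0 P1 P2 r).flip) (x r) =
      (-I) • TensorProduct.lift ((bq arm J F P0 P1 P2 r).flip) (x r) := by
    intro r
    generalize x r = y
    induction y using TensorProduct.induction_on with
    | zero => simp
    | tmul a b => simp
    | add y y' hy hy' => rw [map_add, map_add, hy, hy', smul_add]
  convert h using 2
  · exact Finset.sum_congr rfl fun r _ => by rw [one_smul]
  · rw [Finset.sum_congr rfl fun r _ => t1 r, Finset.sum_congr rfl fun r _ => t2 r,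
      Finset.sum_neg_distrib, ← Finset.smul_sum, smul_neg, smul_smul, ← neg_smul]
    congr 1
    ring

end Crest.Agent.R172.SRelC
end

-- ▼ part R172/SLev1h455
section

/-!
Row 172 (S0260), tame node (t2), LEVEL 1 (copy of helper455): `STop.Lev1`.
-/

set_option autoImplicit false
set_option linter.unusedSectionVars false
set_option linter.unusedVariables false
set_option maxHeartbeats 1000000

namespace Crest.Agent.R172.SLev1h455

open Matrix Module TensorProduct Crest.Agent.R172.FO Crest.Agent.R172.Qt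
open Crest.Agent.R172.SpS Crest.Agent.R172.SEnd Crest.Agent.R172.SEnd2
open Crest.Agent.R172.Om (Kiso Scal)
open Crest.Agent.R172.PL (Wk Ainf Rad CoreM coreOp resOp)
open Crest.Agent.R172.SEndW Crest.Agent.R172.SCM Crest.Agent.R172.SCB
open Crest.Agent.R172.SC (PB iSup_PB)
open Crest.Agent.R172.SUX (th wd ZY Mv)
open Crest.Agent.R172.UBlk (Qb Qb_rel Qb_exists Qb_stable Qb_map Qb_orth)
open Crest.Agent.R172.UFr (at_H)
open Crest.Agent.R172.STop (Setup)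
open Crest.Agent.R172.SLev0 (PbK bq)
open Crest.Agent.R172.SLevR455
open Crest.Agent.R172.SGl1 (om rs rs_coe ten)

variable {ι : Type} [Fintype ι] [DecidableEq ι] {δ : Type} [Fintype δ] [DecidableEq δ]
variable {K : Type} [Field K] [Algebra ℂ K] [IsAlgClosed K]
variable {arm : δ → Fin 3} {J : Matrix ι ι K} {B : Matrix δ δ K} {N W : Submodule K (Matrix ι δ K)}
  {F f : Matrix ι δ K} {P : Matrix ι ι K × (Fin 3 → Matrix ι ι K)} {R : Matrix δ ι K}
  {D : End K (CoreM (PhS arm J B F R P.1))} {l : Fin 3 → ℕ}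

theorem st (S : Setup arm J B N W F f P R D l) (μ : K) (r : Fin 3) :
    ∀ u ∈ Qn S μ, om arm B (th J F P.1 F) r *ᵥ u ∈ Qn S μ := fun u hu =>
  Qb_stable (S.hCtx F S.hF) S.hR S.hD r hu

theorem perf (S : Setup arm J B N W F f P R D l) (μ : K) :
    ∀ u ∈ Qn S μ, ∃ c : Fin 3 → (δ → K), (∀ r, c r ∈ Qn S μ) ∧
      ∑ r, om arm B (th J F P.1 F) r *ᵥ (c r) = u := fun u hu =>
  Qb_exists (S.hCtx F S.hF) S.hR S.hD hu

/-- the finite bad set -/
theorem exists_Bad (S : Setup arm J B N W F f P R D l) (h2 : (2 : K) ≠ 0) (ν ν' : K) :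
    ∃ Bad : Set ℂ, Bad.Finite ∧ ∀ t ∉ Bad, (1 + algebraMap ℂ K t * ν ≠ 0 ∧
      1 + algebraMap ℂ K t * ν' ≠ 0) ∧ ∀ μ, D.maxGenEigenspace μ ≠ ⊥ →
      1 + algebraMap ℂ K t * μ ≠ 0 ∧ ∀ μ', D.maxGenEigenspace μ' ≠ ⊥ → μ ≠ μ' →
      ∀ b : Qn S μ →ₗ[K] Qn S μ' →ₗ[K] K,
        (∀ r u q, b (rs (om arm B (th J F P.1 F) r) (Qn S μ) (st S μ r) u) q =
          (-((1 + algebraMap ℂ K t * μ') ^ 2 / (1 + algebraMap ℂ K t * μ) ^ 2)) *
            b u (rs (om arm B (th J F P.1 F) r) (Qn S μ') (st S μ' r) q)) → b = 0 := by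
  classical
  have hfin : {ν | D.maxGenEigenspace ν ≠ ⊥}.Finite :=
    WellFoundedGT.finite_ne_bot_of_iSupIndep (Module.End.independent_maxGenEigenspace D)
  have hinj : Function.Injective (algebraMap ℂ K) := (algebraMap ℂ K).injective
  have hone : ∀ μ : K, {t : K | 1 + t * μ = 0}.Finite := by
    intro μ
    refine Set.Subsingleton.finite ?_
    intro s hs t ht
    have hs' : 1 + s * μ = 0 := hs
    have ht' : 1 + t * μ = 0 := ht
    have hμ0 : μ ≠ 0 := by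
      rintro rfl
      rw [mul_zero, add_zero] at hs'
      exact one_ne_zero hs'
    have : (s - t) * μ = 0 := by linear_combination hs' - ht'
    rcases mul_eq_zero.1 this with h | h
    · exact sub_eq_zero.1 h
    · exact absurd h hμ0
  have hC : ∀ μ' (q : Qn S μ'), ∃ g : Fin 3 → Qn S μ',
      q = ∑ r, rs (om arm B (th J F P.1 F) r) (Qn S μ') (st S μ' r) (g r) := by
    intro μ' q
    obtain ⟨c, hc, e⟩ := perf S μ' q q.2
    refine ⟨fun r => ⟨c r, hc r⟩, Subtype.ext ?_⟩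
    rw [AddSubmonoidClass.coe_finsetSum]
    simp only [rs_coe]
    exact e.symm
  have hb : ∀ μ μ', ∃ T : Set K, T.Finite ∧ (μ ≠ μ' → ∀ t ∉ T, ∀ b : Qn S μ →ₗ[K] Qn S μ' →ₗ[K] K,
      (∀ r u q, (1 + t * μ) ^ 2 *
        b (rs (om arm B (th J F P.1 F) r) (Qn S μ) (st S μ r) u) q =
          -((1 + t * μ') ^ 2 *
            b u (rs (om arm B (th J F P.1 F) r) (Qn S μ') (st S μ' r) q))) → b = 0) := by
    intro μ μ'
    by_cases hne : μ = μ'
    · exact ⟨∅, Set.finite_empty, fun h => absurd hne h⟩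
    · obtain ⟨T, hT, h⟩ := SBad97.exists_bad hne h2
        (fun r => rs (om arm B (th J F P.1 F) r) (Qn S μ) (st S μ r)) (hC μ')
      exact ⟨T, hT, fun _ t ht b hb => (h t ht).2 b hb⟩
  choose T hT hTb using hb
  refine ⟨(algebraMap ℂ K) ⁻¹' ({t | 1 + t * ν = 0} ∪ {t | 1 + t * ν' = 0} ∪
    (⋃ μ ∈ {ν | D.maxGenEigenspace ν ≠ ⊥}, {t | 1 + t * μ = 0}) ∪
    (⋃ μ ∈ {ν | D.maxGenEigenspace ν ≠ ⊥}, ⋃ μ' ∈ {ν | D.maxGenEigenspace ν ≠ ⊥}, T μ μ')),
    Set.Finite.preimage hinj.injOn ((((hone ν).union (hone ν')).union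
      (hfin.biUnion fun μ _ => hone μ)).union
      (hfin.biUnion fun μ _ => hfin.biUnion fun μ' _ => hT μ μ')), fun t ht => ?_⟩
  rw [Set.mem_preimage, Set.mem_union, Set.mem_union, Set.mem_union, not_or, not_or, not_or] at ht
  obtain ⟨⟨⟨h3, h4⟩, h5⟩, h6⟩ := ht
  refine ⟨⟨h3, h4⟩, fun μ hμ => ?_⟩
  have h7 : 1 + algebraMap ℂ K t * μ ≠ 0 := by
    intro h8
    exact h5 (Set.mem_iUnion₂.2 ⟨μ, hμ, h8⟩)
  refine ⟨h7, fun μ' hμ' hne b hb => ?_⟩
  refine hTb μ μ' hne (algebraMap ℂ K t) (fun h8 => h6 ?_) b fun r u q => ?_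
  · exact Set.mem_iUnion₂.2 ⟨μ, hμ, Set.mem_iUnion₂.2 ⟨μ', hμ', h8⟩⟩
  · rw [hb r u q]
    field_simp

/-- the good class -/
noncomputable abbrev QGd (S : Setup arm J B N W F f P R D l) : Submodule K (Matrix ι δ K) :=
  SLev0.QG arm J B N W F P (PC arm J B F R P.1) (fun μ => PbK arm J B F R P.1 D μ) id

/-- **the relation of level 1** -/
theorem relation (S : Setup arm J B N W F f P R D l) (h2 : (2 : K) ≠ 0) {ν ν' : K} (hne : ν ≠ ν')
    {n1 n2 : ℕ} {Q1 : Matrix ι (Fin n1) K} {A1 : Fin 3 → Matrix (Fin n1) (Fin n1) K}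
    {Q2 : Matrix ι (Fin n2) K} {A2 : Fin 3 → Matrix (Fin n2) (Fin n2) K}
    (b1 : BPkg arm J B F R P.1 D ν l Q1 A1) (b2 : BPkg arm J B F R P.1 D ν' l Q2 A2)
    {I : K} (hI : I ^ 2 = -1) :
    ∃ Bad : Set ℂ, Bad.Finite ∧ ∀ t ∉ Bad, (1 + algebraMap ℂ K t * ν ≠ 0 ∧
      1 + algebraMap ℂ K t * ν' ≠ 0) ∧ ∀ ρ : K,
      (1 + algebraMap ℂ K t * ν) * (I * ρ) = 1 + algebraMap ℂ K t * ν' →
      ∀ x : Fin 3 → (Fin n2 → K) ⊗[K] (Fin n1 → K),
      Dual.Exact (fun s => (A1 s).mulVecLin) (fun s => (A2 s).mulVecLin)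
        (LinearMap.ker (Q1ᵀ * (J * P.1) * Q1).mulVecLin)
        (LinearMap.ker (Q2ᵀ * (J * P.1) * Q2).mulVecLin) (ρ ^ 2) x →
      ∑ t, TensorProduct.lift ((1 : K) • bq arm J F P.1 Q2 Q1 t) (x t) +
        ρ • ∑ t, TensorProduct.lift ((-I) • (bq arm J F P.1 Q1 Q2 t).flip) (x t) ∈ QGd S := by
  obtain ⟨Bad, hBad, hgood⟩ := exists_Bad S h2 ν ν'
  obtain ⟨Y, dY, -, -, -, hfam⟩ := SInst.family S h2
  refine ⟨Bad, hBad, fun t ht => ?_⟩
  obtain ⟨⟨hc1, hc2⟩, hev⟩ := hgood t ht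
  refine ⟨⟨hc1, hc2⟩, fun ρ hρ x hx => ?_⟩
  obtain ⟨Pt, Ri, hHK, hCH, hPt, hV, hRi, hY, hPF, -⟩ := hfam t
  have hC := S.hCtx F S.hF
  have hff := SInst.hff S
  set a : K := algebraMap ℂ K t with ha
  have hat : ∀ {μ : K} {u : δ → K}, u ∈ Qn S μ → _ := fun {μ u} hu =>
    at_H hC S.hR S.hD (S.hNil F S.hF) S.hP S.hf.1 hff hY hPF hu
  have hkm : (ν - ν')⁻¹ • (f - ν' • F) ∈ N ⊓ W :=
    (N ⊓ W).smul_mem _ ((N ⊓ W).sub_mem S.hf.1 ((N ⊓ W).smul_mem _ hC.mem))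
  have hn : ν - ν' ≠ 0 := sub_ne_zero.2 hne
  have htk : th J (F + a • f) Pt.1 ((ν - ν')⁻¹ • (f - ν' • F)) =
      (ν - ν')⁻¹ • (th J (F + a • f) Pt.1 f - ν' • th J (F + a • f) Pt.1 F) := by
    unfold th
    rw [Matrix.mul_smul, Matrix.mul_smul, Matrix.mul_sub, Matrix.mul_sub, Matrix.mul_smul,
      Matrix.mul_smul]
  have hfu : ∀ {μ : K} {u : δ → K}, u ∈ Qn S μ → f *ᵥ u = μ • (F *ᵥ u) := fun {μ u} hu =>
    (Qb_rel hC S.hR S.hD (S.hNil F S.hF) S.hP S.hf.1 hu).1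
  have hSF : (th J F P.1 F)ᵀ = -th J F P.1 F := SUX.th_skew hC S.hP hC.mem
  have hRel : SGl1.Rel F (F + a • f) ((ν - ν')⁻¹ • (f - ν' • F)) (th J F P.1 F)
      (th J (F + a • f) Pt.1 (F + a • f))
      (th J (F + a • f) Pt.1 ((ν - ν')⁻¹ • (f - ν' • F))) (Qn S ν) (Qn S ν')
      (1 + a * ν) (1 + a * ν') :=
    { Hskew := SUX.th_skew hCH hPt hCH.mem
      kskew := SUX.th_skew hCH hPt hkm
      S1 := fun u hu => (hat hu).2.2.2
      S2 := fun u hu => (hat hu).2.2.2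
      k1 := fun u hu => by
        rw [smul_mulVec, sub_mulVec, smul_mulVec, hfu hu, ← sub_smul, smul_smul,
          inv_mul_cancel₀ hn, one_smul]
      k2 := fun u hu => by
        rw [smul_mulVec, sub_mulVec, smul_mulVec, hfu hu, sub_self, smul_zero]
      H1 := fun u hu => (hat hu).1
      H2 := fun u hu => (hat hu).1
      t1 := fun u hu => by
        rw [htk, smul_mulVec, sub_mulVec, smul_mulVec, (hat hu).2.1, (hat hu).2.2.1, smul_smul,
          ← sub_smul, smul_smul]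
        congr 1
        field_simp
      t2 := fun u hu => by
        rw [htk, smul_mulVec, sub_mulVec, smul_mulVec, (hat hu).2.1, (hat hu).2.2.1, smul_smul,
          ← sub_smul, smul_smul]
        have : (ν - ν')⁻¹ * ((1 + a * ν') * ν' - ν' * (1 + a * ν')) = 0 := by ring
        rw [this, zero_smul] }
  obtain ⟨π1, s1, e1, -, -⟩ := SInst.exists_pi S b1
  obtain ⟨π2, s2, e2, -, -⟩ := SInst.exists_pi S b2
  have hrel := SRelC.rel_coord (P0 := P.1) hCH h2 hRi hPt hV hkm S.hP.1 hRel hc1 hc2 hρ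
    (st S ν) (st S ν') (perf S ν) (perf S ν') b1.inj b2.inj b1.act b2.act e1 e2 s1 s2
    (x := x) (SRelC.exact_sign hI hx.1) (QGd S) (by
      intro z hz hz0 d m
      refine SLevR455.wd_good S m (fun μ hμ => (hev μ hμ).1) ?_
      intro μ μ' hμ hμ' hμμ u hu v hv
      -- the `Y`-terms
      have hSH := SUX.th_skew hCH hPt hCH.mem
      have horth : ∀ ν ν', ν ≠ ν' → ∀ u ∈ Qn S ν, ∀ q ∈ Qn S ν',
          u ⬝ᵥ (th J F P.1 F *ᵥ q) = 0 := fun ν ν' hne u hu q hq =>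
        Qb_orth hC S.hR S.hD (S.hNil F S.hF) S.hP S.hf.1 hne hu hq
      have hrad : ∀ r, ∀ u ∈ Qn S ν, ∀ q ∈ Qn S ν', SLevA.Pr (th J F P.1 F) (Qn S ν') (Qn S ν) u q
          (Dual.defect (rs (om arm B (th J F P.1 F) r) (Qn S ν) (st S ν r))
            (-(rs (om arm B (th J F P.1 F) r) (Qn S ν') (st S ν' r))) ((I * ρ) ^ 2) (z r)) = 0 := by
        intro r
        refine SLevA.Pr_rad (η := J * P.1) (by unfold th; simp only [Matrix.mul_assoc]) π1 π2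
          Q1.mulVecLin Q2.mulVecLin (fun u => e1 u) (fun u => e2 u)
          (R1 := LinearMap.ker (Q1ᵀ * (J * P.1) * Q1).mulVecLin)
          (R2 := LinearMap.ker (Q2ᵀ * (J * P.1) * Q2).mulVecLin) ?_ ?_ ?_
        · intro y hy u hu
          have h3 : (Q1ᵀ * (J * P.1) * Q1) *ᵥ y = 0 := hy
          have h4 := e1 ⟨u, hu⟩
          rw [mulVecLin_apply, ← h4]
          have h5 : (Q1 *ᵥ y) ⬝ᵥ ((J * P.1) *ᵥ (Q1 *ᵥ π1 ⟨u, hu⟩)) =
              y ⬝ᵥ ((Q1ᵀ * (J * P.1) * Q1) *ᵥ π1 ⟨u, hu⟩) := by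
            rw [form_gg]
          rw [h5, SLevA.skew_dot b1.skew, h3, dotProduct_zero, neg_zero]
        · intro y hy u hu
          have h3 : (Q2ᵀ * (J * P.1) * Q2) *ᵥ y = 0 := hy
          have h4 := e2 ⟨u, hu⟩
          rw [mulVecLin_apply, ← h4]
          have h5 : (Q2 *ᵥ y) ⬝ᵥ ((J * P.1) *ᵥ (Q2 *ᵥ π2 ⟨u, hu⟩)) =
              y ⬝ᵥ ((Q2ᵀ * (J * P.1) * Q2) *ᵥ π2 ⟨u, hu⟩) := by
            rw [form_gg]
          rw [h5, SLevA.skew_dot b2.skew, h3, dotProduct_zero, neg_zero]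
        · have h6 := SGl1.map_defect (π1 := π1) (π2 := π2)
            (a := fun r => rs (om arm B (th J F P.1 F) r) (Qn S ν) (st S ν r))
            (b := fun r => -(rs (om arm B (th J F P.1 F) r) (Qn S ν') (st S ν' r)))
            (A := fun r => (A1 r).mulVecLin) (Bo := fun r => -((A2 r).mulVecLin))
            (fun r u => SRelC.pi_act hC.data b1.inj e1 b1.act (st S ν) r u)
            (fun r u => by
              rw [LinearMap.neg_apply, map_neg, LinearMap.neg_apply,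
                SRelC.pi_act hC.data b2.inj e2 b2.act (st S ν') r u])
            ((I * ρ) ^ 2) r (z r)
          rw [h6, hz r]
          have h7 : Dual.defect ((A1 r).mulVecLin) (-((A2 r).mulVecLin)) ((I * ρ) ^ 2) (x r) =
              Dual.defect ((A1 r).mulVecLin) ((A2 r).mulVecLin) (ρ ^ 2) (x r) := by
            rw [SULift.defect_neg, mul_pow, hI]
            unfold Dual.defect
            rw [LinearMap.sub_apply, LinearMap.smul_apply]
            congr 2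
            ring
          rw [h7]
          exact hx.2 r
      have hYs : ∀ r, (ten (Qn S ν') (Qn S ν) (z r) + (ten (Qn S ν') (Qn S ν) (z r))ᵀ)ᵀ =
          ten (Qn S ν') (Qn S ν) (z r) + (ten (Qn S ν') (Qn S ν) (z r))ᵀ := fun r => by
        rw [transpose_add, transpose_transpose, add_comm]
      have hb := SLevA.beta_zero hCH hPt hYs m (hev μ hμ).1 (hev μ' hμ').1
        (S := th J F P.1 F) (Qa := Qn S μ) (Qb := Qn S μ')
        (fun u hu => (hat hu).2.2.2) (fun u hu => (hat hu).2.2.2) (st S μ) (st S μ')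
        (horth μ μ' hμμ)
        (fun r u hu q hq => SLevA.harm_all (Qb := fun μ => Qn S μ) (c := fun μ => 1 + a * μ)
          hC.data.B_symm hC.data.B_arm hSF (fun μ u hu => (hat hu).2.2.2)
          (fun μ r => st S μ r) horth hne hρ (hrad r) hμμ u hu q hq)
        ((hev μ hμ).2 μ' hμ' hμμ) u hu v hv
      rw [dotProduct_comm]
      exact hb)
  refine SRelC.rel_form ?_
  have hle : SGl1.QG N (QGd S) ≤ QGd S := sup_le SLev0.N_le_QG le_rfl
  exact hle hrel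

end Crest.Agent.R172.SLev1h455
end

-- ▼ part R172/SLevA455
section

/-!
Row 172 (S0260), tame node (t2), LEVEL 1 (copy of helper455): `STop.Lev1`.
-/

set_option autoImplicit false
set_option linter.unusedSectionVars false
set_option linter.unusedVariables false
set_option maxHeartbeats 1000000

namespace Crest.Agent.R172.SLevA455

open Matrix Module TensorProduct Crest.Agent.R172.FO Crest.Agent.R172.Qt
open Crest.Agent.R172.SpS Crest.Agent.R172.SEnd Crest.Agent.R172.SEnd2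
open Crest.Agent.R172.Om (Kiso Scal)
open Crest.Agent.R172.PL (Wk Ainf Rad CoreM coreOp resOp)
open Crest.Agent.R172.SEndW Crest.Agent.R172.SCM Crest.Agent.R172.SCB
open Crest.Agent.R172.SC (PB iSup_PB)
open Crest.Agent.R172.SUX (th wd ZY Mv)
open Crest.Agent.R172.STop (Setup)
open Crest.Agent.R172.SLev0 (PbK bq)
open Crest.Agent.R172.SLevR455 Crest.Agent.R172.SLev1h455

variable {ι : Type} [Fintype ι] [DecidableEq ι] {δ : Type} [Fintype δ] [DecidableEq δ]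
variable {K : Type} [Field K] [Algebra ℂ K] [IsAlgClosed K]
variable {arm : δ → Fin 3} {J : Matrix ι ι K} {B : Matrix δ δ K} {N W : Submodule K (Matrix ι δ K)}
  {F f : Matrix ι δ K} {P : Matrix ι ι K × (Fin 3 → Matrix ι ι K)} {R : Matrix δ ι K}
  {D : End K (CoreM (PhS arm J B F R P.1))} {l : Fin 3 → ℕ}

theorem two_ne (K : Type) [Field K] [Algebra ℂ K] : (2 : K) ≠ 0 := by
  have : CharZero K := charZero_of_injective_algebraMap (algebraMap ℂ K).injective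
  exact two_ne_zero

theorem PbK_st (S : Setup arm J B N W F f P R D l) (μ : K) (r : Fin 3) :
    ∀ c ∈ PbK arm J B F R P.1 D μ,
      (M arm B r F F * (J * P.1)) *ᵥ c ∈ PbK arm J B F R P.1 D μ := by
  intro c hc
  obtain ⟨u, hu, rfl⟩ := mem_PbK S hc
  rw [← SRelC.F_om (S.hCtx F S.hF).data]
  exact map_mem_PbK S (st S μ r u hu)

/-- `QGd ⇒ GoodSW` -/
theorem good_of (S : Setup arm J B N W F f P R D l) {s : Fin 3} {x : Matrix ι ι K}
    (hx : x * (J * P.1) * F * E K arm s ∈ QGd S) :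
    x ∈ GoodSW arm J B N W F P (PC arm J B F R P.1) s := by
  have hC := S.hCtx F S.hF
  obtain ⟨T, q, hq⟩ := SBlk.exists_spec hC S.hR (S.hNil F S.hF) S.hP S.hf.1
  exact SLev0.GoodSW_of_QG hC (two_ne K) S.hR S.hP S.hf.1 hq S.hD PC_im (PC_eq S)
    (fun μ => le_rfl) (fun μ r => PbK_st S μ r) hx

/-- `SLev0.Gens ⇒ STop.Gens` -/
theorem gens_of (S : Setup arm J B N W F f P R D l) {ν ν' : K} {n1 n2 : ℕ}
    {Q1 : Matrix ι (Fin n1) K} {A1 : Fin 3 → Matrix (Fin n1) (Fin n1) K}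
    {Q2 : Matrix ι (Fin n2) K} {A2 : Fin 3 → Matrix (Fin n2) (Fin n2) K}
    (b1 : BPkg arm J B F R P.1 D ν l Q1 A1) (b2 : BPkg arm J B F R P.1 D ν' l Q2 A2)
    (h : SLev0.Gens arm J B F P.1 l (QGd S) (PbK arm J B F R P.1 D ν)
      (PbK arm J B F R P.1 D ν')) : STop.Gens arm J B N W F P R l Q1 A1 Q2 A2 := by
  have hrd : ∀ {μ : K} {n : ℕ} {Q : Matrix ι (Fin n) K} {A : Fin 3 → Matrix (Fin n) (Fin n) K}
      (b : BPkg arm J B F R P.1 D μ l Q A) (x : Fin n → K), (Qᵀ * (J * P.1) * Q) *ᵥ x = 0 →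
      Q *ᵥ x ∈ Rd (J * P.1) (PbK arm J B F R P.1 D μ) := by
    intro μ n Q A b x hx
    refine ⟨SLev0.coord_mem b x, fun c hc => ?_⟩
    obtain ⟨y, rfl⟩ := SLev0.exists_coord b hc
    rw [form_gg, hx, dotProduct_zero]
  intro s
  refine ⟨fun i j hij x y => ?_, fun x y hx => ?_, fun x y hy => ?_⟩
  · have h1 := h.g1 s i j hij _ (SLev0.coord_mem b1 x) _ (SLev0.coord_mem b2 y)
    rw [SLev0.pow_act b1, SLev0.pow_act b2] at h1
    exact good_of S h1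
  · exact good_of S (h.g2 s _ (hrd b1 x hx) _ (SLev0.coord_mem b2 y))
  · exact good_of S (h.g3 s _ (SLev0.coord_mem b1 x) _ (hrd b2 y hy))

/-- the two pairs of blocks, in the letters of `SLev0` -/
theorem gens0 (S : Setup arm J B N W F f P R D l) {ν ν' : K} (hne : ν ≠ ν') {n1 n2 : ℕ}
    {Q1 : Matrix ι (Fin n1) K} {A1 : Fin 3 → Matrix (Fin n1) (Fin n1) K}
    {Q2 : Matrix ι (Fin n2) K} {A2 : Fin 3 → Matrix (Fin n2) (Fin n2) K}
    (b1 : BPkg arm J B F R P.1 D ν l Q1 A1) (b2 : BPkg arm J B F R P.1 D ν' l Q2 A2) :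
    SLev0.Gens arm J B F P.1 l (QGd S) (PbK arm J B F R P.1 D ν') (PbK arm J B F R P.1 D ν) ∧
    SLev0.Gens arm J B F P.1 l (QGd S) (PbK arm J B F R P.1 D ν)
      (PbK arm J B F R P.1 D ν') := by
  set I : K := algebraMap ℂ K Complex.I with hIdef
  have hI : I ^ 2 = -1 := by
    rw [hIdef, ← map_pow, Complex.I_sq, map_neg, map_one]
  have hI0 : I ≠ 0 := by
    intro h
    rw [h] at hI
    norm_num at hI
  obtain ⟨Bad, hBad, hrel⟩ := relation S (two_ne K) hne b1 b2 hI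
  let φ : ℂ → K := fun t => I⁻¹ * ((1 + algebraMap ℂ K t * ν') / (1 + algebraMap ℂ K t * ν))
  have hΛ : (φ '' Badᶜ).Infinite := by
    refine Set.Infinite.image ?_ hBad.infinite_compl
    intro t ht s hs hts
    obtain ⟨⟨h1, h2⟩, -⟩ := hrel t ht
    obtain ⟨⟨h3, h4⟩, -⟩ := hrel s hs
    have h5 : (1 + algebraMap ℂ K t * ν') / (1 + algebraMap ℂ K t * ν) =
        (1 + algebraMap ℂ K s * ν') / (1 + algebraMap ℂ K s * ν) :=
      mul_left_cancel₀ (inv_ne_zero hI0) hts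
    rw [div_eq_div_iff h1 h3] at h5
    have h6 : (algebraMap ℂ K t - algebraMap ℂ K s) * (ν' - ν) = 0 := by
      linear_combination h5
    rcases mul_eq_zero.1 h6 with h7 | h7
    · exact (algebraMap ℂ K).injective (sub_eq_zero.1 h7)
    · exact absurd (sub_eq_zero.1 h7).symm hne
  have h0 : (0 : K) ∉ φ '' Badᶜ := by
    rintro ⟨t, ht, h⟩
    obtain ⟨⟨h1, h2⟩, -⟩ := hrel t ht
    exact (mul_ne_zero (inv_ne_zero hI0) (div_ne_zero h2 h1)) h
  refine SLev0.lev1 b1 b2 hΛ h0 1 (-I) one_ne_zero (neg_ne_zero.2 hI0) (QGd S) ?_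
  rintro _ ⟨t, ht, rfl⟩ x hx
  obtain ⟨⟨h1, h2⟩, h3⟩ := hrel t ht
  refine h3 _ ?_ x hx
  change (1 + algebraMap ℂ K t * ν) * (I * (I⁻¹ * ((1 + algebraMap ℂ K t * ν') /
    (1 + algebraMap ℂ K t * ν)))) = _
  rw [← mul_assoc I, mul_inv_cancel₀ hI0, one_mul, mul_div_cancel₀ _ h1]

/-- **LEVEL 1** -/
theorem lev1 : STop.Lev1 := by
  intro ι _ _ δ _ _ K _ _ _ arm J B N W F f P R D l S ν ν' hne n1 n2 Q1 A1 Q2 A2 b1 b2
  exact gens_of S b1 b2 (gens0 S hne b1 b2).2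

end Crest.Agent.R172.SLevA455
end

-- ▼ part R172/SDec2

/-!
Row 172 (S0260), tame node (t2), level 2: the interface of `SDec` with the two descent conditions
(`ZB`) added to the existence clause only (952's remark). `Dec` and `Rel2` are unchanged.
-/

set_option autoImplicit false
set_option linter.unusedSectionVars false

namespace Crest.Agent.R172.SDec

open Matrix Module Crest.Agent.R172.FO Crest.Agent.R172.Qt Crest.Agent.R172.SpS
open Crest.Agent.R172.SEnd2 (PC PhS)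
open Crest.Agent.R172.SUX (D3 th)
open Crest.Agent.R172.PL (CoreM)

/-- descent conditions: `β` (`γ`) maps `ker (F U2)` (`ker (F U1)`) into the overlap of the
blocks. -/
structure ZB {ι : Type*} {δ : Type*} [Fintype δ] {K : Type*} [Field K] {m1 m2 : ℕ}
    (F : Matrix ι δ K) (U1 : Matrix δ (Fin m1) K) (U2 : Matrix δ (Fin m2) K)
    (y : D3 K (Fin m1) (Fin m2)) : Prop where
  zb : ∀ x, F *ᵥ (U2 *ᵥ x) = 0 → ∃ z, F *ᵥ (U1 *ᵥ (y.2.1 *ᵥ x)) = F *ᵥ (U2 *ᵥ z)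
  zk : ∀ x, F *ᵥ (U1 *ᵥ x) = 0 → ∃ z, F *ᵥ (U2 *ᵥ (y.2.2 *ᵥ x)) = F *ᵥ (U1 *ᵥ z)

/-- **LEVEL 2, geometric half, with the descent conditions in the existence clause** -/
def Geo22 : Prop :=
  ∀ {ι : Type} [Fintype ι] [DecidableEq ι] {δ : Type} [Fintype δ] [DecidableEq δ]
    {K : Type} [Field K] [Algebra ℂ K] [IsAlgClosed K]
    {arm : δ → Fin 3} {J : Matrix ι ι K} {B : Matrix δ δ K} {N W : Submodule K (Matrix ι δ K)}
    {F f : Matrix ι δ K} {P : Matrix ι ι K × (Fin 3 → Matrix ι ι K)} {R : Matrix δ ι K}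
    {D : End K (CoreM (PhS arm J B F R P.1))} {l : Fin 3 → ℕ}
    (S : STop.Setup arm J B N W F f P R D l) {ν ν' : K} (_ : ν ≠ ν')
    {n1 n2 : ℕ} {Q1 : Matrix ι (Fin n1) K} {A1 : Fin 3 → Matrix (Fin n1) (Fin n1) K}
    {Q2 : Matrix ι (Fin n2) K} {A2 : Fin 3 → Matrix (Fin n2) (Fin n2) K}
    (_ : SCM.BPkg arm J B F R P.1 D ν l Q1 A1) (_ : SCM.BPkg arm J B F R P.1 D ν' l Q2 A2)
    {m1 m2 : ℕ} {U1 : Matrix δ (Fin m1) K} {U2 : Matrix δ (Fin m2) K}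
    {a1 : Fin 3 → Matrix (Fin m1) (Fin m1) K} {a2 : Fin 3 → Matrix (Fin m2) (Fin m2) K}
    (_ : UFr.Cq (UBlk.Qb (S.hCtx F S.hF).data S.hR P.1 D ν) U1)
    (_ : ∀ u ∈ UBlk.Qb (S.hCtx F S.hF).data S.hR P.1 D ν, ∃ x, u = U1 *ᵥ x)
    (_ : ∀ x, U1 *ᵥ x = 0 → x = 0)
    (_ : ∀ s, B * E K arm s * (Fᵀ * J * (P.1 * F)) * U1 = U1 * a1 s)
    (_ : UFr.Cq (UBlk.Qb (S.hCtx F S.hF).data S.hR P.1 D ν') U2)
    (_ : ∀ u ∈ UBlk.Qb (S.hCtx F S.hF).data S.hR P.1 D ν', ∃ x, u = U2 *ᵥ x)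
    (_ : ∀ x, U2 *ᵥ x = 0 → x = 0)
    (_ : ∀ s, B * E K arm s * (Fᵀ * J * (P.1 * F)) * U2 = U2 * a2 s),
    ∃ Λ : Set K, Λ.Infinite ∧ (0 : K) ∉ Λ ∧
      (∀ r ∈ Λ, ∀ X : Fin 3 → Matrix (Fin m2) (Fin m1) K,
        ∑ s, (X s * (a1 s)ᵀ - (-(r ^ 2)) • (a2 s * X s)) = 0 →
        (∀ s, (U2ᵀ * (Fᵀ * J * (P.1 * F)) * U2) * (X s * (a1 s)ᵀ - (-(r ^ 2)) • (a2 s * X s)) *
          (U1ᵀ * (Fᵀ * J * (P.1 * F)) * U1) = 0) →
        ∃ β γ, Dec F (Fᵀ * J * (P.1 * F)) U1 U2 a1 a2 (-(r ^ 2)) (X, β, γ) ∧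
          ZB F U1 U2 (X, β, γ)) ∧
      (∀ r ∈ Λ, ∀ r' ∈ Λ, ∀ y y' : D3 K (Fin m1) (Fin m2),
        Dec F (Fᵀ * J * (P.1 * F)) U1 U2 a1 a2 (-(r ^ 2)) y →
        Dec F (Fᵀ * J * (P.1 * F)) U1 U2 a1 a2 (-(r' ^ 2)) y' →
        Rel2 arm F (Fᵀ * J * (P.1 * F)) U1 U2 r' y y' ∈
          SLev0.QG arm J B N W F P (PC arm J B F R P.1)
            (fun μ : K => (SLev0.PbK arm J B F R P.1 D μ)) id)

end Crest.Agent.R172.SDec
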