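import Crest.Agent.R172.RDfr_Mg
import Crest.Agent.R172.RDsecond302_Mg
import Crest.Agent.R172.RDhalves267
import Crest.Agent.R172.RJP3
import Crest.Agent.R172.SLB562
import Crest.Agent.R172.SULift
import Crest.Agent.R172.SCore2
import Crest.Agent.R172.SLev0
import Crest.Agent.R172.CorU
import Crest.Agent.R172.SUB

-- ▼ part R172/T0Fin170
section

/-!
Row 172 (S0260), input (t1): **`Ind.InT00`**, assembled from the five statements of the frame
(`first` 318, `halves` 267, `offdiag`/`diag` 795, `second` 302), the existence of the frame (111)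
and the end of the frame (460/47).
-/

set_option autoImplicit false

namespace Crest.Agent.R172.T0Fin170

open Crest.Agent.R172

theorem five : RD.Five where
  first := fun h h1 h2 i j hij => RDF1.five_first h h1 h2 i j hij
  halves := fun h i j hij hf => RDh267.halves h hij hf
  off := fun h _ _ _ i j hij hh => RD795.offdiag h hij hh
  second := fun h i j hij ho => RDS302.second h hij ho
  diag := fun h _ _ _ i j hij hh hs => RD795.diag h hij hh hs

/-- **(T00)** -/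
theorem inT00 : Ind.InT00 := RD.inT00_of_fr RDfr.exFr (RD.falseFr_of_five five)

end Crest.Agent.R172.T0Fin170
end

-- ▼ part R172/SMv494
section

/-!
# Row 172 (S0260), S-side, second level: the triple engine, decorations only from the moves

`RJP3.main3` needs its relation for all `(b, k)` with `Cor`, `CorK`; a move gives one `(b, k)` for
each exact `x`.  Corrections are unique modulo `Z`, `Z2` (`cor_unique`, `corK_unique`); `main3_mv` is
`main3` with a concrete second term `F2S` and the relation only for decorations with a property `G`.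
-/

set_option autoImplicit false
set_option linter.unusedSectionVars false

namespace Crest.Agent.R172.SMv

open Finset TensorProduct Module
open Crest.Agent.R172.RJM (DD Ex ev ev_tmul RT TR)
open Crest.Agent.R172.RJP (Pr)
open Crest.Agent.R172.RJP3 (evk evk_tmul CorK main3)

variable {K : Type*} [Field K] {P1 P2 E τ : Type*} [AddCommGroup P1] [Module K P1]
  [AddCommGroup P2] [Module K P2] [AddCommGroup E] [Module K E] [Fintype τ]

/-- an `R`-valued twisted homomorphism modulo `Z` is zero modulo `Z` -/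
theorem hom_unique {V W : Type*} [AddCommGroup V] [Module K V] [AddCommGroup W] [Module K W]
    {a : τ → End K V} {b : τ → End K W} {R Z : Submodule K W}
    (ha : ⨆ t, LinearMap.range (a t) = ⊤) (sZ : ∀ t, ∀ z ∈ Z, b t z ∈ Z)
    {m : ℕ} (hm : ∀ w : List τ, w.length = m → ∀ r ∈ R, (w.map b).prod r = 0)
    {φ : V →ₗ[K] W} (hφ : ∀ p, φ p ∈ R) {c : K}
    (h : ∀ t p, φ (a t p) - c • b t (φ p) ∈ Z) (p : V) : φ p ∈ Z := by
  have key : ∀ n : ℕ, ∀ p, φ p ∈ Z ⊔ Submodule.span K {y : W | ∃ w : List τ, w.length = n ∧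
      ∃ r ∈ R, y = (w.map b).prod r} := by
    intro n
    induction n with
    | zero =>
      intro p
      refine Submodule.mem_sup_right (Submodule.subset_span ⟨[], rfl, φ p, hφ p, ?_⟩)
      simp
    | succ n ih =>
      intro p
      have hp : p ∈ ⨆ t, LinearMap.range (a t) := by rw [ha]; trivial
      refine Submodule.iSup_induction (fun t => LinearMap.range (a t))
        (motive := fun p => φ p ∈ Z ⊔ Submodule.span K {y : W | ∃ w : List τ, w.length = n + 1 ∧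
          ∃ r ∈ R, y = (w.map b).prod r}) hp ?_ ?_ ?_
      · rintro t _ ⟨p, rfl⟩
        have h1 : φ (a t p) = (φ (a t p) - c • b t (φ p)) + c • b t (φ p) := by abel
        rw [h1]
        refine Submodule.add_mem _ (Submodule.mem_sup_left (h t p)) (Submodule.smul_mem _ _ ?_)
        obtain ⟨z, hz, y, hy, hzy⟩ := Submodule.mem_sup.1 (ih p)
        rw [← hzy, map_add]
        refine Submodule.add_mem _ (Submodule.mem_sup_left (sZ t z hz))
          (Submodule.mem_sup_right ?_)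
        refine Submodule.span_induction (p := fun y _ => b t y ∈ Submodule.span K {y : W |
          ∃ w : List τ, w.length = n + 1 ∧ ∃ r ∈ R, y = (w.map b).prod r}) ?_ ?_ ?_ ?_ hy
        · rintro _ ⟨w, hw, r, hr, rfl⟩
          refine Submodule.subset_span ⟨t :: w, by simp [hw], r, hr, ?_⟩
          rw [List.map_cons, List.prod_cons, Module.End.mul_apply]
        · rw [map_zero]; exact Submodule.zero_mem _
        · intro x y _ _ hx hy'
          rw [map_add]; exact Submodule.add_mem _ hx hy'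
        · intro e x _ hx
          rw [map_smul]; exact Submodule.smul_mem _ _ hx
      · rw [map_zero]; exact Submodule.zero_mem _
      · intro x y hx hy
        rw [map_add]; exact Submodule.add_mem _ hx hy
  have h0 : Submodule.span K {y : W | ∃ w : List τ, w.length = m ∧
      ∃ r ∈ R, y = (w.map b).prod r} = ⊥ := by
    rw [Submodule.span_eq_bot]
    rintro _ ⟨w, hw, r, hr, rfl⟩
    exact hm w hw r hr
  have h1 := key m p
  rw [h0, sup_bot_eq] at h1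
  exact h1

variable {A : τ → End K P1} {B : τ → End K P2} {R1 Z : Submodule K P1} {R2 Z2 : Submodule K P2}
  {l : τ → ℕ} {g : P2 →ₗ[K] P2 →ₗ[K] K} {eps epsK : K}

/-- **uniqueness of the correction modulo `Z`** -/
theorem cor_unique (sZ : ∀ t, ∀ z ∈ Z, A t z ∈ Z) (hB : ⨆ t, LinearMap.range (B t) = ⊤) {m : ℕ}
    (hN1 : ∀ w : List τ, w.length = m → ∀ r ∈ R1, (w.map A).prod r = 0) {c : K}
    (hc : eps * c ≠ 0) {x : τ → P2 ⊗[K] P1} {b b' : P2 →ₗ[K] P1}
    (h : RJZ.Cor A B R1 Z g eps c x b) (h' : RJZ.Cor A B R1 Z g eps c x b') (p : P2) :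
    (b - b') p ∈ Z := by
  refine hom_unique (a := B) (b := A) (R := R1) (c := (eps * c)⁻¹) hB sZ hN1
    (fun p => R1.sub_mem (h.mem p) (h'.mem p)) (fun t p => ?_) p
  have h1 := Z.smul_mem (-(eps * c)⁻¹) (Z.sub_mem (h.eq t p) (h'.eq t p))
  have h2 : -(eps * c)⁻¹ • ((A t (b p) - (eps * c) • b (B t p))
      - (A t (ev g (x t) p) - (eps * c) • ev g (x t) (B t p)) -
      ((A t (b' p) - (eps * c) • b' (B t p))
      - (A t (ev g (x t) p) - (eps * c) • ev g (x t) (B t p)))) =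
      (b - b') (B t p) - (eps * c)⁻¹ • A t ((b - b') p) := by
    rw [LinearMap.sub_apply, LinearMap.sub_apply, map_sub]
    have e : ∀ u v u' v' X : P1, -(eps * c)⁻¹ • ((u - (eps * c) • v) - X -
        ((u' - (eps * c) • v') - X)) = v - v' - (eps * c)⁻¹ • (u - u') := by
      intro u v u' v' X
      have e1 : (eps * c)⁻¹ * (eps * c) = 1 := inv_mul_cancel₀ hc
      have e2 : -(eps * c)⁻¹ • ((u - (eps * c) • v) - X - ((u' - (eps * c) • v') - X)) =
          ((eps * c)⁻¹ * (eps * c)) • (v - v') - (eps * c)⁻¹ • (u - u') := by module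
      rw [e2, e1, one_smul]
    exact e _ _ _ _ _
  rw [h2] at h1
  exact h1

/-- **uniqueness of the other correction modulo `Z2`** -/
theorem corK_unique {g1 : P1 →ₗ[K] P1 →ₗ[K] K} (sZ2 : ∀ t, ∀ z ∈ Z2, B t z ∈ Z2)
    (hA : ⨆ t, LinearMap.range (A t) = ⊤) {m : ℕ}
    (hN2 : ∀ w : List τ, w.length = m → ∀ r ∈ R2, (w.map B).prod r = 0) {c : K}
    (hK : epsK ≠ 0) {x : τ → P2 ⊗[K] P1} {k k' : P1 →ₗ[K] P2}
    (h : CorK A B R2 Z2 g1 epsK c x k) (h' : CorK A B R2 Z2 g1 epsK c x k') (p : P1) :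
    (k - k') p ∈ Z2 := by
  refine hom_unique (a := A) (b := B) (R := R2) (c := epsK⁻¹ * c) hA sZ2 hN2
    (fun p => R2.sub_mem (h.mem p) (h'.mem p)) (fun t p => ?_) p
  have h1 := Z2.smul_mem (epsK⁻¹) (Z2.sub_mem (h.eq t p) (h'.eq t p))
  have h2 : epsK⁻¹ • (epsK • (k (A t p) - evk g1 (x t) (A t p))
      - c • (B t (k p) - B t (evk g1 (x t) p)) - (epsK • (k' (A t p) - evk g1 (x t) (A t p))
      - c • (B t (k' p) - B t (evk g1 (x t) p)))) =
      (k - k') (A t p) - (epsK⁻¹ * c) • B t ((k - k') p) := by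
    rw [LinearMap.sub_apply, LinearMap.sub_apply, map_sub]
    have e : ∀ u v u' v' X Y : P2, epsK⁻¹ • (epsK • (u - X) - c • (v - Y) -
        (epsK • (u' - X) - c • (v' - Y))) = u - u' - (epsK⁻¹ * c) • (v - v') := by
      intro u v u' v' X Y
      have e1 : epsK⁻¹ * epsK = 1 := inv_mul_cancel₀ hK
      have e2 : epsK⁻¹ • (epsK • (u - X) - c • (v - Y) -
          (epsK • (u' - X) - c • (v' - Y))) = (epsK⁻¹ * epsK) • (u - u') -
            (epsK⁻¹ * c) • (v - v') := by module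
      rw [e2, e1, one_smul]
    exact e _ _ _ _ _ _
  rw [h2] at h1
  exact h1

/-! ### the concrete second term -/

/-- `k ↦ ∑_t lift ((p2, p1) ↦ q2 t p2 (k p1)) (x t)` -/
noncomputable def TR1 (q2 : τ → P2 →ₗ[K] P2 →ₗ[K] E) (x : τ → P2 ⊗[K] P1) :
    (P1 →ₗ[K] P2) →ₗ[K] E where
  toFun k := ∑ t, TensorProduct.lift ((q2 t).compl₂ k) (x t)
  map_add' k k' := by
    rw [← Finset.sum_add_distrib]
    refine Finset.sum_congr rfl fun t _ => ?_
    rw [← LinearMap.add_apply]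
    congr 1
    refine TensorProduct.ext' fun a b => ?_
    simp
  map_smul' c k := by
    rw [RingHom.id_apply, Finset.smul_sum]
    refine Finset.sum_congr rfl fun t _ => ?_
    rw [← LinearMap.smul_apply]
    congr 1
    refine TensorProduct.ext' fun a b => ?_
    simp

/-- `x ↦ ∑_t lift ((p2, p1) ↦ q2 t (k p1) p2) (x t)` -/
noncomputable def TR3 (q2 : τ → P2 →ₗ[K] P2 →ₗ[K] E) (k : P1 →ₗ[K] P2) :
    (τ → P2 ⊗[K] P1) →ₗ[K] E where
  toFun x := ∑ t, TensorProduct.lift ((q2 t).flip.compl₂ k) (x t)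
  map_add' x x' := by
    rw [← Finset.sum_add_distrib]
    exact Finset.sum_congr rfl fun t _ => by rw [Pi.add_apply, map_add]
  map_smul' c x := by
    rw [RingHom.id_apply, Finset.smul_sum]
    exact Finset.sum_congr rfl fun t _ => by rw [Pi.smul_apply, map_smul]

/-- `x' ↦ ∑_t lift ((p2, p1) ↦ q2 t p2 (evk g1 (x' t) p1)) (x t)` -/
noncomputable def TR2 (q2 : τ → P2 →ₗ[K] P2 →ₗ[K] E) (g1 : P1 →ₗ[K] P1 →ₗ[K] K)
    (x : τ → P2 ⊗[K] P1) : (τ → P2 ⊗[K] P1) →ₗ[K] E where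
  toFun x' := ∑ t, TensorProduct.lift ((q2 t).compl₂ (evk g1 (x' t))) (x t)
  map_add' x' x'' := by
    rw [← Finset.sum_add_distrib]
    refine Finset.sum_congr rfl fun t _ => ?_
    rw [← LinearMap.add_apply]
    congr 1
    refine TensorProduct.ext' fun a b => ?_
    simp
  map_smul' c x' := by
    rw [RingHom.id_apply, Finset.smul_sum]
    refine Finset.sum_congr rfl fun t _ => ?_
    rw [← LinearMap.smul_apply]
    congr 1
    refine TensorProduct.ext' fun a b => ?_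
    simp

/-- **the 22-part** -/
noncomputable def F2S (q2 : τ → P2 →ₗ[K] P2 →ₗ[K] E) (g1 : P1 →ₗ[K] P1 →ₗ[K] K) (a4 a5 a6 : K)
    (u : Pr K P1 P2 τ × (P1 →ₗ[K] P2)) : Pr K P1 P2 τ × (P1 →ₗ[K] P2) →ₗ[K] E :=
  a4 • (TR1 q2 u.1.1 ∘ₗ LinearMap.snd K (Pr K P1 P2 τ) (P1 →ₗ[K] P2)) +
    a5 • (TR2 q2 g1 u.1.1 ∘ₗ LinearMap.fst K (τ → P2 ⊗[K] P1) (P2 →ₗ[K] P1) ∘ₗ
      LinearMap.fst K (Pr K P1 P2 τ) (P1 →ₗ[K] P2)) +
    a6 • (TR3 q2 u.2 ∘ₗ LinearMap.fst K (τ → P2 ⊗[K] P1) (P2 →ₗ[K] P1) ∘ₗ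
      LinearMap.fst K (Pr K P1 P2 τ) (P1 →ₗ[K] P2))

theorem F2S_apply (q2 : τ → P2 →ₗ[K] P2 →ₗ[K] E) (g1 : P1 →ₗ[K] P1 →ₗ[K] K) (a4 a5 a6 : K)
    (x x' : τ → P2 ⊗[K] P1) (b b' : P2 →ₗ[K] P1) (k k' : P1 →ₗ[K] P2) :
    F2S q2 g1 a4 a5 a6 ((x, b), k) ((x', b'), k') =
      a4 • ∑ t, TensorProduct.lift ((q2 t).compl₂ k') (x t) +
      a5 • ∑ t, TensorProduct.lift ((q2 t).compl₂ (evk g1 (x' t))) (x t) +
      a6 • ∑ t, TensorProduct.lift ((q2 t).flip.compl₂ k) (x' t) := rfl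

theorem lift_mem {V W : Type*} [AddCommGroup V] [Module K V] [AddCommGroup W] [Module K W]
    {Q : Submodule K E} {f : V →ₗ[K] W →ₗ[K] E} (h : ∀ v w, f v w ∈ Q) (x : V ⊗[K] W) :
    TensorProduct.lift f x ∈ Q := by
  induction x using TensorProduct.induction_on with
  | zero => rw [map_zero]; exact Q.zero_mem
  | tmul v w => rw [TensorProduct.lift.tmul]; exact h v w
  | add x y hx hy => rw [map_add]; exact Q.add_mem hx hy

/-- **`RJP3.main3` with the relation only for the decorations of the moves.** -/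
theorem main3_mv [FiniteDimensional K P1] [FiniteDimensional K P2]
    (sZ : ∀ t, ∀ z ∈ Z, A t z ∈ Z) (sZ2 : ∀ t, ∀ z ∈ Z2, B t z ∈ Z2)
    (hA : ⨆ t, LinearMap.range (A t) = ⊤) (hB : ⨆ t, LinearMap.range (B t) = ⊤)
    (hR1 : ∀ t, ∀ r ∈ R1, A t r ∈ R1) (hR2 : ∀ t, ∀ r ∈ R2, B t r ∈ R2) {m : ℕ}
    (hN1 : ∀ w : List τ, w.length = m → ∀ r ∈ R1, (w.map A).prod r = 0)
    (hN2 : ∀ w : List τ, w.length = m → ∀ r ∈ R2, (w.map B).prod r = 0)
    (hl : ∀ s, 1 ≤ l s)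
    (hl1 : ∀ s p, (A s ^ l s) p ∈ R1) (hl2 : ∀ s p, (B s ^ l s) p ∈ R2)
    (gen1 : ∀ S : Submodule K P1, (∀ t, ∀ v ∈ S, A t v ∈ S) → (∀ s p, (A s ^ l s) p ∈ S) → R1 ≤ S)
    (gen2 : ∀ S : Submodule K P2, (∀ t, ∀ v ∈ S, B t v ∈ S) → (∀ s p, (B s ^ l s) p ∈ S) → R2 ≤ S)
    (heps : eps ≠ 0) (gR1 : ∀ r ∈ R2, ∀ p, g r p = 0) (gR2 : ∀ r ∈ R2, ∀ p, g p r = 0)
    (gB : ∀ t p p', g (B t p) p' = eps * g p (B t p'))
    (gtop : ∀ s, ∃ p p', g ((B s ^ (l s - 1)) p) p' ≠ 0)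
    (g1 : P1 →ₗ[K] P1 →ₗ[K] K) (hK : epsK ≠ 0)
    {R : Set K} (hR : R.Infinite) (h0 : (0 : K) ∉ R)
    (q : τ → P1 →ₗ[K] P1 →ₗ[K] E) (q2 : τ → P2 →ₗ[K] P2 →ₗ[K] E) (Q : Submodule K E)
    {a1 a2 a3 : K} (a4 a5 a6 : K)
    (ha1 : a1 ≠ 0) (ha2 : a2 ≠ 0) (ha3 : a3 ≠ 0)
    (hZq : ∀ t, ∀ z ∈ Z, ∀ p, q t z p ∈ Q) (hqZ : ∀ t, ∀ z ∈ Z, ∀ p, q t p z ∈ Q)
    (hZq2 : ∀ t, ∀ z ∈ Z2, ∀ p, q2 t z p ∈ Q) (hqZ2 : ∀ t, ∀ z ∈ Z2, ∀ p, q2 t p z ∈ Q)
    (G : K → (τ → P2 ⊗[K] P1) → (P2 →ₗ[K] P1) → (P1 →ₗ[K] P2) → Prop)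
    (hmv : ∀ ρ ∈ R, ∀ x, Ex A B R1 R2 (ρ ^ 2) x → ∃ b k, RJZ.Cor A B R1 Z g eps (ρ ^ 2) x b ∧
      CorK A B R2 Z2 g1 epsK (ρ ^ 2) x k ∧ G ρ x b k)
    (hrel : ∀ ρ ∈ R, ∀ ρ' ∈ R, ∀ x b k x' b' k', Ex A B R1 R2 (ρ ^ 2) x → G ρ x b k →
      Ex A B R1 R2 (ρ' ^ 2) x' → G ρ' x' b' k' →
      ∑ t, (a1 • TensorProduct.lift ((q t) ∘ₗ b') (x t)
        + a2 • TensorProduct.lift ((q t).flip ∘ₗ b) (x' t)
        + a3 • TensorProduct.lift ((q t) ∘ₗ (ev g (x' t))) (x t))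
        + ρ' • (a4 • ∑ t, TensorProduct.lift ((q2 t).compl₂ k') (x t) +
          a5 • ∑ t, TensorProduct.lift ((q2 t).compl₂ (evk g1 (x' t))) (x t) +
          a6 • ∑ t, TensorProduct.lift ((q2 t).flip.compl₂ k) (x' t)) ∈ Q) :
    (∀ t, ∀ r ∈ R1, ∀ p, q t r p ∈ Q ∧ q t p r ∈ Q) ∧
      (∀ s i j, i + j + 1 = l s → ∀ p p', q s ((A s ^ i) p) ((A s ^ j) p') ∈ Q) := by
  refine main3 (Z2 := Z2) sZ hA hB hR1 hR2 hN1 hN2 hl hl1 hl2 gen1 gen2 heps gR1 gR2 gB gtop g1 epsK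
    hR h0 q Q ha1 ha2 ha3 hZq hqZ
    (fun ρ hρ x hx => by obtain ⟨b, k, h1, -, -⟩ := hmv ρ hρ x hx; exact ⟨b, h1⟩)
    (fun ρ hρ x hx => by obtain ⟨b, k, -, h2, -⟩ := hmv ρ hρ x hx; exact ⟨k, h2⟩)
    (F2S q2 g1 a4 a5 a6) ?_
  intro ρ hρ ρ' hρ' x b k x' b' k' hx hb hk hx' hb' hk'
  have hρ0 : ρ ≠ 0 := fun h => h0 (h ▸ hρ)
  have hρ0' : ρ' ≠ 0 := fun h => h0 (h ▸ hρ')
  obtain ⟨b0, k0, hb0, hk0, hG⟩ := hmv ρ hρ x hx
  obtain ⟨b0', k0', hb0', hk0', hG'⟩ := hmv ρ' hρ' x' hx'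
  have h1 := hrel ρ hρ ρ' hρ' x b0 k0 x' b0' k0' hx hG hx' hG'
  have ub := cor_unique sZ hB hN1 (mul_ne_zero heps (pow_ne_zero 2 hρ0)) hb hb0
  have ub' := cor_unique sZ hB hN1 (mul_ne_zero heps (pow_ne_zero 2 hρ0')) hb' hb0'
  have uk := corK_unique sZ2 hA hN2 hK hk hk0
  have uk' := corK_unique sZ2 hA hN2 hK hk' hk0'
  -- the differences
  have d1 : ∀ t, TensorProduct.lift ((q t) ∘ₗ b') (x t) -
      TensorProduct.lift ((q t) ∘ₗ b0') (x t) ∈ Q := by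
    intro t
    have e : TensorProduct.lift ((q t) ∘ₗ b') (x t) - TensorProduct.lift ((q t) ∘ₗ b0') (x t) =
        TensorProduct.lift ((q t) ∘ₗ (b' - b0')) (x t) := by
      rw [← LinearMap.sub_apply]
      congr 1
      refine TensorProduct.ext' fun a b => ?_
      simp
    rw [e]
    exact lift_mem (fun v w => hZq t _ (ub' v) w) _
  have d2 : ∀ t, TensorProduct.lift ((q t).flip ∘ₗ b) (x' t) -
      TensorProduct.lift ((q t).flip ∘ₗ b0) (x' t) ∈ Q := by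
    intro t
    have e : TensorProduct.lift ((q t).flip ∘ₗ b) (x' t) -
        TensorProduct.lift ((q t).flip ∘ₗ b0) (x' t) =
        TensorProduct.lift ((q t).flip ∘ₗ (b - b0)) (x' t) := by
      rw [← LinearMap.sub_apply]
      congr 1
      refine TensorProduct.ext' fun a b => ?_
      simp
    rw [e]
    exact lift_mem (fun v w => hqZ t _ (ub v) w) _
  have d3 : ∀ t, TensorProduct.lift ((q2 t).compl₂ k') (x t) -
      TensorProduct.lift ((q2 t).compl₂ k0') (x t) ∈ Q := by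
    intro t
    have e : TensorProduct.lift ((q2 t).compl₂ k') (x t) -
        TensorProduct.lift ((q2 t).compl₂ k0') (x t) =
        TensorProduct.lift ((q2 t).compl₂ (k' - k0')) (x t) := by
      rw [← LinearMap.sub_apply]
      congr 1
      refine TensorProduct.ext' fun a b => ?_
      simp
    rw [e]
    exact lift_mem (fun v w => hqZ2 t _ (uk' w) v) _
  have d4 : ∀ t, TensorProduct.lift ((q2 t).flip.compl₂ k) (x' t) -
      TensorProduct.lift ((q2 t).flip.compl₂ k0) (x' t) ∈ Q := by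
    intro t
    have e : TensorProduct.lift ((q2 t).flip.compl₂ k) (x' t) -
        TensorProduct.lift ((q2 t).flip.compl₂ k0) (x' t) =
        TensorProduct.lift ((q2 t).flip.compl₂ (k - k0)) (x' t) := by
      rw [← LinearMap.sub_apply]
      congr 1
      refine TensorProduct.ext' fun a b => ?_
      simp
    rw [e]
    exact lift_mem (fun v w => hZq2 t _ (uk w) v) _
  rw [F2S_apply]
  have hsum : (∑ t, (a1 • TensorProduct.lift ((q t) ∘ₗ b') (x t)
        + a2 • TensorProduct.lift ((q t).flip ∘ₗ b) (x' t)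
        + a3 • TensorProduct.lift ((q t) ∘ₗ (ev g (x' t))) (x t))
        + ρ' • (a4 • ∑ t, TensorProduct.lift ((q2 t).compl₂ k') (x t) +
          a5 • ∑ t, TensorProduct.lift ((q2 t).compl₂ (evk g1 (x' t))) (x t) +
          a6 • ∑ t, TensorProduct.lift ((q2 t).flip.compl₂ k) (x' t))) =
      (∑ t, (a1 • TensorProduct.lift ((q t) ∘ₗ b0') (x t)
        + a2 • TensorProduct.lift ((q t).flip ∘ₗ b0) (x' t)
        + a3 • TensorProduct.lift ((q t) ∘ₗ (ev g (x' t))) (x t))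
        + ρ' • (a4 • ∑ t, TensorProduct.lift ((q2 t).compl₂ k0') (x t) +
          a5 • ∑ t, TensorProduct.lift ((q2 t).compl₂ (evk g1 (x' t))) (x t) +
          a6 • ∑ t, TensorProduct.lift ((q2 t).flip.compl₂ k0) (x' t))) +
      (a1 • ∑ t, (TensorProduct.lift ((q t) ∘ₗ b') (x t) -
          TensorProduct.lift ((q t) ∘ₗ b0') (x t)) +
        a2 • ∑ t, (TensorProduct.lift ((q t).flip ∘ₗ b) (x' t) -
          TensorProduct.lift ((q t).flip ∘ₗ b0) (x' t)) +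
        (ρ' * a4) • ∑ t, (TensorProduct.lift ((q2 t).compl₂ k') (x t) -
          TensorProduct.lift ((q2 t).compl₂ k0') (x t)) +
        (ρ' * a6) • ∑ t, (TensorProduct.lift ((q2 t).flip.compl₂ k) (x' t) -
          TensorProduct.lift ((q2 t).flip.compl₂ k0) (x' t))) := by
    simp only [Finset.sum_add_distrib, Finset.sum_sub_distrib, ← Finset.smul_sum]
    module
  rw [hsum]
  refine Q.add_mem h1 (Q.add_mem (Q.add_mem (Q.add_mem ?_ ?_) ?_) ?_)
  · exact Q.smul_mem _ (Q.sum_mem fun t _ => d1 t)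
  · exact Q.smul_mem _ (Q.sum_mem fun t _ => d2 t)
  · exact Q.smul_mem _ (Q.sum_mem fun t _ => d3 t)
  · exact Q.smul_mem _ (Q.sum_mem fun t _ => d4 t)

end Crest.Agent.R172.SMv
end

-- ▼ part R172/SLB562b
section

/-!
Row 172 (S0260), (t2), Lev2: assembly of one block from the rows (second copy of L2-i).
-/

set_option autoImplicit false
set_option linter.unusedSectionVars false
set_option maxHeartbeats 400000

namespace Crest.Agent.R172.SLB562

open Matrix Module Crest.Agent.R172.FO Crest.Agent.R172.Qt Crest.Agent.R172.SpS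
open Crest.Agent.R172.SEnd Crest.Agent.R172.SEnd2 Crest.Agent.R172.SCM
open Crest.Agent.R172.SLev0 (bq bq_apply gF gF_apply gF_flip gens_self PbK Gens)
open Crest.Agent.R172.PL (CoreM)
open scoped TensorProduct

variable {ι : Type*} [Fintype ι] [DecidableEq ι] {δ : Type*} [Fintype δ] [DecidableEq δ]
variable {K : Type*} [Field K]
variable {arm : δ → Fin 3} {J : Matrix ι ι K} {B : Matrix δ δ K}
  {N W Q : Submodule K (Matrix ι δ K)} {F : Matrix ι δ K} {R : Matrix δ ι K}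
  {X0 : Matrix ι ι K} {D : End K (CoreM (PhS arm J B F R X0))} {ν ν' : K} {l : Fin 3 → ℕ}
  {n1 n2 m1 m2 : ℕ} {P1 : Matrix ι (Fin n1) K} {P2 : Matrix ι (Fin n2) K}
  {A1 : Fin 3 → Matrix (Fin n1) (Fin n1) K} {A2 : Fin 3 → Matrix (Fin n2) (Fin n2) K}

/-- **core of Lev2**: `UD ρ X β γ` = decorations of the frame family `X` coming from the moves at the
parameter of ratio `ρ` -/
theorem core (b1 : BPkg arm J B F R X0 D ν l P1 A1) (b2 : BPkg arm J B F R X0 D ν' l P2 A2)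
    {U1 : Matrix δ (Fin m1) K} {U2 : Matrix δ (Fin m2) K}
    {C1 : Matrix (Fin n1) (Fin m1) K} {C2 : Matrix (Fin n2) (Fin m2) K}
    (hF1 : F * U1 = P1 * C1) (hF2 : F * U2 = P2 * C2)
    {Z1 : Submodule K (Fin n1 → K)} {Z2 : Submodule K (Fin n2 → K)}
    (sZ1 : ∀ t, ∀ z ∈ Z1, A1 t *ᵥ z ∈ Z1) (sZ2 : ∀ t, ∀ z ∈ Z2, A2 t *ᵥ z ∈ Z2)
    (hZq : ∀ t, ∀ z ∈ Z1, ∀ y, bq arm J F X0 P1 P1 t z y ∈ Q)
    (hqZ : ∀ t, ∀ z ∈ Z1, ∀ y, bq arm J F X0 P1 P1 t y z ∈ Q)
    (hZq2 : ∀ t, ∀ z ∈ Z2, ∀ y, bq arm J F X0 P2 P2 t z y ∈ Q)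
    (hqZ2 : ∀ t, ∀ z ∈ Z2, ∀ y, bq arm J F X0 P2 P2 t y z ∈ Q)
    {I : Set K} (hI : I.Infinite) (h0 : (0 : K) ∉ I) {im : K} (him : im ^ 2 = -1)
    (UD : K → (Fin 3 → Matrix (Fin m2) (Fin m1) K) → Matrix (Fin m1) (Fin m2) K →
      Matrix (Fin m2) (Fin m1) K → Prop)
    (hmv : ∀ ρ ∈ I, ∀ x : Fin 3 → (Fin n2 → K) ⊗[K] (Fin n1 → K),
      RJM.Ex (fun s => (A1 s).mulVecLin) (fun s => (A2 s).mulVecLin)
        (LinearMap.ker (P1ᵀ * (J * X0) * P1).mulVecLin)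
        (LinearMap.ker (P2ᵀ * (J * X0) * P2).mulVecLin) (-ρ ^ 2) x →
      ∃ X β γ b k, UD ρ X β γ ∧ (∀ s, C2 * X s * C1ᵀ = mt (x s)) ∧
        (∀ y, C1 *ᵥ (β *ᵥ y) - b (C2 *ᵥ y) ∈ Z1) ∧ (∀ y, C2 *ᵥ (γ *ᵥ y) - k (C1 *ᵥ y) ∈ Z2) ∧
        RJZ.Cor (fun s => (A1 s).mulVecLin) (fun s => (A2 s).mulVecLin)
          (LinearMap.ker (P1ᵀ * (J * X0) * P1).mulVecLin) Z1 (gF J X0 P2) (-1) (-ρ ^ 2) x b ∧
        RJP3.CorK (fun s => (A1 s).mulVecLin) (fun s => (A2 s).mulVecLin)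
          (LinearMap.ker (P2ᵀ * (J * X0) * P2).mulVecLin) Z2 (gF J X0 P1) (-1) (-ρ ^ 2) x k)
    (hrel : ∀ ρ ∈ I, ∀ ρ' ∈ I, ∀ X β0 γ0 X' β' γ', UD ρ X β0 γ0 → UD ρ' X' β' γ' →
      ∑ s, F * (U1 * (β' * X s - (X' s)ᵀ * (U2ᵀ * (Fᵀ * J * (X0 * F)) * U2) * X s
          - (X' s)ᵀ * β0ᵀ) * U1ᵀ) * (Fᵀ * J * (X0 * F)) * E K arm s +
        ρ' • ∑ s, F * (U2 * (X s * γ'ᵀ + X s * (U1ᵀ * (Fᵀ * J * (X0 * F)) * U1) * (X' s)ᵀ
          - γ0 * (X' s)ᵀ) * U2ᵀ) * (Fᵀ * J * (X0 * F)) * E K arm s ∈ Q) :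
    Gens arm J B F X0 l Q (PbK arm J B F R X0 D ν) (PbK arm J B F R X0 D ν) := by
  have him0 : im ≠ 0 := by
    rintro rfl
    norm_num at him
  obtain ⟨m, hm⟩ := b1.blk.kills
  obtain ⟨m', hm'⟩ := b2.blk.kills
  have hker : ∀ r ∈ LinearMap.ker (P2ᵀ * (J * X0) * P2).mulVecLin, ∀ y, gF J X0 P2 y r = 0 := by
    intro r hr y
    rw [LinearMap.mem_ker, mulVecLin_apply] at hr
    rw [gF_apply, hr, dotProduct_zero]
  have hsq : ∀ ρ : K, (im * ρ) ^ 2 = -ρ ^ 2 := fun ρ => by rw [mul_pow, him]; ring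
  obtain ⟨h1, h2⟩ := SMv.main3_mv (A := fun s => (A1 s).mulVecLin)
    (B := fun s => (A2 s).mulVecLin)
    (R1 := LinearMap.ker (P1ᵀ * (J * X0) * P1).mulVecLin)
    (R2 := LinearMap.ker (P2ᵀ * (J * X0) * P2).mulVecLin) (Z := Z1) (Z2 := Z2) (l := l)
    (g := gF J X0 P2) (eps := -1) (epsK := -1) (m := max m m')
    (fun t z hz => by
      change (A1 t).mulVecLin z ∈ Z1
      rw [mulVecLin_apply]; exact sZ1 t z hz)
    (fun t z hz => by
      change (A2 t).mulVecLin z ∈ Z2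
      rw [mulVecLin_apply]; exact sZ2 t z hz)
    b1.blk.top b2.blk.top b1.blk.st b2.blk.st
    (fun w hw r hr => hm w (by omega) r hr) (fun w hw r hr => hm' w (by omega) r hr)
    (fun s => by have := b1.blk.two_le s; omega) b1.blk.pow b2.blk.pow b1.blk.gen b2.blk.gen
    (neg_ne_zero.2 one_ne_zero)
    (fun r hr y => by rw [gF_flip b2, hker r hr, neg_zero]) hker
    (fun t x y => by
      rw [gF_apply, gF_apply, mulVecLin_apply, mulVecLin_apply, mulVec_mulVec,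
        ← vecMul_transpose, ← dotProduct_mulVec, mulVec_mulVec, b2.adj, neg_mulVec,
        dotProduct_neg, neg_one_mul])
    (fun s => by
      obtain ⟨x, y, hxy⟩ := b2.corner s
      refine ⟨y, x, ?_⟩
      rw [gF_flip b2, gF_apply, mulVecLin_pow_apply]
      exact neg_ne_zero.2 hxy)
    (gF J X0 P1) (neg_ne_zero.2 one_ne_zero)
    (R := (fun ρ => im * ρ) '' I)
    (hI.image (fun a _ b _ h => mul_left_cancel₀ him0 h))
    (by
      rintro ⟨ρ, hρ, h⟩
      have : ρ = 0 := by simpa [him0] using h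
      exact h0 (this ▸ hρ))
    (fun t => bq arm J F X0 P1 P1 t) (fun t => bq arm J F X0 P2 P2 t) Q
    (a1 := 1) (a2 := -1) (a3 := -1) (im⁻¹) (-im⁻¹) (-im⁻¹) one_ne_zero
    (neg_ne_zero.2 one_ne_zero) (neg_ne_zero.2 one_ne_zero) hZq hqZ hZq2 hqZ2
    (fun ρ x b k => ∃ ρ0 X β γ, ρ = im * ρ0 ∧ ρ0 ∈ I ∧ UD ρ0 X β γ ∧
      (∀ s, C2 * X s * C1ᵀ = mt (x s)) ∧
      (∀ y, C1 *ᵥ (β *ᵥ y) - b (C2 *ᵥ y) ∈ Z1) ∧ (∀ y, C2 *ᵥ (γ *ᵥ y) - k (C1 *ᵥ y) ∈ Z2))
    (by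
      rintro _ ⟨ρ, hρ, rfl⟩ x hx
      simp only [hsq] at hx ⊢
      obtain ⟨X, β, γ, b, k, h1, h2, h3, h4, h5, h6⟩ := hmv ρ hρ x hx
      exact ⟨b, k, h5, h6, ρ, X, β, γ, rfl, hρ, h1, h2, h3, h4⟩)
    (by
      rintro _ ⟨_, _, rfl⟩ _ ⟨_, _, rfl⟩ x b k x' b' k' _ ⟨ρ0, X, β0, γ0, -, hρ0, h1, h2, h3, h4⟩ _
        ⟨ρ', X', β', γ', hρe, hρ', h1', h2', h3', h4'⟩
      rw [hρe]
      exact rel_mv (S0 := Fᵀ * J * (X0 * F)) rfl hF1 hF2 b1.skew hZq hqZ hZq2 hqZ2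
        (r := ρ') (by rw [mul_comm im, mul_assoc, mul_inv_cancel₀ him0, mul_one]) h2 h2' h3 h3' h4 h4'
        (hrel ρ0 hρ0 ρ' hρ' X β0 γ0 X' β' γ' h1 h1'))
  exact gens_self b1 Q h1 h2

end Crest.Agent.R172.SLB562
end

-- ▼ part R172/SDesc683
section

/-!
Row 172 (S0260), S-side, L2-f (second copy, helper683): descent of the corrections `β`, `γ` from the
`K^δ`-level modules `W_i` to the quotients `P_i` (`π_i : W_i → P_i` onto), modulo `Z`, `Z2`.
-/

set_option autoImplicit false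
set_option linter.unusedSectionVars false

namespace Crest.Agent.R172.SDesc683

open Module TensorProduct
open Crest.Agent.R172.RJM (ev)
open Crest.Agent.R172.RJP3 (evk CorK)

variable {K : Type*} [Field K] {τ : Type*} [Fintype τ]
variable {P1 P2 W1 W2 : Type*} [AddCommGroup P1] [Module K P1] [AddCommGroup P2] [Module K P2]
  [AddCommGroup W1] [Module K W1] [AddCommGroup W2] [Module K W2]
variable {p1 : W1 →ₗ[K] P1} {p2 : W2 →ₗ[K] P2}



/-- a linear map on `W2` whose values are in `Z` on `ker p2` descends modulo `Z` -/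
theorem exists_desc (hp2 : Function.Surjective p2) (f : W2 →ₗ[K] P1) {Z : Submodule K P1}
    (hZ : ∀ u, p2 u = 0 → f u ∈ Z) : ∃ b : P2 →ₗ[K] P1, (∀ u, b (p2 u) - f u ∈ Z) ∧
      ∀ p, ∃ u, p2 u = p ∧ b p = f u := by
  obtain ⟨σ, hσ⟩ := p2.exists_rightInverse_of_surjective (LinearMap.range_eq_top.2 hp2)
  have hσ' : ∀ p, p2 (σ p) = p := fun p => congrArg (fun l : P2 →ₗ[K] P2 => l p) hσ
  refine ⟨f ∘ₗ σ, fun u => ?_, fun p => ⟨σ p, hσ' p, rfl⟩⟩
  rw [LinearMap.comp_apply, ← map_sub]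
  exact hZ _ (by rw [map_sub, hσ', sub_self])

section cor

variable {A : τ → End K P1} {B : τ → End K P2} {a : τ → End K W1} {bb : τ → End K W2}

/-- **descent of `β`** -/
theorem exists_cor (hp2 : Function.Surjective p2)
    (h1 : ∀ t u, p1 (a t u) = A t (p1 u)) (h2 : ∀ t u, p2 (bb t u) = B t (p2 u))
    {R1 Z : Submodule K P1} (sZ : ∀ t, ∀ z ∈ Z, A t z ∈ Z) {g : P2 →ₗ[K] P2 →ₗ[K] K} {eps c : K}
    {x : τ → P2 ⊗[K] P1} {β : W2 →ₗ[K] W1} {e : τ → W2 →ₗ[K] W1}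
    (he : ∀ t u, p1 (e t u) = ev g (x t) (p2 u))
    (hR : ∀ u, p1 (β u) ∈ R1) (hZ : ∀ u, p2 u = 0 → p1 (β u) ∈ Z)
    (hc : ∀ t u, p1 (a t (β u) - (eps * c) • β (bb t u)) -
      p1 (a t (e t u) - (eps * c) • e t (bb t u)) ∈ Z) :
    ∃ b : P2 →ₗ[K] P1, RJZ.Cor A B R1 Z g eps c x b ∧ ∀ u, b (p2 u) - p1 (β u) ∈ Z := by
  obtain ⟨b, hb, hb'⟩ := exists_desc hp2 (p1 ∘ₗ β) (Z := Z) (fun u hu => hZ u hu)
  simp only [LinearMap.comp_apply] at hb hb'
  refine ⟨b, ⟨fun p => ?_, fun t p => ?_⟩, hb⟩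
  · obtain ⟨u, -, h⟩ := hb' p
    rw [h]
    exact hR u
  · obtain ⟨u, rfl⟩ := hp2 p
    have e1 : A t (b (p2 u)) - (eps * c) • b (B t (p2 u)) -
        (A t (ev g (x t) (p2 u)) - (eps * c) • ev g (x t) (B t (p2 u))) =
        (A t (b (p2 u) - p1 (β u)) - (eps * c) • (b (p2 (bb t u)) - p1 (β (bb t u)))) +
        (p1 (a t (β u) - (eps * c) • β (bb t u)) -
          p1 (a t (e t u) - (eps * c) • e t (bb t u))) := by
      rw [← h2, ← he, ← he, ← h1, map_sub p1, map_sub p1, map_smul, map_smul, h1 t (β u), map_sub,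
        smul_sub]
      abel
    rw [e1]
    exact Z.add_mem (Z.sub_mem (sZ t _ (hb u)) (Z.smul_mem _ (hb _))) (hc t u)

/-- **descent of `γ`** -/
theorem exists_corK (hp1 : Function.Surjective p1)
    (h1 : ∀ t u, p1 (a t u) = A t (p1 u)) (h2 : ∀ t u, p2 (bb t u) = B t (p2 u))
    {R2 Z2 : Submodule K P2} (sZ : ∀ t, ∀ z ∈ Z2, B t z ∈ Z2) {g1 : P1 →ₗ[K] P1 →ₗ[K] K}
    {eps c : K} {x : τ → P2 ⊗[K] P1} {γ : W1 →ₗ[K] W2} {e : τ → W1 →ₗ[K] W2}
    (he : ∀ t u, p2 (e t u) = evk g1 (x t) (p1 u))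
    (hR : ∀ u, p2 (γ u) ∈ R2) (hZ : ∀ u, p1 u = 0 → p2 (γ u) ∈ Z2)
    (hc : ∀ t u, p2 (eps • (γ (a t u) - e t (a t u)) - c • (bb t (γ u) - bb t (e t u))) ∈ Z2) :
    ∃ k : P1 →ₗ[K] P2, CorK A B R2 Z2 g1 eps c x k ∧ ∀ u, k (p1 u) - p2 (γ u) ∈ Z2 := by
  obtain ⟨k, hk, hk'⟩ := exists_desc (p2 := p1) hp1 (p2 ∘ₗ γ) (Z := Z2) (fun u hu => hZ u hu)
  simp only [LinearMap.comp_apply] at hk hk'
  refine ⟨k, ⟨fun p => ?_, fun t p => ?_⟩, hk⟩
  · obtain ⟨u, -, h⟩ := hk' p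
    rw [h]
    exact hR u
  · obtain ⟨u, rfl⟩ := hp1 p
    have e1 : eps • (k (A t (p1 u)) - evk g1 (x t) (A t (p1 u))) -
        c • (B t (k (p1 u)) - B t (evk g1 (x t) (p1 u))) =
        (eps • (k (p1 (a t u)) - p2 (γ (a t u))) - c • B t (k (p1 u) - p2 (γ u))) +
        p2 (eps • (γ (a t u) - e t (a t u)) - c • (bb t (γ u) - bb t (e t u))) := by
      rw [← h1, ← he, ← he]
      simp only [map_sub, map_smul, h2, smul_sub]
      abel
    rw [e1]
    exact Z2.add_mem (Z2.sub_mem (Z2.smul_mem _ (hk _)) (Z2.smul_mem _ (sZ t _ (hk u)))) (hc t u)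


end cor

end Crest.Agent.R172.SDesc683
end

-- ▼ part R172/SUX5
section

/-!
Row 172 (S0260), (t2), node S-SUX5: translation of the block form of the second derivative
(`second_blocks`, frames `U1`, `U2`) into the letters of `RJM.main`.
-/

set_option autoImplicit false
set_option linter.unusedSectionVars false
set_option linter.unusedFintypeInType false
set_option linter.unusedDecidableInType false

namespace Crest.Agent.R172.SUX5

open Finset TensorProduct Module Matrix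
open Crest.Agent.R172.RJM

section T

variable {K : Type*} [Field K] {P1 P2 : Type*} [AddCommGroup P1] [Module K P1]
  [AddCommGroup P2] [Module K P2] {n1 n2 : Type*} [Fintype n1] [DecidableEq n1] [Fintype n2]
  [DecidableEq n2] (e1 : Basis n1 K P1) (e2 : Basis n2 K P2)

/-- the matrix of a tensor: `tm (p2 ⊗ p1) i j = e2.repr p2 i * e1.repr p1 j` -/
noncomputable def tm : P2 ⊗[K] P1 →ₗ[K] Matrix n2 n1 K :=
  TensorProduct.lift (LinearMap.mk₂ K (fun p2 p1 => vecMulVec (e2.equivFun p2) (e1.equivFun p1))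
    (fun a b p => by rw [map_add, add_vecMulVec]) (fun c a p => by rw [map_smul, smul_vecMulVec])
    (fun a p q => by rw [map_add, vecMulVec_add]) (fun c a p => by rw [map_smul, vecMulVec_smul]))

@[simp] theorem tm_tmul (p2 : P2) (p1 : P1) :
    tm e1 e2 (p2 ⊗ₜ[K] p1) = vecMulVec (e2.equivFun p2) (e1.equivFun p1) := by
  simp [tm]




end T


section Q

variable {K : Type*} [Field K] {ι δ : Type*} [Fintype ι] [DecidableEq ι] [Fintype δ]
  [DecidableEq δ]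



variable {P1 P2 : Type*} [AddCommGroup P1] [Module K P1]
  [AddCommGroup P2] [Module K P2] {n1 n2 : Type*} [Fintype n1] [DecidableEq n1] [Fintype n2]
  [DecidableEq n2] (e1 : Basis n1 K P1) (e2 : Basis n2 K P2)

/-- the bilinear map `q` : `q p p' = F (U p) (U p')ᵀ S E` -/
noncomputable def qb {X : Type*} [AddCommGroup X] [Module K X] (L : Matrix n1 n1 K →ₗ[K] X) :
    P1 →ₗ[K] P1 →ₗ[K] X :=
  LinearMap.mk₂ K (fun p p' => L (vecMulVec (e1.equivFun p) (e1.equivFun p')))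
    (fun a b p => by rw [map_add, add_vecMulVec, map_add])
    (fun c a p => by rw [map_smul, smul_vecMulVec, map_smul])
    (fun a p q => by rw [map_add, vecMulVec_add, map_add])
    (fun c a p => by rw [map_smul, vecMulVec_smul, map_smul])

@[simp] theorem qb_apply {X : Type*} [AddCommGroup X] [Module K X] (L : Matrix n1 n1 K →ₗ[K] X)
    (p p' : P1) : qb e1 L p p' = L (vecMulVec (e1.equivFun p) (e1.equivFun p')) := rfl





end Q


section S

variable {K : Type*} [Field K] {ι δ : Type*} [Fintype ι] [DecidableEq ι] [Fintype δ]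
  [DecidableEq δ]
variable {P1 P2 : Type*} [AddCommGroup P1] [Module K P1]
  [AddCommGroup P2] [Module K P2] {n1 n2 : Type*} [Fintype n1] [DecidableEq n1] [Fintype n2]
  [DecidableEq n2] (e1 : Basis n1 K P1) (e2 : Basis n2 K P2) {τ : Type*} [Fintype τ]




end S

section LL

variable {K Y G E : Type*} [Field K] [AddCommGroup Y] [Module K Y] [AddCommGroup G] [Module K G]
  [AddCommGroup E] [Module K E]

/-- finite chains of the pencil `al - c be` modulo `𝓡` -/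
structure Chn (al be : Y →ₗ[K] G) (𝓡 : Submodule K G) (Z : ℕ → Y) (n : ℕ) : Prop where
  h0 : al (Z 0) ∈ 𝓡
  h1 : ∀ k, al (Z (k + 1)) - be (Z k) ∈ 𝓡
  hn : ∀ k, n ≤ k → Z k = 0

/-- the space spanned by all members of all chains -/
def LL (al be : Y →ₗ[K] G) (𝓡 : Submodule K G) : Submodule K Y :=
  Submodule.span K {y | ∃ Z n k, Chn al be 𝓡 Z n ∧ y = Z k}





end LL

section Nab

variable {K : Type*} [Field K] {k : Type*} [Field k] [Algebra k K]
variable {P1 P2 : Type*} [AddCommGroup P1] [Module K P1]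
  [AddCommGroup P2] [Module K P2] {n1 n2 : Type*} [Fintype n1] [DecidableEq n1] [Fintype n2]
  [DecidableEq n2] (e1 : Basis n1 K P1) (e2 : Basis n2 K P2) {τ : Type*} [Fintype τ]







variable (d : Derivation k K K) (Γ1 : Matrix n1 n1 K) (Γ2 : Matrix n2 n2 K)


























end Nab



section Final

variable {K : Type*} [Field K] {k : Type*} [Field k] [Algebra k K]
variable {ι δ : Type*} [Fintype ι] [DecidableEq ι] [Fintype δ] [DecidableEq δ]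
variable {P1 P2 : Type*} [AddCommGroup P1] [Module K P1]
  [AddCommGroup P2] [Module K P2] {n1 n2 : Type*} [Fintype n1] [DecidableEq n1] [Fintype n2]
  [DecidableEq n2] (e1 : Basis n1 K P1) (e2 : Basis n2 K P2) {τ : Type*} [Fintype τ]




end Final

end Crest.Agent.R172.SUX5
end

-- ▼ part R172/SDescM683
section

/-!
Row 172 (S0260), S-side, L2-f in MATRIX letters (second copy, helper683): `C_i` : frames of `P_i`
(`F U_i = Q_i C_i`), `a, bb` the operators on the `K^δ`-level frames, `X_s : m2 × m1`,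
`tm (x s) = C2 X_s C1ᵀ`; the corrections `β`, `γ` descend to `b`, `k` modulo `Z`, `Z2`.
-/

set_option autoImplicit false
set_option linter.unusedSectionVars false

namespace Crest.Agent.R172.SDesc683

open Module TensorProduct Matrix
open Crest.Agent.R172.RJM (ev)
open Crest.Agent.R172.RJP3 (evk CorK)
open Crest.Agent.R172.SUX5 (tm)

variable {K : Type*} [Field K] {τ : Type*} [Fintype τ]
variable {n1 n2 m1 m2 : Type*} [Fintype n1] [DecidableEq n1] [Fintype n2] [DecidableEq n2]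
  [Fintype m1] [DecidableEq m1] [Fintype m2] [DecidableEq m2]

/-- `ev` in matrix form -/
theorem ev_tm {G2 : Matrix n2 n2 K} {g : (n2 → K) →ₗ[K] (n2 → K) →ₗ[K] K}
    (hg : ∀ x y, g x y = x ⬝ᵥ (G2 *ᵥ y)) (z : (n2 → K) ⊗[K] (n1 → K)) (p : n2 → K) :
    ev g z p = (tm (Pi.basisFun K n1) (Pi.basisFun K n2) z)ᵀ *ᵥ (G2 *ᵥ p) := by
  induction z using TensorProduct.induction_on with
  | zero => simp
  | tmul a b =>
    rw [RJM.ev_tmul, SUX5.tm_tmul, transpose_vecMulVec, hg]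
    ext i
    simp only [Pi.smul_apply, smul_eq_mul, vecMulVec_mulVec, Pi.basisFun_equivFun,
      LinearEquiv.refl_apply]
    simp [mul_comm]
  | add x y hx hy =>
    rw [map_add, LinearMap.add_apply, hx, hy, map_add, transpose_add, add_mulVec]

/-- `evk` in matrix form -/
theorem evk_tm {G1 : Matrix n1 n1 K} {g : (n1 → K) →ₗ[K] (n1 → K) →ₗ[K] K}
    (hg : ∀ x y, g x y = x ⬝ᵥ (G1 *ᵥ y)) (z : (n2 → K) ⊗[K] (n1 → K)) (p : n1 → K) :
    evk g z p = (tm (Pi.basisFun K n1) (Pi.basisFun K n2) z) *ᵥ (G1 *ᵥ p) := by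
  induction z using TensorProduct.induction_on with
  | zero => simp
  | tmul a b =>
    rw [RJP3.evk_tmul, SUX5.tm_tmul, hg]
    ext i
    simp only [Pi.smul_apply, smul_eq_mul, vecMulVec_mulVec, Pi.basisFun_equivFun,
      LinearEquiv.refl_apply]
    simp [mul_comm]
  | add x y hx hy =>
    rw [map_add, LinearMap.add_apply, hx, hy, map_add, add_mulVec]

/-- **L2-f in matrix letters** -/
theorem exists_pairM {A : τ → Matrix n1 n1 K} {B : τ → Matrix n2 n2 K} {a : τ → Matrix m1 m1 K}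
    {bb : τ → Matrix m2 m2 K} {C1 : Matrix n1 m1 K} {C2 : Matrix n2 m2 K}
    (o1 : ∀ y, ∃ x, C1 *ᵥ x = y) (o2 : ∀ y, ∃ x, C2 *ᵥ x = y)
    (h1 : ∀ t, A t * C1 = C1 * a t) (h2 : ∀ t, B t * C2 = C2 * bb t)
    {R1 Z : Submodule K (n1 → K)} {R2 Z2 : Submodule K (n2 → K)}
    (sZ : ∀ t, ∀ z ∈ Z, A t *ᵥ z ∈ Z) (sZ2 : ∀ t, ∀ z ∈ Z2, B t *ᵥ z ∈ Z2)
    {G1 : Matrix n1 n1 K} {G2 : Matrix n2 n2 K}
    {g : (n2 → K) →ₗ[K] (n2 → K) →ₗ[K] K} (hg : ∀ x y, g x y = x ⬝ᵥ (G2 *ᵥ y))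
    {g1 : (n1 → K) →ₗ[K] (n1 → K) →ₗ[K] K} (hg1 : ∀ x y, g1 x y = x ⬝ᵥ (G1 *ᵥ y))
    {eps c : K} {X : τ → Matrix m2 m1 K} {x : τ → (n2 → K) ⊗[K] (n1 → K)}
    (hx : ∀ t, tm (Pi.basisFun K n1) (Pi.basisFun K n2) (x t) = C2 * X t * C1ᵀ)
    {β : Matrix m1 m2 K} {γ : Matrix m2 m1 K}
    (hR : ∀ u, C1 *ᵥ (β *ᵥ u) ∈ R1) (hZ : ∀ u, C2 *ᵥ u = 0 → C1 *ᵥ (β *ᵥ u) ∈ Z)
    (hR2 : ∀ u, C2 *ᵥ (γ *ᵥ u) ∈ R2) (hZ2 : ∀ u, C1 *ᵥ u = 0 → C2 *ᵥ (γ *ᵥ u) ∈ Z2)
    (hc : ∀ t u, C1 *ᵥ ((a t * (β - (X t)ᵀ * (C2ᵀ * G2 * C2)) -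
      (eps * c) • ((β - (X t)ᵀ * (C2ᵀ * G2 * C2)) * bb t)) *ᵥ u) ∈ Z)
    (hc2 : ∀ t u, C2 *ᵥ ((eps • ((γ - X t * (C1ᵀ * G1 * C1)) * a t) -
      c • (bb t * (γ - X t * (C1ᵀ * G1 * C1)))) *ᵥ u) ∈ Z2) :
    ∃ (b : (n2 → K) →ₗ[K] (n1 → K)) (k : (n1 → K) →ₗ[K] (n2 → K)),
      RJZ.Cor (fun t => (A t).mulVecLin) (fun t => (B t).mulVecLin) R1 Z g eps c x b ∧
      CorK (fun t => (A t).mulVecLin) (fun t => (B t).mulVecLin) R2 Z2 g1 eps c x k ∧
      (∀ u, b (C2 *ᵥ u) - C1 *ᵥ (β *ᵥ u) ∈ Z) ∧ ∀ u, k (C1 *ᵥ u) - C2 *ᵥ (γ *ᵥ u) ∈ Z2 := by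
  obtain ⟨b, hb1, hb2⟩ := exists_cor (p1 := C1.mulVecLin) (p2 := C2.mulVecLin)
    (a := fun t => (a t).mulVecLin) (bb := fun t => (bb t).mulVecLin)
    (A := fun t => (A t).mulVecLin) (B := fun t => (B t).mulVecLin) (R1 := R1) (Z := Z)
    (g := g) (eps := eps) (c := c) (x := x) (β := β.mulVecLin)
    (e := fun t => ((X t)ᵀ * (C2ᵀ * G2 * C2)).mulVecLin) (fun y => o2 y)
    (fun t u => by
      simp only [mulVecLin_apply, mulVec_mulVec, h1 t])
    (fun t u => by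
      simp only [mulVecLin_apply, mulVec_mulVec, h2 t])
    (fun t z hz => sZ t z hz)
    (fun t u => by
      rw [mulVecLin_apply, mulVecLin_apply, mulVecLin_apply, ev_tm hg, hx t, transpose_mul,
        transpose_mul, transpose_transpose]
      simp only [mulVec_mulVec, Matrix.mul_assoc])
    (fun u => hR u) (fun u hu => hZ u hu)
    (fun t u => by
      have h := hc t u
      simp only [mulVecLin_apply]
      convert h using 1
      rw [← mulVec_sub]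
      congr 1
      simp only [Matrix.mul_sub, Matrix.sub_mul, sub_mulVec, smul_mulVec, mulVec_mulVec, smul_sub,
        Matrix.mul_assoc]
      abel)
  obtain ⟨k, hk1, hk2⟩ := exists_corK (p1 := C1.mulVecLin) (p2 := C2.mulVecLin)
    (a := fun t => (a t).mulVecLin) (bb := fun t => (bb t).mulVecLin)
    (A := fun t => (A t).mulVecLin) (B := fun t => (B t).mulVecLin) (R2 := R2) (Z2 := Z2)
    (g1 := g1) (eps := eps) (c := c) (x := x) (γ := γ.mulVecLin)
    (e := fun t => (X t * (C1ᵀ * G1 * C1)).mulVecLin) (fun y => o1 y)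
    (fun t u => by
      simp only [mulVecLin_apply, mulVec_mulVec, h1 t])
    (fun t u => by
      simp only [mulVecLin_apply, mulVec_mulVec, h2 t])
    (fun t z hz => sZ2 t z hz)
    (fun t u => by
      rw [mulVecLin_apply, mulVecLin_apply, mulVecLin_apply, evk_tm hg1, hx t]
      simp only [mulVec_mulVec, Matrix.mul_assoc])
    (fun u => hR2 u) (fun u hu => hZ2 u hu)
    (fun t u => by
      have h := hc2 t u
      simp only [mulVecLin_apply]
      have e : (eps • ((γ - X t * (C1ᵀ * G1 * C1)) * a t) -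
          c • (bb t * (γ - X t * (C1ᵀ * G1 * C1)))) *ᵥ u =
          eps • (γ *ᵥ (a t *ᵥ u) - (X t * (C1ᵀ * G1 * C1)) *ᵥ (a t *ᵥ u)) -
          c • (bb t *ᵥ (γ *ᵥ u) - bb t *ᵥ ((X t * (C1ᵀ * G1 * C1)) *ᵥ u)) := by
        simp only [Matrix.mul_sub, Matrix.sub_mul, sub_mulVec, smul_mulVec, mulVec_mulVec, smul_sub,
          Matrix.mul_assoc]
      rw [e] at h
      exact h)
  exact ⟨b, k, hb1, hk1, fun u => hb2 u, fun u => hk2 u⟩

end Crest.Agent.R172.SDesc683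
end

-- ▼ part R172/SLB562c
section

/-!
Row 172 (S0260), (t2), Lev2: from the frames to `SLB562.core` (lift of exact families, arms, descent).
-/

set_option autoImplicit false
set_option linter.unusedSectionVars false
set_option maxHeartbeats 400000

namespace Crest.Agent.R172.SLB562

open Matrix Module Crest.Agent.R172.FO Crest.Agent.R172.Qt Crest.Agent.R172.SpS
open Crest.Agent.R172.SEnd Crest.Agent.R172.SEnd2 Crest.Agent.R172.SCM
open Crest.Agent.R172.SLev0 (bq bq_apply gF gF_apply gF_flip gens_self PbK Gens)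
open Crest.Agent.R172.PL (CoreM)
open scoped TensorProduct

section mats

variable {K : Type*} [Field K] {n1 n2 m1 m2 : ℕ}

theorem mt_map (C2 : Matrix (Fin n2) (Fin m2) K) (C1 : Matrix (Fin n1) (Fin m1) K)
    (z : (Fin m2 → K) ⊗[K] (Fin m1 → K)) :
    mt (TensorProduct.map C2.mulVecLin C1.mulVecLin z) = C2 * mt z * C1ᵀ := by
  induction z using TensorProduct.induction_on with
  | zero => simp
  | tmul x y =>
    rw [TensorProduct.map_tmul, mt_tmul, mt_tmul, mulVecLin_apply, mulVecLin_apply,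
      Matrix.mul_vecMulVec, Matrix.vecMulVec_mul, vecMul_transpose]
  | add x y hx hy => rw [map_add, map_add, hx, hy, map_add, Matrix.mul_add, Matrix.add_mul]

theorem mt_lT (a : Matrix (Fin m1) (Fin m1) K) (z : (Fin m2 → K) ⊗[K] (Fin m1 → K)) :
    mt (a.mulVecLin.lTensor (Fin m2 → K) z) = mt z * aᵀ := by
  induction z using TensorProduct.induction_on with
  | zero => simp
  | tmul x y =>
    rw [LinearMap.lTensor_tmul, mt_tmul, mt_tmul, mulVecLin_apply, Matrix.vecMulVec_mul,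
      vecMul_transpose]
  | add x y hx hy => rw [map_add, map_add, hx, hy, map_add, Matrix.add_mul]

theorem mt_rT (a : Matrix (Fin m2) (Fin m2) K) (z : (Fin m2 → K) ⊗[K] (Fin m1 → K)) :
    mt (a.mulVecLin.rTensor (Fin m1 → K) z) = a * mt z := by
  induction z using TensorProduct.induction_on with
  | zero => simp
  | tmul x y =>
    rw [LinearMap.rTensor_tmul, mt_tmul, mt_tmul, mulVecLin_apply, Matrix.mul_vecMulVec]
  | add x y hx hy => rw [map_add, map_add, hx, hy, map_add, Matrix.mul_add]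

theorem mt_eq_tm (z : (Fin m2 → K) ⊗[K] (Fin m1 → K)) :
    SUX5.tm (Pi.basisFun K (Fin m1)) (Pi.basisFun K (Fin m2)) z = mt z := by
  induction z using TensorProduct.induction_on with
  | zero => simp
  | tmul x y =>
    rw [SUX5.tm_tmul, mt_tmul]
    simp only [Pi.basisFun_equivFun, LinearEquiv.refl_apply]
  | add x y hx hy => rw [map_add, map_add, hx, hy]

variable {A1 : Fin 3 → Matrix (Fin n1) (Fin n1) K} {A2 : Fin 3 → Matrix (Fin n2) (Fin n2) K}
  {a1 : Fin 3 → Matrix (Fin m1) (Fin m1) K} {a2 : Fin 3 → Matrix (Fin m2) (Fin m2) K}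
  {C1 : Matrix (Fin n1) (Fin m1) K} {C2 : Matrix (Fin n2) (Fin m2) K}

/-- **sum-exact lift to the frames** -/
theorem lift_frame (o1 : ∀ y, ∃ x, C1 *ᵥ x = y) (o2 : ∀ y, ∃ x, C2 *ᵥ x = y)
    (h1 : ∀ s, A1 s * C1 = C1 * a1 s) (h2 : ∀ s, A2 s * C2 = C2 * a2 s)
    (k1 : ∀ s x, C1 *ᵥ x = 0 → a1 s *ᵥ x = 0) (k2 : ∀ s x, C2 *ᵥ x = 0 → a2 s *ᵥ x = 0)
    (t1 : ⨆ t, LinearMap.range (a1 t).mulVecLin = ⊤)
    (t2 : ⨆ t, LinearMap.range (a2 t).mulVecLin = ⊤)
    {c : K} (hc : c ≠ 0) (x : Fin 3 → (Fin n2 → K) ⊗[K] (Fin n1 → K))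
    (hx : ∑ t, RJM.DD (fun s => (A1 s).mulVecLin) (fun s => (A2 s).mulVecLin) c t (x t) = 0) :
    ∃ X : Fin 3 → Matrix (Fin m2) (Fin m1) K, (∀ s, C2 * X s * C1ᵀ = mt (x s)) ∧
      ∑ s, (X s * (a1 s)ᵀ - c • (a2 s * X s)) = 0 := by
  obtain ⟨z, hz, hz'⟩ := SULift.lift_surj (π1 := C1.mulVecLin) (π2 := C2.mulVecLin)
    (A := fun t => (a1 t).mulVecLin) (B := fun t => (a2 t).mulVecLin)
    (a := fun t => (A1 t).mulVecLin) (b := fun t => (A2 t).mulVecLin)
    (fun y => o1 y) (fun y => o2 y)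
    (fun t v => by simp only [mulVecLin_apply, mulVec_mulVec, h1])
    (fun t v => by simp only [mulVecLin_apply, mulVec_mulVec, h2])
    t1 t2 (fun t y hy => k1 t y hy) (fun t y hy => k2 t y hy) hc x hx
  refine ⟨fun s => mt (z s), fun s => ?_, ?_⟩
  · rw [← mt_map, hz]
  · have e := congrArg mt hz'
    rw [map_zero, map_sum] at e
    rw [← e]
    refine Finset.sum_congr rfl fun s _ => ?_
    rw [map_sub, map_smul, mt_lT, mt_rT]

/-- radical arms in matrix form -/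
theorem arm_zero {G1 : Matrix (Fin n1) (Fin n1) K} {G2 : Matrix (Fin n2) (Fin n2) K}
    (hG1 : G1ᵀ = -G1) {w : (Fin n2 → K) ⊗[K] (Fin n1 → K)}
    (hw : w ∈ (RJM.RT (LinearMap.ker G2.mulVecLin) ⊔ RJM.TR (LinearMap.ker G1.mulVecLin) :
      Submodule K ((Fin n2 → K) ⊗[K] (Fin n1 → K)))) : G2 * mt w * G1 = 0 := by
  let L : ((Fin n2 → K) ⊗[K] (Fin n1 → K)) →ₗ[K] Matrix (Fin n2) (Fin n1) K :=
    { toFun := fun w => G2 * mt w * G1
      map_add' := fun a b => by rw [map_add, Matrix.mul_add, Matrix.add_mul]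
      map_smul' := fun t a => by
        rw [map_smul, Matrix.mul_smul, Matrix.smul_mul, RingHom.id_apply] }
  have hle : (RJM.RT (LinearMap.ker G2.mulVecLin) ⊔ RJM.TR (LinearMap.ker G1.mulVecLin) :
      Submodule K ((Fin n2 → K) ⊗[K] (Fin n1 → K))) ≤ LinearMap.ker L := by
    refine sup_le (Submodule.span_le.2 ?_) (Submodule.span_le.2 ?_)
    · rintro _ ⟨r, hr, p, rfl⟩
      rw [LinearMap.mem_ker, mulVecLin_apply] at hr
      change G2 * mt (r ⊗ₜ[K] p) * G1 = 0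
      rw [mt_tmul, Matrix.mul_vecMulVec, hr, zero_vecMulVec, Matrix.zero_mul]
    · rintro _ ⟨p, r, hr, rfl⟩
      rw [LinearMap.mem_ker, mulVecLin_apply] at hr
      change G2 * mt (p ⊗ₜ[K] r) * G1 = 0
      rw [mt_tmul, Matrix.mul_assoc, Matrix.vecMulVec_mul]
      have : r ᵥ* G1 = 0 := by
        rw [← mulVec_transpose, hG1, neg_mulVec, hr, neg_zero]
      rw [this]
      have h0 : vecMulVec p (0 : Fin n1 → K) = 0 := by ext i j; simp [vecMulVec_apply]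
      rw [h0, Matrix.mul_zero]
  exact hle hw

/-- radical arms of the lift -/
theorem arm_frame (h1 : ∀ s, A1 s * C1 = C1 * a1 s) (h2 : ∀ s, A2 s * C2 = C2 * a2 s)
    {G1 : Matrix (Fin n1) (Fin n1) K} {G2 : Matrix (Fin n2) (Fin n2) K} (hG1 : G1ᵀ = -G1)
    {g1 : Matrix (Fin m1) (Fin m1) K} {g2 : Matrix (Fin m2) (Fin m2) K}
    (e1 : g1 = C1ᵀ * G1 * C1) (e2 : g2 = C2ᵀ * G2 * C2)
    {c : K} {x : Fin 3 → (Fin n2 → K) ⊗[K] (Fin n1 → K)} (s : Fin 3)
    (hx : RJM.DD (fun s => (A1 s).mulVecLin) (fun s => (A2 s).mulVecLin) c s (x s) ∈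
      (RJM.RT (LinearMap.ker G2.mulVecLin) ⊔ RJM.TR (LinearMap.ker G1.mulVecLin) :
      Submodule K ((Fin n2 → K) ⊗[K] (Fin n1 → K))))
    {X : Matrix (Fin m2) (Fin m1) K} (hX : C2 * X * C1ᵀ = mt (x s)) :
    g2 * (X * (a1 s)ᵀ - c • (a2 s * X)) * g1 = 0 := by
  have h := arm_zero hG1 hx
  rw [RJM.DD, LinearMap.sub_apply, LinearMap.smul_apply, map_sub, map_smul, mt_lT, mt_rT,
    ← hX] at h
  have e3 : C2 * X * C1ᵀ * (A1 s)ᵀ = C2 * (X * (a1 s)ᵀ) * C1ᵀ := by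
    have : C1ᵀ * (A1 s)ᵀ = (a1 s)ᵀ * C1ᵀ := by rw [← transpose_mul, h1, transpose_mul]
    simp only [Matrix.mul_assoc]
    rw [this]
  have e4 : A2 s * (C2 * X * C1ᵀ) = C2 * (a2 s * X) * C1ᵀ := by
    have : A2 s * (C2 * X * C1ᵀ) = (A2 s * C2) * X * C1ᵀ := by simp only [Matrix.mul_assoc]
    rw [this, h2]
    simp only [Matrix.mul_assoc]
  rw [e3, e4] at h
  have e5 : g2 * (X * (a1 s)ᵀ - c • (a2 s * X)) * g1 =
      C2ᵀ * (G2 * (C2 * (X * (a1 s)ᵀ) * C1ᵀ - c • (C2 * (a2 s * X) * C1ᵀ)) * G1) * C1 := by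
    rw [e1, e2]
    simp only [Matrix.mul_sub, Matrix.sub_mul, Matrix.mul_smul, Matrix.smul_mul, Matrix.mul_assoc]
  rw [e5, h, Matrix.mul_zero, Matrix.zero_mul]

/-- onto: left cancellation of the transpose -/
theorem onto_cancel (o1 : ∀ y, ∃ x, C1 *ᵥ x = y) {v : Fin n1 → K} (h : C1ᵀ *ᵥ v = 0) : v = 0 := by
  refine dotProduct_eq_zero _ fun w => ?_
  obtain ⟨x, rfl⟩ := o1 w
  rw [← vecMul_transpose, dotProduct_comm, ← dotProduct_mulVec, h, dotProduct_zero]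

end mats

section top

variable {K : Type*} [Field K] {δ : Type*} [Fintype δ] [DecidableEq δ] {m : ℕ}

theorem top_frame {Q : Submodule K (δ → K)} {U : Matrix δ (Fin m) K}
    {a : Fin 3 → Matrix (Fin m) (Fin m) K} {w : Fin 3 → Matrix δ δ K}
    (hs : ∀ u ∈ Q, ∃ x, u = U *ᵥ x) (hm : ∀ x, U *ᵥ x ∈ Q) (hi : ∀ x, U *ᵥ x = 0 → x = 0)
    (ha : ∀ s, w s * U = U * a s)
    (hp : ∀ u ∈ Q, ∃ c : Fin 3 → (δ → K), (∀ s, c s ∈ Q) ∧ ∑ s, w s *ᵥ (c s) = u) :
    ⨆ t, LinearMap.range (a t).mulVecLin = ⊤ := by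
  rw [eq_top_iff]
  intro x _
  obtain ⟨c, hc, e⟩ := hp _ (hm x)
  choose y hy using fun s => hs _ (hc s)
  have hx : x = ∑ s, a s *ᵥ y s := by
    refine sub_eq_zero.1 (hi _ ?_)
    rw [mulVec_sub, ← e, mulVec_sum, ← Finset.sum_sub_distrib]
    refine Finset.sum_eq_zero fun s _ => ?_
    rw [hy s, mulVec_mulVec, mulVec_mulVec, ha, sub_self]
  rw [hx]
  exact Submodule.sum_mem _ fun s _ => Submodule.mem_iSup_of_mem s ⟨y s, mulVecLin_apply _ _⟩

end top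

end Crest.Agent.R172.SLB562
end

-- ▼ part R172/SZ1
section

/-!
Row 172 (S0260), S-side (t2): the intersection `Z ν` of the block `P ν` with the sum of the other blocks
(helper580): it is stable, contained in the radical, and its elements are sums of RADICAL elements of the
other blocks (so it is harmless by the first level).
-/

set_option autoImplicit false
set_option linter.unusedSectionVars false

namespace Crest.Agent.R172.SZ1

open Module
open Crest.Agent.R172.St (T mem_T T_stable)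
open Crest.Agent.R172.PL (Ainf CoreM coreOp resOp Rad)
open Crest.Agent.R172.SC (PB PB_mem PB_exists PB_stable PB_le_Ainf mk_zero_iff)

section abs

variable {K : Type*} [Field K] {X : Type*} [AddCommGroup X] [Module K X]
  {a : Fin 3 → End K X} {D : End K (CoreM a)}

/-- the sum of the other blocks -/
def Ot (a : Fin 3 → End K X) (D : End K (CoreM a)) (ν : K) : Submodule K X :=
  ⨆ (μ : K) (_ : μ ≠ ν), PB a D μ

theorem Ot_stable (hD : ∀ s x, D (coreOp a s x) = coreOp a s (D x)) (ν : K) (s : Fin 3) :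
    ∀ v ∈ Ot a D ν, a s v ∈ Ot a D ν := by
  have h : Ot a D ν ≤ (Ot a D ν).comap (a s) := by
    refine iSup_le fun μ => iSup_le fun hμ v hv => ?_
    exact Submodule.mem_iSup_of_mem μ (Submodule.mem_iSup_of_mem hμ (PB_stable hD μ s hv))
  exact fun v hv => h hv

/-- elements of the sum of the other blocks -/
theorem Ot_exists {ν : K} {v : X} (hv : v ∈ Ot a D ν) :
    ∃ (S : Finset K) (f : K → X), (∀ μ ∈ S, μ ≠ ν) ∧ (∀ μ ∈ S, f μ ∈ PB a D μ) ∧
      v = ∑ μ ∈ S, f μ := by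
  classical
  unfold Ot at hv
  rw [iSup_subtype'] at hv
  obtain ⟨f, hf1, hf2⟩ := (Submodule.mem_iSup_iff_exists_finsupp
    (fun μ : {μ : K // μ ≠ ν} => PB a D μ.1) v).1 hv
  refine ⟨f.support.map ⟨Subtype.val, Subtype.val_injective⟩,
    fun μ => if h : μ ≠ ν then f ⟨μ, h⟩ else 0, ?_, ?_, ?_⟩
  · intro μ hμ
    obtain ⟨x, -, rfl⟩ := Finset.mem_map.1 hμ
    exact x.2
  · intro μ hμ
    obtain ⟨x, -, rfl⟩ := Finset.mem_map.1 hμ
    change (if h : x.1 ≠ ν then f ⟨x.1, h⟩ else 0) ∈ PB a D x.1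
    rw [dif_pos x.2]
    exact hf1 x
  · rw [Finset.sum_map, ← hf2]
    refine Finset.sum_congr rfl fun x _ => ?_
    change f x = (if h : x.1 ≠ ν then f ⟨x.1, h⟩ else 0)
    rw [dif_pos x.2]

/-- **an element of `P ν` in the sum of the other blocks is a sum of radical elements of the other
blocks**, and it is in the radical itself. -/
theorem inter_rad {ν : K} {v : X} (hv : v ∈ PB a D ν) (hv' : v ∈ Ot a D ν) :
    v ∈ T a ∧ ∃ (S : Finset K) (f : K → X), (∀ μ ∈ S, μ ≠ ν) ∧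
      (∀ μ ∈ S, f μ ∈ PB a D μ ∧ f μ ∈ T a) ∧ v = ∑ μ ∈ S, f μ := by
  classical
  obtain ⟨S, f, h1, h2, h3⟩ := Ot_exists hv'
  obtain ⟨hA, hm⟩ := PB_mem hv
  -- the classes
  let c : K → CoreM a := fun μ => if h : f μ ∈ Ainf a then (Rad a).mkQ ⟨f μ, h⟩ else 0
  have hc : ∀ μ ∈ S, c μ ∈ D.maxGenEigenspace μ := by
    intro μ hμ
    obtain ⟨h4, h5⟩ := PB_mem (h2 μ hμ)
    simp only [c, dif_pos h4]
    exact h5
  have hAs : ∀ μ ∈ S, f μ ∈ Ainf a := fun μ hμ => PB_le_Ainf μ (h2 μ hμ)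
  have hsum : (Rad a).mkQ ⟨v, hA⟩ = ∑ μ ∈ S, c μ := by
    have h4 : (⟨v, hA⟩ : Ainf a) = ∑ μ ∈ S, (if h : f μ ∈ Ainf a then ⟨f μ, h⟩ else 0) := by
      apply Subtype.ext
      rw [Submodule.coe_sum]
      change v = _
      rw [h3]
      refine Finset.sum_congr rfl fun μ hμ => ?_
      rw [dif_pos (hAs μ hμ)]
    rw [h4, map_sum]
    refine Finset.sum_congr rfl fun μ hμ => ?_
    simp only [c, dif_pos (hAs μ hμ)]
  -- independence
  have hind := Module.End.independent_maxGenEigenspace D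
  have hνS : ν ∉ S := fun h => h1 ν h rfl
  have hzero : ∀ μ ∈ insert ν S, (if μ = ν then -(Rad a).mkQ ⟨v, hA⟩ else c μ) = 0 := by
    have h5 : ∑ μ ∈ insert ν S, (if μ = ν then -(Rad a).mkQ ⟨v, hA⟩ else c μ) = 0 := by
      rw [Finset.sum_insert hνS, if_pos rfl, hsum]
      have h6 : ∑ μ ∈ S, (if μ = ν then -∑ μ ∈ S, c μ else c μ) = ∑ μ ∈ S, c μ :=
        Finset.sum_congr rfl fun μ hμ => by rw [if_neg (h1 μ hμ)]
      rw [h6, neg_add_cancel]
    intro μ hμ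
    exact (iSupIndep_iff_finsetSum_eq_zero_imp_eq_zero _).1 hind (insert ν S)
      (fun μ => if μ = ν then -(Rad a).mkQ ⟨v, hA⟩ else c μ) (fun μ hμ => by
        by_cases h : μ = ν
        · rw [if_pos h, h]; exact Submodule.neg_mem _ hm
        · rw [if_neg h]
          exact hc μ ((Finset.mem_insert.1 hμ).resolve_left h)) h5 μ hμ
  refine ⟨?_, S, f, h1, fun μ hμ => ⟨h2 μ hμ, ?_⟩, h3⟩
  · have h6 := hzero ν (Finset.mem_insert_self ν S)
    rw [if_pos rfl, neg_eq_zero] at h6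
    exact (mk_zero_iff hA).1 h6
  · have h6 := hzero μ (Finset.mem_insert_of_mem hμ)
    rw [if_neg (h1 μ hμ)] at h6
    simp only [c, dif_pos (hAs μ hμ)] at h6
    exact (mk_zero_iff (hAs μ hμ)).1 h6

end abs

section mat

open Matrix Crest.Agent.R172.FO Crest.Agent.R172.Qt Crest.Agent.R172.SpS
  Crest.Agent.R172.SEnd Crest.Agent.R172.SEnd2 Crest.Agent.R172.SBlk Crest.Agent.R172.SCM

variable {ι : Type*} [Fintype ι] [DecidableEq ι] {δ : Type*} [Fintype δ] [DecidableEq δ]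
variable {K : Type*} [Field K]
variable {arm : δ → Fin 3} {J : Matrix ι ι K} {B : Matrix δ δ K}
  {g : Matrix ι δ K} {R : Matrix δ ι K} {X : Matrix ι ι K}
  {D : End K (CoreM (PhS arm J B g R X))} {ν : K} {l : Fin 3 → ℕ} {n : ℕ}
  {P : Matrix ι (Fin n) K} {A : Fin 3 → Matrix (Fin n) (Fin n) K}

/-- `Z ν` in the coordinates of the block `P` -/
def Zn (arm : δ → Fin 3) (J : Matrix ι ι K) (B : Matrix δ δ K) (g : Matrix ι δ K)
    (R : Matrix δ ι K) (X : Matrix ι ι K) (D : End K (CoreM (PhS arm J B g R X))) (ν : K)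
    {n : ℕ} (P : Matrix ι (Fin n) K) : Submodule K (Fin n → K) :=
  ((Ot (PhS arm J B g R X) D ν).map (Sg g).subtype).comap P.mulVecLin

theorem mem_Zn {x : Fin n → K} : x ∈ Zn arm J B g R X D ν P ↔
    ∃ v ∈ Ot (PhS arm J B g R X) D ν, ((v : Sg g) : ι → K) = P *ᵥ x := Iff.rfl

theorem Zn_stable (hR : g * R * g = g)
    (hDc : ∀ s x, D (coreOp (PhS arm J B g R X) s x) = coreOp (PhS arm J B g R X) s (D x))
    (h : BPkg arm J B g R X D ν l P A) (s : Fin 3) :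
    ∀ x ∈ Zn arm J B g R X D ν P, (A s).mulVecLin x ∈ Zn arm J B g R X D ν P := by
  intro x hx
  obtain ⟨v, hv, hvx⟩ := mem_Zn.1 hx
  refine mem_Zn.2 ⟨PhS arm J B g R X s v, Ot_stable hDc ν s v hv, ?_⟩
  rw [PhS_coe hR, hvx, mulVecLin_apply, mulVec_mulVec, mulVec_mulVec, h.act]

/-- **the elements of `Z ν`** : in the radical, and sums of radical elements of the other blocks. -/
theorem Zn_rad (h : BPkg arm J B g R X D ν l P A) {x : Fin n → K}
    (hx : x ∈ Zn arm J B g R X D ν P) :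
    (Pᵀ * (J * X) * P) *ᵥ x = 0 ∧ ∃ (S : Finset K) (f : K → Sg g), (∀ μ ∈ S, μ ≠ ν) ∧
      (∀ μ ∈ S, f μ ∈ PB (PhS arm J B g R X) D μ ∧ f μ ∈ T (PhS arm J B g R X)) ∧
      P *ᵥ x = ∑ μ ∈ S, ((f μ : Sg g) : ι → K) := by
  obtain ⟨v, hv, hvx⟩ := mem_Zn.1 hx
  obtain ⟨w, hw, hwx⟩ := h.mem x
  have hvw : w = v := Subtype.ext (hwx.trans hvx.symm)
  rw [hvw] at hw
  obtain ⟨h1, S, f, h2, h3, h4⟩ := inter_rad hw hv
  refine ⟨(h.rad x v hvx).1 h1, S, f, h2, h3, ?_⟩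
  rw [← hvx, h4, Submodule.coe_sum]


/-- **harmlessness**: a property of vectors which is additive and holds for the radical elements of the
other blocks holds on `Z ν`. -/
theorem Zn_ind (h : BPkg arm J B g R X D ν l P A) {C : Submodule K (ι → K)}
    (hC : ∀ μ, μ ≠ ν → ∀ v ∈ PB (PhS arm J B g R X) D μ, v ∈ T (PhS arm J B g R X) →
      ((v : Sg g) : ι → K) ∈ C) {x : Fin n → K} (hx : x ∈ Zn arm J B g R X D ν P) :
    P *ᵥ x ∈ C := by
  obtain ⟨-, S, f, h2, h3, h4⟩ := Zn_rad h hx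
  rw [h4]
  exact C.sum_mem fun μ hμ => hC μ (h2 μ hμ) _ (h3 μ hμ).1 (h3 μ hμ).2



end mat

end Crest.Agent.R172.SZ1
end

-- ▼ part R172/SZq842
section

/-!
Row 172 (S0260), tame node (t2), second level (row L2-z): the intersection `Zn` of the block `ν` with the
sum of the other blocks is harmless: `sZ`, `hZq`, `hqZ` of `SLev0.lev2Z` / `RJP3.main3` from the
generators of the pairs `(μ, ν)`, `(ν, μ)`, `μ ≠ ν` (first level).
-/

set_option autoImplicit false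
set_option linter.unusedSectionVars false

namespace Crest.Agent.R172.SZq842

open Matrix Module Crest.Agent.R172.FO Crest.Agent.R172.Qt Crest.Agent.R172.SpS
open Crest.Agent.R172.SEnd Crest.Agent.R172.SEnd2 Crest.Agent.R172.SBlk Crest.Agent.R172.SCM
open Crest.Agent.R172.PL (Ainf Rad CoreM coreOp)
open Crest.Agent.R172.St (Nk T mem_T mem_Nk_zero mem_Nk_succ T_eq_Nk)
open Crest.Agent.R172.SC (PB PB_mem PB_exists)
open Crest.Agent.R172.SLev0 (bq bq_apply PbK exists_coord coord_mem)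
open Crest.Agent.R172.SZ1 (Zn Zn_ind Zn_stable)

section free

variable {K : Type*} [Field K] {V : Type*} [AddCommGroup V] [Module K V] [FiniteDimensional K V]

/-- no block at a non-eigenvalue -/
theorem PB_bot {Φ : Fin 3 → End K V} {D : End K (CoreM Φ)}
    (hD : ∀ s x, D (coreOp Φ s x) = coreOp Φ s (D x)) {ν : K}
    (hν : D.maxGenEigenspace ν = ⊥) : PB Φ D ν = ⊥ := by
  obtain ⟨m, hm⟩ := T_eq_Nk Φ
  have h0 : PB Φ D ν ≤ Nk Φ m := by
    intro v hv
    obtain ⟨h, h1⟩ := PB_mem hv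
    rw [hν, Submodule.mem_bot] at h1
    rw [← hm]
    exact (SC.mk_zero_iff h).1 h1
  have h1 : ∀ j, PB Φ D ν ≤ Nk Φ j → PB Φ D ν ≤ Nk Φ 0 := by
    intro j
    induction j with
    | zero => exact id
    | succ j ih =>
      intro h
      refine ih fun v hv => ?_
      obtain ⟨f, hf, hs⟩ := PB_exists hD ν hv
      rw [← hs]
      exact Submodule.sum_mem _ fun s _ => mem_Nk_succ.1 (h (hf s)) s
  rw [eq_bot_iff]
  intro v hv
  exact (Submodule.mem_bot K).2 (mem_Nk_zero.1 (h1 m h0 hv))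

end free

variable {ι : Type*} [Fintype ι] [DecidableEq ι] {δ : Type*} [Fintype δ] [DecidableEq δ]
variable {K : Type*} [Field K]
variable {arm : δ → Fin 3} {J : Matrix ι ι K} {B : Matrix δ δ K}
  {g : Matrix ι δ K} {R : Matrix δ ι K} {X : Matrix ι ι K}
  {D : End K (CoreM (PhS arm J B g R X))} {ν : K} {l : Fin 3 → ℕ} {n : ℕ}
  {P : Matrix ι (Fin n) K} {A : Fin 3 → Matrix (Fin n) (Fin n) K}

/-- a radical element of a block is in `Rd` of the block -/
theorem rd_of_T {μ : K} {n' : ℕ} {P' : Matrix ι (Fin n') K}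
    {A' : Fin 3 → Matrix (Fin n') (Fin n') K} (b : BPkg arm J B g R X D μ l P' A') {v : Sg g}
    (hv : v ∈ PB (PhS arm J B g R X) D μ) (hT : v ∈ T (PhS arm J B g R X)) :
    ((v : Sg g) : ι → K) ∈ Rd (J * X) (PbK arm J B g R X D μ) := by
  obtain ⟨x, hx⟩ := b.span v hv
  refine mem_Rd.2 ⟨⟨v, hv, rfl⟩, ?_⟩
  intro a ha
  obtain ⟨y, rfl⟩ := exists_coord b ha
  have h1 := (b.rad x v hx).1 hT
  rw [hx]
  have h2 : (P' *ᵥ y) ⬝ᵥ ((J * X) *ᵥ (P' *ᵥ x)) = y ⬝ᵥ ((P'ᵀ * (J * X) * P') *ᵥ x) := by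
    rw [Matrix.mul_assoc, ← mulVec_mulVec x P'ᵀ, dotProduct_mulVec y P'ᵀ, vecMul_transpose]
    simp only [mulVec_mulVec]
  rw [h2, h1, dotProduct_zero]

/-- left multiplication slot -/
def lm (arm : δ → Fin 3) (J : Matrix ι ι K) (g : Matrix ι δ K) (X : Matrix ι ι K) (s : Fin 3)
    (c : ι → K) : (ι → K) →ₗ[K] Matrix ι δ K where
  toFun a := vecMulVec a c * (J * X) * g * E K arm s
  map_add' a b := by
    rw [add_vecMulVec, Matrix.add_mul, Matrix.add_mul, Matrix.add_mul]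
  map_smul' t a := by
    rw [smul_vecMulVec, Matrix.smul_mul, Matrix.smul_mul, Matrix.smul_mul, RingHom.id_apply]

/-- right multiplication slot -/
def rm (arm : δ → Fin 3) (J : Matrix ι ι K) (g : Matrix ι δ K) (X : Matrix ι ι K) (s : Fin 3)
    (c : ι → K) : (ι → K) →ₗ[K] Matrix ι δ K where
  toFun a := vecMulVec c a * (J * X) * g * E K arm s
  map_add' a b := by
    rw [vecMulVec_add, Matrix.add_mul, Matrix.add_mul, Matrix.add_mul]
  map_smul' t a := by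
    rw [vecMulVec_smul, Matrix.smul_mul, Matrix.smul_mul, Matrix.smul_mul, RingHom.id_apply]

section main

variable (b : BPkg arm J B g R X D ν l P A)
  (hD : ∀ s x, D (coreOp (PhS arm J B g R X) s x) = coreOp (PhS arm J B g R X) s (D x))
  (hpkg : ∀ μ, D.maxGenEigenspace μ ≠ ⊥ → ∃ (n : ℕ) (Q : Matrix ι (Fin n) K)
    (A : Fin 3 → Matrix (Fin n) (Fin n) K), BPkg arm J B g R X D μ l Q A)
  (Q : Submodule K (Matrix ι δ K))

include b hD hpkg

/-- **`hZq`** -/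
theorem hZq (hG : ∀ μ, μ ≠ ν → D.maxGenEigenspace μ ≠ ⊥ →
      SLev0.Gens arm J B g X l Q (PbK arm J B g R X D μ) (PbK arm J B g R X D ν)) :
    ∀ t, ∀ z ∈ Zn arm J B g R X D ν P, ∀ y, bq arm J g X P P t z y ∈ Q := by
  intro t z hz y
  rw [bq_apply]
  refine Zn_ind b (C := Q.comap (lm arm J g X t (P *ᵥ y))) ?_ hz
  intro μ hμ v hv hT
  by_cases h0 : D.maxGenEigenspace μ = ⊥
  · have h1 : v ∈ (⊥ : Submodule K (Sg g)) := by rw [← PB_bot hD h0]; exact hv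
    rw [(Submodule.mem_bot K).1 h1, Submodule.coe_zero]
    exact Submodule.zero_mem _
  · obtain ⟨n', P', A', b'⟩ := hpkg μ h0
    exact (hG μ hμ h0).g2 t _ (rd_of_T b' hv hT) _ (coord_mem b y)

/-- **`hqZ`** -/
theorem hqZ (hG : ∀ μ, μ ≠ ν → D.maxGenEigenspace μ ≠ ⊥ →
      SLev0.Gens arm J B g X l Q (PbK arm J B g R X D ν) (PbK arm J B g R X D μ)) :
    ∀ t, ∀ z ∈ Zn arm J B g R X D ν P, ∀ y, bq arm J g X P P t y z ∈ Q := by
  intro t z hz y
  rw [bq_apply]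
  refine Zn_ind b (C := Q.comap (rm arm J g X t (P *ᵥ y))) ?_ hz
  intro μ hμ v hv hT
  by_cases h0 : D.maxGenEigenspace μ = ⊥
  · have h1 : v ∈ (⊥ : Submodule K (Sg g)) := by rw [← PB_bot hD h0]; exact hv
    rw [(Submodule.mem_bot K).1 h1, Submodule.coe_zero]
    exact Submodule.zero_mem _
  · obtain ⟨n', P', A', b'⟩ := hpkg μ h0
    exact (hG μ hμ h0).g3 t _ (coord_mem b y) _ (rd_of_T b' hv hT)

end main

/-- **`sZ`** -/
theorem sZ (b : BPkg arm J B g R X D ν l P A) (hR : g * R * g = g)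
    (hD : ∀ s x, D (coreOp (PhS arm J B g R X) s x) = coreOp (PhS arm J B g R X) s (D x)) :
    ∀ t, ∀ z ∈ Zn arm J B g R X D ν P, A t *ᵥ z ∈ Zn arm J B g R X D ν P := by
  intro t z hz
  have := Zn_stable hR hD b t z hz
  rwa [mulVecLin_apply] at this

end Crest.Agent.R172.SZq842
end

-- ▼ part R172/SDesc

/-!
Row 172 (S0260), S-side (t2), node L2-f (helper580): descent of the U-level corrections `β`, `γ` to the
V-level corrections `b`, `k` modulo `Z`, and uniqueness modulo `Z`.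
-/

set_option autoImplicit false
set_option linter.unusedSectionVars false

open TensorProduct Module

namespace Crest.Agent.R172.SDesc

open RJM (ev)
open RJP3 (evk CorK)

section abs

variable {K : Type*} [Field K] {P1 P2 V1 V2 τ : Type*} [AddCommGroup P1] [Module K P1]
  [AddCommGroup P2] [Module K P2] [AddCommGroup V1] [Module K V1] [AddCommGroup V2] [Module K V2]
variable {A : τ → End K P1} {B : τ → End K P2} {a : τ → End K V1} {b0 : τ → End K V2}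
  {π1 : V1 →ₗ[K] P1} {π2 : V2 →ₗ[K] P2} {R1 Z : Submodule K P1} {R2 Z2 : Submodule K P2}





end abs

section mat

open Matrix Crest.Agent.R172.FO Crest.Agent.R172.Qt Crest.Agent.R172.SpS
  Crest.Agent.R172.SEnd Crest.Agent.R172.SEnd2 Crest.Agent.R172.SBlk Crest.Agent.R172.SCM
open Crest.Agent.R172.St (T)
open Crest.Agent.R172.PL (Ainf CoreM coreOp Rad)
open Crest.Agent.R172.SC (PB)
open Crest.Agent.R172.SZ1 (Zn Ot mem_Zn Zn_stable)
open Crest.Agent.R172.SLev0 (gF)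
open Crest.Agent.R172.SUX (ZY Mv)

variable {K : Type*} [Field K] {m1 m2 n1 n2 : ℕ}

/-- the matrix of a tensor -/
noncomputable def tm : (Fin m2 → K) ⊗[K] (Fin m1 → K) →ₗ[K] Matrix (Fin m2) (Fin m1) K :=
  TensorProduct.lift (LinearMap.mk₂ K vecMulVec (fun a b c => add_vecMulVec a b c)
    (fun t a b => smul_vecMulVec t a b) (fun a b c => vecMulVec_add a b c)
    (fun t a b => by rw [vecMulVec_smul]))

@[simp] theorem tm_tmul (a : Fin m2 → K) (b : Fin m1 → K) : tm (a ⊗ₜ[K] b) = vecMulVec a b := by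
  simp [tm]






variable {ι : Type*} [Fintype ι] [DecidableEq ι] {δ : Type*} [Fintype δ] [DecidableEq δ]
variable {k : Type*} [Field k] [Algebra k K]
variable {arm : δ → Fin 3} {J : Matrix ι ι K} {B : Matrix δ δ K}
  {N W : Submodule K (Matrix ι δ K)} {F : Matrix ι δ K} {R : Matrix δ ι K} {X : Matrix ι ι K}
  {D : End K (CoreM (PhS arm J B F R X))} {ν ν' : K} {l : Fin 3 → ℕ}
  {Q1 : Matrix ι (Fin n1) K} {A1 : Fin 3 → Matrix (Fin n1) (Fin n1) K}
  {Q2 : Matrix ι (Fin n2) K} {A2 : Fin 3 → Matrix (Fin n2) (Fin n2) K}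
  {U1 : Matrix δ (Fin m1) K} {U2 : Matrix δ (Fin m2) K}
  {C1 : Matrix (Fin n1) (Fin m1) K} {C2 : Matrix (Fin n2) (Fin m2) K}

/-- membership in `Zn ν` from `F U1 y1 = F U2 y2` -/
theorem mem_Zn_of (hne : ν ≠ ν') (b2 : BPkg arm J B F R X D ν' l Q2 A2)
    (hC1 : F * U1 = Q1 * C1) (hC2 : F * U2 = Q2 * C2) {y1 : Fin m1 → K} {y2 : Fin m2 → K}
    (h : (F * U1) *ᵥ y1 = (F * U2) *ᵥ y2) : C1 *ᵥ y1 ∈ Zn arm J B F R X D ν Q1 := by
  obtain ⟨v, hv, hvx⟩ := b2.mem (C2 *ᵥ y2)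
  refine mem_Zn.2 ⟨v, Submodule.mem_iSup_of_mem ν' (Submodule.mem_iSup_of_mem hne.symm hv), ?_⟩
  rw [hvx, mulVec_mulVec, mulVec_mulVec, ← hC1, ← hC2, h]


end mat

end Crest.Agent.R172.SDesc
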