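import Crest.Agent.R172.SUXF
import Crest.Agent.R172.SUB
import Crest.Agent.R172.SLev0
import Crest.Agent.R172.UFr
import Crest.Agent.R172.SCore
import Crest.Agent.R172.QBlk
import Crest.Agent.R172.SBad97

-- ▼ part R172/SNF16
section

/-!
Row 172 (S0260), S-side, node L2-c (II): frames from inclusions and the equations of the
corrections `β`, `γ` at the `K^δ` level.
-/

set_option autoImplicit false
set_option linter.unusedSectionVars false

namespace Crest.Agent.R172.SNF16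

open Matrix Module Crest.Agent.R172.FO Crest.Agent.R172.Qt Crest.Agent.R172.SUX
  Crest.Agent.R172.SUB Crest.Agent.R172.SpS

variable {ι : Type*} [Fintype ι] [DecidableEq ι] {δ : Type*} [Fintype δ] [DecidableEq δ]
variable {n1 n2 : Type*} [Fintype n1] [DecidableEq n1] [Fintype n2] [DecidableEq n2]
variable {k K : Type*} [Field k] [Field K] [Algebra k K]
variable {arm : δ → Fin 3} {J : Matrix ι ι K} {B : Matrix δ δ K}
  {N W : Submodule K (Matrix ι δ K)} {F H : Matrix ι δ K}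

/-- **frames from inclusions** -/
theorem frame_of_incl {U1 : Matrix δ n1 K} {U2 : Matrix δ n2 K} {Q2 R1 : Submodule K (δ → K)}
    (h2 : ∀ q ∈ Q2, ∃ x, q = U2 *ᵥ x) (h1 : ∀ r ∈ R1, ∃ x, r = U1 *ᵥ x) {c : K} (hc : c ≠ 0)
    {Nb : Matrix δ n2 K} (hN : ∀ j, (fun i => Nb i j) ∈ Q2 ⊔ R1) :
    ∃ (Γ : Matrix n2 n2 K) (β : Matrix n1 n2 K), Nb = U2 * Γ + c • (U1 * β) ∧
      ∀ y, U1 *ᵥ (β *ᵥ y) ∈ R1 := by
  classical
  have h : ∀ j, ∃ (x : n2 → K) (y : n1 → K), U1 *ᵥ y ∈ R1 ∧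
      (fun i => Nb i j) = U2 *ᵥ x + U1 *ᵥ y := by
    intro j
    obtain ⟨q, hq, r, hr, e⟩ := Submodule.mem_sup.1 (hN j)
    obtain ⟨x, hx⟩ := h2 q hq
    obtain ⟨y, hy⟩ := h1 r hr
    exact ⟨x, y, hy ▸ hr, by rw [← e, hx, hy]⟩
  choose x y hy hxy using h
  refine ⟨Matrix.of fun i j => x j i, Matrix.of fun i j => c⁻¹ * y j i, ?_, fun v => ?_⟩
  · ext a j
    have e := congrFun (hxy j) a
    simp only [Pi.add_apply] at e
    rw [e]
    simp only [Matrix.add_apply, Matrix.smul_apply, smul_eq_mul, Matrix.mul_apply, Matrix.of_apply,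
      mulVec, dotProduct, Finset.mul_sum]
    congr 1
    refine Finset.sum_congr rfl fun i _ => ?_
    rw [mul_left_comm, ← mul_assoc c, mul_inv_cancel₀ hc, one_mul]
  · have e : (Matrix.of fun i j => c⁻¹ * y j i : Matrix n1 n2 K) *ᵥ v =
        ∑ j, (c⁻¹ * v j) • y j := by
      funext i
      rw [Finset.sum_apply]
      simp only [mulVec, dotProduct, Matrix.of_apply, Pi.smul_apply, smul_eq_mul]
      refine Finset.sum_congr rfl fun j _ => ?_
      ring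
    rw [e, mulVec_sum]
    refine Submodule.sum_mem _ fun j _ => ?_
    rw [mulVec_smul]
    exact R1.smul_mem _ (hy j)

variable {P : Matrix ι ι K × (Fin 3 → Matrix ι ι K)} {S0 : Matrix δ δ K} {c1 c2 : K}
  {U1 : Matrix δ n1 K} {U2 : Matrix δ n2 K} {Y : Fin 3 → Matrix δ δ K} {d : Derivation k K K}
  {Γ1 : Matrix n1 n1 K} {Γ2 : Matrix n2 n2 K} {β : Matrix n1 n2 K} {γ : Matrix n2 n1 K}
  {A1 : Fin 3 → Matrix n1 n1 K} {A2 : Fin 3 → Matrix n2 n2 K} {X : Fin 3 → Matrix n2 n1 K}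

/-- the intersection of the blocks is killed by `F` and `S0`. -/
theorem inter_kill (fr : Fr J F H P.1 S0 c1 c2 U1 U2) (hne : c1 ≠ c2) {n : Type*} [Fintype n]
    {V1 : Matrix n1 n K} {V2 : Matrix n2 n K} (h : U2 * V2 = U1 * V1) :
    F * (U1 * V1) = 0 ∧ S0 * (U1 * V1) = 0 := by
  have hs : c1 - c2 ≠ 0 := sub_ne_zero.2 hne
  constructor
  · have e1 : H * (U1 * V1) = c1 • (F * (U1 * V1)) := by
      rw [← Matrix.mul_assoc, fr.H1, Matrix.smul_mul, Matrix.mul_assoc]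
    have e2 : H * (U1 * V1) = c2 • (F * (U1 * V1)) := by
      rw [← h, ← Matrix.mul_assoc, fr.H2, Matrix.smul_mul, Matrix.mul_assoc]
    have e3 : (c1 - c2) • (F * (U1 * V1)) = 0 := by
      rw [sub_smul, ← e1, ← e2, sub_self]
    exact (smul_eq_zero.1 e3).resolve_left hs
  · have e1 : th J H P.1 F * (U1 * V1) = c1 • (S0 * (U1 * V1)) := by
      rw [← Matrix.mul_assoc, fr.T1, Matrix.smul_mul, Matrix.mul_assoc]
    have e2 : th J H P.1 F * (U1 * V1) = c2 • (S0 * (U1 * V1)) := by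
      rw [← h, ← Matrix.mul_assoc, fr.T2, Matrix.smul_mul, Matrix.mul_assoc]
    have e3 : (c1 - c2) • (S0 * (U1 * V1)) = 0 := by
      rw [sub_smul, ← e1, ← e2, sub_self]
    exact (smul_eq_zero.1 e3).resolve_left hs

/-- **the equation of `β` in `K^δ`** -/
theorem corU (h : Ctx k arm J B N W H) (hP : P ∈ NN arm J N H) (hYs : ∀ r, (Y r)ᵀ = Y r)
    (m : Mv k arm J N W H P.1 Y d) (fr : Fr J F H P.1 S0 c1 c2 U1 U2)
    (hA1 : ∀ r, B * E K arm r * S0 * U1 = U1 * A1 r)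
    (hA2 : ∀ r, B * E K arm r * S0 * U2 = U2 * A2 r)
    (hY : ∀ r, Y r = U2 * X r * U1ᵀ + U1 * (X r)ᵀ * U2ᵀ)
    (hN2 : U2.map d + ZY arm J H P.1 Y * U2 = U2 * Γ2 + c2 ^ 2 • (U1 * β)) (r : Fin 3) :
    U2 * ((2 * (d c2 / c2)) • A2 r + Γ2 * A2 r + (A2 r).map d - A2 r * Γ2) =
      U1 * (c1 ^ 2 • (A1 r * (β - (X r)ᵀ * (U2ᵀ * S0 * U2))) -
        c2 ^ 2 • ((β - (X r)ᵀ * (U2ᵀ * S0 * U2)) * A2 r)) := by
  obtain ⟨O, hO⟩ : ∃ O : Matrix δ δ K, O = om arm J B H P.1 r := ⟨_, rfl⟩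
  obtain ⟨Z, hZ⟩ : ∃ Z : Matrix δ δ K, Z = ZY arm J H P.1 Y := ⟨_, rfl⟩
  obtain ⟨S, hS⟩ : ∃ S : Matrix δ δ K, S = th J H P.1 H := ⟨_, rfl⟩
  obtain ⟨G2, hG2⟩ : ∃ G2 : Matrix n2 n2 K, G2 = U2ᵀ * S0 * U2 := ⟨_, rfl⟩
  have hm := om_map h hP hYs m r
  rw [← hO, ← hZ, ← hS] at hm
  rw [← hZ] at hN2
  have hOU2 : O * U2 = c2 ^ 2 • (U2 * A2 r) := by
    rw [hO]
    unfold om omF
    rw [Matrix.mul_assoc _ (th J H P.1 H), fr.S2, Matrix.mul_smul, ← hA2]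
    simp only [Matrix.mul_assoc]
  have hOU1 : O * U1 = c1 ^ 2 • (U1 * A1 r) := by
    rw [hO]
    unfold om omF
    rw [Matrix.mul_assoc _ (th J H P.1 H), fr.S1, Matrix.mul_smul, ← hA1]
    simp only [Matrix.mul_assoc]
  have hSU2 : S * U2 = c2 ^ 2 • (S0 * U2) := by rw [hS]; exact fr.S2
  have hYS : Y r * (S0 * U2) = U1 * ((X r)ᵀ * G2) := by
    rw [hY, Matrix.add_mul, hG2]
    have e1 : U2 * X r * U1ᵀ * (S0 * U2) = 0 := by
      rw [Matrix.mul_assoc (U2 * X r), ← Matrix.mul_assoc U1ᵀ, fr.orth, Matrix.mul_zero]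
    rw [e1, zero_add]
    simp only [Matrix.mul_assoc]
  -- the key equation
  have key : (O * U2).map d + Z * (O * U2) =
      O * (U2.map d + Z * U2) + Y r * (S * (O * U2)) - O * (Y r * (S * U2)) := by
    rw [map_mul_der, hm]
    simp only [Matrix.add_mul, Matrix.sub_mul, Matrix.mul_add, Matrix.mul_assoc]
    abel
  rw [hN2, hOU2, hSU2] at key
  have e1 : (c2 ^ 2 • (U2 * A2 r)).map d + Z * (c2 ^ 2 • (U2 * A2 r)) =
      (d (c2 ^ 2)) • (U2 * A2 r) + c2 ^ 2 • ((U2 * Γ2 + c2 ^ 2 • (U1 * β)) * A2 r) +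
        c2 ^ 2 • (U2 * (A2 r).map d) := by
    rw [map_smul_der, map_mul_der, ← hN2]
    simp only [Matrix.add_mul, Matrix.mul_smul, smul_add, Matrix.mul_assoc]
    abel
  have e2 : O * (U2 * Γ2 + c2 ^ 2 • (U1 * β)) =
      c2 ^ 2 • (U2 * A2 r * Γ2) + (c2 ^ 2 * c1 ^ 2) • (U1 * A1 r * β) := by
    rw [Matrix.mul_add, Matrix.mul_smul, ← Matrix.mul_assoc, ← Matrix.mul_assoc, hOU2, hOU1,
      Matrix.smul_mul, Matrix.smul_mul, smul_smul]
  have e3 : Y r * (S * (c2 ^ 2 • (U2 * A2 r))) =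
      (c2 ^ 2 * c2 ^ 2) • (U1 * ((X r)ᵀ * G2) * A2 r) := by
    rw [Matrix.mul_smul, ← Matrix.mul_assoc S, hSU2, Matrix.smul_mul, smul_smul, Matrix.mul_smul,
      ← Matrix.mul_assoc (Y r), hYS]
  have e4 : O * (Y r * (c2 ^ 2 • (S0 * U2))) =
      (c2 ^ 2 * c1 ^ 2) • (U1 * A1 r * ((X r)ᵀ * G2)) := by
    rw [Matrix.mul_smul, hYS, Matrix.mul_smul, ← Matrix.mul_assoc, hOU1, Matrix.smul_mul, smul_smul]
  rw [e1, e2, e3, e4] at key
  have hc2 := fr.hc2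
  have hc : c2 ^ 2 ≠ 0 := pow_ne_zero 2 hc2
  have hd : d (c2 ^ 2) = c2 ^ 2 * (2 * (d c2 / c2)) := by
    rw [Derivation.leibniz_pow]
    simp only [smul_eq_mul, nsmul_eq_mul, Nat.cast_ofNat, Nat.add_one_sub_one, pow_one]
    field_simp
  rw [hd] at key
  rw [← hG2]
  have fin : c2 ^ 2 • (U2 * ((2 * (d c2 / c2)) • A2 r + Γ2 * A2 r + (A2 r).map d - A2 r * Γ2)) =
      c2 ^ 2 • (U1 * (c1 ^ 2 • (A1 r * (β - (X r)ᵀ * G2)) -
        c2 ^ 2 • ((β - (X r)ᵀ * G2) * A2 r))) := by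
    simp only [Matrix.mul_add, Matrix.mul_sub, Matrix.add_mul, Matrix.sub_mul, Matrix.mul_smul,
      Matrix.smul_mul, smul_add, smul_sub, smul_smul, Matrix.mul_assoc] at key ⊢
    rw [← sub_eq_zero] at key ⊢
    rw [← key]
    module
  exact smul_right_injective _ hc fin

/-- **Cor of `β`**: `F U1 (A1 (β - Xᵀ G2) - ρ² (β - Xᵀ G2) A2) = 0` and the same for `S0` -/
theorem cor_beta (h : Ctx k arm J B N W H) (hP : P ∈ NN arm J N H) (hYs : ∀ r, (Y r)ᵀ = Y r)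
    (m : Mv k arm J N W H P.1 Y d) (fr : Fr J F H P.1 S0 c1 c2 U1 U2) (hne : c1 ≠ c2)
    (hA1 : ∀ r, B * E K arm r * S0 * U1 = U1 * A1 r)
    (hA2 : ∀ r, B * E K arm r * S0 * U2 = U2 * A2 r)
    (hY : ∀ r, Y r = U2 * X r * U1ᵀ + U1 * (X r)ᵀ * U2ᵀ)
    (hN2 : U2.map d + ZY arm J H P.1 Y * U2 = U2 * Γ2 + c2 ^ 2 • (U1 * β)) (r : Fin 3) :
    F * (U1 * (A1 r * (β - (X r)ᵀ * (U2ᵀ * S0 * U2)) -
        (c2 / c1) ^ 2 • ((β - (X r)ᵀ * (U2ᵀ * S0 * U2)) * A2 r))) = 0 ∧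
    S0 * (U1 * (A1 r * (β - (X r)ᵀ * (U2ᵀ * S0 * U2)) -
        (c2 / c1) ^ 2 • ((β - (X r)ᵀ * (U2ᵀ * S0 * U2)) * A2 r))) = 0 := by
  have e := corU h hP hYs m fr hA1 hA2 hY hN2 r
  obtain ⟨k1, k2⟩ := inter_kill fr hne e
  have hc1 : c1 ^ 2 ≠ 0 := pow_ne_zero 2 fr.hc1
  have e5 : c1 ^ 2 • (A1 r * (β - (X r)ᵀ * (U2ᵀ * S0 * U2))) -
        c2 ^ 2 • ((β - (X r)ᵀ * (U2ᵀ * S0 * U2)) * A2 r) =
      c1 ^ 2 • (A1 r * (β - (X r)ᵀ * (U2ᵀ * S0 * U2)) -
        (c2 / c1) ^ 2 • ((β - (X r)ᵀ * (U2ᵀ * S0 * U2)) * A2 r)) := by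
    rw [smul_sub, smul_smul, div_pow, mul_div_cancel₀ _ hc1]
  rw [e5, Matrix.mul_smul, Matrix.mul_smul] at k1 k2
  exact ⟨(smul_eq_zero.1 k1).resolve_left hc1, (smul_eq_zero.1 k2).resolve_left hc1⟩


theorem hY_symm (hY : ∀ r, Y r = U2 * X r * U1ᵀ + U1 * (X r)ᵀ * U2ᵀ) (r : Fin 3) :
    Y r = U1 * (X r)ᵀ * U2ᵀ + U2 * ((X r)ᵀ)ᵀ * U1ᵀ := by
  rw [hY, transpose_transpose, add_comm]

/-- **Cor of `γ`** -/
theorem cor_gamma (h : Ctx k arm J B N W H) (hP : P ∈ NN arm J N H) (hYs : ∀ r, (Y r)ᵀ = Y r)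
    (m : Mv k arm J N W H P.1 Y d) (fr : Fr J F H P.1 S0 c1 c2 U1 U2) (hne : c1 ≠ c2)
    (hA1 : ∀ r, B * E K arm r * S0 * U1 = U1 * A1 r)
    (hA2 : ∀ r, B * E K arm r * S0 * U2 = U2 * A2 r)
    (hY : ∀ r, Y r = U2 * X r * U1ᵀ + U1 * (X r)ᵀ * U2ᵀ)
    (hN1 : U1.map d + ZY arm J H P.1 Y * U1 = U1 * Γ1 + c1 ^ 2 • (U2 * γ)) (r : Fin 3) :
    F * (U2 * (A2 r * (γ - X r * (U1ᵀ * S0 * U1)) -
        (c1 / c2) ^ 2 • ((γ - X r * (U1ᵀ * S0 * U1)) * A1 r))) = 0 ∧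
    S0 * (U2 * (A2 r * (γ - X r * (U1ᵀ * S0 * U1)) -
        (c1 / c2) ^ 2 • ((γ - X r * (U1ᵀ * S0 * U1)) * A1 r))) = 0 := by
  have := cor_beta h hP hYs m fr.symm (Ne.symm hne) hA2 hA1 (hY_symm hY) hN1 r
  simpa only [transpose_transpose] using this



end Crest.Agent.R172.SNF16
end

-- ▼ part R172/SMv16
section

/-!
Row 172 (S0260), S-side, `SDec.Geo2`: the move of an exact family in frame letters, and the
infinite set of ratios `(1 + t ν') / (1 + t ν)`.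
-/

set_option autoImplicit false
set_option linter.unusedSectionVars false

namespace Crest.Agent.R172.SMv16

open Matrix Module Crest.Agent.R172.FO Crest.Agent.R172.Qt Crest.Agent.R172.SUX
  Crest.Agent.R172.SpS

variable {ι : Type*} [Fintype ι] [DecidableEq ι] {δ : Type*} [Fintype δ] [DecidableEq δ]
variable {n1 n2 : Type*} [Fintype n1] [DecidableEq n1] [Fintype n2] [DecidableEq n2]
variable {k K : Type*} [Field k] [Field K] [Algebra k K]
variable {arm : δ → Fin 3} {J : Matrix ι ι K} {B : Matrix δ δ K}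
  {N W : Submodule K (Matrix ι δ K)} {F H : Matrix ι δ K}
  {P : Matrix ι ι K × (Fin 3 → Matrix ι ι K)} {S0 : Matrix δ δ K} {c1 c2 : K}
  {U1 : Matrix δ n1 K} {U2 : Matrix δ n2 K}
  {A1 : Fin 3 → Matrix n1 n1 K} {A2 : Fin 3 → Matrix n2 n2 K} {X : Fin 3 → Matrix n2 n1 K}

/-- the symmetric family of `X` -/
def Yf (U1 : Matrix δ n1 K) (U2 : Matrix δ n2 K) (X : Fin 3 → Matrix n2 n1 K) (r : Fin 3) :
    Matrix δ δ K := U2 * X r * U1ᵀ + U1 * (X r)ᵀ * U2ᵀ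

theorem Yf_symm (r : Fin 3) : (Yf U1 U2 X r)ᵀ = Yf U1 U2 X r := by
  unfold Yf
  rw [transpose_add, transpose_mul, transpose_mul, transpose_mul, transpose_mul,
    transpose_transpose, transpose_transpose, transpose_transpose, add_comm]
  simp only [Matrix.mul_assoc]

/-- `U_iᵀ S_H E_r B` -/
theorem rowT (hD : Data k arm J B N W) (hSs : (th J H P.1 H)ᵀ = -th J H P.1 H)
    {n : Type*} [Fintype n] [DecidableEq n] (c : K) (U : Matrix δ n K)
    (A : Fin 3 → Matrix n n K) (hS : th J H P.1 H * U = c • (S0 * U))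
    (hA : ∀ r, B * E K arm r * S0 * U = U * A r) (r : Fin 3) :
    B * E K arm r * th J H P.1 H * U = c • (U * A r) ∧
      Uᵀ * th J H P.1 H * E K arm r * B = -(c • ((A r)ᵀ * Uᵀ)) := by
  have e1 : B * E K arm r * th J H P.1 H * U = c • (U * A r) := by
    rw [Matrix.mul_assoc, hS, Matrix.mul_smul, ← hA, ← Matrix.mul_assoc]
  refine ⟨e1, ?_⟩
  have e2 := congrArg transpose e1
  rw [transpose_mul, transpose_mul, transpose_mul, E_transpose, hSs, hD.B_symm,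
    transpose_smul, transpose_mul] at e2
  rw [← e2]
  simp only [Matrix.mul_neg, Matrix.neg_mul, neg_neg, Matrix.mul_assoc]

/-- **exactness in frame letters** -/
theorem exact_of_X (h : Ctx k arm J B N W H) (hP : P ∈ NN arm J N H)
    (fr : Fr J F H P.1 S0 c1 c2 U1 U2)
    (hA1 : ∀ r, B * E K arm r * S0 * U1 = U1 * A1 r)
    (hA2 : ∀ r, B * E K arm r * S0 * U2 = U2 * A2 r) {ρ : K} (hρ : ρ = c2 / c1)
    (hsum : ∑ s, (X s * (A1 s)ᵀ - (-(ρ ^ 2)) • (A2 s * X s)) = 0) :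
    Exact arm J B H P.1 (Yf U1 U2 X) := by
  have hD := h.data
  have hSs := th_skew h hP h.mem
  have hc1 := fr.hc1
  have hc2 := fr.hc2
  have h1 := rowT hD hSs (c1 ^ 2) U1 A1 fr.S1 hA1
  have h2 := rowT hD hSs (c2 ^ 2) U2 A2 fr.S2 hA2
  have key : ∀ r, Yf U1 U2 X r * th J H P.1 H * E K arm r * B -
      B * E K arm r * th J H P.1 H * Yf U1 U2 X r =
      -(c1 ^ 2 • (U2 * (X r * (A1 r)ᵀ - (-(ρ ^ 2)) • (A2 r * X r)) * U1ᵀ)) -
        c1 ^ 2 • (U1 * (X r * (A1 r)ᵀ - (-(ρ ^ 2)) • (A2 r * X r))ᵀ * U2ᵀ) := by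
    intro r
    have a1 : Yf U1 U2 X r * th J H P.1 H * E K arm r * B =
        U2 * X r * (U1ᵀ * th J H P.1 H * E K arm r * B) +
          U1 * (X r)ᵀ * (U2ᵀ * th J H P.1 H * E K arm r * B) := by
      unfold Yf
      simp only [Matrix.add_mul, Matrix.mul_assoc]
    have a2 : B * E K arm r * th J H P.1 H * Yf U1 U2 X r =
        (B * E K arm r * th J H P.1 H * U2) * (X r * U1ᵀ) +
          (B * E K arm r * th J H P.1 H * U1) * ((X r)ᵀ * U2ᵀ) := by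
      unfold Yf
      simp only [Matrix.mul_add, Matrix.mul_assoc]
    rw [a1, a2, (h1 r).1, (h2 r).1, (h1 r).2, (h2 r).2]
    have hr : c1 ^ 2 * ρ ^ 2 = c2 ^ 2 := by
      rw [hρ]; field_simp
    rw [← hr]
    simp only [transpose_sub, transpose_smul, transpose_mul, transpose_transpose, Matrix.mul_sub,
      Matrix.sub_mul, Matrix.mul_smul, Matrix.smul_mul, Matrix.mul_neg, Matrix.mul_assoc]
    module
  unfold Exact
  rw [Finset.sum_congr rfl fun r _ => key r, Finset.sum_sub_distrib, Finset.sum_neg_distrib,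
    ← Finset.smul_sum, ← Finset.smul_sum, ← Matrix.sum_mul, ← Matrix.mul_sum, ← Matrix.sum_mul,
    ← Matrix.mul_sum, ← transpose_sum, hsum]
  simp

/-- **the move** -/
theorem exists_mv (h : Ctx k arm J B N W H) (h2 : (2 : K) ≠ 0) {R : Matrix δ ι K}
    (hR : H * R * H = H) (hP : P ∈ NN arm J N H) (hV : Vert k arm J N W H P)
    (fr : Fr J F H P.1 S0 c1 c2 U1 U2)
    (hA1 : ∀ r, B * E K arm r * S0 * U1 = U1 * A1 r)
    (hA2 : ∀ r, B * E K arm r * S0 * U2 = U2 * A2 r) {ρ : K} (hρ : ρ = c2 / c1)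
    (hsum : ∑ s, (X s * (A1 s)ᵀ - (-(ρ ^ 2)) • (A2 s * X s)) = 0) :
    ∃ d : Derivation k K K, Mv k arm J N W H P.1 (Yf U1 U2 X) d :=
  exists_move h h2 hR hP hV Yf_symm (exact_of_X h hP fr hA1 hA2 hρ hsum)

/-- the ratios `(1 + t ν') / (1 + t ν)`, `t` good -/
def Lam (k : Type*) {K : Type*} [Field k] [Field K] [Algebra k K] (S : Set k) (ν ν' : K) : Set K :=
  {r | ∃ t : k, t ∉ S ∧ 1 + algebraMap k K t * ν ≠ 0 ∧ 1 + algebraMap k K t * ν' ≠ 0 ∧
    r = (1 + algebraMap k K t * ν') / (1 + algebraMap k K t * ν)}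

theorem Lam_zero (S : Set k) (ν ν' : K) : (0 : K) ∉ Lam k S ν ν' := by
  rintro ⟨t, -, h1, h2, h3⟩
  exact div_ne_zero h2 h1 h3.symm

theorem bad_one (ν : K) : {t : k | 1 + algebraMap k K t * ν = 0}.Finite := by
  refine Set.Subsingleton.finite ?_
  intro s hs t ht
  have hs' : 1 + algebraMap k K s * ν = 0 := hs
  have ht' : 1 + algebraMap k K t * ν = 0 := ht
  have hν : ν ≠ 0 := by
    rintro rfl
    rw [mul_zero, add_zero] at hs'
    exact one_ne_zero hs'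
  have e : (algebraMap k K s - algebraMap k K t) * ν = 0 := by linear_combination hs' - ht'
  have e2 := (mul_eq_zero.1 e).resolve_right hν
  exact (algebraMap k K).injective (sub_eq_zero.1 e2)

theorem Lam_infinite [Infinite k] {S : Set k} (hS : S.Finite) {ν ν' : K} (hne : ν ≠ ν') :
    (Lam k S ν ν').Infinite := by
  have hbad : (S ∪ ({t : k | 1 + algebraMap k K t * ν = 0} ∪
      {t : k | 1 + algebraMap k K t * ν' = 0})).Finite :=
    hS.union ((bad_one ν).union (bad_one ν'))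
  have hinf := hbad.infinite_compl
  refine (hinf.image (f := fun t : k => (1 + algebraMap k K t * ν') / (1 + algebraMap k K t * ν))
    ?_).mono ?_
  · intro s hs t ht hst
    simp only [Set.mem_compl_iff, Set.mem_union, Set.mem_setOf_eq, not_or] at hs ht
    obtain ⟨-, hs1, hs2⟩ := hs
    obtain ⟨-, ht1, ht2⟩ := ht
    have e := (div_eq_div_iff hs1 ht1).1 hst
    have e2 : (algebraMap k K s - algebraMap k K t) * (ν' - ν) = 0 := by linear_combination e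
    have e3 := (mul_eq_zero.1 e2).resolve_right (sub_ne_zero.2 (Ne.symm hne))
    exact (algebraMap k K).injective (sub_eq_zero.1 e3)
  · rintro _ ⟨t, ht, rfl⟩
    simp only [Set.mem_compl_iff, Set.mem_union, Set.mem_setOf_eq, not_or] at ht
    exact ⟨t, ht.1, ht.2.1, ht.2.2, rfl⟩

/-- different constants on different blocks -/
theorem c_ne {t : k} (ht : t ≠ 0) {ν ν' : K} (hne : ν ≠ ν') :
    1 + algebraMap k K t * ν ≠ 1 + algebraMap k K t * ν' := by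
  intro h
  have h1 : algebraMap k K t * (ν - ν') = 0 := by linear_combination h
  rcases mul_eq_zero.1 h1 with h2 | h2
  · exact ht ((map_eq_zero (algebraMap k K)).1 h2)
  · exact hne (sub_eq_zero.1 h2)

end Crest.Agent.R172.SMv16
end

-- ▼ part R172/SZb978
section

/-!
Row 172 (S0260), (t2), level 2 (952's referee remark on `SDec.Dec`): the corrections `β`, `γ` of a
move send the kernel of the frame of one block into the intersection of the two blocks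
(`F U₂ x = 0 → F U₁ β x ∈ im (F U₂)` and conversely).
-/

set_option autoImplicit false
set_option linter.unusedSectionVars false
set_option linter.unusedFintypeInType false
set_option linter.unusedDecidableInType false

namespace Crest.Agent.R172.SZb978

open Matrix Module Crest.Agent.R172.FO Crest.Agent.R172.Qt Crest.Agent.R172.SpS
open Crest.Agent.R172.SUX (ZY)

variable {ι : Type*} [Fintype ι] [DecidableEq ι] {δ : Type*} [Fintype δ] [DecidableEq δ]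
variable {k K : Type*} [Field k] [Field K] [Algebra k K]
variable {arm : δ → Fin 3} {J : Matrix ι ι K}
  {W : Submodule K (Matrix ι δ K)} {H F : Matrix ι δ K} {P : Matrix ι ι K}
variable {n1 n2 : Type*} [Fintype n1] [Fintype n2]
variable {c1 c2 : K} {U1 : Matrix δ n1 K} {U2 : Matrix δ n2 K} {Y : Fin 3 → Matrix δ δ K}
  {d : Derivation k K K}

/-- the basic computation, one block -/
theorem key (hHW : H ∈ W) (hdH : H.map d = H * ZY arm J H P Y) (hc1 : c1 ≠ 0) (hc2 : c2 ≠ 0)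
    (H1 : H * U1 = c1 • (F * U1)) (H2 : H * U2 = c2 • (F * U2)) {e : K} (he : e ≠ 0)
    {Γ2 : Matrix n2 n2 K} {β : Matrix n1 n2 K}
    (hN : ∀ v ∈ W, v * (U2.map d + ZY arm J H P Y * U2) = v * (U2 * Γ2 + e • (U1 * β)))
    (x : n2 → K) (hx : F *ᵥ (U2 *ᵥ x) = 0) :
    ∃ z, F *ᵥ (U1 *ᵥ (β *ᵥ x)) = F *ᵥ (U2 *ᵥ z) := by
  have h0 : H *ᵥ (U2 *ᵥ x) = 0 := by
    rw [mulVec_mulVec, H2, smul_mulVec, ← mulVec_mulVec, hx, smul_zero]
  have h1 : dv d (H *ᵥ (U2 *ᵥ x)) = 0 := by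
    rw [h0]; funext i; simp [dv]
  rw [dv_mulVec, dv_mulVec, hdH] at h1
  have h2 := congrArg (fun A : Matrix ι n2 K => A *ᵥ x) (hN H hHW)
  simp only [Matrix.mul_add, add_mulVec, ← mulVec_mulVec, Matrix.mul_smul, smul_mulVec] at h2
  simp only [← mulVec_mulVec, mulVec_add] at h1
  have h3 : H *ᵥ (U2 *ᵥ (Γ2 *ᵥ x + dv d x)) + e • (H *ᵥ (U1 *ᵥ (β *ᵥ x))) = 0 := by
    rw [mulVec_add, mulVec_add]
    have h4 : H *ᵥ (U2 *ᵥ (Γ2 *ᵥ x)) + e • (H *ᵥ (U1 *ᵥ (β *ᵥ x))) =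
        H *ᵥ ((U2.map d) *ᵥ x) + H *ᵥ (ZY arm J H P Y *ᵥ (U2 *ᵥ x)) := by
      rw [h2]
    calc H *ᵥ (U2 *ᵥ (Γ2 *ᵥ x)) + H *ᵥ (U2 *ᵥ dv d x) + e • (H *ᵥ (U1 *ᵥ (β *ᵥ x)))
        = (H *ᵥ (U2 *ᵥ (Γ2 *ᵥ x)) + e • (H *ᵥ (U1 *ᵥ (β *ᵥ x)))) + H *ᵥ (U2 *ᵥ dv d x) := by abel
      _ = 0 := by
          rw [h4, ← h1]; abel
  rw [mulVec_mulVec _ H U2, mulVec_mulVec _ H U1, H1, H2, smul_mulVec, smul_mulVec, smul_smul,
    ← mulVec_mulVec, ← mulVec_mulVec] at h3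
  refine ⟨-((e * c1)⁻¹ * c2) • (Γ2 *ᵥ x + dv d x), ?_⟩
  have h5 : (e * c1) • (F *ᵥ (U1 *ᵥ (β *ᵥ x))) = -(c2 • (F *ᵥ (U2 *ᵥ (Γ2 *ᵥ x + dv d x)))) :=
    eq_neg_of_add_eq_zero_right h3
  have h6 : e * c1 ≠ 0 := mul_ne_zero he hc1
  rw [mulVec_smul, mulVec_smul, neg_smul, mul_smul, ← smul_neg, ← h5, smul_smul,
    inv_mul_cancel₀ h6, one_smul]

/-- **zb**: `F U₂ x = 0 → F U₁ β x ∈ im (F U₂)` -/
theorem zb {S0 : Matrix δ δ K} {Γ2 : Matrix n2 n2 K} {β : Matrix n1 n2 K}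
    (hHW : H ∈ W) (hdH : H.map d = H * ZY arm J H P Y) (fr : SUX.Fr J F H P S0 c1 c2 U1 U2)
    (hN2 : ∀ v ∈ W, v * (U2.map d + ZY arm J H P Y * U2) = v * (U2 * Γ2 + c2 ^ 2 • (U1 * β)))
    (x : n2 → K) (hx : F *ᵥ (U2 *ᵥ x) = 0) :
    ∃ z, F *ᵥ (U1 *ᵥ (β *ᵥ x)) = F *ᵥ (U2 *ᵥ z) :=
  key hHW hdH fr.hc1 fr.hc2 fr.H1 fr.H2 (pow_ne_zero 2 fr.hc2) hN2 x hx

/-- **zk**: `F U₁ x = 0 → F U₂ γ x ∈ im (F U₁)` -/
theorem zk {S0 : Matrix δ δ K} {Γ1 : Matrix n1 n1 K} {γ : Matrix n2 n1 K}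
    (hHW : H ∈ W) (hdH : H.map d = H * ZY arm J H P Y) (fr : SUX.Fr J F H P S0 c1 c2 U1 U2)
    (hN1 : ∀ v ∈ W, v * (U1.map d + ZY arm J H P Y * U1) = v * (U1 * Γ1 + c1 ^ 2 • (U2 * γ)))
    (x : n1 → K) (hx : F *ᵥ (U1 *ᵥ x) = 0) :
    ∃ z, F *ᵥ (U2 *ᵥ (γ *ᵥ x)) = F *ᵥ (U1 *ᵥ z) :=
  key hHW hdH fr.hc2 fr.hc1 fr.H2 fr.H1 (pow_ne_zero 2 fr.hc1) hN1 x hx


end Crest.Agent.R172.SZb978
end

-- ▼ part R172/SUX4v
section

/-!
Row 172 (S0260), S-side (t2): the values of the second level correction `w'' = wd w` on the two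
blocks (note 16790 of helper937).
-/

set_option autoImplicit false
set_option linter.unusedSectionVars false
set_option linter.unusedFintypeInType false
set_option linter.unusedDecidableInType false

namespace Crest.Agent.R172.SUXv

open Matrix Module Crest.Agent.R172.FO Crest.Agent.R172.Qt Crest.Agent.R172.SpS
  Crest.Agent.R172.Om Crest.Agent.R172.SUX

variable {ι : Type*} [Fintype ι] [DecidableEq ι] {δ : Type*} [Fintype δ] [DecidableEq δ]
variable {k K : Type*} [Field k] [Field K] [Algebra k K]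
variable {arm : δ → Fin 3} {J : Matrix ι ι K} {W : Submodule K (Matrix ι δ K)}
  {F H w : Matrix ι δ K} {P : Matrix ι ι K} {Y : Fin 3 → Matrix δ δ K} {d : Derivation k K K}
variable {n1 n2 : Type*} [Fintype n1] [Fintype n2]
variable {S0 : Matrix δ δ K} {c1 c2 : K} {U1 : Matrix δ n1 K} {U2 : Matrix δ n2 K}
  {Γ1 : Matrix n1 n1 K} {Γ2 : Matrix n2 n2 K} {β : Matrix n1 n2 K} {γ γ0 : Matrix n2 n1 K}
  {μ1 μ2 : K}

/-- `(wd w) U = d(w U) - w (∇ U)` -/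
theorem wd_mul {n : Type*} [Fintype n] (w : Matrix ι δ K) (U : Matrix δ n K) :
    wd arm J H P Y d w * U = (w * U).map d - w * (U.map d + ZY arm J H P Y * U) := by
  unfold wd
  rw [map_mul_der, Matrix.sub_mul, Matrix.mul_add]
  simp only [Matrix.mul_assoc]
  abel

theorem wd_U2 (fr : Fr J F H P S0 c1 c2 U1 U2) (hd : H.map d = H * ZY arm J H P Y)
    (hHW : H ∈ W) (hw : w ∈ W)
    (hN2 : ∀ v ∈ W, v * (U2.map d + ZY arm J H P Y * U2) = v * (U2 * Γ2 + c2 ^ 2 • (U1 * β)))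
    (L1 : w * U1 = μ1 • (F * U1) + F * (U2 * γ0)) (L2 : w * U2 = μ2 • (F * U2)) :
    wd arm J H P Y d w * U2 = (d μ2 - μ2 * (d c2 / c2)) • (F * U2) +
      (μ2 * (c1 * c2) - μ1 * c2 ^ 2) • (F * U1 * β) - c2 ^ 2 • (F * U2 * (γ0 * β)) := by
  have hF := dFU fr.symm hd (hN2 H hHW)
  rw [wd_mul, L2, SUX.map_smul_der, hF, hN2 w hw, Matrix.mul_add, Matrix.mul_smul,
    ← Matrix.mul_assoc, ← Matrix.mul_assoc, L2, L1]
  simp only [Matrix.add_mul, Matrix.smul_mul, Matrix.mul_assoc, smul_add, smul_sub, smul_smul,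
    sub_smul, mul_comm c2 c1, mul_comm (c2 ^ 2) μ1]
  abel

theorem wd_U1 (fr : Fr J F H P S0 c1 c2 U1 U2) (hd : H.map d = H * ZY arm J H P Y)
    (hHW : H ∈ W) (hw : w ∈ W)
    (hN2 : ∀ v ∈ W, v * (U2.map d + ZY arm J H P Y * U2) = v * (U2 * Γ2 + c2 ^ 2 • (U1 * β)))
    (hN1 : ∀ v ∈ W, v * (U1.map d + ZY arm J H P Y * U1) = v * (U1 * Γ1 + c1 ^ 2 • (U2 * γ)))
    (L1 : w * U1 = μ1 • (F * U1) + F * (U2 * γ0)) (L2 : w * U2 = μ2 • (F * U2)) :
    wd arm J H P Y d w * U1 = (d μ1 - μ1 * (d c1 / c1)) • (F * U1) +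
      F * (U2 * (Γ2 * γ0 + γ0.map d - γ0 * Γ1 + (μ1 * (c1 * c2) - μ2 * c1 ^ 2) • γ
        - (d c2 / c2) • γ0)) + (c1 * c2) • (F * U1 * (β * γ0)) := by
  have hF2 := dFU fr.symm hd (hN2 H hHW)
  have hF1 := dFU fr hd (hN1 H hHW)
  have e1 : (w * U1).map d = d μ1 • (F * U1) + μ1 • (F * U1).map d +
      ((F * U2).map d * γ0 + F * U2 * γ0.map d) := by
    rw [L1, map_add_der, SUX.map_smul_der, ← Matrix.mul_assoc, map_mul_der d (F * U2) γ0]
  rw [wd_mul, e1, hF1, hF2, hN1 w hw, Matrix.mul_add, Matrix.mul_smul,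
    ← Matrix.mul_assoc, ← Matrix.mul_assoc, L2, L1]
  simp only [Matrix.add_mul, Matrix.sub_mul, Matrix.mul_add, Matrix.mul_sub, Matrix.smul_mul,
    Matrix.mul_smul, Matrix.mul_assoc, smul_add, smul_sub, smul_smul,
    sub_smul, mul_comm c2 c1, mul_comm (c1 ^ 2) μ2]
  abel

end Crest.Agent.R172.SUXv
end

-- ▼ part R172/SWd275
section

/-!
Row 172 (S0260), (t2), level 2, piece L2-h: the second level correction `w'' = wd w` is in the good
class `QG` (values on all blocks).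
-/

set_option autoImplicit false
set_option linter.unusedSectionVars false
set_option linter.unusedFintypeInType false
set_option linter.unusedDecidableInType false

namespace Crest.Agent.R172.SWd275

open Matrix Module Crest.Agent.R172.FO Crest.Agent.R172.Qt Crest.Agent.R172.SpS
open Crest.Agent.R172.SBlk Crest.Agent.R172.UBlk Crest.Agent.R172.SEnd2
open Crest.Agent.R172.PL (Wk Ainf Rad CoreM coreOp resOp)
open Crest.Agent.R172.SC (PB)
open Crest.Agent.R172.SUX (th ZY wd Mv)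
open Crest.Agent.R172.UFr (Cq)

variable {ι : Type*} [Fintype ι] [DecidableEq ι] {δ : Type*} [Fintype δ] [DecidableEq δ]
variable {k K : Type*} [Field k] [Field K] [Algebra k K]
variable {arm : δ → Fin 3} {J : Matrix ι ι K} {B : Matrix δ δ K}
  {N W : Submodule K (Matrix ι δ K)} {g f : Matrix ι δ K}
  {p : Matrix ι ι K × (Fin 3 → Matrix ι ι K)}

/-- `a · (A b) = (Aᵀ a) · b`, the other way round -/
theorem tdot' {α β : Type*} [Fintype α] [Fintype β] (A : Matrix α β K) (a : β → K) (b : α → K) :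
    a ⬝ᵥ (Aᵀ *ᵥ b) = (A *ᵥ a) ⬝ᵥ b := by
  rw [dotProduct_comm, tdot, dotProduct_comm]

/-! ### matrix part: the radical is stable -/

section mat

variable {n1 n2 : Type*} [Fintype n1] [Fintype n2]
variable {H : Matrix ι δ K} {P : Matrix ι ι K × (Fin 3 → Matrix ι ι K)} {S0 : Matrix δ δ K}
  {c1 c2 : K} {U1 : Matrix δ n1 K} {U2 : Matrix δ n2 K} {Y : Fin 3 → Matrix δ δ K}
  {d : Derivation k K K} {Γ2 : Matrix n2 n2 K} {β : Matrix n1 n2 K}

/-- `d (c2² G2) = c2² (Γ2ᵀ G2 + G2 Γ2)`, `G2 = U2ᵀ S0 U2`. -/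
theorem form_der (h : Ctx k arm J B N W H) (hP : P ∈ NN arm J N H)
    (m : Mv k arm J N W H P.1 Y d) (fr : SUX.Fr J g H P.1 S0 c1 c2 U1 U2)
    (hN2 : ∀ v ∈ W, v * (U2.map d + ZY arm J H P.1 Y * U2) = v * (U2 * Γ2 + c2 ^ 2 • (U1 * β))) :
    (c2 ^ 2 • (U2ᵀ * S0 * U2)).map d =
      c2 ^ 2 • (Γ2ᵀ * (U2ᵀ * S0 * U2) + (U2ᵀ * S0 * U2) * Γ2) := by
  have hs := SUX.th_skew h hP h.mem
  have r2 : U2ᵀ * th J H P.1 H = c2 ^ 2 • (U2ᵀ * S0) := fr.symm.rowS1 hs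
  have e0 : c2 ^ 2 • (U2ᵀ * S0 * U2) = U2ᵀ * th J H P.1 H * U2 := by
    rw [r2, Matrix.smul_mul]
  have horth : U2ᵀ * S0 * U1 = 0 := fr.symm.orth
  -- `S_H ∇U2`
  have e1 : th J H P.1 H * (U2.map d + ZY arm J H P.1 Y * U2) =
      th J H P.1 H * (U2 * Γ2 + c2 ^ 2 • (U1 * β)) := by
    have a1 : ∀ X : Matrix δ n2 K, th J H P.1 H * X = Hᵀ * J * (P.1 * (H * X)) := by
      intro X; unfold th; simp only [Matrix.mul_assoc]
    rw [a1, a1, hN2 H h.memW]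
  have e2 : U2ᵀ * (th J H P.1 H * (U2.map d + ZY arm J H P.1 Y * U2)) =
      c2 ^ 2 • ((U2ᵀ * S0 * U2) * Γ2) := by
    rw [e1, ← Matrix.mul_assoc, r2, Matrix.mul_add, Matrix.smul_mul, Matrix.smul_mul,
      Matrix.mul_smul, ← Matrix.mul_assoc, ← Matrix.mul_assoc, horth, Matrix.zero_mul, smul_zero,
      smul_zero, add_zero]
  have e3 : (U2.map d + ZY arm J H P.1 Y * U2)ᵀ * th J H P.1 H * U2 =
      c2 ^ 2 • (Γ2ᵀ * (U2ᵀ * S0 * U2)) := by
    have a1 := congrArg Matrix.transpose e2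
    rw [transpose_mul, transpose_mul, hs, transpose_transpose, transpose_smul, transpose_mul,
      transpose_mul, transpose_mul, transpose_transpose, fr.skew, Matrix.mul_neg, Matrix.neg_mul,
      Matrix.neg_mul, Matrix.mul_neg, Matrix.mul_neg, smul_neg] at a1
    have a2 := neg_injective a1
    rw [a2, Matrix.mul_assoc U2ᵀ]
  have e4 : (U2ᵀ * th J H P.1 H * U2).map d =
      (U2.map d + ZY arm J H P.1 Y * U2)ᵀ * th J H P.1 H * U2 +
        U2ᵀ * (th J H P.1 H * (U2.map d + ZY arm J H P.1 Y * U2)) := by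
    rw [map_mul_der, map_mul_der, map_transpose_der, SUB.S_map h m, transpose_add, transpose_mul]
    simp only [Matrix.mul_add, Matrix.add_mul, Matrix.mul_assoc]
    abel
  rw [e0, e4, e3, e2, smul_add]

/-- the radical is stable under `Γ2 + d`. -/
theorem rad_der (h : Ctx k arm J B N W H) (hP : P ∈ NN arm J N H)
    (m : Mv k arm J N W H P.1 Y d) (fr : SUX.Fr J g H P.1 S0 c1 c2 U1 U2)
    (hN2 : ∀ v ∈ W, v * (U2.map d + ZY arm J H P.1 Y * U2) = v * (U2 * Γ2 + c2 ^ 2 • (U1 * β)))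
    {γ0 : Matrix n2 n1 K} (hγ0 : (U2ᵀ * S0 * U2) * γ0 = 0) :
    (U2ᵀ * S0 * U2) * (Γ2 * γ0 + γ0.map d) = 0 := by
  have h1 := form_der h hP m fr hN2
  have h2 : (c2 ^ 2 • (U2ᵀ * S0 * U2)) * γ0 = 0 := by rw [Matrix.smul_mul, hγ0, smul_zero]
  have h3 := congrArg (fun A : Matrix n2 n1 K => A.map d) h2
  simp only [map_mul_der] at h3
  rw [h1, SUX.map_zero_der', Matrix.smul_mul, Matrix.smul_mul, Matrix.add_mul,
    Matrix.mul_assoc Γ2ᵀ, hγ0, Matrix.mul_zero, zero_add, ← smul_add] at h3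
  have hc : c2 ^ 2 ≠ 0 := pow_ne_zero 2 fr.hc2
  have h4 := (smul_eq_zero.1 h3).resolve_left hc
  rw [Matrix.mul_add, ← Matrix.mul_assoc]
  exact h4

end mat

/-! ### blocks -/

section blk

variable (h : Ctx k arm J B N W g) {R : Matrix δ ι K} (hR : g * R * g = g)
  {D : End K (CoreM (Ph arm J B g R p.1))}
  (hD : IsD (Ph arm J B g R p.1) (Nh arm J B g f R p.1) D)
variable [IsAlgClosed K]

/-- `v` is orthogonal to all blocks -/
def Perp (h : Ctx k arm J B N W g) {R : Matrix δ ι K} (hR : g * R * g = g)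
    (D : End K (CoreM (Ph arm J B g R p.1))) (v : δ → K) : Prop :=
  ∀ κ, ∀ u ∈ Qb h.data hR p.1 D κ, u ⬝ᵥ ((gᵀ * J * (p.1 * g)) *ᵥ v) = 0

omit [IsAlgClosed K] in
theorem Perp.add {v v' : δ → K} (a : Perp (p := p) h hR D v) (b : Perp (p := p) h hR D v') :
    Perp (p := p) h hR D (v + v') := fun κ u hu => by
  rw [mulVec_add, dotProduct_add, a κ u hu, b κ u hu, add_zero]

omit [IsAlgClosed K] in
theorem Perp.smul {v : δ → K} (c : K) (a : Perp (p := p) h hR D v) :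
    Perp (p := p) h hR D (c • v) := fun κ u hu => by
  rw [mulVec_smul, dotProduct_smul, a κ u hu, smul_zero]

include hD

/-- the elements of `P = PC` come from `A^∞ K^δ` -/
theorem perp_PC {v : δ → K} (hv : Perp (p := p) h hR D v) {a : ι → K}
    (ha : a ∈ PC arm J B g R p.1) : a ⬝ᵥ ((J * p.1) *ᵥ (g *ᵥ v)) = 0 := by
  obtain ⟨y, hy, rfl⟩ := ha
  obtain ⟨x, hx, rfl⟩ := (cov h.data hR p.1).ainf_surj hy
  have hx' : x ∈ ⨆ κ, Qb h.data hR p.1 D κ := by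
    rw [iSup_Qb h hR hD]; exact hx
  have key : ∀ x : δ → K, (g *ᵥ x) ⬝ᵥ ((J * p.1) *ᵥ (g *ᵥ v)) =
      x ⬝ᵥ ((gᵀ * J * (p.1 * g)) *ᵥ v) := by
    intro x
    rw [← tdot' g x, mulVec_mulVec, mulVec_mulVec]
    congr 2
    simp only [Matrix.mul_assoc]
  change (g *ᵥ x) ⬝ᵥ ((J * p.1) *ᵥ (g *ᵥ v)) = 0
  rw [key]
  refine Submodule.iSup_induction (p := fun κ => Qb h.data hR p.1 D κ)
    (motive := fun x => x ⬝ᵥ ((gᵀ * J * (p.1 * g)) *ᵥ v) = 0) hx' (fun κ u hu => hv κ u hu)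
    (by rw [zero_dotProduct]) (fun a b ha hb => by rw [add_dotProduct, ha, hb, add_zero])

/-- the vectors of `P` are `J w`-orthogonal if this is so at a point `g + a f` -/
theorem perp_J {w : Matrix ι δ K} (hw : ∀ κ, ∀ u ∈ Qb h.data hR p.1 D κ, ∀ v,
      (g *ᵥ u) ⬝ᵥ ((J * w) *ᵥ v) = 0) {a : ι → K} (ha : a ∈ PC arm J B g R p.1) (v : δ → K) :
    a ⬝ᵥ ((J * w) *ᵥ v) = 0 := by
  obtain ⟨y, hy, rfl⟩ := ha
  obtain ⟨x, hx, rfl⟩ := (cov h.data hR p.1).ainf_surj hy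
  have hx' : x ∈ ⨆ κ, Qb h.data hR p.1 D κ := by
    rw [iSup_Qb h hR hD]; exact hx
  change (g *ᵥ x) ⬝ᵥ ((J * w) *ᵥ v) = 0
  refine Submodule.iSup_induction (p := fun κ => Qb h.data hR p.1 D κ)
    (motive := fun x => (g *ᵥ x) ⬝ᵥ ((J * w) *ᵥ v) = 0) hx' (fun κ u hu => hw κ u hu v)
    (by rw [mulVec_zero, zero_dotProduct])
    (fun a b ha hb => by rw [mulVec_add, add_dotProduct, ha, hb, add_zero])

/-- **membership in `QG` from values on the blocks of `K^δ`** -/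
theorem QG_of_vals {α : Type*} {Pb : α → Submodule K (ι → K)} {nu : α → K}
    (hPb : ∀ i, Pb i ≤ (PB (Ph arm J B g R p.1) D (nu i)).map (Sg g).subtype)
    {w m : Matrix ι δ K} (hw : w ∈ W) (hmw : m - w ∈ N)
    (hJ : ∀ κ, ∀ u ∈ Qb h.data hR p.1 D κ, ∀ v, (g *ᵥ u) ⬝ᵥ ((J * w) *ᵥ v) = 0)
    (μ : K → K) (hv : ∀ i, ∀ u ∈ Qb h.data hR p.1 D (nu i), ∃ v, Perp (p := p) h hR D v ∧
      w *ᵥ u = μ (nu i) • (g *ᵥ u) + g *ᵥ v) :
    m ∈ SLev0.QG arm J B N W g p (PC arm J B g R p.1) Pb nu := by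
  refine ⟨w, hw, hmw, fun a ha v => perp_J h hR hD hJ ha v, μ, fun i c hc r => ?_⟩
  obtain ⟨y, hy, rfl⟩ := hPb i hc
  rw [SetLike.mem_coe, ← Qb_map h hR hD] at hy
  obtain ⟨u, hu, rfl⟩ := hy
  have hu' := Qb_stable h hR hD r hu
  obtain ⟨v, hv1, hv2⟩ := hv i _ hu'
  refine ⟨g *ᵥ v, fun a ha => perp_PC h hR hD hv1 ha, ?_⟩
  have e1 : (E K arm r * B * gᵀ * (J * p.1)) *ᵥ (g *ᵥ u) = om arm J B g p.1 g r u := by
    rw [om_eq h.data, mulVec_mulVec]
    congr 1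
    simp only [Matrix.mul_assoc]
  have e2 : (M arm B r g g * (J * p.1)) *ᵥ (g *ᵥ u) = g *ᵥ om arm J B g p.1 g r u := by
    have e3 : M arm B r g g * (J * p.1) = g * (E K arm r * B * gᵀ * (J * p.1)) := by
      unfold M
      simp only [Matrix.mul_assoc]
    rw [← e1, e3, ← mulVec_mulVec]
  change w *ᵥ ((E K arm r * B * gᵀ * (J * p.1)) *ᵥ (g *ᵥ u)) =
    μ (nu i) • ((M arm B r g g * (J * p.1)) *ᵥ (g *ᵥ u)) + g *ᵥ v
  rw [e1, e2]
  exact hv2

variable (hNil : NilW arm J B N g) (hp : p ∈ NN arm J N g) (hf : f ∈ N ⊓ W)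

include hNil hp hf

/-- radical vectors of a block are orthogonal to all blocks -/
theorem perp_blk {ν : K} {n : Type*} [Fintype n] {U : Matrix δ n K}
    (hsp : ∀ u ∈ Qb h.data hR p.1 D ν, ∃ x, u = U *ᵥ x)
    (hmem : ∀ x, U *ᵥ x ∈ Qb h.data hR p.1 D ν) {y : n → K}
    (hy : (Uᵀ * (gᵀ * J * (p.1 * g)) * U) *ᵥ y = 0) : Perp (p := p) h hR D (U *ᵥ y) := by
  intro κ u hu
  by_cases hκ : κ = ν
  · subst hκ
    obtain ⟨x, rfl⟩ := hsp u hu
    have hz : Uᵀ *ᵥ ((gᵀ * J * (p.1 * g)) *ᵥ (U *ᵥ y)) = 0 := by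
      rw [mulVec_mulVec, mulVec_mulVec]
      simpa only [Matrix.mul_assoc] using hy
    rw [← tdot' U x, hz, dotProduct_zero]
  · exact Qb_orth h hR hD hNil hp hf hκ hu (hmem y)

/-- **the values of `w'' = wd w` on all blocks** -/
theorem vals {a : K} {Pt : Matrix ι ι K × (Fin 3 → Matrix ι ι K)} {ν ν' : K}
    {n1 n2 : Type*} [Fintype n1] [Fintype n2] {U1 : Matrix δ n1 K} {U2 : Matrix δ n2 K}
    (hH : Ctx k arm J B N W (g + a • f)) (hPt : Pt ∈ NN arm J N (g + a • f))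
    {Y : Fin 3 → Matrix δ δ K} {d : Derivation k K K}
    (m : Mv k arm J N W (g + a • f) Pt.1 Y d) {c1 c2 : K}
    (fr : SUX.Fr J g (g + a • f) Pt.1 (gᵀ * J * (p.1 * g)) c1 c2 U1 U2)
    (hsp1 : ∀ u ∈ Qb h.data hR p.1 D ν, ∃ x, u = U1 *ᵥ x)
    (hmem1 : ∀ x, U1 *ᵥ x ∈ Qb h.data hR p.1 D ν)
    (hsp2 : ∀ u ∈ Qb h.data hR p.1 D ν', ∃ x, u = U2 *ᵥ x)
    (hmem2 : ∀ x, U2 *ᵥ x ∈ Qb h.data hR p.1 D ν')
    {Γ1 : Matrix n1 n1 K} {Γ2 : Matrix n2 n2 K} {β : Matrix n1 n2 K} {γ γ0 : Matrix n2 n1 K}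
    (hN2 : ∀ v ∈ W, v * (U2.map d + ZY arm J (g + a • f) Pt.1 Y * U2) =
      v * (U2 * Γ2 + c2 ^ 2 • (U1 * β)))
    (hN1 : ∀ v ∈ W, v * (U1.map d + ZY arm J (g + a • f) Pt.1 Y * U1) =
      v * (U1 * Γ1 + c1 ^ 2 • (U2 * γ)))
    (hβ : (U1ᵀ * (gᵀ * J * (p.1 * g)) * U1) * β = 0)
    (hγ : (U2ᵀ * (gᵀ * J * (p.1 * g)) * U2) * γ = 0)
    (hγ0 : (U2ᵀ * (gᵀ * J * (p.1 * g)) * U2) * γ0 = 0)
    (hc3 : ∀ κ, κ ≠ ν → κ ≠ ν' → Qb h.data hR p.1 D κ ≠ ⊥ → 1 + a * κ ≠ 0)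
    (hN3 : ∀ κ, κ ≠ ν → κ ≠ ν' → ∀ u ∈ Qb h.data hR p.1 D κ, ∃ u' ∈ Qb h.data hR p.1 D κ,
      ∀ v ∈ W, v *ᵥ SUB.nab arm J (g + a • f) Pt.1 Y d u = v *ᵥ u')
    {w : Matrix ι δ K} (hw : w ∈ W) {μ : K → K}
    (L1 : w * U1 = μ ν • (g * U1) + g * (U2 * γ0)) (L2 : w * U2 = μ ν' • (g * U2))
    (L3 : ∀ κ, κ ≠ ν → κ ≠ ν' → ∀ u ∈ Qb h.data hR p.1 D κ, w *ᵥ u = μ κ • (g *ᵥ u)) :
    ∃ μ' : K → K, ∀ κ, ∀ u ∈ Qb h.data hR p.1 D κ, ∃ v, Perp (p := p) h hR D v ∧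
      wd arm J (g + a • f) Pt.1 Y d w *ᵥ u = μ' κ • (g *ᵥ u) + g *ᵥ v := by
  classical
  refine ⟨fun κ => if κ = ν then d (μ ν) - μ ν * (d c1 / c1) else if κ = ν' then
    d (μ ν') - μ ν' * (d c2 / c2) else d (μ κ) - μ κ * (d (1 + a * κ) / (1 + a * κ)),
    fun κ u hu => ?_⟩
  have hHW := hH.memW
  by_cases h1 : κ = ν
  · subst h1
    obtain ⟨x, rfl⟩ := hsp1 u hu
    have e1 := SUXv.wd_U1 fr m.dH hHW hw hN2 hN1 L1 L2
    have hg2 : (U2ᵀ * (gᵀ * J * (p.1 * g)) * U2) * (Γ2 * γ0 + γ0.map d - γ0 * Γ1 +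
        (μ κ * (c1 * c2) - μ ν' * c1 ^ 2) • γ - (d c2 / c2) • γ0) = 0 := by
      rw [Matrix.mul_sub, Matrix.mul_add, Matrix.mul_sub, rad_der hH hPt m fr hN2 hγ0,
        ← Matrix.mul_assoc _ γ0, hγ0, Matrix.zero_mul, Matrix.mul_smul, hγ, Matrix.mul_smul, hγ0]
      simp
    refine ⟨U2 *ᵥ ((Γ2 * γ0 + γ0.map d - γ0 * Γ1 +
        (μ κ * (c1 * c2) - μ ν' * c1 ^ 2) • γ - (d c2 / c2) • γ0) *ᵥ x) +
        (c1 * c2) • (U1 *ᵥ ((β * γ0) *ᵥ x)), ?_, ?_⟩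
    · refine (perp_blk h hR hD hNil hp hf hsp2 hmem2 ?_).add h hR
        ((perp_blk h hR hD hNil hp hf hsp1 hmem1 ?_).smul h hR _)
      · rw [mulVec_mulVec, hg2, zero_mulVec]
      · rw [mulVec_mulVec, ← Matrix.mul_assoc, hβ, Matrix.zero_mul, zero_mulVec]
    · beta_reduce
      rw [if_pos rfl, mulVec_mulVec x, e1, add_mulVec, add_mulVec, smul_mulVec, smul_mulVec,
        mulVec_add, mulVec_smul, add_assoc]
      simp only [mulVec_mulVec, Matrix.mul_assoc]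
  · by_cases h2 : κ = ν'
    · subst h2
      obtain ⟨x, rfl⟩ := hsp2 u hu
      have e1 := SUXv.wd_U2 fr m.dH hHW hw hN2 L1 L2
      refine ⟨(μ κ * (c1 * c2) - μ ν * c2 ^ 2) • (U1 *ᵥ (β *ᵥ x)) +
        (-(c2 ^ 2)) • (U2 *ᵥ ((γ0 * β) *ᵥ x)), ?_, ?_⟩
      · refine ((perp_blk h hR hD hNil hp hf hsp1 hmem1 ?_).smul h hR _).add h hR
          ((perp_blk h hR hD hNil hp hf hsp2 hmem2 ?_).smul h hR _)
        · rw [mulVec_mulVec, hβ, zero_mulVec]
        · rw [mulVec_mulVec, ← Matrix.mul_assoc, hγ0, Matrix.zero_mul, zero_mulVec]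
      · beta_reduce
        rw [if_neg h1, if_pos rfl, mulVec_mulVec x, e1, sub_mulVec, add_mulVec, smul_mulVec,
          smul_mulVec, smul_mulVec, mulVec_add, mulVec_smul, mulVec_smul, neg_smul]
        simp only [mulVec_mulVec, Matrix.mul_assoc]
        abel
    · beta_reduce
      rw [if_neg h1, if_neg h2]
      by_cases hb : Qb h.data hR p.1 D κ = ⊥
      · rw [hb, Submodule.mem_bot] at hu
        subst hu
        exact ⟨0, fun κ u _ => by rw [mulVec_zero, dotProduct_zero], by simp⟩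
      have hc := hc3 κ h1 h2 hb
      obtain ⟨u', hu', hW⟩ := hN3 κ h1 h2 u hu
      refine ⟨0, fun κ u _ => by rw [mulVec_zero, dotProduct_zero], ?_⟩
      rw [mulVec_zero, add_zero]
      have a1 := SUB.H_nab m u
      rw [Qb_H h hR hD hNil hp hf hu, hW _ hHW, Qb_H h hR hD hNil hp hf hu', SUB.dv_smul] at a1
      have a2 : dv d (g *ᵥ u) = g *ᵥ u' - (d (1 + a * κ) / (1 + a * κ)) • (g *ᵥ u) := by
        have a3 : (1 + a * κ) • dv d (g *ᵥ u) =
            (1 + a * κ) • (g *ᵥ u') - d (1 + a * κ) • (g *ᵥ u) := eq_sub_of_add_eq a1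
        have a4 := congrArg (fun x => (1 + a * κ)⁻¹ • x) a3
        simp only [smul_smul, smul_sub, inv_mul_cancel₀ hc, one_smul] at a4
        rw [a4, div_eq_inv_mul]
      have a5 := SUB.F_nab (arm := arm) (J := J) (H := g + a • f) (Y := Y) (d := d) Pt.1 w u
      rw [hW w hw, L3 κ h1 h2 u hu, L3 κ h1 h2 u' hu', SUB.dv_smul, a2] at a5
      have a6 : wd arm J (g + a • f) Pt.1 Y d w *ᵥ u =
          (μ κ • (g *ᵥ u' - (d (1 + a * κ) / (1 + a * κ)) • (g *ᵥ u)) + d (μ κ) • (g *ᵥ u)) -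
            μ κ • (g *ᵥ u') := by
        rw [a5]; abel
      rw [a6]
      module

/-- **L2-h: `w'' = wd w` is good.** -/
theorem wd_QG {a : K} {Pt : Matrix ι ι K × (Fin 3 → Matrix ι ι K)} {ν ν' : K}
    {n1 n2 : Type*} [Fintype n1] [Fintype n2] {U1 : Matrix δ n1 K} {U2 : Matrix δ n2 K}
    (hH : Ctx k arm J B N W (g + a • f)) (hPt : Pt ∈ NN arm J N (g + a • f))
    {Y : Fin 3 → Matrix δ δ K} {d : Derivation k K K}
    (m : Mv k arm J N W (g + a • f) Pt.1 Y d) {c1 c2 : K}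
    (fr : SUX.Fr J g (g + a • f) Pt.1 (gᵀ * J * (p.1 * g)) c1 c2 U1 U2)
    (hsp1 : ∀ u ∈ Qb h.data hR p.1 D ν, ∃ x, u = U1 *ᵥ x)
    (hmem1 : ∀ x, U1 *ᵥ x ∈ Qb h.data hR p.1 D ν)
    (hsp2 : ∀ u ∈ Qb h.data hR p.1 D ν', ∃ x, u = U2 *ᵥ x)
    (hmem2 : ∀ x, U2 *ᵥ x ∈ Qb h.data hR p.1 D ν')
    {Γ1 : Matrix n1 n1 K} {Γ2 : Matrix n2 n2 K} {β : Matrix n1 n2 K} {γ γ0 : Matrix n2 n1 K}
    (hN2 : ∀ v ∈ W, v * (U2.map d + ZY arm J (g + a • f) Pt.1 Y * U2) =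
      v * (U2 * Γ2 + c2 ^ 2 • (U1 * β)))
    (hN1 : ∀ v ∈ W, v * (U1.map d + ZY arm J (g + a • f) Pt.1 Y * U1) =
      v * (U1 * Γ1 + c1 ^ 2 • (U2 * γ)))
    (hβ : (U1ᵀ * (gᵀ * J * (p.1 * g)) * U1) * β = 0)
    (hγ : (U2ᵀ * (gᵀ * J * (p.1 * g)) * U2) * γ = 0)
    (hγ0 : (U2ᵀ * (gᵀ * J * (p.1 * g)) * U2) * γ0 = 0)
    (hc : ∀ κ, Qb h.data hR p.1 D κ ≠ ⊥ → 1 + a * κ ≠ 0)
    (hN3 : ∀ κ, κ ≠ ν → κ ≠ ν' → ∀ u ∈ Qb h.data hR p.1 D κ, ∃ u' ∈ Qb h.data hR p.1 D κ,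
      ∀ v ∈ W, v *ᵥ SUB.nab arm J (g + a • f) Pt.1 Y d u = v *ᵥ u')
    {w : Matrix ι δ K} (hw : w ∈ W) (hwp : (g + a • f)ᵀ * J * w = 0) {μ : K → K}
    (L1 : w * U1 = μ ν • (g * U1) + g * (U2 * γ0)) (L2 : w * U2 = μ ν' • (g * U2))
    (L3 : ∀ κ, κ ≠ ν → κ ≠ ν' → ∀ u ∈ Qb h.data hR p.1 D κ, w *ᵥ u = μ κ • (g *ᵥ u))
    {α : Type*} {Pb : α → Submodule K (ι → K)} {nu : α → K}
    (hPb : ∀ i, Pb i ≤ (PB (Ph arm J B g R p.1) D (nu i)).map (Sg g).subtype)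
    {x : Matrix ι δ K} (hx : x - wd arm J (g + a • f) Pt.1 Y d w ∈ N) :
    x ∈ SLev0.QG arm J B N W g p (PC arm J B g R p.1) Pb nu := by
  obtain ⟨μ', hμ'⟩ := vals h hR hD hNil hp hf hH hPt m fr hsp1 hmem1 hsp2 hmem2 hN2 hN1 hβ hγ hγ0
    (fun κ _ _ hb => hc κ hb) hN3 hw L1 L2 L3
  have hwJ : (g + a • f)ᵀ * J * wd arm J (g + a • f) Pt.1 Y d w = 0 := m.w_perp hH hwp
  refine QG_of_vals h hR hD hPb (m.w_mem hw) hx (fun κ u hu v => ?_) μ' fun i u hu => hμ' _ u hu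
  by_cases hb : Qb h.data hR p.1 D κ = ⊥
  · rw [hb, Submodule.mem_bot] at hu
    rw [hu, mulVec_zero, zero_dotProduct]
  have e1 : ((g + a • f) *ᵥ u) ⬝ᵥ ((J * wd arm J (g + a • f) Pt.1 Y d w) *ᵥ v) = 0 := by
    rw [← tdot' (g + a • f) u, mulVec_mulVec, ← Matrix.mul_assoc, hwJ, zero_mulVec,
      dotProduct_zero]
  rw [Qb_H h hR hD hNil hp hf hu, smul_dotProduct, smul_eq_mul] at e1
  exact (mul_eq_zero.1 e1).resolve_left (hc κ hb)

end blk

end Crest.Agent.R172.SWd275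
end

-- ▼ part R172/SNab934
section

/-!
Row 172 (S0260), S-side (t2), node S-hN2 (helper934): the block structure of a connection `nab` with
`[nab, Om_r] = [G_r, Om_r]`, where `Om_r = sc ν • a_r` on the block `PB ν`.
-/

set_option autoImplicit false
set_option linter.unusedSectionVars false

namespace Crest.Agent.R172.SNab

open Module
open Crest.Agent.R172.St (Nk T mem_T mem_Nk_zero mem_Nk_succ Nk_le_T T_stable T_closed T_eq_Nk)
open Crest.Agent.R172.PL (Wk Ainf Rad CoreM coreOp resOp Ainf_exists Ainf_le_Wk Ainf_stable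
  Ainf_eq_Wk coreOp_mk)
open Crest.Agent.R172.SC (PB PB_mem PB_exists PB_stable PB_le_Ainf PB_surj iSup_PB mk_zero_iff)
open Crest.Agent.R172.SCB (toE toE_coe toE_surj toE_zero bR)

variable {K : Type*} [Field K] {X : Type*} [AddCommGroup X] [Module K X]

section proj

variable {V : Type*} [AddCommGroup V] [Module K V] {D : End K V}

theorem cpl (hs : ⨆ ν, D.maxGenEigenspace ν = ⊤) (μ : K) :
    IsCompl (D.maxGenEigenspace μ) (⨆ (ka : K) (_ : ka ≠ μ), D.maxGenEigenspace ka) := by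
  refine ⟨(Module.End.independent_maxGenEigenspace D) μ, ?_⟩
  rw [codisjoint_iff, eq_top_iff, ← hs]
  refine iSup_le fun ν => ?_
  by_cases h : ν = μ
  · rw [h]; exact le_sup_left
  · exact le_trans (le_iSup₂ (f := fun (ka : K) (_ : ka ≠ μ) => D.maxGenEigenspace ka) ν h)
      le_sup_right

/-- projection to a block -/
noncomputable def pr (hs : ⨆ ν, D.maxGenEigenspace ν = ⊤) (μ : K) :
    V →ₗ[K] D.maxGenEigenspace μ :=
  Submodule.projectionOnto _ _ (cpl hs μ)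

theorem pr_self (hs : ⨆ ν, D.maxGenEigenspace ν = ⊤) (μ : K) (x : D.maxGenEigenspace μ) :
    pr hs μ (x : V) = x := Submodule.projectionOnto_apply_left (cpl hs μ) x

theorem pr_self' (hs : ⨆ ν, D.maxGenEigenspace ν = ⊤) (μ : K) {x : V}
    (hx : x ∈ D.maxGenEigenspace μ) : ((pr hs μ x : D.maxGenEigenspace μ) : V) = x :=
  congrArg Subtype.val (pr_self hs μ ⟨x, hx⟩)

theorem pr_other (hs : ⨆ ν, D.maxGenEigenspace ν = ⊤) {μ ν : K} (h : ν ≠ μ) {x : V}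
    (hx : x ∈ D.maxGenEigenspace ν) : pr hs μ x = 0 := by
  refine (Submodule.projectionOnto_apply_eq_zero_iff (cpl hs μ)).2 ?_
  exact Submodule.mem_iSup_of_mem ν (Submodule.mem_iSup_of_mem h hx)

/-- a vector all of whose other components vanish -/
theorem mem_of_pr (hs : ⨆ ν, D.maxGenEigenspace ν = ⊤) (ν : K) {x : V}
    (h : ∀ μ, μ ≠ ν → pr hs μ x = 0) : x ∈ D.maxGenEigenspace ν := by
  classical
  have hx : x ∈ ⨆ ν, D.maxGenEigenspace ν := by rw [hs]; trivial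
  obtain ⟨f, hf1, hf2⟩ := (Submodule.mem_iSup_iff_exists_finsupp
    (p := fun ν => D.maxGenEigenspace ν) x).1 hx
  have h1 : ∀ μ, ((pr hs μ x : D.maxGenEigenspace μ) : V) = f μ := by
    intro μ
    rw [← hf2, Finsupp.sum, map_sum]
    rw [Submodule.coe_sum]
    by_cases hμ : μ ∈ f.support
    · rw [Finset.sum_eq_single μ]
      · exact pr_self' hs μ (hf1 μ)
      · intro b _ hb
        rw [pr_other hs hb (hf1 b)]
        rfl
      · intro h2; exact absurd hμ h2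
    · rw [Finset.sum_eq_zero, Finsupp.notMem_support_iff.1 hμ]
      intro b hb
      have hb' : b ≠ μ := fun h2 => hμ (h2 ▸ hb)
      rw [pr_other hs hb' (hf1 b)]
      rfl
  have h2 : x = f ν := by
    conv_lhs => rw [← hf2]
    rw [Finsupp.sum]
    by_cases hν : ν ∈ f.support
    · rw [Finset.sum_eq_single ν]
      · intro b _ hb
        rw [← h1 b, h b hb]
        rfl
      · intro h2; exact absurd hν h2
    · rw [Finset.sum_eq_zero, Finsupp.notMem_support_iff.1 hν]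
      intro b hb
      have hb' : b ≠ ν := fun h2 => hν (h2 ▸ hb)
      rw [← h1 b, h b hb']
      rfl
  rw [h2]
  exact hf1 ν

end proj

variable {a Om G : Fin 3 → End K X} {D : End K (CoreM a)} {sc del : K → K} {nab : X →+ X}

/-- twisted hom-vanishing -/
def Hom0 (a : Fin 3 → End K X) (D : End K (CoreM a)) (sc : K → K) : Prop :=
  ∀ lam mu, lam ≠ mu → ∀ x : D.maxGenEigenspace lam →ₗ[K] D.maxGenEigenspace mu,
    (∀ r, ∀ v w : D.maxGenEigenspace lam, (w : CoreM a) = coreOp a r v →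
      sc lam • ((x w : D.maxGenEigenspace mu) : CoreM a) =
        sc mu • coreOp a r (x v : D.maxGenEigenspace mu)) → x = 0

/-- the data of the connection -/
structure NB (a Om G : Fin 3 → End K X) (D : End K (CoreM a)) (sc del : K → K)
    (nab : X →+ X) : Prop where
  hD : ∀ s x, D (coreOp a s x) = coreOp a s (D x)
  hs : ⨆ ν, D.maxGenEigenspace ν = ⊤
  hsc : ∀ ν, ∀ u ∈ PB a D ν, ∀ r, Om r u = sc ν • a r u
  hsc0 : ∀ ν, D.maxGenEigenspace ν ≠ ⊥ → sc ν ≠ 0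
  ainf : Ainf Om ≤ Ainf a
  hom : Hom0 a D sc
  leib : ∀ (c : K) (x : X), nab (c • x) = c • nab x + del c • x
  rel : ∀ r u, nab (Om r u) = Om r (nab u) + (G r (Om r u) - Om r (G r u))

/-- no vector of the core is killed by all operators -/
theorem core_zero {x : CoreM a} (h : ∀ s, coreOp a s x = 0) : x = 0 := by
  obtain ⟨v, rfl⟩ := (Rad a).mkQ_surjective x
  have h1 : (v : X) ∈ T a := by
    refine T_closed fun s => ?_
    have h2 := h s
    rw [coreOp_mk] at h2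
    exact (Submodule.Quotient.mk_eq_zero (Rad a)).1 h2
  exact (Submodule.Quotient.mk_eq_zero (Rad a)).2 h1

/-- blocks at non-eigenvalues vanish -/
theorem PB_zero [FiniteDimensional K X] (hD : ∀ s x, D (coreOp a s x) = coreOp a s (D x)) {ν : K}
    (hν : D.maxGenEigenspace ν = ⊥) {u : X} (hu : u ∈ PB a D ν) : u = 0 := by
  obtain ⟨m, hm⟩ := T_eq_Nk a
  have h0 : ∀ u ∈ PB a D ν, u ∈ Nk a m := by
    intro v hv
    obtain ⟨h, h1⟩ := PB_mem hv
    rw [hν, Submodule.mem_bot] at h1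
    rw [← hm]
    exact (mk_zero_iff h).1 h1
  have h1 : ∀ j, (∀ u ∈ PB a D ν, u ∈ Nk a j) → ∀ u ∈ PB a D ν, u = 0 := by
    intro j
    induction j with
    | zero => intro h u hu; exact mem_Nk_zero.1 (h u hu)
    | succ j ih =>
      intro h
      refine ih fun v hv => ?_
      obtain ⟨f, hf, hs⟩ := PB_exists hD ν hv
      rw [← hs]
      exact Submodule.sum_mem _ fun s _ => mem_Nk_succ.1 (h _ (hf s)) s
  exact h1 m h0 u hu

section main

variable [FiniteDimensional K X] (h : NB a Om G D sc del nab)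
include h

/-- perfectness under `Om` -/
theorem NB.exists_Om {ν : K} {u : X} (hu : u ∈ PB a D ν) :
    ∃ f : Fin 3 → X, (∀ s, f s ∈ PB a D ν) ∧ ∑ s, Om s (f s) = u := by
  by_cases hν : D.maxGenEigenspace ν = ⊥
  · refine ⟨0, fun s => Submodule.zero_mem _, ?_⟩
    rw [PB_zero h.hD hν hu]
    simp
  · obtain ⟨f, hf, hfu⟩ := PB_exists h.hD ν hu
    refine ⟨fun s => (sc ν)⁻¹ • f s, fun s => Submodule.smul_mem _ _ (hf s), ?_⟩
    rw [← hfu]
    refine Finset.sum_congr rfl fun s _ => ?_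
    rw [h.hsc ν _ (Submodule.smul_mem _ _ (hf s)), map_smul, smul_smul,
      mul_inv_cancel₀ (h.hsc0 ν hν), one_smul]

theorem NB.Om_PB {ν : K} (r : Fin 3) {u : X} (hu : u ∈ PB a D ν) : Om r u ∈ PB a D ν := by
  rw [h.hsc ν u hu]
  exact Submodule.smul_mem _ _ (PB_stable h.hD ν r hu)

theorem NB.PB_le (ν : K) (k : ℕ) : PB a D ν ≤ Wk Om k := by
  induction k with
  | zero => exact le_top
  | succ k ih =>
    intro u hu
    obtain ⟨f, hf, rfl⟩ := h.exists_Om hu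
    exact Submodule.sum_mem _ fun s _ => Submodule.mem_iSup_of_mem s ⟨f s, ih (hf s), rfl⟩

theorem NB.Om_Ainf (r : Fin 3) {y : X} (hy : y ∈ Ainf a) : Om r y ∈ Ainf a := by
  have h1 : Ainf a ≤ (Ainf a).comap (Om r) := by
    rw [← iSup_PB h.hD h.hs]
    refine iSup_le fun ν u hu => ?_
    exact Submodule.mem_iSup_of_mem ν (h.Om_PB r hu)
  exact h1 hy

variable {ν ν' : K} (g1 : ∀ r, ∀ u ∈ PB a D ν, G r u ∈ PB a D ν')
  (gA : ∀ r, ∀ u ∈ PB a D ν, G r (Om r u) - Om r (G r u) ∈ T a)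
include g1

theorem NB.nab_Ainf {u : X} (hu : u ∈ PB a D ν) : nab u ∈ Ainf a := by
  refine h.ainf ((Submodule.mem_iInf _).2 fun k => ?_)
  induction k generalizing u with
  | zero => exact Submodule.mem_top
  | succ k ih =>
    obtain ⟨f, hf, rfl⟩ := h.exists_Om hu
    rw [map_sum]
    refine Submodule.sum_mem _ fun s _ => ?_
    rw [h.rel]
    refine Submodule.add_mem _ (Submodule.mem_iSup_of_mem s ⟨_, ih (hf s), rfl⟩) ?_
    exact Submodule.sub_mem _ (h.PB_le ν' (k + 1) (g1 s _ (h.Om_PB s (hf s))))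
      (h.PB_le ν' (k + 1) (h.Om_PB s (g1 s _ (hf s))))

omit g1 in
/-- components of `Om_r y` -/
theorem NB.pr_Om (μ : K) (r : Fin 3) {y : X} (hy : y ∈ Ainf a) :
    ((pr h.hs μ ((Rad a).mkQ ⟨Om r y, h.Om_Ainf r hy⟩) : D.maxGenEigenspace μ) : CoreM a) =
      sc μ • coreOp a r (pr h.hs μ ((Rad a).mkQ ⟨y, hy⟩) : D.maxGenEigenspace μ) := by
  have key : ∀ y : X, y ∈ ⨆ ν, PB a D ν → ∀ (h1 : y ∈ Ainf a),
      ((pr h.hs μ ((Rad a).mkQ ⟨Om r y, h.Om_Ainf r h1⟩) : D.maxGenEigenspace μ) : CoreM a) =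
      sc μ • coreOp a r (pr h.hs μ ((Rad a).mkQ ⟨y, h1⟩) : D.maxGenEigenspace μ) := by
    intro y hy
    induction hy using Submodule.iSup_induction' with
    | mem lam y hy =>
      intro h1
      obtain ⟨h2, h3⟩ := PB_mem hy
      obtain ⟨h4, h5⟩ := PB_mem (h.Om_PB r hy)
      by_cases hl : lam = μ
      · subst hl
        rw [pr_self' h.hs lam h5, pr_self' h.hs lam h3, coreOp_mk, ← map_smul]
        congr 1
        apply Subtype.ext
        exact h.hsc lam y hy r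
      · rw [pr_other h.hs hl h5, pr_other h.hs hl h3]
        simp
    | zero =>
      intro h1
      have e1 : (Rad a).mkQ ⟨(0 : X), h1⟩ = 0 := map_zero _
      have e2 : (Rad a).mkQ ⟨Om r 0, h.Om_Ainf r h1⟩ = 0 := by
        rw [← map_zero (Rad a).mkQ]
        congr 1
        exact Subtype.ext (map_zero _)
      rw [e1, e2]
      simp
    | add x y hx hy ihx ihy =>
      intro h1
      rw [iSup_PB h.hD h.hs] at hx hy
      have e1 : (Rad a).mkQ ⟨x + y, h1⟩ = (Rad a).mkQ ⟨x, hx⟩ + (Rad a).mkQ ⟨y, hy⟩ := by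
        rw [← map_add]; rfl
      have e2 : (Rad a).mkQ ⟨Om r (x + y), h.Om_Ainf r h1⟩ =
          (Rad a).mkQ ⟨Om r x, h.Om_Ainf r hx⟩ + (Rad a).mkQ ⟨Om r y, h.Om_Ainf r hy⟩ := by
        rw [← map_add]
        congr 1
        exact Subtype.ext (map_add _ _ _)
      rw [e1, e2, map_add, map_add, Submodule.coe_add, Submodule.coe_add, ihx hx, ihy hy,
        map_add, smul_add]
  exact key y (by rw [iSup_PB h.hD h.hs]; exact hy) hy

/-- the class of `nab u` -/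
noncomputable def NB.cl (u : PB a D ν) : CoreM a :=
  (Rad a).mkQ ⟨nab (u : X), h.nab_Ainf g1 u.2⟩

include gA in
theorem NB.cl_pr {μ : K} (hμ : μ ≠ ν) (u : PB a D ν) : pr h.hs μ (h.cl g1 u) = 0 := by
  by_cases hbot : D.maxGenEigenspace μ = ⊥
  · apply Subtype.ext
    exact (Submodule.eq_bot_iff _).1 hbot _ (pr h.hs μ (h.cl g1 u)).2
  -- the linear map
  let z0 : PB a D ν →ₗ[K] D.maxGenEigenspace μ :=
    { toFun := fun u => pr h.hs μ (h.cl g1 u)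
      map_add' := fun x y => by
        rw [← map_add]
        congr 1
        unfold NB.cl
        rw [← map_add]
        congr 1
        exact Subtype.ext (map_add nab _ _)
      map_smul' := fun c x => by
        obtain ⟨h2, h3⟩ := PB_mem x.2
        have e1 : h.cl g1 (c • x) = c • h.cl g1 x + del c • (Rad a).mkQ ⟨(x : X), h2⟩ := by
          unfold NB.cl
          rw [← map_smul, ← map_smul, ← map_add]
          congr 1
          exact Subtype.ext (h.leib c x)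
        rw [e1, map_add, map_smul, map_smul, pr_other h.hs hμ.symm h3, smul_zero, add_zero]
        rfl }
  have hz0 : ∀ (r : Fin 3) (u w : PB a D ν), (w : X) = a r u →
      sc ν • ((z0 w : D.maxGenEigenspace μ) : CoreM a) =
        sc μ • coreOp a r (z0 u : D.maxGenEigenspace μ) := by
    intro r u w hw
    have h1 : (sc ν • (w : X)) = Om r u := by rw [h.hsc ν _ u.2, hw]
    have h2 : z0 (sc ν • w) = sc ν • z0 w := map_smul _ _ _
    have h3 : sc ν • ((z0 w : D.maxGenEigenspace μ) : CoreM a) =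
        ((z0 (sc ν • w) : D.maxGenEigenspace μ) : CoreM a) := by rw [h2]; rfl
    rw [h3]
    have h4 : h.cl g1 (sc ν • w) = (Rad a).mkQ ⟨Om r (nab u), h.Om_Ainf r (h.nab_Ainf g1 u.2)⟩ := by
      unfold NB.cl
      rw [← sub_eq_zero, ← map_sub]
      refine (Submodule.Quotient.mk_eq_zero (Rad a)).2 ?_
      change nab (sc ν • (w : X)) - Om r (nab u) ∈ T a
      rw [h1, h.rel, add_sub_cancel_left]
      exact gA r u u.2
    change ((pr h.hs μ (h.cl g1 (sc ν • w)) : D.maxGenEigenspace μ) : CoreM a) = _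
    rw [h4, h.pr_Om μ r (h.nab_Ainf g1 u.2)]
    rfl
  have hk : ∀ k, ∀ u : PB a D ν, (u : X) ∈ Nk a k → z0 u = 0 := by
    intro k
    induction k with
    | zero =>
      intro u hu
      have : u = 0 := Subtype.ext (mem_Nk_zero.1 hu)
      rw [this, map_zero]
    | succ k ih =>
      intro u hu
      apply Subtype.ext
      refine core_zero (a := a) fun s => ?_
      have h1 := hz0 s u ⟨a s u, PB_stable h.hD ν s u.2⟩ rfl
      rw [ih _ (mem_Nk_succ.1 hu s)] at h1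
      have h2 : sc μ • coreOp a s (z0 u : D.maxGenEigenspace μ) = 0 := by
        rw [← h1]; simp
      exact (smul_eq_zero.1 h2).resolve_left (h.hsc0 μ hbot)
  obtain ⟨σ, hσ⟩ := (toE a D ν).exists_rightInverse_of_surjective
    (LinearMap.range_eq_top.2 (toE_surj h.hD h.hs ν))
  have hσ' : ∀ y, toE a D ν (σ y) = y := fun y => LinearMap.congr_fun hσ y
  have hz : ∀ u, z0 u = z0 (σ (toE a D ν u)) := by
    intro u
    have h1 : toE a D ν (u - σ (toE a D ν u)) = 0 := by rw [map_sub, hσ', sub_self]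
    have h2 := (toE_zero ν _).1 h1
    obtain ⟨m, hm⟩ := mem_T.1 (show ((u - σ (toE a D ν u) : PB a D ν) : X) ∈ T a from h2)
    have h3 := hk m _ hm
    rw [map_sub, sub_eq_zero] at h3
    exact h3
  have hfin := h.hom ν μ hμ.symm (z0 ∘ₗ σ) (by
    intro r v w hw
    have h1 : toE a D ν ⟨a r (σ v), PB_stable h.hD ν r (σ v).2⟩ = w := by
      apply Subtype.ext
      rw [hw, toE_coe]
      have h2 : coreOp a r (v : D.maxGenEigenspace ν) =
          coreOp a r ((toE a D ν (σ v) : D.maxGenEigenspace ν) : CoreM a) := by rw [hσ']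
      rw [h2, toE_coe, coreOp_mk]
      rfl
    rw [LinearMap.comp_apply, LinearMap.comp_apply, ← h1, ← hz]
    exact hz0 r (σ v) _ rfl)
  change z0 u = 0
  rw [hz u]
  exact LinearMap.congr_fun hfin (toE a D ν u)

include gA in
/-- **the class of `nab u` lies in the same block** -/
theorem NB.cl_mem {u : X} (hu : u ∈ PB a D ν) :
    (Rad a).mkQ ⟨nab u, h.nab_Ainf g1 hu⟩ ∈ D.maxGenEigenspace ν :=
  mem_of_pr h.hs ν fun _ hμ => h.cl_pr g1 gA hμ ⟨u, hu⟩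

/-- the filtration of the radical of the sum of the blocks -/
def RR (a : Fin 3 → End K X) (D : End K (CoreM a)) (j : ℕ) : Submodule K X :=
  ⨆ μ, PB a D μ ⊓ Nk a j

omit g1 in
theorem NB.T_le {m : ℕ} (hm : T a = Nk a m) {t : X} (ht : t ∈ T a) (htA : t ∈ Ainf a) :
    t ∈ RR a D m := by
  classical
  have h0 : t ∈ ⨆ ν, PB a D ν := by rw [iSup_PB h.hD h.hs]; exact htA
  obtain ⟨f, hf1, hf2⟩ := (Submodule.mem_iSup_iff_exists_finsupp
    (p := fun ν => PB a D ν) t).1 h0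
  have h2 : ∀ μ, f μ ∈ T a := by
    intro μ
    by_cases hμ : μ ∈ f.support
    · have e1 : (Rad a).mkQ ⟨t, htA⟩ = ∑ b ∈ f.support,
          (Rad a).mkQ ⟨f b, PB_le_Ainf b (hf1 b)⟩ := by
        rw [← map_sum]
        congr 1
        apply Subtype.ext
        rw [Submodule.coe_sum]
        exact hf2.symm
      have e2 : (Rad a).mkQ ⟨t, htA⟩ = 0 := (mk_zero_iff htA).2 ht
      have e3 := congrArg (fun x => ((pr h.hs μ x : D.maxGenEigenspace μ) : CoreM a)) e1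
      rw [e2, map_zero, map_sum, Submodule.coe_sum, Finset.sum_eq_single μ] at e3
      · obtain ⟨h3, h4⟩ := PB_mem (hf1 μ)
        rw [pr_self' h.hs μ h4] at e3
        exact (mk_zero_iff h3).1 e3.symm
      · intro b _ hb
        obtain ⟨h3, h4⟩ := PB_mem (hf1 b)
        rw [pr_other h.hs hb h4]
        rfl
      · intro h3; exact absurd hμ h3
    · rw [Finsupp.notMem_support_iff.1 hμ]
      exact Submodule.zero_mem _
  rw [← hf2, Finsupp.sum]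
  refine Submodule.sum_mem _ fun μ _ => Submodule.mem_iSup_of_mem μ ⟨hf1 μ, ?_⟩
  rw [← hm]
  exact h2 μ

omit g1 in
theorem NB.Om_RR (r : Fin 3) {j : ℕ} {t : X} (ht : t ∈ RR a D (j + 1)) : Om r t ∈ RR a D j := by
  have h1 : RR a D (j + 1) ≤ (RR a D j).comap (Om r) := by
    refine iSup_le fun μ => ?_
    rintro t ⟨ht1, ht2⟩
    refine Submodule.mem_iSup_of_mem μ ⟨h.Om_PB r ht1, ?_⟩
    rw [h.hsc μ t ht1]
    exact Submodule.smul_mem _ _ (mem_Nk_succ.1 ht2 r)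
  exact h1 ht

include gA in
/-- **`nab` maps the block into every `Om`-stable submodule which contains the block and the
commutators.** -/
theorem NB.nab_mem {S : Submodule K X} (hS : PB a D ν ≤ S) (hSO : ∀ r, ∀ v ∈ S, Om r v ∈ S)
    (hj : ∀ r, ∀ u ∈ PB a D ν, G r (Om r u) - Om r (G r u) ∈ S) {u : X} (hu : u ∈ PB a D ν) :
    nab u ∈ S := by
  obtain ⟨m, hm⟩ := T_eq_Nk a
  have key : ∀ j, ∀ i, i + j = m → ∀ u ∈ PB a D ν, ∃ s ∈ S, ∃ t ∈ RR a D i, nab u = s + t := by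
    intro j
    induction j with
    | zero =>
      intro i hi u hu
      obtain ⟨v, hvA, hv, hvm⟩ := PB_surj h.hD h.hs ν _ (h.cl_mem g1 gA hu)
      refine ⟨v, hS hv, nab u - v, ?_, by abel⟩
      have hmem : nab u - v ∈ Ainf a := Submodule.sub_mem _ (h.nab_Ainf g1 hu) hvA
      rw [show i = m by omega]
      refine h.T_le hm ((mk_zero_iff hmem).1 ?_) hmem
      have e1 : (Rad a).mkQ ⟨nab u - v, hmem⟩ = (Rad a).mkQ ⟨nab u, h.nab_Ainf g1 hu⟩ -
          (Rad a).mkQ ⟨v, hvA⟩ := by rw [← map_sub]; rfl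
      rw [e1, hvm, sub_self]
    | succ j ih =>
      intro i hi u hu
      obtain ⟨f, hf, rfl⟩ := h.exists_Om hu
      choose s hs t ht hst using fun r => ih (i + 1) (by omega) (f r) (hf r)
      refine ⟨∑ r, (Om r (s r) + (G r (Om r (f r)) - Om r (G r (f r)))), ?_,
        ∑ r, Om r (t r), ?_, ?_⟩
      · exact Submodule.sum_mem _ fun r _ => Submodule.add_mem _ (hSO r _ (hs r)) (hj r _ (hf r))
      · exact Submodule.sum_mem _ fun r _ => h.Om_RR r (ht r)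
      · rw [map_sum, ← Finset.sum_add_distrib]
        refine Finset.sum_congr rfl fun r _ => ?_
        rw [h.rel, hst r, map_add]
        abel
  obtain ⟨s, hs, t, ht, hst⟩ := key m 0 (by omega) u hu
  have h0 : t = 0 := by
    have h1 : RR a D 0 ≤ ⊥ := by
      refine iSup_le fun μ => ?_
      rintro x ⟨-, hx⟩
      exact (Submodule.mem_bot K).2 (mem_Nk_zero.1 hx)
    exact (Submodule.mem_bot K).1 (h1 ht)
  rw [hst, h0, add_zero]
  exact hs

omit g1 in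
/-- **(N3)**: a block killed by `G` is stable under `nab` -/
theorem NB.N3 (g0 : ∀ r, ∀ u ∈ PB a D ν, G r u = 0) {u : X} (hu : u ∈ PB a D ν) :
    nab u ∈ PB a D ν := by
  have h0 : ∀ r, ∀ u ∈ PB a D ν, G r (Om r u) - Om r (G r u) = 0 := by
    intro r u hu
    rw [g0 r _ (h.Om_PB r hu), g0 r _ hu, map_zero, sub_zero]
  refine h.nab_mem (ν := ν) (ν' := ν) (fun r u hu => by rw [g0 r u hu]; exact Submodule.zero_mem _)
    (fun r u hu => by rw [h0 r u hu]; exact Submodule.zero_mem _) le_rfl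
    (fun r v hv => h.Om_PB r hv) (fun r u hu => by rw [h0 r u hu]; exact Submodule.zero_mem _) hu

include gA in
/-- **(N1)**: `nab` maps the block `ν` into itself plus the radical of the block `ν'` -/
theorem NB.N1 (hne : ν ≠ ν') {u : X} (hu : u ∈ PB a D ν) :
    ∃ v ∈ PB a D ν, ∃ r ∈ PB a D ν', r ∈ T a ∧ nab u = v + r := by
  have h1 : nab u ∈ PB a D ν ⊔ PB a D ν' := by
    refine h.nab_mem g1 gA le_sup_left ?_ ?_ hu
    · intro r v hv
      obtain ⟨x, hx, y, hy, rfl⟩ := Submodule.mem_sup.1 hv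
      rw [map_add]
      exact Submodule.add_mem_sup (h.Om_PB r hx) (h.Om_PB r hy)
    · intro r u hu
      exact Submodule.mem_sup_right (Submodule.sub_mem _ (g1 r _ (h.Om_PB r hu))
        (h.Om_PB r (g1 r _ hu)))
  obtain ⟨v, hv, w, hw, e⟩ := Submodule.mem_sup.1 h1
  refine ⟨v, hv, w, hw, ?_, e.symm⟩
  obtain ⟨hvA, hvm⟩ := PB_mem hv
  obtain ⟨hwA, hwm⟩ := PB_mem hw
  have h2 := h.cl_mem g1 gA hu
  have e1 : (Rad a).mkQ ⟨nab u, h.nab_Ainf g1 hu⟩ =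
      (Rad a).mkQ ⟨v, hvA⟩ + (Rad a).mkQ ⟨w, hwA⟩ := by
    rw [← map_add]
    congr 1
    exact Subtype.ext e.symm
  rw [e1] at h2
  have h3 : (Rad a).mkQ ⟨w, hwA⟩ ∈ D.maxGenEigenspace ν := by
    have := Submodule.sub_mem _ h2 hvm
    rwa [add_sub_cancel_left] at this
  have h4 := pr_other h.hs hne h3
  have h5 := pr_self' h.hs ν' hwm
  rw [h4] at h5
  exact (mk_zero_iff hwA).1 h5.symm

end main

end Crest.Agent.R172.SNab
end

-- ▼ part R172/SNabI934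

/-!
Row 172 (S0260), S-side (t2), node L2-c / B1 (helper934): the block structure of the connection
`nab` of a move at `(H_t, P_t)`, `H_t = g + t f`, in `K^δ`.
-/

set_option autoImplicit false
set_option linter.unusedSectionVars false
set_option linter.unusedVariables false

namespace Crest.Agent.R172.SNabI

open Module
open Crest.Agent.R172.St (Nk T mem_T mem_Nk_zero mem_Nk_succ Nk_le_T T_stable T_closed T_eq_Nk)
open Crest.Agent.R172.PL (Wk Ainf Rad CoreM coreOp resOp Ainf_exists Ainf_le_Wk Ainf_stable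
  Ainf_eq_Wk coreOp_mk)
open Crest.Agent.R172.SC (PB PB_mem PB_exists PB_stable PB_le_Ainf PB_surj iSup_PB mk_zero_iff)
open Crest.Agent.R172.SNab

section hom

variable {K : Type*} [Field K] {X : Type*} [AddCommGroup X] [Module K X] [FiniteDimensional K X]
  {a : Fin 3 → End K X} {D : End K (CoreM a)}

/-- **for almost all `t` the twisted Hom's vanish.** -/
theorem exists_hom0 (h2 : (2 : K) ≠ 0) (hD : ∀ s x, D (coreOp a s x) = coreOp a s (D x))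
    (hs : ⨆ ν, D.maxGenEigenspace ν = ⊤) :
    ∃ S : Set K, S.Finite ∧ ∀ t ∉ S, (∀ ν, D.maxGenEigenspace ν ≠ ⊥ → 1 + t * ν ≠ 0) ∧
      Hom0 a D (fun ν => (1 + t * ν) ^ 2) := by
  classical
  have hE : {ν | D.maxGenEigenspace ν ≠ ⊥}.Finite :=
    WellFoundedGT.finite_ne_bot_of_iSupIndep (Module.End.independent_maxGenEigenspace D)
  let α : ∀ ν : K, Fin 3 → End K (D.maxGenEigenspace ν) := fun ν r =>
    (coreOp a r).restrict (fun v hv => Core.gen_stable (hD r) ν v hv)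
  let Bad : K → K → Set K := fun lam mu => {c | ∃ x : D.maxGenEigenspace lam →ₗ[K]
    D.maxGenEigenspace mu, x ≠ 0 ∧ ∀ s, x ∘ₗ α lam s = c • (α mu s ∘ₗ x)}
  have hperf : ∀ lam, ⨆ s, LinearMap.range (α lam s) = ⊤ := by
    intro lam
    rw [eq_top_iff]
    rintro ⟨m, hm⟩ -
    obtain ⟨f, hf, hfm⟩ := SC.gen_perfect hD hs lam m hm
    have h3 : (⟨m, hm⟩ : D.maxGenEigenspace lam) = ∑ s, α lam s ⟨f s, hf s⟩ := by
      apply Subtype.ext
      rw [Submodule.coe_sum]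
      exact hfm.symm
    rw [h3]
    exact Submodule.sum_mem _ fun s _ => Submodule.mem_iSup_of_mem s ⟨_, rfl⟩
  have hBad : ∀ lam mu, (Bad lam mu).Finite := fun lam mu =>
    QBlk.twist_finite (α mu) (hperf lam)
  let S1 : Set K := ⋃ ν ∈ {ν | D.maxGenEigenspace ν ≠ ⊥}, {t | 1 + t * ν = 0}
  let S2 : Set K := ⋃ lam ∈ {ν | D.maxGenEigenspace ν ≠ ⊥},
    ⋃ mu ∈ {ν | D.maxGenEigenspace ν ≠ ⊥}, ⋃ c ∈ Bad lam mu,
      {t | lam ≠ mu ∧ 1 + t * lam ≠ 0 ∧ -((1 + t * mu) ^ 2 / (1 + t * lam) ^ 2) = -c}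
  refine ⟨S1 ∪ S2, ?_, ?_⟩
  · refine Set.Finite.union (hE.biUnion fun ν _ => ?_) (hE.biUnion fun lam _ =>
      hE.biUnion fun mu _ => (hBad lam mu).biUnion fun c _ => ?_)
    · refine Set.Subsingleton.finite ?_
      intro s hs' t ht
      have e1 : 1 + s * ν = 0 := hs'
      have e2 : 1 + t * ν = 0 := ht
      have hν : ν ≠ 0 := by
        rintro rfl
        rw [mul_zero, add_zero] at e1
        exact one_ne_zero e1
      have e3 : (s - t) * ν = 0 := by linear_combination e1 - e2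
      exact sub_eq_zero.1 ((mul_eq_zero.1 e3).resolve_right hν)
    · by_cases hlm : lam = mu
      · refine Set.Finite.subset Set.finite_empty ?_
        rintro t ⟨h1, -⟩
        exact absurd hlm h1
      · refine (SBad97.ratio_finite hlm h2 (-c)).subset ?_
        rintro t ⟨-, h1, h3⟩
        exact ⟨h1, h3⟩
  · intro t ht
    have ht1 : ∀ ν, D.maxGenEigenspace ν ≠ ⊥ → 1 + t * ν ≠ 0 := by
      intro ν hν h0
      exact ht (Or.inl (Set.mem_biUnion (x := ν) hν h0))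
    refine ⟨ht1, ?_⟩
    intro lam mu hne x hx
    by_cases hl : D.maxGenEigenspace lam = ⊥
    · apply LinearMap.ext
      intro v
      have hv : v = 0 := Subtype.ext ((Submodule.eq_bot_iff _).1 hl _ v.2)
      rw [hv, map_zero, map_zero]
    by_cases hm : D.maxGenEigenspace mu = ⊥
    · apply LinearMap.ext
      intro v
      exact Subtype.ext ((Submodule.eq_bot_iff _).1 hm _ (x v).2)
    by_contra hx0
    refine ht (Or.inr ?_)
    refine Set.mem_biUnion (x := lam) hl (Set.mem_biUnion (x := mu) hm ?_)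
    refine Set.mem_biUnion (x := (1 + t * mu) ^ 2 / (1 + t * lam) ^ 2) ?_ ⟨hne, ht1 lam hl, rfl⟩
    refine ⟨x, hx0, fun s => ?_⟩
    apply LinearMap.ext
    intro v
    apply Subtype.ext
    have h3 := hx s v (α lam s v) rfl
    have h4 : (1 + t * lam) ^ 2 ≠ 0 := pow_ne_zero _ (ht1 lam hl)
    change ((x (α lam s v) : D.maxGenEigenspace mu) : CoreM a) =
      ((1 + t * mu) ^ 2 / (1 + t * lam) ^ 2) • coreOp a s (x v : D.maxGenEigenspace mu)
    rw [div_eq_inv_mul, mul_smul, ← h3, smul_smul, inv_mul_cancel₀ h4, one_smul]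

end hom

section inst

open Matrix Crest.Agent.R172.FO Crest.Agent.R172.Qt Crest.Agent.R172.SpS Crest.Agent.R172.SBlk
open Crest.Agent.R172.SUX (th Mv ZY)
open Crest.Agent.R172.UBlk (om om_eq om_apply cov Qb Qb_stable Qb_exists Qb_rel Qb_orth form_skew
  iSup_Qb)
open Crest.Agent.R172.UFr (Cq)

variable {ι : Type*} [Fintype ι] [DecidableEq ι] {δ : Type*} [Fintype δ] [DecidableEq δ]
variable {k K : Type*} [Field k] [Field K] [Algebra k K]
variable {arm : δ → Fin 3} {J : Matrix ι ι K} {B : Matrix δ δ K}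
  {N W : Submodule K (Matrix ι δ K)} {g f : Matrix ι δ K}
  {p : Matrix ι ι K × (Fin 3 → Matrix ι ι K)}

/-- `uᵀ S0 (ω_r v) = -(ω_r u)ᵀ S0 v` -/
theorem om_skew (h : Ctx k arm J B N W g) (hp : p ∈ NN arm J N g) (r : Fin 3) (u v : δ → K) :
    u ⬝ᵥ ((gᵀ * J * (p.1 * g)) *ᵥ (om arm J B g p.1 g r v)) =
      -((om arm J B g p.1 g r u) ⬝ᵥ ((gᵀ * J * (p.1 * g)) *ᵥ v)) := by
  have hs := form_skew h.data.J_symm hp
  have hb := h.data.B_arm r
  have hB := h.data.B_symm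
  have e1 : om arm J B g p.1 g r u = (B * E K arm r * (gᵀ * J * (p.1 * g))) *ᵥ u := rfl
  have e2 : om arm J B g p.1 g r v = (B * E K arm r * (gᵀ * J * (p.1 * g))) *ᵥ v := rfl
  rw [e1, e2]
  obtain ⟨S0, hS0⟩ : ∃ S0, S0 = gᵀ * J * (p.1 * g) := ⟨_, rfl⟩
  rw [← hS0] at hs ⊢
  have e3 : (B * E K arm r * S0)ᵀ * S0 = -(S0 * (B * E K arm r * S0)) := by
    rw [transpose_mul, transpose_mul, hs, E_transpose, hB, ← hb]
    simp only [Matrix.neg_mul, Matrix.mul_assoc]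
  rw [mulVec_mulVec, ← vecMul_transpose ((B * E K arm r * S0)) u, ← dotProduct_mulVec,
    mulVec_mulVec, e3, neg_mulVec, dotProduct_neg, neg_neg]


/-- vectors orthogonal to `Ainf` are nilpotent -/
theorem T_of_orth (h : Ctx k arm J B N W g) (hp : p ∈ NN arm J N g) {w : δ → K}
    (hw : ∀ v ∈ Ainf (om arm J B g p.1 g), v ⬝ᵥ ((gᵀ * J * (p.1 * g)) *ᵥ w) = 0) :
    w ∈ T (om arm J B g p.1 g) := by
  obtain ⟨m, hm, -⟩ := Ainf_eq_Wk (om arm J B g p.1 g)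
  have key : ∀ j, ∀ w : δ → K, (∀ v ∈ Wk (om arm J B g p.1 g) j,
      v ⬝ᵥ ((gᵀ * J * (p.1 * g)) *ᵥ w) = 0) → w ∈ Nk (om arm J B g p.1 g) (j + 1) := by
    intro j
    induction j with
    | zero =>
      intro w hw
      rw [mem_Nk_succ]
      intro s
      rw [mem_Nk_zero]
      have h0 : (gᵀ * J * (p.1 * g)) *ᵥ w = 0 := by
        funext i
        have := hw (Pi.single i 1) (Submodule.mem_top)
        rwa [single_one_dotProduct] at this
      change (B * E K arm s * (gᵀ * J * (p.1 * g))) *ᵥ w = 0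
      rw [← mulVec_mulVec, h0, mulVec_zero]
    | succ j ih =>
      intro w hw
      rw [mem_Nk_succ]
      intro s
      refine ih _ fun v hv => ?_
      have h1 := om_skew h hp s v w
      rw [h1, hw _ (Submodule.mem_iSup_of_mem s ⟨v, hv, rfl⟩), neg_zero]
  exact Nk_le_T _ _ (key m w (by rw [← hm]; exact hw))

/-- columns in a submodule -/
theorem mulVec_mem {Q : Submodule K (δ → K)} {n : Type*} [Fintype n] {U : Matrix δ n K}
    (hU : Cq Q U) (x : n → K) : U *ᵥ x ∈ Q := by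
  have h1 : U *ᵥ x = ∑ j, x j • (fun d => U d j) := by
    funext d
    rw [Finset.sum_apply]
    unfold Matrix.mulVec dotProduct
    exact Finset.sum_congr rfl fun j _ => by
      rw [Pi.smul_apply, smul_eq_mul, mul_comm]
  rw [h1]
  exact Submodule.sum_mem _ fun j _ => Submodule.smul_mem _ _ (hU j)

/-- the connection as an additive map -/
def nabH (arm : δ → Fin 3) (J : Matrix ι ι K) (H : Matrix ι δ K) (P : Matrix ι ι K)
    (Y : Fin 3 → Matrix δ δ K) (d : Derivation k K K) : (δ → K) →+ (δ → K) where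
  toFun := SUB.nab arm J H P Y d
  map_zero' := SUB.nab_zero P
  map_add' := SUB.nab_add P

@[simp] theorem nabH_apply (H : Matrix ι δ K) (P : Matrix ι ι K)
    (Y : Fin 3 → Matrix δ δ K) (d : Derivation k K K) (v : δ → K) :
    nabH arm J H P Y d v = SUB.nab arm J H P Y d v := rfl

section B1

variable (h : Ctx k arm J B N W g) {R : Matrix δ ι K} (hR : g * R * g = g)
  {D : End K (CoreM (Ph arm J B g R p.1))}
  (hD : IsD (Ph arm J B g R p.1) (Nh arm J B g f R p.1) D) [IsAlgClosed K]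
  (hNil : NilW arm J B N g) (hp : p ∈ NN arm J N g) (hf : f ∈ N ⊓ W) (hff : fᵀ * J * f = 0)
  {t : K} {Pt : Matrix ι ι K × (Fin 3 → Matrix ι ι K)} {dY : Derivation k K K}
  (hH : Ctx k arm J B N W (g + t • f)) (hPt : Pt ∈ NN arm J N (g + t • f))
  (hY : ∀ f' ∈ N ⊓ W, (g + t • f)ᵀ * J * (Pt.1 * f') = (g + t • f)ᵀ * J * f'.map dY)
  (hPF : (g + t • f)ᵀ * J * (Pt.1 * g) = (g + t • f)ᵀ * J * (p.1 * g))
  (hA : Ainf (om arm J B (g + t • f) Pt.1 (g + t • f)) ≤ Ainf (om arm J B g p.1 g))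
  (hc : ∀ κ, ((cov h.data hR p.1).D D).maxGenEigenspace κ ≠ ⊥ → 1 + t * κ ≠ 0)
  (hom : Hom0 (om arm J B g p.1 g) ((cov h.data hR p.1).D D) (fun κ => (1 + t * κ) ^ 2))
  {Y : Fin 3 → Matrix δ δ K} (hYs : ∀ r, (Y r)ᵀ = Y r) {d : Derivation k K K}
  (m : Mv k arm J N W (g + t • f) Pt.1 Y d)

include hD hNil hp hf hff hY hPF in
theorem S_H {κ : K} {u : δ → K} (hu : u ∈ Qb h.data hR p.1 D κ) :
    th J (g + t • f) Pt.1 (g + t • f) *ᵥ u =
      ((1 + t * κ) ^ 2) • ((gᵀ * J * (p.1 * g)) *ᵥ u) :=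
  (UFr.at_H h hR hD hNil hp hf hff hY hPF hu).2.2.2

include hD hNil hp hf hff hH hPt hY hPF hA hc hom hYs m in
theorem nb : NB (om arm J B g p.1 g) (om arm J B (g + t • f) Pt.1 (g + t • f))
    (fun r => (Y r * th J (g + t • f) Pt.1 (g + t • f)).mulVecLin)
    ((cov h.data hR p.1).D D) (fun κ => (1 + t * κ) ^ 2) (fun c => d c)
    (nabH arm J (g + t • f) Pt.1 Y d) where
  hD := (cov h.data hR p.1).D_comm hD.2
  hs := Module.End.iSup_maxGenEigenspace_eq_top _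
  hsc := by
    intro κ u hu r
    have h1 := S_H h hR hD hNil hp hf hff hY hPF (κ := κ) (u := u) hu
    change (B * E K arm r * th J (g + t • f) Pt.1 (g + t • f)) *ᵥ u =
      ((1 + t * κ) ^ 2) • ((B * E K arm r * (gᵀ * J * (p.1 * g))) *ᵥ u)
    rw [← mulVec_mulVec, h1, mulVec_smul, mulVec_mulVec]
  hsc0 := fun κ hκ => pow_ne_zero _ (hc κ hκ)
  ainf := hA
  hom := hom
  leib := fun c x => SUB.nab_smul Pt.1 c x
  rel := by
    intro r u
    have h1 := SUB.nab_om hH hPt hYs m r u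
    change SUB.nab arm J (g + t • f) Pt.1 Y d (SUB.om arm J B (g + t • f) Pt.1 r *ᵥ u) = _
    rw [h1, add_sub_assoc]
    rfl

variable {ν ν' : K} {n1 n2 : Type*} [Fintype n1] [Fintype n2] {U1 : Matrix δ n1 K}
  {U2 : Matrix δ n2 K} {A1 : Fin 3 → Matrix n1 n1 K} {A2 : Fin 3 → Matrix n2 n2 K}
  {X : Fin 3 → Matrix n2 n1 K}

include hD hNil hp hf in
theorem rows_zero {κ κ' : K} (hne : κ ≠ κ') {n : Type*} [Fintype n] {U : Matrix δ n K}
    (hU : Cq (Qb h.data hR p.1 D κ) U) {u : δ → K} (hu : u ∈ Qb h.data hR p.1 D κ') :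
    Uᵀ *ᵥ ((gᵀ * J * (p.1 * g)) *ᵥ u) = 0 := by
  funext i
  exact Qb_orth h hR hD hNil hp hf hne (hU i) hu

include hD hNil hp hf in
/-- a vector of the block orthogonal to its frame is nilpotent -/
theorem mem_T_of_frame {κ : K} {n : Type*} [Fintype n] {U : Matrix δ n K}
    (hU : Cq (Qb h.data hR p.1 D κ) U) (hs : ∀ u ∈ Qb h.data hR p.1 D κ, ∃ x, u = U *ᵥ x)
    {w : δ → K} (hw : w ∈ Qb h.data hR p.1 D κ)
    (h0 : Uᵀ *ᵥ ((gᵀ * J * (p.1 * g)) *ᵥ w) = 0) : w ∈ T (om arm J B g p.1 g) := by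
  refine T_of_orth h hp fun v hv => ?_
  rw [← iSup_Qb h hR hD] at hv
  induction hv using Submodule.iSup_induction' with
  | mem κ' v hv =>
    by_cases hk : κ' = κ
    · subst hk
      obtain ⟨x, rfl⟩ := hs v hv
      rw [← vecMul_transpose, ← dotProduct_mulVec, h0, dotProduct_zero]
    · exact Qb_orth h hR hD hNil hp hf hk hv hw
  | zero => rw [zero_dotProduct]
  | add x y _ _ hx hy => rw [add_dotProduct, hx, hy, add_zero]

include hD hNil hp hf hff hH hPt hY hPF hA hc hom hYs m in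
/-- **(N3)**: third blocks -/
theorem N3 (hU1 : Cq (Qb h.data hR p.1 D ν) U1) (hU2 : Cq (Qb h.data hR p.1 D ν') U2)
    (hYX : ∀ r, Y r = U2 * X r * U1ᵀ + U1 * (X r)ᵀ * U2ᵀ) {κ : K} (h1 : κ ≠ ν) (h2 : κ ≠ ν')
    {u : δ → K} (hu : u ∈ Qb h.data hR p.1 D κ) :
    SUB.nab arm J (g + t • f) Pt.1 Y d u ∈ Qb h.data hR p.1 D κ := by
  refine (nb h hR hD hNil hp hf hff hH hPt hY hPF hA hc hom hYs m).N3 ?_ hu
  intro r u hu
  change (Y r * th J (g + t • f) Pt.1 (g + t • f)) *ᵥ u = 0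
  have r1 := rows_zero h hR hD hNil hp hf h1.symm hU1 hu
  have r2 := rows_zero h hR hD hNil hp hf h2.symm hU2 hu
  rw [← mulVec_mulVec, S_H h hR hD hNil hp hf hff hY hPF hu, hYX, mulVec_smul]
  obtain ⟨w, hw⟩ : ∃ w, w = (gᵀ * J * (p.1 * g)) *ᵥ u := ⟨_, rfl⟩
  rw [← hw] at r1 r2 ⊢
  rw [add_mulVec, ← mulVec_mulVec _ (U2 * X r), ← mulVec_mulVec _ (U1 * (X r)ᵀ), r1, r2,
    mulVec_zero, mulVec_zero, add_zero, smul_zero]

include hD hNil hp hf hff hH hPt hY hPF hA hc hom hYs m in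
/-- **(N1)**: `∇ Q_ν ⊂ Q_ν + rad Q_ν'` -/
theorem N1 (hne : ν ≠ ν') (hU1 : Cq (Qb h.data hR p.1 D ν) U1)
    (hU2 : Cq (Qb h.data hR p.1 D ν') U2)
    (hs1 : ∀ u ∈ Qb h.data hR p.1 D ν, ∃ x, u = U1 *ᵥ x)
    (hs2 : ∀ u ∈ Qb h.data hR p.1 D ν', ∃ x, u = U2 *ᵥ x)
    (hA1 : ∀ s, B * E K arm s * (gᵀ * J * (p.1 * g)) * U1 = U1 * A1 s)
    (hA2 : ∀ s, B * E K arm s * (gᵀ * J * (p.1 * g)) * U2 = U2 * A2 s)
    (hYX : ∀ r, Y r = U2 * X r * U1ᵀ + U1 * (X r)ᵀ * U2ᵀ)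
    (harm : ∀ r, (U2ᵀ * (gᵀ * J * (p.1 * g)) * U2) *
      ((1 + t * ν) ^ 2 • (X r * (A1 r)ᵀ) + (1 + t * ν') ^ 2 • (A2 r * X r)) *
      (U1ᵀ * (gᵀ * J * (p.1 * g)) * U1) = 0)
    {u : δ → K} (hu : u ∈ Qb h.data hR p.1 D ν) :
    ∃ v ∈ Qb h.data hR p.1 D ν, ∃ r ∈ Qb h.data hR p.1 D ν', r ∈ T (om arm J B g p.1 g) ∧
      SUB.nab arm J (g + t • f) Pt.1 Y d u = v + r := by
  have hskew := form_skew h.data.J_symm hp
  obtain ⟨S0, hS0⟩ : ∃ S0, S0 = gᵀ * J * (p.1 * g) := ⟨_, rfl⟩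
  -- the value of `G` on the block
  have hG : ∀ r, ∀ x, (Y r * th J (g + t • f) Pt.1 (g + t • f)) *ᵥ (U1 *ᵥ x) =
      U2 *ᵥ ((1 + t * ν) ^ 2 • ((X r * (U1ᵀ * S0 * U1)) *ᵥ x)) := by
    intro r x
    have hx : U1 *ᵥ x ∈ Qb h.data hR p.1 D ν := mulVec_mem hU1 x
    rw [← mulVec_mulVec, S_H h hR hD hNil hp hf hff hY hPF hx, hYX, mulVec_smul, add_mulVec,
      Matrix.mul_assoc U1, ← mulVec_mulVec _ U1, ← mulVec_mulVec _ (X r)ᵀ,
      rows_zero h hR hD hNil hp hf hne.symm hU2 hx, mulVec_zero, mulVec_zero, add_zero,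
      mulVec_smul, hS0]
    simp only [mulVec_mulVec, Matrix.mul_assoc]
  refine (nb h hR hD hNil hp hf hff hH hPt hY hPF hA hc hom hYs m).N1 ?_ ?_ hne hu
  · intro r u hu
    obtain ⟨x, rfl⟩ := hs1 u hu
    change (Y r * th J (g + t • f) Pt.1 (g + t • f)) *ᵥ (U1 *ᵥ x) ∈ _
    rw [hG]
    exact mulVec_mem hU2 _
  · intro r u hu
    obtain ⟨x, rfl⟩ := hs1 u hu
    have e1 : om arm J B (g + t • f) Pt.1 (g + t • f) r (U1 *ᵥ x) =
        U1 *ᵥ ((1 + t * ν) ^ 2 • (A1 r *ᵥ x)) := by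
      change (B * E K arm r * th J (g + t • f) Pt.1 (g + t • f)) *ᵥ (U1 *ᵥ x) = _
      rw [← mulVec_mulVec, S_H h hR hD hNil hp hf hff hY hPF (mulVec_mem hU1 x), mulVec_smul,
        mulVec_mulVec, mulVec_mulVec, hA1, mulVec_smul, mulVec_mulVec]
    have e2 : ∀ y, om arm J B (g + t • f) Pt.1 (g + t • f) r (U2 *ᵥ y) =
        U2 *ᵥ ((1 + t * ν') ^ 2 • (A2 r *ᵥ y)) := by
      intro y
      change (B * E K arm r * th J (g + t • f) Pt.1 (g + t • f)) *ᵥ (U2 *ᵥ y) = _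
      rw [← mulVec_mulVec, S_H h hR hD hNil hp hf hff hY hPF (mulVec_mem hU2 y), mulVec_smul,
        mulVec_mulVec, mulVec_mulVec, hA2, mulVec_smul, mulVec_mulVec]
    have e3 : (fun r => (Y r * th J (g + t • f) Pt.1 (g + t • f)).mulVecLin) r
        (om arm J B (g + t • f) Pt.1 (g + t • f) r (U1 *ᵥ x)) -
        om arm J B (g + t • f) Pt.1 (g + t • f) r
          ((fun r => (Y r * th J (g + t • f) Pt.1 (g + t • f)).mulVecLin) r (U1 *ᵥ x)) =
        U2 *ᵥ (-((1 + t * ν) ^ 2 • (((1 + t * ν) ^ 2 • (X r * (A1 r)ᵀ) +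
          (1 + t * ν') ^ 2 • (A2 r * X r)) * (U1ᵀ * S0 * U1)) *ᵥ x)) := by
      change (Y r * th J (g + t • f) Pt.1 (g + t • f)) *ᵥ _ -
        om arm J B (g + t • f) Pt.1 (g + t • f) r
          ((Y r * th J (g + t • f) Pt.1 (g + t • f)) *ᵥ (U1 *ᵥ x)) = _
      have hGA : (U1ᵀ * S0 * U1) * A1 r = -((A1 r)ᵀ * (U1ᵀ * S0 * U1)) := by
        have e5 : (U1ᵀ * S0 * U1) * A1 r = U1ᵀ * S0 * (B * E K arm r * S0 * U1) := by
          rw [hS0, hA1, ← hS0]; simp only [Matrix.mul_assoc]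
        have e6 : (A1 r)ᵀ * (U1ᵀ * S0 * U1) = (B * E K arm r * S0 * U1)ᵀ * S0 * U1 := by
          rw [hS0, hA1, ← hS0, transpose_mul]; simp only [Matrix.mul_assoc]
        rw [e5, e6, transpose_mul, transpose_mul, transpose_mul, E_transpose, h.data.B_symm,
          hS0, hskew, ← hS0]
        have hb := h.data.B_arm r
        have e7 : E K arm r * B = B * E K arm r := hb
        rw [e7]
        simp only [Matrix.neg_mul, Matrix.mul_neg, neg_neg, Matrix.mul_assoc]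
      rw [e1, hG, hG, e2, ← mulVec_sub]
      congr 1
      rw [mulVec_smul, mulVec_mulVec, Matrix.mul_assoc (X r), hGA, mulVec_smul, mulVec_mulVec]
      simp only [Matrix.add_mul, Matrix.smul_mul, Matrix.mul_neg, neg_mulVec, smul_mulVec,
        add_mulVec, smul_neg, smul_add, smul_smul, Matrix.mul_assoc]
      rw [neg_add, sub_eq_add_neg]
      congr 2
      rw [mul_comm]
    rw [e3]
    refine mem_T_of_frame h hR hD hNil hp hf hU2 hs2 (mulVec_mem hU2 _) ?_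
    have e4 := congrArg (fun M : Matrix n2 n1 K => M *ᵥ x) (harm r)
    simp only [zero_mulVec] at e4
    rw [← hS0] at e4 ⊢
    rw [mulVec_mulVec, mulVec_mulVec, mulVec_neg, mulVec_smul, mulVec_mulVec]
    rw [Matrix.mul_assoc] at e4
    rw [e4, smul_zero, neg_zero]

include hD hNil hp hf hff hH hPt hY hPF hA hc hom hYs m in
/-- **B1**: all blocks -/
theorem B1 (hne : ν ≠ ν') (hU1 : Cq (Qb h.data hR p.1 D ν) U1)
    (hU2 : Cq (Qb h.data hR p.1 D ν') U2)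
    (hs1 : ∀ u ∈ Qb h.data hR p.1 D ν, ∃ x, u = U1 *ᵥ x)
    (hs2 : ∀ u ∈ Qb h.data hR p.1 D ν', ∃ x, u = U2 *ᵥ x)
    (hA1 : ∀ s, B * E K arm s * (gᵀ * J * (p.1 * g)) * U1 = U1 * A1 s)
    (hA2 : ∀ s, B * E K arm s * (gᵀ * J * (p.1 * g)) * U2 = U2 * A2 s)
    (hYX : ∀ r, Y r = U2 * X r * U1ᵀ + U1 * (X r)ᵀ * U2ᵀ)
    (harm : ∀ r, (U2ᵀ * (gᵀ * J * (p.1 * g)) * U2) *
      ((1 + t * ν) ^ 2 • (X r * (A1 r)ᵀ) + (1 + t * ν') ^ 2 • (A2 r * X r)) *
      (U1ᵀ * (gᵀ * J * (p.1 * g)) * U1) = 0) :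
    (∀ u ∈ Qb h.data hR p.1 D ν, ∃ v ∈ Qb h.data hR p.1 D ν, ∃ r ∈ Qb h.data hR p.1 D ν',
      r ∈ T (om arm J B g p.1 g) ∧ SUB.nab arm J (g + t • f) Pt.1 Y d u = v + r) ∧
    (∀ u ∈ Qb h.data hR p.1 D ν', ∃ v ∈ Qb h.data hR p.1 D ν', ∃ r ∈ Qb h.data hR p.1 D ν,
      r ∈ T (om arm J B g p.1 g) ∧ SUB.nab arm J (g + t • f) Pt.1 Y d u = v + r) ∧
    (∀ κ, κ ≠ ν → κ ≠ ν' → ∀ u ∈ Qb h.data hR p.1 D κ,
      SUB.nab arm J (g + t • f) Pt.1 Y d u ∈ Qb h.data hR p.1 D κ) := by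
  refine ⟨fun u hu => N1 h hR hD hNil hp hf hff hH hPt hY hPF hA hc hom hYs m hne hU1 hU2 hs1 hs2
      hA1 hA2 hYX harm hu,
    fun u hu => N1 (X := fun r => (X r)ᵀ) h hR hD hNil hp hf hff hH hPt hY hPF hA hc hom hYs m
      hne.symm hU2 hU1 hs2 hs1 hA2 hA1 (fun r => by rw [hYX, transpose_transpose, add_comm])
      (fun r => ?_) hu,
    fun κ h1 h2 u hu => N3 h hR hD hNil hp hf hff hH hPt hY hPF hA hc hom hYs m hU1 hU2 hYX h1 h2
      hu⟩
  have h1 := congrArg Matrix.transpose (harm r)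
  have hsk := form_skew h.data.J_symm hp
  obtain ⟨S0, hS0⟩ : ∃ S0, S0 = gᵀ * J * (p.1 * g) := ⟨_, rfl⟩
  rw [← hS0] at h1 hsk ⊢
  simp only [transpose_mul, transpose_add, transpose_smul, transpose_transpose, hsk,
    transpose_zero, Matrix.neg_mul, Matrix.mul_neg, neg_neg] at h1
  rw [add_comm]
  rw [← h1]
  simp only [Matrix.mul_assoc]

end B1

section bad

variable (h : Ctx k arm J B N W g) {R : Matrix δ ι K} (hR : g * R * g = g)
  {D : End K (CoreM (Ph arm J B g R p.1))}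
  (hD : IsD (Ph arm J B g R p.1) (Nh arm J B g f R p.1) D) [IsAlgClosed K]

include hD in
/-- **the finite bad set of parameters** in the ground field: outside of it the hypotheses `hc`,
`hom` of `B1` hold. -/
theorem exists_bad (h2 : (2 : K) ≠ 0) : ∃ S : Set k, S.Finite ∧ ∀ t ∉ S,
    (∀ κ, ((cov h.data hR p.1).D D).maxGenEigenspace κ ≠ ⊥ → 1 + algebraMap k K t * κ ≠ 0) ∧
      Hom0 (om arm J B g p.1 g) ((cov h.data hR p.1).D D)
        (fun κ => (1 + algebraMap k K t * κ) ^ 2) := by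
  obtain ⟨S, hS, hS2⟩ := exists_hom0 h2 ((cov h.data hR p.1).D_comm hD.2)
    (Module.End.iSup_maxGenEigenspace_eq_top ((cov h.data hR p.1).D D))
  refine ⟨(algebraMap k K) ⁻¹' S, hS.preimage (fun _ _ _ _ e => (algebraMap k K).injective e), ?_⟩
  intro t ht
  exact hS2 _ ht

end bad

end inst

end Crest.Agent.R172.SNabI
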