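import Crest.Agent.R172.SDec
import Crest.Agent.R172.SUX6
import Crest.Agent.R172.RJP
import Crest.Agent.R172.SInst

-- ▼ part R172/SDecP70
section

/-!
Row 172 (S0260), tame node (t2), level 2: the pencil of `SDec.Dec`, uniqueness of the decorations
and the parity separation in the letters of `Dec` (helper70).
-/

set_option autoImplicit false
set_option linter.unusedSectionVars false
set_option linter.unusedVariables false

namespace Crest.Agent.R172.SDecP70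

open Matrix Module Crest.Agent.R172.FO Crest.Agent.R172.Qt Crest.Agent.R172.SpS
open Crest.Agent.R172.SUX (D3 th I1 I2 E5 QQ5)
open Crest.Agent.R172.SDec (Dec)

variable {ι : Type*} [Fintype ι] [DecidableEq ι] {δ : Type*} [Fintype δ] [DecidableEq δ]
variable {K : Type*} [Field K] {m1 m2 : ℕ}

/-- target of the pencil -/
abbrev GG (K ι : Type*) (m1 m2 : ℕ) :=
  Matrix (Fin m2) (Fin m1) K × (Fin 3 → Matrix (Fin m2) (Fin m1) K) ×
    Matrix (Fin m1) (Fin m2) K × Matrix (Fin m2) (Fin m1) K ×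
    (Fin 3 → Matrix ι (Fin m2) K) × (Fin 3 → Matrix ι (Fin m1) K)

section pencil

variable (F : Matrix ι δ K) (S0 : Matrix δ δ K) (U1 : Matrix δ (Fin m1) K)
  (U2 : Matrix δ (Fin m2) K) (a1 : Fin 3 → Matrix (Fin m1) (Fin m1) K)
  (a2 : Fin 3 → Matrix (Fin m2) (Fin m2) K)

/-- first part of the pencil -/
noncomputable def alD : D3 K (Fin m1) (Fin m2) →ₗ[K] GG K ι m1 m2 where
  toFun y := (∑ s, y.1 s * (a1 s)ᵀ,
    fun s => (U2ᵀ * S0 * U2) * (y.1 s * (a1 s)ᵀ) * (U1ᵀ * S0 * U1),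
    (U1ᵀ * S0 * U1) * y.2.1, (U2ᵀ * S0 * U2) * y.2.2,
    fun s => F * (U1 * (a1 s * (y.2.1 - (y.1 s)ᵀ * (U2ᵀ * S0 * U2)))),
    fun s => F * (U2 * ((y.2.2 - y.1 s * (U1ᵀ * S0 * U1)) * a1 s)))
  map_add' x y := by
    refine Prod.ext ?_ (Prod.ext ?_ (Prod.ext ?_ (Prod.ext ?_ (Prod.ext ?_ ?_))))
    · simp only [Prod.fst_add, Pi.add_apply, Matrix.add_mul, Finset.sum_add_distrib]
    · funext s
      simp only [Prod.fst_add, Prod.snd_add, Pi.add_apply, Matrix.add_mul, Matrix.mul_add]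
    · simp only [Prod.fst_add, Prod.snd_add, Matrix.mul_add]
    · simp only [Prod.fst_add, Prod.snd_add, Matrix.mul_add]
    · funext s
      simp only [Prod.fst_add, Prod.snd_add, Pi.add_apply, Matrix.add_mul, Matrix.mul_add,
        Matrix.mul_sub, transpose_add]
      abel
    · funext s
      simp only [Prod.fst_add, Prod.snd_add, Pi.add_apply, Matrix.add_mul, Matrix.mul_add,
        Matrix.mul_sub, Matrix.sub_mul]
      abel
  map_smul' c y := by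
    refine Prod.ext ?_ (Prod.ext ?_ (Prod.ext ?_ (Prod.ext ?_ (Prod.ext ?_ ?_))))
    · simp only [Prod.smul_fst, Pi.smul_apply, Matrix.smul_mul, Finset.smul_sum,
        RingHom.id_apply]
    · funext s
      simp only [Prod.smul_fst, Prod.smul_snd, Pi.smul_apply, Matrix.smul_mul, Matrix.mul_smul,
        RingHom.id_apply]
    · simp only [Prod.smul_fst, Prod.smul_snd, Matrix.mul_smul, RingHom.id_apply]
    · simp only [Prod.smul_fst, Prod.smul_snd, Matrix.mul_smul, RingHom.id_apply]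
    · funext s
      simp only [Prod.smul_fst, Prod.smul_snd, Pi.smul_apply, Matrix.smul_mul, Matrix.mul_smul,
        Matrix.mul_sub, transpose_smul, RingHom.id_apply, smul_sub]
    · funext s
      simp only [Prod.smul_fst, Prod.smul_snd, Pi.smul_apply, Matrix.smul_mul, Matrix.mul_smul,
        Matrix.mul_sub, Matrix.sub_mul, RingHom.id_apply, smul_sub]

/-- second part of the pencil -/
noncomputable def beD : D3 K (Fin m1) (Fin m2) →ₗ[K] GG K ι m1 m2 where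
  toFun y := (∑ s, a2 s * y.1 s,
    fun s => (U2ᵀ * S0 * U2) * (a2 s * y.1 s) * (U1ᵀ * S0 * U1),
    0, 0,
    fun s => -(F * (U1 * ((y.2.1 - (y.1 s)ᵀ * (U2ᵀ * S0 * U2)) * a2 s))),
    fun s => -(F * (U2 * (a2 s * (y.2.2 - y.1 s * (U1ᵀ * S0 * U1))))))
  map_add' x y := by
    refine Prod.ext ?_ (Prod.ext ?_ (Prod.ext ?_ (Prod.ext ?_ (Prod.ext ?_ ?_))))
    · simp only [Prod.fst_add, Pi.add_apply, Matrix.mul_add, Finset.sum_add_distrib]
    · funext s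
      simp only [Prod.fst_add, Prod.snd_add, Pi.add_apply, Matrix.add_mul, Matrix.mul_add]
    · simp
    · simp
    · funext s
      simp only [Prod.fst_add, Prod.snd_add, Pi.add_apply, Matrix.add_mul, Matrix.mul_add,
        Matrix.mul_sub, Matrix.sub_mul, transpose_add]
      abel
    · funext s
      simp only [Prod.fst_add, Prod.snd_add, Pi.add_apply, Matrix.add_mul, Matrix.mul_add,
        Matrix.mul_sub]
      abel
  map_smul' c y := by
    refine Prod.ext ?_ (Prod.ext ?_ (Prod.ext ?_ (Prod.ext ?_ (Prod.ext ?_ ?_))))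
    · simp only [Prod.smul_fst, Pi.smul_apply, Matrix.mul_smul, Finset.smul_sum,
        RingHom.id_apply]
    · funext s
      simp only [Prod.smul_fst, Prod.smul_snd, Pi.smul_apply, Matrix.smul_mul, Matrix.mul_smul,
        RingHom.id_apply]
    · simp
    · simp
    · funext s
      simp only [Prod.smul_fst, Prod.smul_snd, Pi.smul_apply, Matrix.smul_mul, Matrix.mul_smul,
        Matrix.mul_sub, Matrix.sub_mul, transpose_smul, RingHom.id_apply, smul_sub, smul_neg]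
    · funext s
      simp only [Prod.smul_fst, Prod.smul_snd, Pi.smul_apply, Matrix.smul_mul, Matrix.mul_smul,
        Matrix.mul_sub, RingHom.id_apply, smul_sub, smul_neg]

theorem dec_iff (c : K) (y : D3 K (Fin m1) (Fin m2)) :
    Dec F S0 U1 U2 a1 a2 c y ↔
      alD F S0 U1 U2 a1 y = c • beD F S0 U1 U2 a2 y := by
  have hs : ∑ s, (y.1 s * (a1 s)ᵀ - c • (a2 s * y.1 s)) = 0 ↔
      ∑ s, y.1 s * (a1 s)ᵀ = c • ∑ s, a2 s * y.1 s := by
    rw [Finset.sum_sub_distrib, ← Finset.smul_sum, sub_eq_zero]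
  have ha : ∀ s, (U2ᵀ * S0 * U2) * (y.1 s * (a1 s)ᵀ - c • (a2 s * y.1 s)) * (U1ᵀ * S0 * U1) = 0 ↔
      (U2ᵀ * S0 * U2) * (y.1 s * (a1 s)ᵀ) * (U1ᵀ * S0 * U1) =
        c • ((U2ᵀ * S0 * U2) * (a2 s * y.1 s) * (U1ᵀ * S0 * U1)) := by
    intro s
    rw [Matrix.mul_sub, Matrix.sub_mul, Matrix.mul_smul, Matrix.smul_mul, sub_eq_zero]
  have hb : ∀ s, F * (U1 * (a1 s * (y.2.1 - (y.1 s)ᵀ * (U2ᵀ * S0 * U2)) +
      c • ((y.2.1 - (y.1 s)ᵀ * (U2ᵀ * S0 * U2)) * a2 s))) = 0 ↔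
      F * (U1 * (a1 s * (y.2.1 - (y.1 s)ᵀ * (U2ᵀ * S0 * U2)))) =
        c • (-(F * (U1 * ((y.2.1 - (y.1 s)ᵀ * (U2ᵀ * S0 * U2)) * a2 s)))) := by
    intro s
    rw [Matrix.mul_add, Matrix.mul_add, Matrix.mul_smul, Matrix.mul_smul, smul_neg,
      eq_neg_iff_add_eq_zero]
  have hk : ∀ s, F * (U2 * (c • (a2 s * (y.2.2 - y.1 s * (U1ᵀ * S0 * U1))) +
      (y.2.2 - y.1 s * (U1ᵀ * S0 * U1)) * a1 s)) = 0 ↔
      F * (U2 * ((y.2.2 - y.1 s * (U1ᵀ * S0 * U1)) * a1 s)) =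
        c • (-(F * (U2 * (a2 s * (y.2.2 - y.1 s * (U1ᵀ * S0 * U1)))))) := by
    intro s
    rw [add_comm, Matrix.mul_add, Matrix.mul_add, Matrix.mul_smul, Matrix.mul_smul, smul_neg,
      eq_neg_iff_add_eq_zero]
  constructor
  · intro h
    refine Prod.ext (hs.1 h.sum) (Prod.ext (funext fun s => (ha s).1 (h.arm s)) (Prod.ext ?_
      (Prod.ext ?_ (Prod.ext (funext fun s => (hb s).1 (h.cb s))
        (funext fun s => (hk s).1 (h.ck s))))))
    · change (U1ᵀ * S0 * U1) * y.2.1 = c • (0 : Matrix (Fin m1) (Fin m2) K)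
      rw [smul_zero]; exact h.rb
    · change (U2ᵀ * S0 * U2) * y.2.2 = c • (0 : Matrix (Fin m2) (Fin m1) K)
      rw [smul_zero]; exact h.rk
  · intro h
    have h1 := congrArg (fun z => z.1) h
    have h2 := congrArg (fun z => z.2.1) h
    have h3 := congrArg (fun z => z.2.2.1) h
    have h4 := congrArg (fun z => z.2.2.2.1) h
    have h5 := congrArg (fun z => z.2.2.2.2.1) h
    have h6 := congrArg (fun z => z.2.2.2.2.2) h
    refine ⟨hs.2 h1, fun s => (ha s).2 (congrFun h2 s), ?_, ?_, fun s => (hb s).2 (congrFun h5 s),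
      fun s => (hk s).2 (congrFun h6 s)⟩
    · change (U1ᵀ * S0 * U1) * y.2.1 = c • (0 : Matrix (Fin m1) (Fin m2) K) at h3
      rw [smul_zero] at h3; exact h3
    · change (U2ᵀ * S0 * U2) * y.2.2 = c • (0 : Matrix (Fin m2) (Fin m1) K) at h4
      rw [smul_zero] at h4; exact h4

end pencil

/-- **perfect → nilpotent**, matrix form modulo `ker (F U)` -/
theorem uniq1 {m n : ℕ} {F : Matrix ι δ K} {U : Matrix δ (Fin m) K}
    {a : Fin 3 → Matrix (Fin m) (Fin m) K} {a' : Fin 3 → Matrix (Fin n) (Fin n) K}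
    (hker : ∀ s x, F *ᵥ (U *ᵥ x) = 0 → F *ᵥ (U *ᵥ (a s *ᵥ x)) = 0)
    (hperf : ∀ x : Fin n → K, ∃ y : Fin 3 → Fin n → K, ∑ s, a' s *ᵥ y s = x)
    {Gm : Matrix (Fin m) (Fin m) K} {L : ℕ}
    (hk : ∀ w : List (Fin 3), w.length = L → ∀ x, Gm *ᵥ x = 0 →
      F *ᵥ (U *ᵥ ((w.map a).prod *ᵥ x)) = 0)
    {e : K} (he : e ≠ 0) {dl : Matrix (Fin m) (Fin n) K} (h1 : Gm * dl = 0)
    (h2 : ∀ s, F * (U * (a s * dl + e • (dl * a' s))) = 0) : F * (U * dl) = 0 := by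
  have hw : ∀ w : List (Fin 3), ∀ x, F *ᵥ (U *ᵥ x) = 0 →
      F *ᵥ (U *ᵥ ((w.map a).prod *ᵥ x)) = 0 := by
    intro w
    induction w with
    | nil => intro x hx; simpa using hx
    | cons t w ih =>
      intro x hx
      rw [List.map_cons, List.prod_cons, ← mulVec_mulVec]
      exact hker t _ (ih x hx)
  have h3 : ∀ s y, F *ᵥ (U *ᵥ (dl *ᵥ (a' s *ᵥ y) + e⁻¹ • (a s *ᵥ (dl *ᵥ y)))) = 0 := by
    intro s y
    have h4 := congrArg (fun M : Matrix ι (Fin n) K => M *ᵥ y) (h2 s)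
    simp only [← mulVec_mulVec, zero_mulVec] at h4
    rw [add_mulVec, smul_mulVec, ← mulVec_mulVec, ← mulVec_mulVec] at h4
    have h5 : dl *ᵥ (a' s *ᵥ y) + e⁻¹ • (a s *ᵥ (dl *ᵥ y)) =
        e⁻¹ • (a s *ᵥ (dl *ᵥ y) + e • (dl *ᵥ (a' s *ᵥ y))) := by
      rw [smul_add, smul_smul, inv_mul_cancel₀ he, one_smul, add_comm]
    rw [h5, mulVec_smul, mulVec_smul, h4, smul_zero]
  have key : ∀ j, ∀ w : List (Fin 3), w.length + j = L → ∀ y,
      F *ᵥ (U *ᵥ ((w.map a).prod *ᵥ (dl *ᵥ y))) = 0 := by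
    intro j
    induction j with
    | zero =>
      intro w hw' y
      refine hk w (by omega) _ ?_
      rw [mulVec_mulVec, h1, zero_mulVec]
    | succ j ih =>
      intro w hw' y
      obtain ⟨y', rfl⟩ := hperf y
      rw [mulVec_sum, mulVec_sum, mulVec_sum, mulVec_sum]
      refine Finset.sum_eq_zero fun s _ => ?_
      have h6 := hw w _ (h3 s (y' s))
      have h7 := ih (w ++ [s]) (by simp; omega) (y' s)
      rw [List.map_append, List.prod_append, List.map_singleton, List.prod_singleton,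
        ← mulVec_mulVec] at h7
      rw [mulVec_add, mulVec_smul, mulVec_add, mulVec_smul, mulVec_add, mulVec_smul, h7, smul_zero,
        add_zero] at h6
      exact h6
  have h8 : ∀ y, (F * (U * dl)) *ᵥ y = 0 := by
    intro y
    have := key L [] (by simp) y
    simpa [← mulVec_mulVec] using this
  ext i j
  have h9 := congrFun (h8 (Pi.single j 1)) i
  rw [mulVec_single_one] at h9
  exact h9

section uniq

variable {F : Matrix ι δ K} {S0 X0 : Matrix δ δ K} {U1 : Matrix δ (Fin m1) K}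
  {U2 : Matrix δ (Fin m2) K} {a1 : Fin 3 → Matrix (Fin m1) (Fin m1) K}
  {a2 : Fin 3 → Matrix (Fin m2) (Fin m2) K} {T : Matrix δ ι K} {B : Matrix δ δ K}
  {arm : δ → Fin 3}

/-- `ker (F U)` is killed by the arms -/
theorem hker_of (hS : S0 = T * F) {m : ℕ} {U : Matrix δ (Fin m) K}
    {a : Fin 3 → Matrix (Fin m) (Fin m) K} (ha : ∀ s, B * E K arm s * S0 * U = U * a s) :
    ∀ s x, F *ᵥ (U *ᵥ x) = 0 → F *ᵥ (U *ᵥ (a s *ᵥ x)) = 0 := by
  intro s x hx
  have h1 : U *ᵥ (a s *ᵥ x) = 0 := by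
    rw [mulVec_mulVec, ← ha, hS]
    have e : (B * E K arm s * (T * F) * U) *ᵥ x = (B * E K arm s * T) *ᵥ (F *ᵥ (U *ᵥ x)) := by
      simp only [mulVec_mulVec, Matrix.mul_assoc]
    rw [e, hx, mulVec_zero]
  rw [h1, mulVec_zero]

/-- **uniqueness of the decorations** -/
theorem uniq (hS : S0 = T * F) (ha1 : ∀ s, B * E K arm s * S0 * U1 = U1 * a1 s)
    (ha2 : ∀ s, B * E K arm s * S0 * U2 = U2 * a2 s)
    (p1 : ∀ x : Fin m1 → K, ∃ y : Fin 3 → Fin m1 → K, ∑ s, a1 s *ᵥ y s = x)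
    (p2 : ∀ x : Fin m2 → K, ∃ y : Fin 3 → Fin m2 → K, ∑ s, a2 s *ᵥ y s = x) {L1 L2 : ℕ}
    (k1 : ∀ w : List (Fin 3), w.length = L1 → ∀ x, (U1ᵀ * S0 * U1) *ᵥ x = 0 →
      F *ᵥ (U1 *ᵥ ((w.map a1).prod *ᵥ x)) = 0)
    (k2 : ∀ w : List (Fin 3), w.length = L2 → ∀ x, (U2ᵀ * S0 * U2) *ᵥ x = 0 →
      F *ᵥ (U2 *ᵥ ((w.map a2).prod *ᵥ x)) = 0)
    {c : K} (hc : c ≠ 0) {X : Fin 3 → Matrix (Fin m2) (Fin m1) K}
    {b b' : Matrix (Fin m1) (Fin m2) K} {g g' : Matrix (Fin m2) (Fin m1) K}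
    (h : Dec F S0 U1 U2 a1 a2 c (X, b, g)) (h' : Dec F S0 U1 U2 a1 a2 c (X, b', g')) :
    F * (U1 * (b - b')) = 0 ∧ S0 * (U1 * (b - b')) = 0 ∧ F * (U2 * (g - g')) = 0 ∧
      S0 * (U2 * (g - g')) = 0 := by
  have e1 : F * (U1 * (b - b')) = 0 := by
    refine uniq1 (hker_of hS ha1) p2 k1 hc ?_ fun s => ?_
    · rw [Matrix.mul_sub, sub_eq_zero]
      exact (h.rb.trans h'.rb.symm : (U1ᵀ * S0 * U1) * b = (U1ᵀ * S0 * U1) * b')
    · have h1 := h.cb s
      have h2 := h'.cb s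
      have h3 : F * (U1 * (a1 s * (b - b') + c • ((b - b') * a2 s))) =
          F * (U1 * (a1 s * (b - (X s)ᵀ * (U2ᵀ * S0 * U2)) +
            c • ((b - (X s)ᵀ * (U2ᵀ * S0 * U2)) * a2 s))) -
          F * (U1 * (a1 s * (b' - (X s)ᵀ * (U2ᵀ * S0 * U2)) +
            c • ((b' - (X s)ᵀ * (U2ᵀ * S0 * U2)) * a2 s))) := by
        rw [← Matrix.mul_sub, ← Matrix.mul_sub]
        congr 2
        simp only [Matrix.mul_sub, Matrix.sub_mul, smul_sub]
        abel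
      rw [h3]
      exact (sub_eq_zero.2 (h1.trans h2.symm))
  have e2 : F * (U2 * (g - g')) = 0 := by
    refine uniq1 (hker_of hS ha2) p1 k2 (inv_ne_zero hc) ?_ fun s => ?_
    · rw [Matrix.mul_sub, sub_eq_zero]
      exact (h.rk.trans h'.rk.symm : (U2ᵀ * S0 * U2) * g = (U2ᵀ * S0 * U2) * g')
    · have h1 := h.ck s
      have h2 := h'.ck s
      have h3 : F * (U2 * (a2 s * (g - g') + c⁻¹ • ((g - g') * a1 s))) =
          c⁻¹ • (F * (U2 * (c • (a2 s * (g - X s * (U1ᵀ * S0 * U1))) +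
            (g - X s * (U1ᵀ * S0 * U1)) * a1 s)) -
          F * (U2 * (c • (a2 s * (g' - X s * (U1ᵀ * S0 * U1))) +
            (g' - X s * (U1ᵀ * S0 * U1)) * a1 s))) := by
        have e3 : a2 s * (g - g') + c⁻¹ • ((g - g') * a1 s) =
            c⁻¹ • ((c • (a2 s * (g - X s * (U1ᵀ * S0 * U1))) +
              (g - X s * (U1ᵀ * S0 * U1)) * a1 s) -
            (c • (a2 s * (g' - X s * (U1ᵀ * S0 * U1))) +
              (g' - X s * (U1ᵀ * S0 * U1)) * a1 s)) := by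
          simp only [Matrix.mul_sub, Matrix.sub_mul, smul_sub, smul_add, smul_smul,
            inv_mul_cancel₀ hc, one_smul]
          abel
        rw [e3, Matrix.mul_smul, Matrix.mul_smul, Matrix.mul_sub, Matrix.mul_sub]
      rw [h3]
      have h4 := sub_eq_zero.2 (h1.trans h2.symm)
      rw [h4, smul_zero]
  refine ⟨e1, ?_, e2, ?_⟩
  · rw [hS, Matrix.mul_assoc, e1, Matrix.mul_zero]
  · rw [hS, Matrix.mul_assoc, e2, Matrix.mul_zero]


/-- `I1`, `I2` vanish on invisible decorations -/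
theorem I_zero (hsk : S0ᵀ = -S0) {db : Matrix (Fin m1) (Fin m2) K}
    {dg : Matrix (Fin m2) (Fin m1) K} (h1 : F * (U1 * db) = 0) (h2 : S0 * (U1 * db) = 0)
    (h3 : F * (U2 * dg) = 0) (h4 : S0 * (U2 * dg) = 0) :
    I1 arm F S0 U1 U2 ((0 : Fin 3 → Matrix (Fin m2) (Fin m1) K), db, dg) = 0 ∧
      I2 arm F S0 U1 U2 ((0 : Fin 3 → Matrix (Fin m2) (Fin m1) K), db, dg) = 0 := by
  have t1 : dbᵀ * (U1ᵀ * S0) = 0 := by
    have := congrArg Matrix.transpose h2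
    rw [transpose_mul, transpose_mul, hsk, transpose_zero, Matrix.mul_neg, neg_eq_zero,
      Matrix.mul_assoc] at this
    exact this
  have t2 : dgᵀ * (U2ᵀ * S0) = 0 := by
    have := congrArg Matrix.transpose h4
    rw [transpose_mul, transpose_mul, hsk, transpose_zero, Matrix.mul_neg, neg_eq_zero,
      Matrix.mul_assoc] at this
    exact this
  constructor
  · refine Prod.ext ?_ (Prod.ext (Prod.ext ?_ ?_) (Prod.ext ?_ ?_))
    · change ∑ s, F * (U2 * (0 : Matrix (Fin m2) (Fin m1) K) * U1ᵀ * S0) * E K arm s = 0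
      simp
    · exact h3
    · rfl
    · rfl
    · change -(dbᵀ * (U1ᵀ * S0)) = 0
      rw [t1, neg_zero]
  · refine Prod.ext ?_ (Prod.ext (Prod.ext ?_ ?_) (Prod.ext ?_ ?_))
    · change -∑ s, F * (U1 * (0 : Matrix (Fin m2) (Fin m1) K)ᵀ * U2ᵀ * S0) * E K arm s = 0
      simp
    · rfl
    · change -(F * (U1 * db)) = 0
      rw [h1, neg_zero]
    · change dgᵀ * (U2ᵀ * S0) = 0
      exact t2
    · rfl

end uniq

end Crest.Agent.R172.SDecP70
end

-- ▼ part R172/SUniq803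

/-!
Row 172 (S0260), (t2), `Lev2`, leaf B3: uniqueness of the corrections (perfect → nilpotent).
-/

set_option autoImplicit false
set_option linter.unusedSectionVars false
set_option linter.unusedFintypeInType false
set_option linter.unusedDecidableInType false
set_option linter.unusedVariables false

namespace Crest.Agent.R172.SUniq803

open Module Matrix Crest.Agent.R172.FO Crest.Agent.R172.Qt Crest.Agent.R172.SpS
open Crest.Agent.R172.SBlk Crest.Agent.R172.UBlk Crest.Agent.R172.STop Crest.Agent.R172.SEnd2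
open Crest.Agent.R172.SCM Crest.Agent.R172.SInst
open Crest.Agent.R172.Om (Kiso)
open Crest.Agent.R172.PL (CoreM Ainf)

section abs

variable {K : Type*} [Field K]

/-- **perfect → nilpotent** -/
theorem perf_nil {n m : Type*} [Fintype n] [Fintype m] [DecidableEq n] [DecidableEq m]
    {A : Fin 3 → Matrix n n K} {a : Fin 3 → Matrix m m K} {R : Submodule K (n → K)}
    (hperf : ∀ x : m → K, ∃ y : Fin 3 → (m → K), x = ∑ s, a s *ᵥ y s)
    (hkills : ∃ N, ∀ w : List (Fin 3), N ≤ w.length → ∀ r ∈ R,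
      (w.map fun s => (A s).mulVecLin).prod r = 0)
    {δ : Matrix n m K} (hδ : ∀ x, δ *ᵥ x ∈ R) {c : K} (hc : c ≠ 0)
    (h : ∀ s, A s * δ + c • (δ * a s) = 0) : δ = 0 := by
  obtain ⟨N, hN⟩ := hkills
  have key : ∀ j, j ≤ N → ∀ x, ∀ w : List (Fin 3), N - j ≤ w.length →
      (w.map fun s => (A s).mulVecLin).prod (δ *ᵥ x) = 0 := by
    intro j
    induction j with
    | zero => intro _ x w hw; exact hN w (by omega) _ (hδ x)
    | succ j ih =>
      intro hj x w hw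
      obtain ⟨y, hy⟩ := hperf x
      have h1 : δ *ᵥ x = -c⁻¹ • ∑ s, A s *ᵥ (δ *ᵥ y s) := by
        have h2 : ∀ s, A s *ᵥ (δ *ᵥ y s) = -c • (δ *ᵥ (a s *ᵥ y s)) := by
          intro s
          have h3 := congrArg (fun X => X *ᵥ y s) (h s)
          simp only [add_mulVec, smul_mulVec, zero_mulVec, ← mulVec_mulVec] at h3
          rw [neg_smul]
          exact eq_neg_of_add_eq_zero_left h3
        rw [Finset.sum_congr rfl fun s _ => h2 s, ← Finset.smul_sum, ← mulVec_sum, ← hy,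
          smul_smul]
        have h4 : -c⁻¹ * -c = 1 := by rw [neg_mul_neg, inv_mul_cancel₀ hc]
        rw [h4, one_smul]
      rw [h1, map_smul, map_sum]
      have h5 : ∀ s, (w.map fun s => (A s).mulVecLin).prod (A s *ᵥ (δ *ᵥ y s)) = 0 := by
        intro s
        have h6 := ih (by omega) (y s) (w ++ [s]) (by
          rw [List.length_append, List.length_singleton]; omega)
        rw [List.map_append, List.prod_append, List.map_singleton, List.prod_singleton,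
          Module.End.mul_apply] at h6
        exact h6
      rw [Finset.sum_eq_zero fun s _ => h5 s, smul_zero]
  have h0 : ∀ x, δ *ᵥ x = 0 := fun x => by
    have := key N le_rfl x [] (by simp)
    simpa using this
  ext i j
  have := congrFun (h0 (Pi.single j 1)) i
  simpa using this

end abs

variable {ι : Type} [Fintype ι] [DecidableEq ι] {δ : Type} [Fintype δ] [DecidableEq δ]
variable {K : Type} [Field K] [Algebra ℂ K] [IsAlgClosed K]
variable {arm : δ → Fin 3} {J : Matrix ι ι K} {B : Matrix δ δ K} {N W : Submodule K (Matrix ι δ K)}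
  {F f : Matrix ι δ K} {P : Matrix ι ι K × (Fin 3 → Matrix ι ι K)} {R : Matrix δ ι K}
  {D : End K (CoreM (PhS arm J B F R P.1))} {l : Fin 3 → ℕ}

/-- frames are perfect -/
theorem frame_perf (S : Setup arm J B N W F f P R D l) {ν : K} {m : ℕ}
    {U : Matrix δ (Fin m) K} {a : Fin 3 → Matrix (Fin m) (Fin m) K}
    (hspan : ∀ u ∈ QQb S ν, ∃ x, u = U *ᵥ x) (hmem : ∀ x, U *ᵥ x ∈ QQb S ν)
    (hinj : ∀ x, U *ᵥ x = 0 → x = 0)
    (ha : ∀ s, B * E K arm s * (Fᵀ * J * (P.1 * F)) * U = U * a s) (x : Fin m → K) :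
    ∃ y : Fin 3 → (Fin m → K), x = ∑ s, a s *ᵥ y s := by
  obtain ⟨c, hc, hs⟩ := Qb_exists (ctx S) S.hR S.hD (hmem x)
  choose y hy using fun s => hspan (c s) (hc s)
  refine ⟨y, ?_⟩
  have h1 : U *ᵥ (x - ∑ s, a s *ᵥ y s) = 0 := by
    rw [mulVec_sub, mulVec_sum, ← hs, sub_eq_zero]
    refine Finset.sum_congr rfl fun s _ => ?_
    rw [mulVec_mulVec, ← ha s, ← mulVec_mulVec, ← hy s]
    rfl
  exact sub_eq_zero.1 (hinj _ h1)

/-- `Cᵀ` is injective if `C` is onto -/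
theorem inj_of_onto {n m : ℕ} {C : Matrix (Fin n) (Fin m) K} (hC : ∀ y, ∃ x, C *ᵥ x = y)
    {v : Fin n → K} (hv : Cᵀ *ᵥ v = 0) : v = 0 := by
  apply dotProduct_eq_zero
  intro w
  obtain ⟨x, rfl⟩ := hC w
  rw [dotProduct_mulVec, ← mulVec_transpose, hv, zero_dotProduct]

/-- **uniqueness** of the correction `β` -/
theorem uniq (S : Setup arm J B N W F f P R D l) {ν1 ν2 : K} {n1 : ℕ}
    {Q1 : Matrix ι (Fin n1) K} {A1 : Fin 3 → Matrix (Fin n1) (Fin n1) K}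
    (b1 : BPkg arm J B F R P.1 D ν1 l Q1 A1) {m1 m2 : ℕ}
    {U1 : Matrix δ (Fin m1) K} {a1 : Fin 3 → Matrix (Fin m1) (Fin m1) K}
    (hU1 : UFr.Cq (QQb S ν1) U1)
    (hspan1 : ∀ u ∈ QQb S ν1, ∃ x, u = U1 *ᵥ x) (hmem1 : ∀ x, U1 *ᵥ x ∈ QQb S ν1)
    (ha1 : ∀ s, B * E K arm s * (Fᵀ * J * (P.1 * F)) * U1 = U1 * a1 s)
    {U2 : Matrix δ (Fin m2) K} {a2 : Fin 3 → Matrix (Fin m2) (Fin m2) K}
    (hspan2 : ∀ u ∈ QQb S ν2, ∃ x, u = U2 *ᵥ x) (hmem2 : ∀ x, U2 *ᵥ x ∈ QQb S ν2)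
    (hinj2 : ∀ x, U2 *ᵥ x = 0 → x = 0)
    (ha2 : ∀ s, B * E K arm s * (Fᵀ * J * (P.1 * F)) * U2 = U2 * a2 s)
    {β : Matrix (Fin m1) (Fin m2) K} {c : K} (hc : c ≠ 0)
    (rb : (U1ᵀ * (Fᵀ * J * (P.1 * F)) * U1) * β = 0)
    (cb : ∀ s, F * U1 * (a1 s * β + c • (β * a2 s)) = 0) :
    F * U1 * β = 0 ∧ (Fᵀ * J * (P.1 * F)) * U1 * β = 0 ∧
      ∀ X : Matrix ι ι K, Fᵀ * J * (X * F) * U1 * β = 0 := by
  obtain ⟨C, h1, h2, h3, h4, h5⟩ := exists_C S b1 hU1 hspan1 hmem1 ha1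
  have hδ0 : (Q1ᵀ * (J * P.1) * Q1) * (C * β) = 0 := by
    rw [← h5] at rb
    have e : Cᵀ * ((Q1ᵀ * (J * P.1) * Q1) * (C * β)) = 0 := by
      rw [← rb]; simp only [Matrix.mul_assoc]
    ext i j
    have h6 : (fun i => ((Q1ᵀ * (J * P.1) * Q1) * (C * β)) i j) = 0 := by
      apply inj_of_onto h2
      funext i
      exact congrFun (congrFun e i) j
    exact congrFun h6 i
  have hC : C * β = 0 := by
    refine perf_nil (A := A1) (a := a2) (frame_perf S hspan2 hmem2 hinj2 ha2) b1.blk.kills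
      (fun x => ?_) hc fun s => ?_
    · rw [LinearMap.mem_ker, mulVecLin_apply, mulVec_mulVec, hδ0, zero_mulVec]
    · have e : Q1 * (A1 s * (C * β) + c • (C * β * a2 s)) = 0 := by
        rw [← cb s, h1]
        rw [← Matrix.mul_assoc (A1 s), h3 s]
        simp only [Matrix.mul_add, Matrix.mul_smul, Matrix.mul_assoc]
      ext i j
      have h6 : (fun i => (A1 s * (C * β) + c • (C * β * a2 s)) i j) = 0 := by
        apply b1.inj
        funext i
        exact congrFun (congrFun e i) j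
      exact congrFun h6 i
  have hF : F * U1 * β = 0 := by
    rw [h1, Matrix.mul_assoc, hC, Matrix.mul_zero]
  refine ⟨hF, ?_, fun X => ?_⟩
  · calc (Fᵀ * J * (P.1 * F)) * U1 * β = Fᵀ * J * P.1 * (F * U1 * β) := by
          simp only [Matrix.mul_assoc]
      _ = 0 := by rw [hF, Matrix.mul_zero]
  · calc Fᵀ * J * (X * F) * U1 * β = Fᵀ * J * X * (F * U1 * β) := by
          simp only [Matrix.mul_assoc]
      _ = 0 := by rw [hF, Matrix.mul_zero]

/-- `uniq` without a package -/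
theorem uniq' (S : Setup arm J B N W F f P R D l) {ν1 ν2 : K} {m1 m2 : ℕ}
    {U1 : Matrix δ (Fin m1) K} {a1 : Fin 3 → Matrix (Fin m1) (Fin m1) K}
    (hU1 : UFr.Cq (QQb S ν1) U1)
    (hspan1 : ∀ u ∈ QQb S ν1, ∃ x, u = U1 *ᵥ x) (hmem1 : ∀ x, U1 *ᵥ x ∈ QQb S ν1)
    (ha1 : ∀ s, B * E K arm s * (Fᵀ * J * (P.1 * F)) * U1 = U1 * a1 s)
    {U2 : Matrix δ (Fin m2) K} {a2 : Fin 3 → Matrix (Fin m2) (Fin m2) K}
    (hspan2 : ∀ u ∈ QQb S ν2, ∃ x, u = U2 *ᵥ x) (hmem2 : ∀ x, U2 *ᵥ x ∈ QQb S ν2)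
    (hinj2 : ∀ x, U2 *ᵥ x = 0 → x = 0)
    (ha2 : ∀ s, B * E K arm s * (Fᵀ * J * (P.1 * F)) * U2 = U2 * a2 s)
    {β : Matrix (Fin m1) (Fin m2) K} {c : K} (hc : c ≠ 0)
    (rb : (U1ᵀ * (Fᵀ * J * (P.1 * F)) * U1) * β = 0)
    (cb : ∀ s, F * U1 * (a1 s * β + c • (β * a2 s)) = 0) :
    F * U1 * β = 0 ∧ (Fᵀ * J * (P.1 * F)) * U1 * β = 0 ∧
      ∀ X : Matrix ι ι K, Fᵀ * J * (X * F) * U1 * β = 0 := by
  by_cases hν : D.maxGenEigenspace ν1 = ⊥
  · have hF1 : F * U1 = 0 := by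
      ext i j
      have h1 : gS F (fun d => U1 d j) ∈ SC.PB (PhS arm J B F R P.1) D ν1 := by
        rw [← Qb_map (ctx S) S.hR S.hD ν1]; exact ⟨_, hU1 j, rfl⟩
      rw [PB_bot S.hD.2 hν, Submodule.mem_bot] at h1
      have h2 := congrArg (fun v : SpS.Sg F => (v : ι → K)) h1
      exact congrFun h2 i
    have hF : F * U1 * β = 0 := by rw [hF1, Matrix.zero_mul]
    refine ⟨hF, ?_, fun X => ?_⟩
    · calc (Fᵀ * J * (P.1 * F)) * U1 * β = Fᵀ * J * P.1 * (F * U1 * β) := by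
            simp only [Matrix.mul_assoc]
        _ = 0 := by rw [hF, Matrix.mul_zero]
    · calc Fᵀ * J * (X * F) * U1 * β = Fᵀ * J * X * (F * U1 * β) := by
            simp only [Matrix.mul_assoc]
        _ = 0 := by rw [hF, Matrix.mul_zero]
  · obtain ⟨n, Q, A, b1⟩ := S.pkg ν1 hν
    exact uniq S b1 hU1 hspan1 hmem1 ha1 hspan2 hmem2 hinj2 ha2 hc rb cb

/-- membership of all combinations -/
theorem mem_of_Cq {Q : Submodule K (δ → K)} {m : ℕ} {U : Matrix δ (Fin m) K}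
    (hU : UFr.Cq Q U) (x : Fin m → K) : U *ᵥ x ∈ Q := by
  have h1 : U *ᵥ x = ∑ j, x j • (fun d => U d j) := by
    funext d
    rw [Finset.sum_apply]
    unfold Matrix.mulVec dotProduct
    exact Finset.sum_congr rfl fun j _ => by
      rw [Pi.smul_apply, smul_eq_mul, mul_comm]
  rw [h1]
  exact Submodule.sum_mem _ fun j _ => Submodule.smul_mem _ _ (hU j)

/-- **uniqueness of the decorations** (letters of `SDec.Geo2`) -/
theorem dec_uniq (S : Setup arm J B N W F f P R D l) {ν ν' : K}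
    {m1 m2 : ℕ} {U1 : Matrix δ (Fin m1) K} {U2 : Matrix δ (Fin m2) K}
    {a1 : Fin 3 → Matrix (Fin m1) (Fin m1) K} {a2 : Fin 3 → Matrix (Fin m2) (Fin m2) K}
    (hU1 : UFr.Cq (UBlk.Qb (S.hCtx F S.hF).data S.hR P.1 D ν) U1)
    (hspan1 : ∀ u ∈ UBlk.Qb (S.hCtx F S.hF).data S.hR P.1 D ν, ∃ x, u = U1 *ᵥ x)
    (hinj1 : ∀ x, U1 *ᵥ x = 0 → x = 0)
    (ha1 : ∀ s, B * E K arm s * (Fᵀ * J * (P.1 * F)) * U1 = U1 * a1 s)
    (hU2 : UFr.Cq (UBlk.Qb (S.hCtx F S.hF).data S.hR P.1 D ν') U2)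
    (hspan2 : ∀ u ∈ UBlk.Qb (S.hCtx F S.hF).data S.hR P.1 D ν', ∃ x, u = U2 *ᵥ x)
    (hinj2 : ∀ x, U2 *ᵥ x = 0 → x = 0)
    (ha2 : ∀ s, B * E K arm s * (Fᵀ * J * (P.1 * F)) * U2 = U2 * a2 s)
    {c : K} (hc : c ≠ 0) {y y' : SUX.D3 K (Fin m1) (Fin m2)}
    (hy : SDec.Dec F (Fᵀ * J * (P.1 * F)) U1 U2 a1 a2 c y)
    (hy' : SDec.Dec F (Fᵀ * J * (P.1 * F)) U1 U2 a1 a2 c y') (hX : y.1 = y'.1) :
    (F * U1 * y.2.1 = F * U1 * y'.2.1 ∧
      ∀ X : Matrix ι ι K, Fᵀ * J * (X * F) * U1 * y.2.1 = Fᵀ * J * (X * F) * U1 * y'.2.1) ∧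
    (F * U2 * y.2.2 = F * U2 * y'.2.2 ∧
      ∀ X : Matrix ι ι K, Fᵀ * J * (X * F) * U2 * y.2.2 = Fᵀ * J * (X * F) * U2 * y'.2.2) := by
  have hb := uniq' S (ν1 := ν) (ν2 := ν') hU1 hspan1 (mem_of_Cq hU1) ha1 hspan2
    (mem_of_Cq hU2) hinj2 ha2 (β := y.2.1 - y'.2.1) hc
    (by rw [Matrix.mul_sub, hy.rb, hy'.rb, sub_zero])
    (fun s => by
      have e1 := hy.cb s
      have e2 := hy'.cb s
      rw [hX] at e1
      have e3 := sub_eq_zero.2 (e1.trans e2.symm)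
      rw [← e3, ← Matrix.mul_sub, ← Matrix.mul_sub, Matrix.mul_assoc]
      congr 2
      simp only [Matrix.mul_sub, Matrix.sub_mul, smul_sub]
      abel)
  have hk := uniq' S (ν1 := ν') (ν2 := ν) hU2 hspan2 (mem_of_Cq hU2) ha2 hspan1
    (mem_of_Cq hU1) hinj1 ha1 (β := y.2.2 - y'.2.2) (inv_ne_zero hc)
    (by rw [Matrix.mul_sub, hy.rk, hy'.rk, sub_zero])
    (fun s => by
      have e1 := hy.ck s
      have e2 := hy'.ck s
      rw [hX] at e1
      have e3 := sub_eq_zero.2 (e1.trans e2.symm)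
      have e4 : F * (U2 * (c • (a2 s * (y.2.2 - y'.2.2)) + (y.2.2 - y'.2.2) * a1 s)) = 0 := by
        rw [← e3, ← Matrix.mul_sub, ← Matrix.mul_sub]
        congr 2
        simp only [Matrix.mul_sub, Matrix.sub_mul, smul_sub]
        abel
      have e5 : a2 s * (y.2.2 - y'.2.2) + c⁻¹ • ((y.2.2 - y'.2.2) * a1 s) =
          c⁻¹ • (c • (a2 s * (y.2.2 - y'.2.2)) + (y.2.2 - y'.2.2) * a1 s) := by
        rw [smul_add, smul_smul, inv_mul_cancel₀ hc, one_smul]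
      rw [e5, Matrix.mul_smul, Matrix.mul_assoc, e4, smul_zero])
  refine ⟨⟨?_, fun X => ?_⟩, ?_, fun X => ?_⟩
  · rw [← sub_eq_zero, ← Matrix.mul_sub]; exact hb.1
  · rw [← sub_eq_zero, ← Matrix.mul_sub]; exact hb.2.2 X
  · rw [← sub_eq_zero, ← Matrix.mul_sub]; exact hk.1
  · rw [← sub_eq_zero, ← Matrix.mul_sub]; exact hk.2.2 X

end Crest.Agent.R172.SUniq803
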