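import Crest.Agent.R172.SUXF
import Crest.Agent.R172.SUX6
import Crest.Agent.R172.SUX1
import Crest.Agent.R172.PTt
import Crest.Agent.R172.UFr
import Crest.Agent.R172.STop
import Crest.Agent.R172.UBlk
import Crest.Agent.R172.PTy
import Crest.Agent.R172.SEnd
import Crest.Agent.R172.SInst
import Crest.Agent.R172.SLev0
import Crest.Agent.R172.SDec2_Mg
import Crest.Agent.R172.SUniq803_Mg
import Crest.Agent.R172.SNabI934_Mg
import Crest.Agent.R172.SB2H16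

-- ▼ part R172/SUX4b
section

/-!
Row 172 (S0260), S-side: the second derivative in block form (second copy, helper560).
-/

set_option autoImplicit false
set_option linter.unusedSectionVars false
set_option linter.unusedFintypeInType false
set_option linter.unusedDecidableInType false
set_option linter.unusedVariables false
set_option maxHeartbeats 1600000

namespace Crest.Agent.R172.SUX4b

open Matrix Module Crest.Agent.R172.FO Crest.Agent.R172.Qt Crest.Agent.R172.SpS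
  Crest.Agent.R172.Om Crest.Agent.R172.SUX

variable {ι : Type*} [Fintype ι] [DecidableEq ι] {δ : Type*} [Fintype δ] [DecidableEq δ]
variable {k K : Type*} [Field k] [Field K] [Algebra k K]
variable {arm : δ → Fin 3} {J : Matrix ι ι K} {B : Matrix δ δ K}
  {N W : Submodule K (Matrix ι δ K)} {H F : Matrix ι δ K}
variable {n1 n2 : Type*} [Fintype n1] [Fintype n2] [DecidableEq n1] [DecidableEq n2]
variable {P : Matrix ι ι K × (Fin 3 → Matrix ι ι K)} {S0 : Matrix δ δ K} {c1 c2 : K}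
  {U1 : Matrix δ n1 K} {U2 : Matrix δ n2 K} {Y : Fin 3 → Matrix δ δ K} {d : Derivation k K K}
  {Γ1 : Matrix n1 n1 K} {Γ2 : Matrix n2 n2 K} {β : Matrix n1 n2 K} {γ : Matrix n2 n1 K}

theorem T_of {n : Type*} [Fintype n] {T : Matrix δ δ K} (hT : Tᵀ = -T) (hS : S0ᵀ = -S0)
    {U : Matrix δ n K} {c : K} (h : T * U = c • (S0 * U)) : Uᵀ * T = c • (Uᵀ * S0) := by
  have h1 := congrArg Matrix.transpose h
  rw [transpose_mul, hT, transpose_smul, transpose_mul, hS, Matrix.mul_neg, Matrix.mul_neg,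
    smul_neg] at h1
  exact neg_injective h1

/-- the derivative of `U1ᵀ S0` at one arm -/
theorem dR (h : Ctx k arm J B N W H) (hP : P ∈ NN arm J N H)
    (m : Mv k arm J N W H P.1 Y d) (fr : Fr J F H P.1 S0 c1 c2 U1 U2)
    {X' : Fin 3 → Matrix n2 n1 K}
    (hY : ∀ s, H * Y s * Hᵀ = H * (U2 * X' s * U1ᵀ + U1 * (X' s)ᵀ * U2ᵀ) * Hᵀ)
    (hN1 : H * (U1.map d + ZY arm J H P.1 Y * U1) = H * (U1 * Γ1 + c1 ^ 2 • (U2 * γ)))
    (s : Fin 3) :
    (U1ᵀ * S0).map d * E K arm s = ((Γ1 - (2 * (d c1 / c1)) • (1 : Matrix n1 n1 K))ᵀ * (U1ᵀ * S0)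
      + c2 ^ 2 • (γᵀ * (U2ᵀ * S0))
      + c2 ^ 2 • ((U1ᵀ * S0 * U1) * (X' s)ᵀ * (U2ᵀ * S0))) * E K arm s := by
  have hthH := th_skew h hP h.mem
  have hU1 := T_of hthH fr.skew fr.S1
  have hU2 := T_of hthH fr.skew fr.S2
  have hc := fr.hc1
  set T : Matrix δ δ K := th J H P.1 H with hT
  set Z : Matrix δ δ K := ZY arm J H P.1 Y with hZ
  -- derivative of `T`
  have hdT : T.map d = Zᵀ * T + T * Z := by
    rw [hT]
    unfold th
    rw [map_mul_der, map_mul_der, map_mul_der, h.data.J_const, map_transpose_der, m.dH, ← hZ,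
      Matrix.mul_zero, add_zero]
    have e1 := m.dP H h.mem
    rw [Matrix.mul_add, e1, zero_add, transpose_mul]
    simp only [Matrix.mul_assoc]
  have h1 : (U1ᵀ).map d * T + U1ᵀ * (Zᵀ * T + T * Z) =
      d (c1 ^ 2) • (U1ᵀ * S0) + c1 ^ 2 • (U1ᵀ * S0).map d := by
    rw [← hdT, ← map_mul_der, hU1, SUX.map_smul_der]
  -- the `∇U1` part
  have h2 : (U1ᵀ).map d * T + U1ᵀ * (Zᵀ * T) = c1 ^ 2 • (Γ1ᵀ * (U1ᵀ * S0)) +
      (c1 ^ 2 * c2 ^ 2) • (γᵀ * (U2ᵀ * S0)) := by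
    have e1 : (U1ᵀ).map d * T + U1ᵀ * (Zᵀ * T) = (H * (U1.map d + Z * U1))ᵀ * (J * (P.1 * H)) := by
      rw [hT]
      unfold th
      rw [transpose_mul, transpose_add, transpose_mul, map_transpose_der, Matrix.add_mul,
        Matrix.add_mul]
      simp only [Matrix.mul_assoc]
    rw [e1, hN1]
    have e2 : (H * (U1 * Γ1 + c1 ^ 2 • (U2 * γ)))ᵀ * (J * (P.1 * H)) =
        Γ1ᵀ * (U1ᵀ * T) + c1 ^ 2 • (γᵀ * (U2ᵀ * T)) := by
      rw [hT]
      unfold th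
      rw [transpose_mul, transpose_add, transpose_smul, transpose_mul, transpose_mul,
        Matrix.add_mul, Matrix.add_mul, Matrix.smul_mul, Matrix.smul_mul]
      simp only [Matrix.mul_assoc]
    rw [e2, hU1, hU2, Matrix.mul_smul, Matrix.mul_smul, smul_smul]
  -- the `Z` part
  have h3 : U1ᵀ * (T * Z) * E K arm s =
      (c1 ^ 2 * c2 ^ 2) • ((U1ᵀ * S0 * U1) * (X' s)ᵀ * (U2ᵀ * S0)) * E K arm s := by
    have e1 : U1ᵀ * (T * Z) * E K arm s = U1ᵀ * T * Y s * T * E K arm s := by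
      rw [hZ]
      unfold ZY
      rw [Matrix.mul_sum, Matrix.mul_sum, Matrix.sum_mul, Finset.sum_eq_single s]
      · rw [← hT]
        have : E K arm s * E K arm s = E K arm s := E_mul_self arm s
        calc U1ᵀ * (T * (Y s * T * E K arm s)) * E K arm s
            = U1ᵀ * T * Y s * T * (E K arm s * E K arm s) := by simp only [Matrix.mul_assoc]
          _ = _ := by rw [this]
      · intro r _ hr
        have : E K arm r * E K arm s = 0 := E_mul_ne arm hr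
        calc U1ᵀ * (T * (Y r * th J H P.1 H * E K arm r)) * E K arm s
            = U1ᵀ * (T * (Y r * th J H P.1 H * (E K arm r * E K arm s))) := by
              simp only [Matrix.mul_assoc]
          _ = 0 := by rw [this]; simp
      · intro hs; exact absurd (Finset.mem_univ s) hs
    rw [e1]
    have e2 : U1ᵀ * T * Y s * T = U1ᵀ * T * (U2 * X' s * U1ᵀ + U1 * (X' s)ᵀ * U2ᵀ) * T := by
      have e3 : ∀ A : Matrix δ δ K, U1ᵀ * T * A * T = U1ᵀ * Hᵀ * J * P.1 * (H * A * Hᵀ) *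
          (J * (P.1 * H)) := by
        intro A
        rw [hT]
        unfold th
        simp only [Matrix.mul_assoc]
      rw [e3, e3, hY s]
    rw [e2, hU1, Matrix.smul_mul, Matrix.smul_mul, Matrix.mul_add]
    have e4 : U1ᵀ * S0 * (U2 * X' s * U1ᵀ) = 0 := by
      rw [← Matrix.mul_assoc, ← Matrix.mul_assoc, fr.orth, Matrix.zero_mul, Matrix.zero_mul]
    rw [e4, zero_add]
    have e5 : U1ᵀ * S0 * (U1 * (X' s)ᵀ * U2ᵀ) * T =
        (U1ᵀ * S0 * U1) * (X' s)ᵀ * (U2ᵀ * T) := by simp only [Matrix.mul_assoc]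
    rw [e5, hU2, Matrix.mul_smul, smul_smul]
  -- combine
  have h4 : (c1 ^ 2) • ((U1ᵀ * S0).map d * E K arm s) =
      (c1 ^ 2 • (Γ1ᵀ * (U1ᵀ * S0)) + (c1 ^ 2 * c2 ^ 2) • (γᵀ * (U2ᵀ * S0))) * E K arm s +
      (c1 ^ 2 * c2 ^ 2) • ((U1ᵀ * S0 * U1) * (X' s)ᵀ * (U2ᵀ * S0)) * E K arm s -
      (d (c1 ^ 2)) • ((U1ᵀ * S0) * E K arm s) := by
    rw [← h3, ← h2]
    have e6 := congrArg (fun A : Matrix n1 δ K => A * E K arm s) h1
    simp only [Matrix.add_mul, Matrix.smul_mul, Matrix.mul_add] at e6 ⊢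
    rw [eq_sub_iff_add_eq, add_comm, ← e6]
    abel
  have h5 : d (c1 ^ 2) = 2 * c1 * d c1 := by
    rw [pow_two, Derivation.leibniz]
    simp only [smul_eq_mul]
    ring
  rw [h5] at h4
  have h6 : (U1ᵀ * S0).map d * E K arm s = (c1 ^ 2)⁻¹ • ((c1 ^ 2) • ((U1ᵀ * S0).map d * E K arm s)) := by
    rw [smul_smul, inv_mul_cancel₀ (pow_ne_zero 2 hc), one_smul]
  rw [h6, h4]
  simp only [transpose_sub, transpose_smul, transpose_one, Matrix.add_mul, Matrix.sub_mul,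
    Matrix.smul_mul, Matrix.one_mul, smul_add, smul_sub, smul_smul]
  have hc2 : c1 ^ 2 ≠ 0 := pow_ne_zero 2 hc
  have s1 : (c1 ^ 2)⁻¹ * c1 ^ 2 = 1 := inv_mul_cancel₀ hc2
  have s2 : (c1 ^ 2)⁻¹ * (c1 ^ 2 * c2 ^ 2) = c2 ^ 2 := by field_simp
  have s3 : (c1 ^ 2)⁻¹ * (2 * c1 * d c1) = 2 * (d c1 / c1) := by field_simp
  rw [s1, s2, s3, one_smul]
  abel

/-- **second derivative, block form** -/
theorem second_blocks (h : Ctx k arm J B N W H) (hP : P ∈ NN arm J N H)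
    (m : Mv k arm J N W H P.1 Y d) (fr : Fr J F H P.1 S0 c1 c2 U1 U2)
    {X X' : Fin 3 → Matrix n2 n1 K} {β0 : Matrix n1 n2 K} {γ0 : Matrix n2 n1 K}
    {w : Matrix ι δ K} {μ1 μ2 ν1 ν2 : K}
    (hY : ∀ s, ∀ v ∈ W, v * Y s * Hᵀ = v * (U2 * X' s * U1ᵀ + U1 * (X' s)ᵀ * U2ᵀ) * Hᵀ)
    (hN2 : ∀ v ∈ W, v * (U2.map d + ZY arm J H P.1 Y * U2) = v * (U2 * Γ2 + c2 ^ 2 • (U1 * β)))
    (hN1 : ∀ v ∈ W, v * (U1.map d + ZY arm J H P.1 Y * U1) = v * (U1 * Γ1 + c1 ^ 2 • (U2 * γ)))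
    (hF : F ∈ N ⊓ W) (hFp : Hᵀ * J * F = 0) (hw : w ∈ W) (hwp : Hᵀ * J * w = 0)
    (hn : ∑ s, F * (U2 * X s * U1ᵀ * S0) * E K arm s - w ∈ N)
    (L1 : w * U1 = μ1 • (F * U1) + F * (U2 * γ0)) (L2 : w * U2 = μ2 • (F * U2))
    (V1 : U1ᵀ * th J H P.1 w = (c1 * ν1) • (U1ᵀ * S0))
    (V2 : U2ᵀ * th J H P.1 w = (c2 * ν2) • (U2ᵀ * S0) - c2 • (β0ᵀ * (U1ᵀ * S0))) :
    ∑ s, F * ((c1 * c2) • (U1 * (β * X s - (X' s)ᵀ * (U2ᵀ * S0 * U2) * X s - (X' s)ᵀ * β0ᵀ) * U1ᵀ)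
      + c2 ^ 2 • (U2 * (X s * γᵀ + X s * (U1ᵀ * S0 * U1) * (X' s)ᵀ - γ0 * (X' s)ᵀ) * U2ᵀ)
      + U2 * (Γ2 * X s + (X s).map d + X s * (Γ1 - (2 * (d c1 / c1)) • (1 : Matrix n1 n1 K))ᵀ
          - (d c2 / c2) • X s + (c1 * c2 * ν1 - μ2 * c1 ^ 2) • X' s) * U1ᵀ
      + (c1 * c2 * ν2 - μ1 * c2 ^ 2) • (U1 * (X' s)ᵀ * U2ᵀ)) * S0 * E K arm s
      - wd arm J H P.1 Y d w ∈ N := by
  have key := m.second (A := fun s => U2 * X s * U1ᵀ * S0) hFp hwp hn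
  have hHW : H ∈ W := h.memW
  have hthH := th_skew h hP h.mem
  have hthF := th_skew h hP hF
  have hU1 := T_of hthH fr.skew fr.S1
  have hU2 := T_of hthH fr.skew fr.S2
  have hF1 := T_of hthF fr.skew fr.T1
  have hF2 := T_of hthF fr.skew fr.T2
  have hR := dR h hP m fr (fun s => hY s H hHW) (hN1 H hHW)
  have hdFU := dFU fr.symm m.dH (hN2 H hHW)
  -- `wd F * U2`
  have hwF : wd arm J H P.1 Y d F * U2 = (c1 * c2 - c2 ^ 2) • (F * (U1 * β)) -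
      (d c2 / c2) • (F * U2) := by
    have e1 : wd arm J H P.1 Y d F * U2 = (F * U2).map d -
        F * (U2.map d + ZY arm J H P.1 Y * U2) := by
      unfold wd
      rw [map_mul_der, Matrix.sub_mul, Matrix.mul_add, ← Matrix.mul_assoc]
      abel
    rw [e1, hdFU, hN2 F hF.2, Matrix.mul_add, Matrix.mul_smul]
    simp only [Matrix.mul_assoc]
    module
  have hsum : ∀ s, (F * (ZY arm J H P.1 Y * (U2 * X s * U1ᵀ * S0) +
        (U2 * X s * U1ᵀ * S0).map d) + wd arm J H P.1 Y d F * (U2 * X s * U1ᵀ * S0) -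
        w * Y s * th J H P.1 H -
        H * Y s * (th J H P.1 F * (U2 * X s * U1ᵀ * S0) - th J H P.1 w)) * E K arm s =
      F * ((c1 * c2) • (U1 * (β * X s - (X' s)ᵀ * (U2ᵀ * S0 * U2) * X s - (X' s)ᵀ * β0ᵀ) * U1ᵀ)
      + c2 ^ 2 • (U2 * (X s * γᵀ + X s * (U1ᵀ * S0 * U1) * (X' s)ᵀ - γ0 * (X' s)ᵀ) * U2ᵀ)
      + U2 * (Γ2 * X s + (X s).map d + X s * (Γ1 - (2 * (d c1 / c1)) • (1 : Matrix n1 n1 K))ᵀ
          - (d c2 / c2) • X s + (c1 * c2 * ν1 - μ2 * c1 ^ 2) • X' s) * U1ᵀ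
      + (c1 * c2 * ν2 - μ1 * c2 ^ 2) • (U1 * (X' s)ᵀ * U2ᵀ)) * S0 * E K arm s := by
    intro s
    -- (a)
    have ta : F * (ZY arm J H P.1 Y * (U2 * X s * U1ᵀ * S0) + (U2 * X s * U1ᵀ * S0).map d) =
        F * (U2 * Γ2 + c2 ^ 2 • (U1 * β)) * (X s * (U1ᵀ * S0)) +
        F * U2 * (X s).map d * (U1ᵀ * S0) + F * U2 * X s * (U1ᵀ * S0).map d := by
      rw [← hN2 F hF.2]
      have e1 : U2 * X s * U1ᵀ * S0 = U2 * X s * (U1ᵀ * S0) := by simp only [Matrix.mul_assoc]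
      rw [e1, map_mul_der, map_mul_der]
      simp only [Matrix.mul_add, Matrix.add_mul, Matrix.mul_assoc]
      abel
    -- (b)
    have tb : wd arm J H P.1 Y d F * (U2 * X s * U1ᵀ * S0) =
        ((c1 * c2 - c2 ^ 2) • (F * (U1 * β)) - (d c2 / c2) • (F * U2)) * (X s * (U1ᵀ * S0)) := by
      rw [← hwF]
      simp only [Matrix.mul_assoc]
    -- (c)
    have tc : w * Y s * th J H P.1 H = c1 ^ 2 • ((μ2 • (F * U2)) * X' s * (U1ᵀ * S0)) +
        c2 ^ 2 • ((μ1 • (F * U1) + F * (U2 * γ0)) * (X' s)ᵀ * (U2ᵀ * S0)) := by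
      have e1 : w * Y s * th J H P.1 H = w * Y s * Hᵀ * (J * (P.1 * H)) := by
        unfold th; simp only [Matrix.mul_assoc]
      have e2 : w * (U2 * X' s * U1ᵀ + U1 * (X' s)ᵀ * U2ᵀ) * Hᵀ * (J * (P.1 * H)) =
          (w * U2) * X' s * (U1ᵀ * th J H P.1 H) + (w * U1) * (X' s)ᵀ * (U2ᵀ * th J H P.1 H) := by
        unfold th
        simp only [Matrix.mul_add, Matrix.add_mul, Matrix.mul_assoc]
      rw [e1, hY s w hw, e2, hU1, hU2, L1, L2, Matrix.mul_smul, Matrix.mul_smul]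
    -- (d)
    have td : H * Y s * (th J H P.1 F * (U2 * X s * U1ᵀ * S0)) =
        (c1 * c2) • (F * U1 * (X' s)ᵀ * (U2ᵀ * S0 * U2) * X s * (U1ᵀ * S0)) := by
      have e1 : H * Y s * (th J H P.1 F * (U2 * X s * U1ᵀ * S0)) =
          H * Y s * Hᵀ * (J * (P.1 * F) * (U2 * X s * U1ᵀ * S0)) := by
        unfold th; simp only [Matrix.mul_assoc]
      have e2 : H * (U2 * X' s * U1ᵀ + U1 * (X' s)ᵀ * U2ᵀ) * Hᵀ *
          (J * (P.1 * F) * (U2 * X s * U1ᵀ * S0)) =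
          (H * U2) * X' s * (U1ᵀ * th J H P.1 F) * U2 * X s * (U1ᵀ * S0) +
          (H * U1) * (X' s)ᵀ * (U2ᵀ * th J H P.1 F) * U2 * X s * (U1ᵀ * S0) := by
        unfold th
        simp only [Matrix.mul_add, Matrix.add_mul, Matrix.mul_assoc]
      rw [e1, hY s H hHW, e2, hF1, hF2, fr.H1, fr.H2]
      have e3 : c2 • (F * U2) * X' s * c1 • (U1ᵀ * S0) * U2 * X s * (U1ᵀ * S0) = 0 := by
        have : c2 • (F * U2) * X' s * c1 • (U1ᵀ * S0) * U2 * X s * (U1ᵀ * S0) =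
            c2 • c1 • (F * U2 * X' s * (U1ᵀ * S0 * U2) * X s * (U1ᵀ * S0)) := by
          simp only [Matrix.smul_mul, Matrix.mul_smul, Matrix.mul_assoc]
          exact smul_comm _ _ _
        rw [this, fr.orth]
        simp
      rw [e3, zero_add]
      simp only [Matrix.smul_mul, Matrix.mul_smul, Matrix.mul_assoc, smul_smul]
      rw [mul_comm c2 c1]
    -- (e)
    have te : H * Y s * th J H P.1 w = (c1 * c2 * ν1) • (F * U2 * X' s * (U1ᵀ * S0)) +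
        (c1 * c2 * ν2) • (F * U1 * (X' s)ᵀ * (U2ᵀ * S0)) -
        (c1 * c2) • (F * U1 * (X' s)ᵀ * β0ᵀ * (U1ᵀ * S0)) := by
      have e1 : H * Y s * th J H P.1 w = H * Y s * Hᵀ * (J * (P.1 * w)) := by
        unfold th; simp only [Matrix.mul_assoc]
      have e2 : H * (U2 * X' s * U1ᵀ + U1 * (X' s)ᵀ * U2ᵀ) * Hᵀ * (J * (P.1 * w)) =
          (H * U2) * X' s * (U1ᵀ * th J H P.1 w) + (H * U1) * (X' s)ᵀ * (U2ᵀ * th J H P.1 w) := by
        unfold th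
        simp only [Matrix.mul_add, Matrix.add_mul, Matrix.mul_assoc]
      rw [e1, hY s H hHW, e2, V1, V2, fr.H1, fr.H2]
      simp only [Matrix.smul_mul, Matrix.mul_smul, Matrix.mul_sub, smul_smul, Matrix.mul_assoc]
      module
    rw [Matrix.mul_sub (H * Y s), ta, tb, tc, td, te]
    have tr : F * U2 * X s * (U1ᵀ * S0).map d * E K arm s =
        F * U2 * X s * (((Γ1 - (2 * (d c1 / c1)) • (1 : Matrix n1 n1 K))ᵀ * (U1ᵀ * S0)
      + c2 ^ 2 • (γᵀ * (U2ᵀ * S0))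
      + c2 ^ 2 • ((U1ᵀ * S0 * U1) * (X' s)ᵀ * (U2ᵀ * S0))) * E K arm s) := by
      rw [← hR s]
      simp only [Matrix.mul_assoc]
    simp only [Matrix.add_mul, Matrix.sub_mul]
    rw [tr]
    simp only [Matrix.mul_add, Matrix.add_mul, Matrix.mul_sub, Matrix.sub_mul, Matrix.smul_mul,
      Matrix.mul_smul, smul_smul, smul_add, smul_sub, Matrix.mul_assoc]
    module
  rw [Finset.sum_congr rfl fun s _ => hsum s] at key
  exact key

end Crest.Agent.R172.SUX4b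
end

-- ▼ part R172/SUX7
section

/-!
Row 172 (S0260), S-side: the second level relation in matrix form.
-/

set_option autoImplicit false
set_option linter.unusedSectionVars false
set_option linter.unusedFintypeInType false
set_option linter.unusedDecidableInType false

namespace Crest.Agent.R172.SUX

open Matrix Module Crest.Agent.R172.FO Crest.Agent.R172.Qt Crest.Agent.R172.SpS
  Crest.Agent.R172.Om

variable {ι : Type*} [Fintype ι] [DecidableEq ι] {δ : Type*} [Fintype δ] [DecidableEq δ]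
variable {k K : Type*} [Field k] [Field K] [Algebra k K]
variable {arm : δ → Fin 3} {J : Matrix ι ι K} {B : Matrix δ δ K}
  {N W W' : Submodule K (Matrix ι δ K)} {H F f q : Matrix ι δ K}
variable {n1 n2 : Type*} [Fintype n1] [Fintype n2] [DecidableEq n1] [DecidableEq n2]
variable {P : Matrix ι ι K × (Fin 3 → Matrix ι ι K)} {S0 : Matrix δ δ K} {c1 c2 : K}
  {U1 : Matrix δ n1 K} {U2 : Matrix δ n2 K} {Y : Fin 3 → Matrix δ δ K} {d dY : Derivation k K K}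
  {Γ1 : Matrix n1 n1 K} {Γ2 : Matrix n2 n2 K} {β β0 : Matrix n1 n2 K} {γ γ0 : Matrix n2 n1 K}
  {X X' : Fin 3 → Matrix n2 n1 K}

/-- the class of corrections `w` of the first level at a triple `(X, β0, γ0)` -/
structure WCls (arm : δ → Fin 3) (J : Matrix ι ι K) (N W' : Submodule K (Matrix ι δ K))
    (F f : Matrix ι δ K) (dY : Derivation k K K) (S0 : Matrix δ δ K) (U1 : Matrix δ n1 K)
    (U2 : Matrix δ n2 K) (X : Fin 3 → Matrix n2 n1 K) (β0 : Matrix n1 n2 K)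
    (γ0 : Matrix n2 n1 K) (w : Matrix ι δ K) (μ1 μ2 ν1 ν2 : K) : Prop where
  mem : w ∈ W'
  pF : Fᵀ * J * w = 0
  pf : fᵀ * J * w = 0
  hn : ∑ s, F * (U2 * X s * U1ᵀ * S0) * E K arm s - w ∈ N
  L1 : w * U1 = μ1 • (F * U1) + F * (U2 * γ0)
  L2 : w * U2 = μ2 • (F * U2)
  R1 : U1ᵀ * (Fᵀ * J * w.map dY) = ν1 • (U1ᵀ * S0)
  R2 : U2ᵀ * (Fᵀ * J * w.map dY) = ν2 • (U2ᵀ * S0) - β0ᵀ * (U1ᵀ * S0)

omit [DecidableEq n1] [DecidableEq n2] in
theorem exists_WCls (hm : I1 arm F S0 U1 U2 (X, β0, γ0) ∈ QQ5 J N W' F f dY S0 U1 U2) :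
    ∃ w, ∃ μ1 μ2 ν1 ν2 : K, WCls arm J N W' F f dY S0 U1 U2 X β0 γ0 w μ1 μ2 ν1 ν2 := by
  obtain ⟨w, hw, h1, h2, h3, m1, m2, m3, m4, h4, h5, h6, h7⟩ := even_data hm
  exact ⟨w, m1, m2, m3, m4, hw, h1, h2, h3, h4, h5, h6, h7⟩

/-- the `Q1 ⊗ Q1` part -/
def A11 (S0 : Matrix δ δ K) (U1 : Matrix δ n1 K) (U2 : Matrix δ n2 K)
    (X : Fin 3 → Matrix n2 n1 K) (β0 : Matrix n1 n2 K) (X' : Fin 3 → Matrix n2 n1 K)
    (β : Matrix n1 n2 K) (s : Fin 3) : Matrix δ δ K :=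
  U1 * (β * X s - (X' s)ᵀ * (U2ᵀ * S0 * U2) * X s - (X' s)ᵀ * β0ᵀ) * U1ᵀ

/-- the `Q2 ⊗ Q2` part -/
def A22 (S0 : Matrix δ δ K) (U1 : Matrix δ n1 K) (U2 : Matrix δ n2 K)
    (X : Fin 3 → Matrix n2 n1 K) (γ0 : Matrix n2 n1 K) (X' : Fin 3 → Matrix n2 n1 K)
    (γ : Matrix n2 n1 K) (s : Fin 3) : Matrix δ δ K :=
  U2 * (X s * γᵀ + X s * (U1ᵀ * S0 * U1) * (X' s)ᵀ - γ0 * (X' s)ᵀ) * U2ᵀ

/-- **the second level relation in matrix form.** -/
theorem second_mem (h : Ctx k arm J B N W H) (hP : P ∈ NN arm J N H)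
    (m : Mv k arm J N W H P.1 Y d) (fr : Fr J F H P.1 S0 c1 c2 U1 U2)
    (hY : ∀ s, ∀ v ∈ W, v * Y s * Hᵀ = v * (U2 * X' s * U1ᵀ + U1 * (X' s)ᵀ * U2ᵀ) * Hᵀ)
    (hN2 : ∀ v ∈ W, v * (U2.map d + ZY arm J H P.1 Y * U2) = v * (U2 * Γ2 + c2 ^ 2 • (U1 * β)))
    (hN1 : ∀ v ∈ W, v * (U1.map d + ZY arm J H P.1 Y * U1) = v * (U1 * Γ1 + c1 ^ 2 • (U2 * γ)))
    (hF : F ∈ N ⊓ W) (hFp : Hᵀ * J * F = 0) (hWW : W' ≤ W)
    (hHc : ∀ w : Matrix ι δ K, Fᵀ * J * w = 0 → fᵀ * J * w = 0 → Hᵀ * J * w = 0)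
    (hrow : ∀ w ∈ W, Hᵀ * J * w = 0 → Hᵀ * J * (P.1 * w) = Hᵀ * J * w.map dY)
    {w : Matrix ι δ K} {μ1 μ2 ν1 ν2 : K}
    (cw : WCls arm J N W' F f dY S0 U1 U2 X β0 γ0 w μ1 μ2 ν1 ν2)
    {Q : Submodule K (Matrix ι δ K)} (hNQ : N ≤ Q) (hwQ : wd arm J H P.1 Y d w ∈ Q)
    (h21 : ∑ s, F * (U2 * (Γ2 * X s + (X s).map d +
        X s * (Γ1 - (2 * (d c1 / c1)) • (1 : Matrix n1 n1 K))ᵀ - (d c2 / c2) • X s +
          (c1 * c2 * ν1 - μ2 * c1 ^ 2) • X' s) * U1ᵀ) * S0 * E K arm s ∈ Q)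
    (h12 : ∑ s, F * (U1 * (X' s)ᵀ * U2ᵀ) * S0 * E K arm s ∈ Q) :
    ∑ s, F * A11 S0 U1 U2 X β0 X' β s * S0 * E K arm s +
      (c2 / c1) • ∑ s, F * A22 S0 U1 U2 X γ0 X' γ s * S0 * E K arm s ∈ Q := by
  have hc1 := fr.hc1
  have hc2 := fr.hc2
  have hw := hWW cw.mem
  have hwp := hHc w cw.pF cw.pf
  have hr := hrow w hw hwp
  have V1 : U1ᵀ * th J H P.1 w = (c1 * ν1) • (U1ᵀ * S0) := by
    rw [row_of_Y fr.H1 hr, cw.R1, smul_smul]
  have V2 : U2ᵀ * th J H P.1 w = (c2 * ν2) • (U2ᵀ * S0) - c2 • (β0ᵀ * (U1ᵀ * S0)) := by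
    rw [row_of_Y fr.H2 hr, cw.R2, smul_sub, smul_smul]
  have key := SUX4b.second_blocks h hP m fr hY hN2 hN1 hF hFp hw hwp cw.hn cw.L1 cw.L2 V1 V2
  have h1 := Q.add_mem (hNQ key) hwQ
  rw [sub_add_cancel] at h1
  have e1 : ∑ s, F * ((c1 * c2) • (U1 * (β * X s - (X' s)ᵀ * (U2ᵀ * S0 * U2) * X s
      - (X' s)ᵀ * β0ᵀ) * U1ᵀ)
      + c2 ^ 2 • (U2 * (X s * γᵀ + X s * (U1ᵀ * S0 * U1) * (X' s)ᵀ - γ0 * (X' s)ᵀ) * U2ᵀ)
      + U2 * (Γ2 * X s + (X s).map d + X s * (Γ1 - (2 * (d c1 / c1)) • (1 : Matrix n1 n1 K))ᵀ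
          - (d c2 / c2) • X s + (c1 * c2 * ν1 - μ2 * c1 ^ 2) • X' s) * U1ᵀ
      + (c1 * c2 * ν2 - μ1 * c2 ^ 2) • (U1 * (X' s)ᵀ * U2ᵀ)) * S0 * E K arm s
      = (c1 * c2) • ∑ s, F * A11 S0 U1 U2 X β0 X' β s * S0 * E K arm s +
        c2 ^ 2 • ∑ s, F * A22 S0 U1 U2 X γ0 X' γ s * S0 * E K arm s +
        ∑ s, F * (U2 * (Γ2 * X s + (X s).map d +
          X s * (Γ1 - (2 * (d c1 / c1)) • (1 : Matrix n1 n1 K))ᵀ - (d c2 / c2) • X s +
          (c1 * c2 * ν1 - μ2 * c1 ^ 2) • X' s) * U1ᵀ) * S0 * E K arm s +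
        (c1 * c2 * ν2 - μ1 * c2 ^ 2) • ∑ s, F * (U1 * (X' s)ᵀ * U2ᵀ) * S0 * E K arm s := by
    rw [Finset.smul_sum, Finset.smul_sum, Finset.smul_sum, ← Finset.sum_add_distrib,
      ← Finset.sum_add_distrib, ← Finset.sum_add_distrib]
    refine Finset.sum_congr rfl fun s _ => ?_
    unfold A11 A22
    rw [Matrix.mul_add F, Matrix.mul_add F, Matrix.mul_add F, Matrix.mul_smul F, Matrix.mul_smul F,
      Matrix.mul_smul F, Matrix.add_mul, Matrix.add_mul, Matrix.add_mul, Matrix.add_mul,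
      Matrix.add_mul, Matrix.add_mul, Matrix.smul_mul, Matrix.smul_mul, Matrix.smul_mul,
      Matrix.smul_mul, Matrix.smul_mul, Matrix.smul_mul]
  rw [e1] at h1
  have h2 := Q.sub_mem (Q.sub_mem h1 (Q.smul_mem (c1 * c2 * ν2 - μ1 * c2 ^ 2) h12)) h21
  rw [add_sub_cancel_right, add_sub_cancel_right] at h2
  have h3 := Q.smul_mem (c1 * c2)⁻¹ h2
  rw [smul_add, smul_smul, smul_smul, inv_mul_cancel₀ (mul_ne_zero hc1 hc2), one_smul] at h3
  have a2 : (c1 * c2)⁻¹ * c2 ^ 2 = c2 / c1 := by field_simp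
  rw [a2] at h3
  exact h3

end Crest.Agent.R172.SUX
end

-- ▼ part R172/SPerp72
section

/-!
Row 172 (S0260), (t2): the correction `w = wd q` of a move at `(H, P)` is perpendicular to the
whole `𝒦iso` (`PTt.alpha_zero`): `f'ᵀ J w = 0` for all `f' ∈ 𝒦iso`, if `q Y_r ∈ H · Mat`.
-/

set_option autoImplicit false
set_option linter.unusedSectionVars false
set_option linter.unusedFintypeInType false
set_option linter.unusedDecidableInType false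

namespace Crest.Agent.R172.SPerp72

open Matrix Module Crest.Agent.R172.FO Crest.Agent.R172.Qt Crest.Agent.R172.SpS
  Crest.Agent.R172.SUX
open Crest.Agent.R172.Om (Kiso)

variable {ι : Type*} [Fintype ι] [DecidableEq ι] {δ : Type*} [Fintype δ] [DecidableEq δ]
variable {k K : Type*} [Field k] [Field K] [Algebra k K]
variable {arm : δ → Fin 3} {J : Matrix ι ι K} {B : Matrix δ δ K}
  {N W : Submodule K (Matrix ι δ K)} {H : Matrix ι δ K}
  {P : Matrix ι ι K × (Fin 3 → Matrix ι ι K)} {Y : Fin 3 → Matrix δ δ K}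
  {d : Derivation k K K}

/-- **first level**: `q ∈ N ∩ W`, `Hᵀ J q = 0`, `q Y_r = H G_r` (all `r`): then `w = wd q` is
`≡ H C` modulo `N`, and perpendicular to `𝒦iso`. -/
theorem wd_perp (h : Ctx k arm J B N W H) (m : Mv k arm J N W H P.1 Y d)
    (hNm : ∀ F, (∀ F' ∈ N, pair J B F' F = 0) → F ∈ N)
    (hWm : ∀ F, (∀ F' ∈ W, pair J B F' F = 0) → F ∈ W) {q : Matrix ι δ K} (hqN : q ∈ N)
    (hqW : q ∈ W) (hq : Hᵀ * J * q = 0) {G : Fin 3 → Matrix δ δ K}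
    (hG : ∀ r, q * Y r = H * G r) {f' : Matrix ι δ K} (hf' : f' ∈ Kiso J N W) :
    f'ᵀ * J * wd arm J H P.1 Y d q = 0 := by
  have h1 := m.first hqN hq
  set w := wd arm J H P.1 Y d q with hw
  refine PTt.alpha_zero h hf' hNm hWm (α := w)
    (ν := ∑ r, (q * Y r * th J H P.1 H - H * Y r * th J H P.1 q) * E K arm r + w)
    (C := -∑ r, (G r * th J H P.1 H - Y r * th J H P.1 q) * E K arm r)
    (m.w_mem hqW) h1 ?_ (m.w_perp h hq)
  rw [Matrix.mul_neg, Matrix.mul_sum]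
  have e : ∑ r, (q * Y r * th J H P.1 H - H * Y r * th J H P.1 q) * E K arm r
      = ∑ r, H * ((G r * th J H P.1 H - Y r * th J H P.1 q) * E K arm r) := by
    refine Finset.sum_congr rfl fun r _ => ?_
    rw [hG r]
    simp only [Matrix.mul_sub, Matrix.sub_mul, Matrix.mul_assoc]
  rw [e]
  abel


end Crest.Agent.R172.SPerp72
end

-- ▼ part R172/SInst896
section

/-!
Row 172 (S0260), (t2), row L2-b (second copy): the U-level frames over the block packages, and the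
instance of `d_Y`, `P_t`, `Fr`, `K1` from `STop.Setup`.
-/

set_option autoImplicit false
set_option linter.unusedSectionVars false
set_option linter.unusedFintypeInType false
set_option linter.unusedDecidableInType false
set_option maxHeartbeats 400000

namespace Crest.Agent.R172.SInst896

open Module Matrix Crest.Agent.R172.FO Crest.Agent.R172.Qt Crest.Agent.R172.SpS
open Crest.Agent.R172.SBlk Crest.Agent.R172.UBlk Crest.Agent.R172.UFr
open Crest.Agent.R172.SEnd2 (PhS)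
open Crest.Agent.R172.SCM (BPkg)
open Crest.Agent.R172.SC (PB)
open Crest.Agent.R172.PL (CoreM)
open Crest.Agent.R172.Om (Kiso)
open Crest.Agent.R172.STop (Setup)

section ub

variable {ι : Type*} [Fintype ι] [DecidableEq ι] {δ : Type*} [Fintype δ] [DecidableEq δ]
variable {k K : Type*} [Field k] [Field K] [Algebra k K]
variable {arm : δ → Fin 3} {J : Matrix ι ι K} {B : Matrix δ δ K}
  {N W : Submodule K (Matrix ι δ K)} {g f : Matrix ι δ K}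
  {p : Matrix ι ι K × (Fin 3 → Matrix ι ι K)}

/-- the `K^δ`-frame `U` of a block over the `V`-level frame `Q` : `g U = Q π`. -/
structure UB (arm : δ → Fin 3) (J : Matrix ι ι K) (B : Matrix δ δ K) (g : Matrix ι δ K)
    (X : Matrix ι ι K) (Qs : Submodule K (δ → K)) {n m : ℕ} (Q : Matrix ι (Fin n) K)
    (A : Fin 3 → Matrix (Fin n) (Fin n) K) (U : Matrix δ (Fin m) K)
    (Om : Fin 3 → Matrix (Fin m) (Fin m) K) (π : Matrix (Fin n) (Fin m) K) : Prop where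
  col : Cq Qs U
  span : ∀ u ∈ Qs, ∃ x, u = U *ᵥ x
  mem : ∀ x, U *ᵥ x ∈ Qs
  inj : ∀ x, U *ᵥ x = 0 → x = 0
  om : ∀ s, B * E K arm s * (gᵀ * J * (X * g)) * U = U * Om s
  gU : g * U = Q * π
  onto : ∀ y, ∃ x, π *ᵥ x = y
  act : ∀ s, A s * π = π * Om s
  ker : ∀ x, π *ᵥ x = 0 → ∀ s, Om s *ᵥ x = 0
  perf : ∀ x, ∃ c : Fin 3 → (Fin m → K), ∑ s, Om s *ᵥ c s = x


end ub

section inst

variable {ι : Type} [Fintype ι] [DecidableEq ι] {δ : Type} [Fintype δ] [DecidableEq δ]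
variable {K : Type} [Field K] [Algebra ℂ K] [IsAlgClosed K]
variable {arm : δ → Fin 3} {J : Matrix ι ι K} {B : Matrix δ δ K}
  {N W : Submodule K (Matrix ι δ K)} {F f : Matrix ι δ K}
  {P : Matrix ι ι K × (Fin 3 → Matrix ι ι K)} {R : Matrix δ ι K}
  {D : End K (CoreM (PhS arm J B F R P.1))} {l : Fin 3 → ℕ}

/-- `f` is isotropic -/
theorem ff (S : Setup arm J B N W F f P R D l) : fᵀ * J * f = 0 :=
  (S.hCtx f S.hf).iso

theorem two_ne' : (2 : K) ≠ 0 := by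
  have : (2 : K) = algebraMap ℂ K 2 := by rw [map_ofNat]
  rw [this]
  exact (map_ne_zero (algebraMap ℂ K)).2 two_ne_zero

/-- **the family `P_t`** -/
theorem family (S : Setup arm J B N W F f P R D l) :
    ∃ (Y : Matrix δ δ K) (dY : Derivation ℂ K K), Yᵀ * B + B * Y = 0 ∧
      Realises arm N W (0 : Fin 3 → Matrix ι ι K) Y dY ∧
      Fᵀ * J * F.map dY = Fᵀ * J * (P.1 * F) ∧
      ∀ t : ℂ, ∃ Pt ∈ NN arm J N (F + (algebraMap ℂ K t) • f),
        Vert ℂ arm J N W (F + (algebraMap ℂ K t) • f) Pt ∧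
        (∀ f' ∈ N ⊓ W, (F + (algebraMap ℂ K t) • f)ᵀ * J * (Pt.1 * f') =
          (F + (algebraMap ℂ K t) • f)ᵀ * J * f'.map dY) ∧
        (F + (algebraMap ℂ K t) • f)ᵀ * J * (Pt.1 * F) =
          (F + (algebraMap ℂ K t) • f)ᵀ * J * (P.1 * F) ∧
        ∀ w : Matrix ι δ K, (F + (algebraMap ℂ K t) • f)ᵀ * J * w = 0 →
          (Pt.1 * (F + (algebraMap ℂ K t) • f))ᵀ * J * w =
            -((F + (algebraMap ℂ K t) • f)ᵀ * J * w.map dY) :=
  PTy.exists_family two_ne' S.hCtx S.hNm S.hWm S.hF S.hf S.hV1 S.hP S.hV2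

/-- **`Fr` and `K1`** at `H = F + t f`, `P_t` -/
theorem fr_k1 (S : Setup arm J B N W F f P R D l) {ν ν' : K} (hne : ν ≠ ν') {m1 m2 : ℕ}
    {U1 : Matrix δ (Fin m1) K} {U2 : Matrix δ (Fin m2) K}
    (hU1 : Cq (Qb (S.hCtx F S.hF).data S.hR P.1 D ν) U1)
    (hU2 : Cq (Qb (S.hCtx F S.hF).data S.hR P.1 D ν') U2) {a : K} {Pt : Matrix ι ι K}
    {dY : Derivation ℂ K K}
    (hY : ∀ f' ∈ N ⊓ W, (F + a • f)ᵀ * J * (Pt * f') = (F + a • f)ᵀ * J * f'.map dY)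
    (hPF : (F + a • f)ᵀ * J * (Pt * F) = (F + a • f)ᵀ * J * (P.1 * F))
    (hc1 : 1 + a * ν ≠ 0) (hc2 : 1 + a * ν' ≠ 0) :
    SUX.Fr J F (F + a • f) Pt (Fᵀ * J * (P.1 * F)) (1 + a * ν) (1 + a * ν') U1 U2 ∧
    SUX.K1 J F (F + a • f) Pt (Fᵀ * J * (P.1 * F)) (1 + a * ν) U1 U2
      ((ν - ν')⁻¹ • (f - ν' • F)) :=
  ⟨UFr.fr (S.hCtx F S.hF) S.hR S.hD (S.hNil F S.hF) S.hP S.hf.1 (ff S) hY hPF hne hc1 hc2 hU1 hU2,
    UFr.k1 (S.hCtx F S.hF) S.hR S.hD (S.hNil F S.hF) S.hP S.hf.1 (ff S) hY hPF hne hU1 hU2⟩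



end inst

end Crest.Agent.R172.SInst896
end

-- ▼ part R172/SUX6w946
section

/-!
Row 172 (S0260), S-side: `SUX6.first_mem` with a free submodule `Wc` for the corrections `w`
(values and rows on the third blocks); `first_sep`, `even_data` of `SUX6` apply verbatim to `Wc`.
-/

set_option autoImplicit false
set_option linter.unusedSectionVars false
set_option linter.unusedFintypeInType false
set_option linter.unusedDecidableInType false

namespace Crest.Agent.R172.SUX6w946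

open Matrix Module Crest.Agent.R172.FO Crest.Agent.R172.Qt Crest.Agent.R172.SpS
  Crest.Agent.R172.Om Crest.Agent.R172.SUX

variable {ι : Type*} [Fintype ι] [DecidableEq ι] {δ : Type*} [Fintype δ] [DecidableEq δ]
variable {k K : Type*} [Field k] [Field K] [Algebra k K]
variable {arm : δ → Fin 3} {J : Matrix ι ι K} {B : Matrix δ δ K}
  {N W Wc : Submodule K (Matrix ι δ K)} {H F f q : Matrix ι δ K}
variable {n1 n2 : Type*} [Fintype n1] [Fintype n2]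
variable {P : Matrix ι ι K × (Fin 3 → Matrix ι ι K)} {S0 : Matrix δ δ K} {c1 c2 : K}
  {U1 : Matrix δ n1 K} {U2 : Matrix δ n2 K} {Y : Fin 3 → Matrix δ δ K} {d dY : Derivation k K K}
  {Γ1 : Matrix n1 n1 K} {Γ2 : Matrix n2 n2 K} {β : Matrix n1 n2 K} {γ : Matrix n2 n1 K}
  {X : Fin 3 → Matrix n2 n1 K}




/-- **the first derivative of `k_1` at `ρ = c2 / c1` in `QQ5`, with `wd q` in a prescribed
submodule `Wc`** (e.g. `W` with the values and rows on the third blocks). -/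
theorem first_memC (h : Ctx k arm J B N W H) (hP : P ∈ NN arm J N H)
    (m : Mv k arm J N W H P.1 Y d) (hqm : q ∈ N ⊓ W) (hqp : Hᵀ * J * q = 0)
    (fr : Fr J F H P.1 S0 c1 c2 U1 U2) (hq : K1 J F H P.1 S0 c1 U1 U2 q)
    (hY : ∀ s, ∀ v ∈ W, v * Y s * Hᵀ = v * (U2 * X s * U1ᵀ + U1 * (X s)ᵀ * U2ᵀ) * Hᵀ)
    (hN2 : ∀ v ∈ W, v * (U2.map d + ZY arm J H P.1 Y * U2) = v * (U2 * Γ2 + c2 ^ 2 • (U1 * β)))
    (hN1 : ∀ v ∈ W, v * (U1.map d + ZY arm J H P.1 Y * U1) = v * (U1 * Γ1 + c1 ^ 2 • (U2 * γ)))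
    (hwF : Fᵀ * J * wd arm J H P.1 Y d q = 0) (hwf : fᵀ * J * wd arm J H P.1 Y d q = 0)
    (hrow : Hᵀ * J * (P.1 * wd arm J H P.1 Y d q)
      = Hᵀ * J * (wd arm J H P.1 Y d q).map dY)
    (hC : wd arm J H P.1 Y d q ∈ Wc) :
    I1 arm F S0 U1 U2 (X, β, γ) + (c2 / c1) • I2 arm F S0 U1 U2 (X, β, γ)
      ∈ QQ5 J N Wc F f dY S0 U1 U2 := by
  set w : Matrix ι δ K := wd arm J H P.1 Y d q with hw
  have hc1 := fr.hc1
  have hc2 := fr.hc2
  have e1 := first_blocks h hP m hqm hqp fr hq hY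
  have l1 := wd_U1 fr hq m.dH (hN1 H h.mem.2) (hN1 q hqm.2)
  have l2 := wd_U2 (P := P) (F := F) (S0 := S0) hq (hN2 q hqm.2)
  have v1 := row_wd1 h hP m hqm fr hq (hN1 H h.mem.2) (hN1 q hqm.2)
  have v2 := row_wd2 h hP m hqm fr hq (hN2 q hqm.2)
  rw [← hw] at e1 l1 l2 v1 v2
  rw [row_of_Y fr.H1 hrow] at v1
  rw [row_of_Y fr.H2 hrow] at v2
  refine ⟨(c1 * c2)⁻¹ • w, Wc.smul_mem _ hC, by rw [Matrix.mul_smul, hwF, smul_zero],
    by rw [Matrix.mul_smul, hwf, smul_zero], ?_, ⟨-((c1 * c2)⁻¹ * (d c1 / c1)), ?_⟩, ⟨0, ?_⟩,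
    ⟨-((c1 * c2)⁻¹ * (c1⁻¹ * d c1)), ?_⟩, ⟨0, ?_⟩⟩
  · have h2 := N.smul_mem (-(c1 * c2)⁻¹) e1
    have h3 : (I1 arm F S0 U1 U2 (X, β, γ) + (c2 / c1) • I2 arm F S0 U1 U2 (X, β, γ)).1 -
        (c1 * c2)⁻¹ • w = -(c1 * c2)⁻¹ • (∑ s, (c2 ^ 2 • (F * (U1 * (X s)ᵀ * U2ᵀ)) -
          (c1 * c2) • (F * (U2 * X s * U1ᵀ))) * S0 * E K arm s + w) := by
      have a1 : (I1 arm F S0 U1 U2 (X, β, γ) + (c2 / c1) • I2 arm F S0 U1 U2 (X, β, γ)).1
          = ∑ s, F * (U2 * X s * U1ᵀ * S0) * E K arm s +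
            (c2 / c1) • (-∑ s, F * (U1 * (X s)ᵀ * U2ᵀ * S0) * E K arm s) := rfl
      rw [a1, smul_add, smul_neg, Finset.smul_sum, Finset.smul_sum, neg_smul, sub_eq_add_neg,
        ← Finset.sum_neg_distrib, ← Finset.sum_add_distrib]
      congr 1
      refine Finset.sum_congr rfl fun s _ => ?_
      rw [Matrix.sub_mul, Matrix.sub_mul, smul_sub]
      simp only [Matrix.smul_mul, smul_smul, neg_mul]
      rw [inv_mul_cancel₀ (mul_ne_zero hc1 hc2), neg_smul, neg_smul, one_smul]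
      have a2 : (c1 * c2)⁻¹ * c2 ^ 2 = c2 / c1 := by field_simp
      rw [a2]
      simp only [Matrix.mul_assoc]
      abel
    rw [h3]
    exact h2
  · have a1 : (I1 arm F S0 U1 U2 (X, β, γ) + (c2 / c1) • I2 arm F S0 U1 U2 (X, β, γ)).2.1.1
        = F * (U2 * γ) + (c2 / c1) • (0 : Matrix ι n1 K) := rfl
    rw [a1, Matrix.smul_mul, l1, smul_sub, smul_smul, smul_smul,
      inv_mul_cancel₀ (mul_ne_zero hc1 hc2), one_smul, smul_zero, add_zero, neg_smul,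
      Matrix.mul_assoc, sub_eq_add_neg]
  · have a1 : (I1 arm F S0 U1 U2 (X, β, γ) + (c2 / c1) • I2 arm F S0 U1 U2 (X, β, γ)).2.1.2
        = 0 + (c2 / c1) • (-(F * (U1 * β))) := rfl
    have a2 : (c1 * c2)⁻¹ * c2 ^ 2 = c2 / c1 := by field_simp
    rw [a1, Matrix.smul_mul, l2, smul_neg, smul_smul, a2, zero_smul, add_zero, zero_add, smul_neg,
      Matrix.mul_assoc]
  · have a1 : (I1 arm F S0 U1 U2 (X, β, γ) + (c2 / c1) • I2 arm F S0 U1 U2 (X, β, γ)).2.2.1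
        = 0 + (c2 / c1) • (γᵀ * (U2ᵀ * S0)) := rfl
    have a2 : U1ᵀ * (Fᵀ * J * w.map dY) = c1⁻¹ • ((c1 * c2 ^ 2) • (γᵀ * (U2ᵀ * S0))
        - d c1 • (U1ᵀ * S0)) := by
      rw [← v1, smul_smul, inv_mul_cancel₀ hc1, one_smul]
    rw [a1, row_smul dY _ hwF, Matrix.mul_smul, a2, zero_add, smul_sub, smul_sub, smul_smul,
      smul_smul, smul_smul, smul_smul, neg_smul, sub_eq_add_neg]
    congr 2
    · field_simp
    · congr 1
      ring
  · have a1 : (I1 arm F S0 U1 U2 (X, β, γ) + (c2 / c1) • I2 arm F S0 U1 U2 (X, β, γ)).2.2.2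
        = -(βᵀ * (U1ᵀ * S0)) + (c2 / c1) • (0 : Matrix n2 δ K) := rfl
    have a2 : U2ᵀ * (Fᵀ * J * w.map dY) = c2⁻¹ • (-((c1 * c2 ^ 2) • (βᵀ * (U1ᵀ * S0)))) := by
      rw [← v2, smul_smul, inv_mul_cancel₀ hc2, one_smul]
    rw [a1, row_smul dY _ hwF, Matrix.mul_smul, a2, smul_zero, add_zero, zero_smul, add_zero,
      smul_neg, smul_neg, smul_smul, smul_smul]
    have a3 : (c1 * c2)⁻¹ * c2⁻¹ * (c1 * c2 ^ 2) = 1 := by field_simp
    rw [a3, one_smul]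

end Crest.Agent.R172.SUX6w946
end

-- ▼ part R172/SInf266
section

/-!
Row 172 (S0260), (t2), S-side, `L2-c`: `A^∞` of the `U`-level operators is the same at `F` and at
`H_t = F + t f` (with `P_t` from `PTy.exists_family`), for `t` outside a finite set.
-/

set_option autoImplicit false
set_option linter.unusedSectionVars false
set_option linter.unusedFintypeInType false
set_option linter.unusedDecidableInType false

namespace Crest.Agent.R172.SInf266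

open Module Matrix Crest.Agent.R172.FO Crest.Agent.R172.Qt Crest.Agent.R172.SpS
open Crest.Agent.R172.SBlk Crest.Agent.R172.UBlk Crest.Agent.R172.PTt Crest.Agent.R172.PTy
open Crest.Agent.R172.PL (Wk Ainf Ainf_le_Wk Wk_succ_mem)
open Crest.Agent.R172.SUX (th)
open Crest.Agent.R172.Om (Kiso)

variable {ι : Type*} [Fintype ι] [DecidableEq ι] {δ : Type*} [Fintype δ] [DecidableEq δ]
variable {k K : Type*} [Field k] [Field K] [Algebra k K]
variable {arm : δ → Fin 3} {J : Matrix ι ι K} {B : Matrix δ δ K}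
  {N W : Submodule K (Matrix ι δ K)} {g f : Matrix ι δ K}
  {p : Matrix ι ι K × (Fin 3 → Matrix ι ι K)} {S : Finset K}
  {q : K → Matrix ι ι K × (Fin 3 → Matrix ι ι K)}

/-- the derived symmetry -/
theorem symm_der (h : Ctx k arm J B N W g) (hf : f ∈ N ⊓ W) (d : Derivation k K K) (s : Fin 3) :
    f.map d * E K arm s * B * gᵀ + f * E K arm s * B * (g.map d)ᵀ =
      g.map d * E K arm s * B * fᵀ + g * E K arm s * B * (f.map d)ᵀ := by
  have h1 : f * E K arm s * B * gᵀ = g * E K arm s * B * fᵀ := h.data.symm_arm hf h.mem s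
  have e : ∀ a b : Matrix ι δ K, (a * E K arm s * B * bᵀ).map d =
      a.map d * E K arm s * B * bᵀ + a * E K arm s * B * (b.map d)ᵀ := by
    intro a b
    rw [map_mul_der, map_mul_der, map_mul_der, h.data.B_const, E_map_der, map_transpose_der,
      Matrix.mul_zero, Matrix.mul_zero, add_zero, add_zero]
  have h2 := congrArg (fun A => A.map d) h1
  simp only [e] at h2
  exact h2

/-- the range class of `c` -/
def Rc (arm : δ → Fin 3) (J : Matrix ι ι K) (B : Matrix δ δ K) (g : Matrix ι δ K)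
    (q : K → Matrix ι ι K × (Fin 3 → Matrix ι ι K)) (c : K) : Submodule K (δ → K) :=
  ⨆ s, LinearMap.range (om arm J B g (q c).1 g s)

/-- **`Aᵀ J (df) u = c Aᵀ J (dg) u`** on the class `c` -/
theorem der_rel (hq : Spec arm J N g f p.1 S q) (h : Ctx k arm J B N W g) (hf : f ∈ N ⊓ W)
    (d : Derivation k K K) {α : Type*} {A : Matrix ι α K}
    (hAg : Aᵀ * J * g = 0) (hAf : Aᵀ * J * f = 0) {c : K} {u : δ → K}
    (hu : u ∈ Rc arm J B g q c) :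
    (Aᵀ * J * f.map d) *ᵥ u = c • ((Aᵀ * J * g.map d) *ᵥ u) := by
  refine Submodule.iSup_induction (p := fun s => LinearMap.range (om arm J B g (q c).1 g s))
    (motive := fun u => (Aᵀ * J * f.map d) *ᵥ u = c • ((Aᵀ * J * g.map d) *ᵥ u)) hu ?_ ?_ ?_
  · rintro s _ ⟨v, rfl⟩
    have hfl : fᵀ * J * ((q c).1 * g) = gᵀ * J * ((q c).1 * f) := SUX.th_flip h (hq.mem c) hf
    rw [om_eq h.data]
    have h1 := congrArg (fun X => (Aᵀ * J * X * (J * ((q c).1 * g))) *ᵥ v) (symm_der h hf d s)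
    have e1 : Aᵀ * J * (f.map d * E K arm s * B * gᵀ + f * E K arm s * B * (g.map d)ᵀ) *
        (J * ((q c).1 * g)) = Aᵀ * J * f.map d * (E K arm s * B * (gᵀ * J * ((q c).1 * g))) := by
      have e0 : Aᵀ * J * (f * E K arm s * B * (g.map d)ᵀ) = 0 := by
        calc Aᵀ * J * (f * E K arm s * B * (g.map d)ᵀ)
            = (Aᵀ * J * f) * (E K arm s * B * (g.map d)ᵀ) := by simp only [Matrix.mul_assoc]
          _ = 0 := by rw [hAf, Matrix.zero_mul]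
      rw [Matrix.mul_add, e0, add_zero]
      simp only [Matrix.mul_assoc]
    have e2 : Aᵀ * J * (g.map d * E K arm s * B * fᵀ + g * E K arm s * B * (f.map d)ᵀ) *
        (J * ((q c).1 * g)) = Aᵀ * J * g.map d * (E K arm s * B * (fᵀ * J * ((q c).1 * g))) := by
      have e0 : Aᵀ * J * (g * E K arm s * B * (f.map d)ᵀ) = 0 := by
        calc Aᵀ * J * (g * E K arm s * B * (f.map d)ᵀ)
            = (Aᵀ * J * g) * (E K arm s * B * (f.map d)ᵀ) := by simp only [Matrix.mul_assoc]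
          _ = 0 := by rw [hAg, Matrix.zero_mul]
      rw [Matrix.mul_add, e0, add_zero]
      simp only [Matrix.mul_assoc]
    rw [e1, e2, hfl, hq.eig c] at h1
    rw [mulVec_mulVec, h1, mulVec_mulVec, ← smul_mulVec]
    congr 1
    simp only [Matrix.mul_smul, Matrix.mul_assoc]
  · rw [mulVec_zero, mulVec_zero, smul_zero]
  · intro x y hx hy
    rw [mulVec_add, mulVec_add, smul_add, hx, hy]

/-- `S u = φ_c u` on the class `c` -/
theorem form_class (hq : Spec arm J N g f p.1 S q) (h : Ctx k arm J B N W g) (hf : f ∈ N ⊓ W)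
    {c : K} {u : δ → K} (hu : u ∈ Rc arm J B g q c) :
    (gᵀ * J * (p.1 * g)) *ᵥ u = (gᵀ * J * ((q c).1 * g)) *ᵥ u := by
  have h0 := (rel_range hq h hf c hu).2
  rw [hq.sum, sum_mulVec]
  by_cases hc : c ∈ S
  · rw [Finset.sum_eq_single c]
    · intro c' _ hne; exact h0 c' hne
    · intro hc'; exact absurd hc hc'
  · rw [hq.out c hc, zero_mulVec]
    refine Finset.sum_eq_zero fun c' hc' => h0 c' ?_
    rintro rfl
    exact hc hc'

theorem om_class (hq : Spec arm J N g f p.1 S q) (h : Ctx k arm J B N W g) (hf : f ∈ N ⊓ W)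
    {c : K} {u : δ → K} (hu : u ∈ Rc arm J B g q c) (s : Fin 3) :
    om arm J B g p.1 g s u ∈ Rc arm J B g q c := by
  have h1 : om arm J B g p.1 g s u = om arm J B g (q c).1 g s u := by
    rw [om_eq h.data, om_eq h.data, ← mulVec_mulVec u (E K arm s * B) (gᵀ * J * (p.1 * g)),
      form_class hq h hf hu, mulVec_mulVec]
  rw [h1]
  exact Submodule.mem_iSup_of_mem s (LinearMap.mem_range_self _ u)

/-- the form at `F = g + a f` on the class `c` -/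
theorem form_F (hq : Spec arm J N g f p.1 S q) (h : Ctx k arm J B N W g) (hf : f ∈ N ⊓ W)
    (hff : fᵀ * J * f = 0) (hp : p ∈ NN arm J N g) {a : K} {dY : Derivation k K K}
    (ha : dY a = 0)
    (hY : ∀ f' ∈ N ⊓ W, gᵀ * J * (p.1 * f') = gᵀ * J * f'.map dY) {c : K} {u : δ → K}
    (hu : u ∈ Rc arm J B g q c) :
    ((g + a • f)ᵀ * J * (g + a • f).map dY) *ᵥ u =
      ((1 + a * c) ^ 2) • ((gᵀ * J * (p.1 * g)) *ᵥ u) := by
  have hgg : gᵀ * J * g = 0 := h.perp g h.mem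
  have hgf : gᵀ * J * f = 0 := h.perp f hf
  have hfg : fᵀ * J * g = 0 := by
    have := congrArg transpose hgf
    rw [transpose_mul, transpose_mul, transpose_transpose, h.data.J_symm, transpose_zero,
      ← Matrix.mul_assoc] at this
    exact this
  have hA : ∀ x : Matrix ι δ K, gᵀ * J * x = 0 → fᵀ * J * x = 0 → (g + a • f)ᵀ * J * x = 0 := by
    intro x h1 h2
    rw [transpose_add, transpose_smul, Matrix.add_mul, Matrix.add_mul, Matrix.smul_mul,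
      Matrix.smul_mul, h1, h2, smul_zero, add_zero]
  obtain ⟨F, hF⟩ : ∃ F, F = g + a • f := ⟨_, rfl⟩
  have hFg := hA g hgg hfg
  have hFf := hA f hgf hff
  have hFm : F ∈ N ⊓ W := by
    rw [hF]; exact Submodule.add_mem _ h.mem (Submodule.smul_mem _ _ hf)
  have hFu : F *ᵥ u = (1 + a * c) • (g *ᵥ u) := by
    rw [hF, add_mulVec, smul_mulVec, (rel_range hq h hf c hu).1, smul_smul, add_smul, one_smul]
  rw [← hF] at hFg hFf ⊢
  have hmap : F.map dY = g.map dY + a • f.map dY := by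
    rw [hF]
    ext i j
    simp only [Matrix.map_apply, Matrix.add_apply, Matrix.smul_apply, smul_eq_mul, map_add,
      Derivation.leibniz, ha, mul_zero, add_zero]
  have h1 := der_rel hq h hf dY hFg hFf hu
  have h2 : Fᵀ * J * g.map dY = gᵀ * J * (p.1 * F) := by
    have h3 := congrArg (fun A => A.map dY) hFg
    simp only [map_mul_der, h.data.J_const, Matrix.mul_zero, add_zero, map_transpose_der] at h3
    rw [SUX.map_zero_der'] at h3
    have h4 : (F.map dY)ᵀ * J * g = (gᵀ * J * F.map dY)ᵀ := by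
      rw [transpose_mul, transpose_mul, transpose_transpose, h.data.J_symm, Matrix.mul_assoc]
    rw [h4, ← hY F hFm] at h3
    have h5 : (gᵀ * J * (p.1 * F))ᵀ = -(gᵀ * J * (p.1 * F)) := SUX.th_skew h hp hFm
    rw [h5] at h3
    exact (neg_add_eq_zero.1 h3).symm
  have h6 : (gᵀ * J * (p.1 * F)) *ᵥ u = (1 + a * c) • ((gᵀ * J * (p.1 * g)) *ᵥ u) := by
    have e1 : ∀ X : Matrix ι δ K, (gᵀ * J * (p.1 * X)) *ᵥ u = (gᵀ * J * p.1) *ᵥ (X *ᵥ u) := by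
      intro X
      rw [mulVec_mulVec]
      simp only [Matrix.mul_assoc]
    rw [e1, e1, hFu, mulVec_smul]
  rw [hmap, Matrix.mul_add, Matrix.mul_smul, add_mulVec, smul_mulVec, h1, h2, h6, smul_smul,
    smul_smul, ← add_smul]
  congr 1
  ring

/-- **`A^∞(om_g) ≤ A^∞(om_F)`** -/
theorem ainf_le (hq : Spec arm J N g f p.1 S q) (h : Ctx k arm J B N W g) (hf : f ∈ N ⊓ W)
    (hff : fᵀ * J * f = 0) (hp : p ∈ NN arm J N g) {a : K} {dY : Derivation k K K}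
    (ha : dY a = 0)
    (hY : ∀ f' ∈ N ⊓ W, gᵀ * J * (p.1 * f') = gᵀ * J * f'.map dY) {F : Matrix ι δ K}
    (hF : F = g + a • f) {P0 : Matrix ι ι K}
    (hP0 : Fᵀ * J * (P0 * F) = Fᵀ * J * F.map dY)
    (hne : ∀ c, 1 + a * c = 0 → gᵀ * J * ((q c).1 * g) = 0) :
    Ainf (om arm J B g p.1 g) ≤ Ainf (om arm J B F P0 F) := by
  have hom : ∀ c, ∀ u ∈ Rc arm J B g q c, ∀ s,
      om arm J B F P0 F s u = ((1 + a * c) ^ 2) • om arm J B g p.1 g s u := by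
    intro c u hu s
    rw [om_eq h.data, om_eq h.data, ← mulVec_mulVec, ← mulVec_mulVec u (E K arm s * B), hP0]
    subst hF
    rw [form_F hq h hf hff hp ha hY hu, mulVec_smul]
  have key : ∀ m, Wk (om arm J B g p.1 g) (m + 1) ≤
      ⨆ c, (Wk (om arm J B F P0 F) m ⊓ Rc arm J B g q c) := by
    intro m
    induction m with
    | zero =>
      refine iSup_le fun s => ?_
      rintro _ ⟨v, -, rfl⟩
      have h1 : om arm J B g p.1 g s v = ∑ c ∈ S, om arm J B g (q c).1 g s v := by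
        simp only [om_eq h.data]
        rw [hq.sum, Matrix.mul_sum, sum_mulVec]
      rw [h1]
      refine Submodule.sum_mem _ fun c _ => ?_
      refine Submodule.mem_iSup_of_mem c ⟨?_, ?_⟩
      · exact Submodule.mem_top
      · exact Submodule.mem_iSup_of_mem s (LinearMap.mem_range_self _ v)
    | succ m ih =>
      refine iSup_le fun s => ?_
      rintro _ ⟨v, hv, rfl⟩
      refine Submodule.iSup_induction
        (p := fun c => (Wk (om arm J B F P0 F) m ⊓ Rc arm J B g q c))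
        (motive := fun v => om arm J B g p.1 g s v ∈
          ⨆ c, (Wk (om arm J B F P0 F) (m + 1) ⊓ Rc arm J B g q c)) (ih hv) ?_ ?_ ?_
      · rintro c u ⟨hu1, hu2⟩
        by_cases hc : 1 + a * c = 0
        · have h0 : Rc arm J B g q c = ⊥ := by
            rw [eq_bot_iff]
            refine iSup_le fun s => ?_
            rintro _ ⟨v, rfl⟩
            rw [Submodule.mem_bot, om_eq h.data, hne c hc, Matrix.mul_zero, zero_mulVec]
          rw [h0] at hu2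
          rw [(Submodule.mem_bot K).1 hu2, map_zero]
          exact Submodule.zero_mem _
        · refine Submodule.mem_iSup_of_mem c ⟨?_, om_class hq h hf hu2 s⟩
          have h1 : om arm J B g p.1 g s u =
              ((1 + a * c) ^ 2)⁻¹ • om arm J B F P0 F s u := by
            rw [hom c u hu2 s, smul_smul, inv_mul_cancel₀ (pow_ne_zero 2 hc), one_smul]
          rw [h1]
          exact Submodule.smul_mem _ _ (Wk_succ_mem hu1 s)
      · rw [map_zero]; exact Submodule.zero_mem _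
      · intro x y hx hy
        rw [map_add]; exact Submodule.add_mem _ hx hy
  refine le_iInf fun m => ?_
  refine (Ainf_le_Wk _ (m + 1)).trans ((key m).trans (iSup_le fun c => inf_le_left))

/-- **no block at infinity** -/
theorem no_inf (h2 : (2 : K) ≠ 0) {F : Matrix ι δ K} (hg : Ctx k arm J B N W g)
    (hFc : Ctx k arm J B N W F)
    (hNm : ∀ F, (∀ F' ∈ N, pair J B F' F = 0) → F ∈ N)
    (hWm : ∀ F, (∀ F' ∈ W, pair J B F' F = 0) → F ∈ W)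
    (hf : f ∈ Kiso J N W) {d1 : Derivation k K K} (hdF : F.map d1 = f) (hdf : f.map d1 = 0)
    (hd1 : Realises arm N W (0 : Fin 3 → Matrix ι ι K) (0 : Matrix δ δ K) d1)
    {a : K} (ha : ∀ d : Derivation k K K, d a = 0) (hF : F = g + a • f)
    (hbad : ∀ p ∈ NN arm J N F, Fᵀ * J * (p.1 * F) - a • (Fᵀ * J * (p.1 * f)) = 0 →
      Fᵀ * J * (p.1 * F) = 0)
    {q : Matrix ι ι K × (Fin 3 → Matrix ι ι K)} (hq : q ∈ NN arm J N g) {c : K}
    (hc : gᵀ * J * (q.1 * f) = c • (gᵀ * J * (q.1 * g))) (hac : 1 + a * c = 0) :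
    gᵀ * J * (q.1 * g) = 0 := by
  obtain ⟨Y', d', -, hr, hform⟩ := exists_Y hg h2 hq
  obtain ⟨q', hq', -, hq'f⟩ := exists_NN' hg hr
  obtain ⟨p', hp', -, hp'f⟩ := exists_NN' hFc hr
  have hgm := hg.mem
  have hFm := hFc.mem
  have hd0 : gᵀ * J * ((q - q').1 * g) = 0 := by
    have e1 : (q - q').1 = q.1 - q'.1 := rfl
    rw [e1, Matrix.sub_mul, Matrix.mul_sub, hq'f g hgm, hform, sub_self]
  have hqf : ∀ f' ∈ N ⊓ W, gᵀ * J * (q.1 * f') = gᵀ * J * f'.map d' := by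
    intro f' hf'
    have h1 := hg.tf_zero hf' ((NN arm J N g).sub_mem hq hq') hd0
    have e1 : (q - q').1 = q.1 - q'.1 := rfl
    rw [e1, Matrix.sub_mul, Matrix.mul_sub, hq'f f' hf', sub_eq_zero] at h1
    exact h1
  have hqF : gᵀ * J * F.map d' = 0 := by
    rw [← hqf F hFm, hF, Matrix.mul_add, Matrix.mul_add, Matrix.mul_smul, Matrix.mul_smul, hc,
      smul_smul]
    have e1 : gᵀ * J * (q.1 * g) + (a * c) • (gᵀ * J * (q.1 * g)) =
        (1 + a * c) • (gᵀ * J * (q.1 * g)) := by rw [add_smul, one_smul]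
    rw [e1, hac, zero_smul]
  have hff : fᵀ * J * f = 0 := hf.2 f hf.1
  have hFg : Fᵀ * J * g = 0 := hFc.perp g hgm
  have hFf : Fᵀ * J * f = 0 := hFc.perp f hf.1
  have hFF : Fᵀ * J * F = 0 := hFc.perp F hFm
  have hfF : fᵀ * J * F = 0 := hf.2 F hFm
  have hgF : Fᵀ * J * g.map d' = 0 := by
    have h3 := congrArg (fun A => A.map d') hFg
    simp only [map_mul_der, hg.data.J_const, Matrix.mul_zero, add_zero, map_transpose_der] at h3
    rw [SUX.map_zero_der'] at h3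
    have h4 : (F.map d')ᵀ * J * g = (gᵀ * J * F.map d')ᵀ := by
      rw [transpose_mul, transpose_mul, transpose_transpose, hg.data.J_symm, Matrix.mul_assoc]
    rw [h4, hqF, transpose_zero, zero_add] at h3
    exact h3
  have hgeq : g = F - a • f := by rw [hF]; abel
  have hpF : Fᵀ * J * (p'.1 * F) = 0 := by
    refine hbad p' hp' ?_
    have h3 := hp'f g hgm
    rw [hgF] at h3
    have h4 : Fᵀ * J * (p'.1 * g) =
        Fᵀ * J * (p'.1 * F) - a • (Fᵀ * J * (p'.1 * f)) := by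
      rw [hgeq, Matrix.mul_sub, Matrix.mul_sub, Matrix.mul_smul, Matrix.mul_smul]
    rw [← h4, h3]
  have hpf0 : Fᵀ * J * (p'.1 * f) = 0 := hFc.tf_zero hf.1 hp' hpF
  have hFdF : Fᵀ * J * F.map d' = 0 := by rw [← hp'f F hFm, hpF]
  have hFdf : Fᵀ * J * f.map d' = 0 := by rw [← hp'f f hf.1, hpf0]
  -- the triples
  have hα : F.map d' - F * Y'ᵀ ∈ W := hr.onW F hFc.memW
  have hβ : f.map d' - f * Y'ᵀ ∈ W := hr.onW f hf.1.2
  have hν : F.map d' ∈ N := by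
    have := hr.onN F hFc.memN
    rwa [act_zero, sub_zero] at this
  have hν' : f.map d' ∈ N := by
    have := hr.onN f hf.1.1
    rwa [act_zero, sub_zero] at this
  have hfdf : fᵀ * J * f.map d' = 0 := by
    have h3 := fb_zero hFc hNm hWm hf hdF hdf hd1 hα hν
      (show F.map d' - F * Y'ᵀ = F.map d' + F * (-Y'ᵀ) by rw [Matrix.mul_neg]; abel) hβ hν'
      (show f.map d' - f * Y'ᵀ = f.map d' + f * (-Y'ᵀ) by rw [Matrix.mul_neg]; abel)
      (by rw [Matrix.mul_sub, hFdF, ← Matrix.mul_assoc _ F, hFF, Matrix.zero_mul, sub_zero])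
    rw [Matrix.mul_sub, ← Matrix.mul_assoc _ f, hff, Matrix.zero_mul, sub_zero] at h3
    exact h3
  have hmap : g.map d' = F.map d' - a • f.map d' := by
    rw [hgeq]
    ext i j
    simp only [Matrix.map_apply, Matrix.sub_apply, Matrix.smul_apply, smul_eq_mul, map_sub,
      Derivation.leibniz, ha d', mul_zero, add_zero]
  have hfin : gᵀ * J * f.map d' = 0 := by
    rw [hgeq, transpose_sub, transpose_smul, Matrix.sub_mul, Matrix.sub_mul, Matrix.smul_mul,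
      Matrix.smul_mul, hFdf, hfdf, smul_zero, sub_zero]
  rw [← hform, hmap, Matrix.mul_sub, hqF, Matrix.mul_smul, hfin, smul_zero, sub_zero]

/-- the bad set is finite -/
theorem bad_finite (h : Ctx k arm J B N W g) {R : Matrix δ ι K} (hR : g * R * g = g)
    (hf : f ∈ N ⊓ W) :
    {t : k | ∃ p ∈ NN arm J N g, gᵀ * J * (p.1 * g) ≠ 0 ∧
      gᵀ * J * (p.1 * g) + (algebraMap k K t) • (gᵀ * J * (p.1 * f)) = 0}.Finite := by
  obtain ⟨Tf, -, hTf⟩ := exists_step h hR hf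
  have hfin : {μ : K | Tf.HasEigenvalue μ}.Finite := Module.End.finite_hasEigenvalue Tf
  refine Set.Finite.of_finite_image (f := fun t : k => -(algebraMap k K t)⁻¹)
    (hfin.subset ?_) ?_
  · rintro _ ⟨t, ⟨p, hp, h0, h1⟩, rfl⟩
    have ht : algebraMap k K t ≠ 0 := by
      intro ht
      rw [ht, zero_smul, add_zero] at h1
      exact h0 h1
    let φ : Xi J N arm g := ⟨gᵀ * J * (p.1 * g), ⟨⟨p, hp⟩, rfl⟩⟩
    have h2 := hTf φ ⟨p, hp⟩ rfl
    refine Module.End.hasEigenvalue_of_hasEigenvector (x := φ) ⟨?_, ?_⟩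
    · rw [Module.End.mem_eigenspace_iff]
      apply Subtype.ext
      rw [h2, Submodule.coe_smul]
      change gᵀ * J * (p.1 * f) = (-(algebraMap k K t)⁻¹) • (gᵀ * J * (p.1 * g))
      have h3 : gᵀ * J * (p.1 * g) = -((algebraMap k K t) • (gᵀ * J * (p.1 * f))) :=
        eq_neg_of_add_eq_zero_left h1
      rw [h3, smul_neg, neg_smul, neg_neg, smul_smul, inv_mul_cancel₀ ht, one_smul]
    · intro hφ
      exact h0 (congrArg Subtype.val hφ)
  · intro s _ t _ hst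
    have h3 : (algebraMap k K s)⁻¹ = (algebraMap k K t)⁻¹ := neg_injective hst
    exact (algebraMap k K).injective (inv_injective h3)

/-- generalized inverse -/
theorem exists_ginv (g : Matrix ι δ K) : ∃ R : Matrix δ ι K, g * R * g = g := by
  obtain ⟨s, hs⟩ := (Matrix.toLin' g).rangeRestrict.exists_rightInverse_of_surjective
    (LinearMap.range_rangeRestrict _)
  obtain ⟨q, hq⟩ := (LinearMap.range (Matrix.toLin' g)).exists_isCompl
  let P : (ι → K) →ₗ[K] LinearMap.range (Matrix.toLin' g) :=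
    (LinearMap.range (Matrix.toLin' g)).projectionOnto q hq
  refine ⟨LinearMap.toMatrix' (s ∘ₗ P), ?_⟩
  apply Matrix.toLin'.injective
  refine LinearMap.ext fun u => ?_
  rw [Matrix.toLin'_mul, Matrix.toLin'_mul, Matrix.toLin'_toMatrix']
  simp only [LinearMap.comp_apply]
  have h1 : P (Matrix.toLin' g u) = ⟨Matrix.toLin' g u, LinearMap.mem_range_self _ _⟩ :=
    Submodule.projectionOnto_apply_left hq ⟨Matrix.toLin' g u, LinearMap.mem_range_self _ _⟩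
  rw [h1]
  have h2 := congrArg (fun f => ((f ⟨Matrix.toLin' g u, LinearMap.mem_range_self _ _⟩ :
    LinearMap.range (Matrix.toLin' g)) : ι → K)) hs
  simpa using h2

/-- **`A^∞` is the same at `F` and at `H_t = F + t f`**, `t` outside a finite set -/
theorem ainf_eq [IsAlgClosed K] (h2 : (2 : K) ≠ 0)
    (hCtx : ∀ g ∈ Kiso J N W, Ctx k arm J B N W g)
    (hNm : ∀ F, (∀ F' ∈ N, pair J B F' F = 0) → F ∈ N)
    (hWm : ∀ F, (∀ F' ∈ W, pair J B F' F = 0) → F ∈ W)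
    (hNil : ∀ g ∈ Kiso J N W, NilW arm J B N g)
    {F : Matrix ι δ K} (hF : F ∈ Kiso J N W) (hf : f ∈ Kiso J N W)
    (hV1 : ∀ w ∈ Kiso J N W, ∃ d : Derivation k K K, F.map d = w ∧ f.map d = 0 ∧
      Realises arm N W (0 : Fin 3 → Matrix ι ι K) (0 : Matrix δ δ K) d)
    {P : Matrix ι ι K × (Fin 3 → Matrix ι ι K)} (hP : P ∈ NN arm J N F)
    {Y : Matrix δ δ K} {dY : Derivation k K K}
    (hr : Realises arm N W (0 : Fin 3 → Matrix ι ι K) Y dY)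
    (hform : Fᵀ * J * F.map dY = Fᵀ * J * (P.1 * F)) :
    ∃ S : Set k, S.Finite ∧ ∀ t ∉ S,
      ∀ Pt ∈ NN arm J N (F + (algebraMap k K t) • f),
        (∀ f' ∈ N ⊓ W, (F + (algebraMap k K t) • f)ᵀ * J * (Pt.1 * f') =
          (F + (algebraMap k K t) • f)ᵀ * J * f'.map dY) →
        Ainf (om arm J B (F + (algebraMap k K t) • f) Pt.1 (F + (algebraMap k K t) • f)) =
          Ainf (om arm J B F P.1 F) := by
  have hCF := hCtx F hF
  obtain ⟨R, hR⟩ := exists_ginv F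
  refine ⟨_, bad_finite hCF hR hf.1, fun t ht Pt hPt hYt => ?_⟩
  have hgood : ∀ p ∈ NN arm J N F,
      Fᵀ * J * (p.1 * F) + (algebraMap k K t) • (Fᵀ * J * (p.1 * f)) = 0 →
      Fᵀ * J * (p.1 * F) = 0 := by
    intro p hp h0
    by_contra hne
    exact ht ⟨p, hp, hne, h0⟩
  have hHK : F + (algebraMap k K t) • f ∈ Kiso J N W :=
    (Kiso J N W).add_mem hF ((Kiso J N W).smul_mem _ hf)
  have hCH := hCtx _ hHK
  have hff : fᵀ * J * f = 0 := hf.2 f hf.1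
  have hconst : ∀ d : Derivation k K K, d (algebraMap k K t) = 0 := fun d => by
    rw [Derivation.map_algebraMap]
  -- the forms of `P` at `F`
  obtain ⟨p', hp', -, hp'f⟩ := exists_NN' hCF hr
  have hYF : ∀ f' ∈ N ⊓ W, Fᵀ * J * (P.1 * f') = Fᵀ * J * f'.map dY := by
    have e1 : (P - p').1 = P.1 - p'.1 := rfl
    have hd0 : Fᵀ * J * ((P - p').1 * F) = 0 := by
      rw [e1, Matrix.sub_mul, Matrix.mul_sub, hp'f F hCF.mem, ← hform, sub_self]
    intro f' hf'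
    have h1 := hCF.tf_zero hf' ((NN arm J N F).sub_mem hP hp') hd0
    rw [e1, Matrix.sub_mul, Matrix.mul_sub, hp'f f' hf', sub_eq_zero] at h1
    exact h1
  generalize hτ : algebraMap k K t = τ at *
  obtain ⟨H, hH⟩ : ∃ H, H = F + τ • f := ⟨_, rfl⟩
  rw [← hH] at hHK hCH hPt hYt ⊢
  have hFH : F = H + (-τ) • f := by rw [hH, neg_smul]; abel
  obtain ⟨RH, hRH⟩ := exists_ginv H
  obtain ⟨S1, q1, hq1⟩ := exists_spec hCH hRH (hNil H hHK) hPt hf.1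
  obtain ⟨S0, q0, hq0⟩ := exists_spec hCF hR (hNil F hF) hP hf.1
  obtain ⟨d1, hdF, hdf, hd1⟩ := hV1 f hf
  refine le_antisymm ?_ ?_
  · refine ainf_le hq1 hCH hf.1 hff hPt (a := -τ) (dY := dY) (by rw [map_neg, hconst, neg_zero])
      hYt hFH hform.symm fun c hc => ?_
    refine no_inf h2 hCH hCF hNm hWm hf hdF hdf hd1
      (fun d => by rw [map_neg, hconst, neg_zero]) hFH (fun p hp h0 => hgood p hp ?_)
      (hq1.mem c) (hq1.eig c) hc
    rwa [neg_smul, sub_neg_eq_add] at h0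
  · refine ainf_le hq0 hCF hf.1 hff hP (a := τ) (dY := dY) (hconst dY) hYF hH
      (hYt H hCH.mem) fun c hc => ?_
    refine hgood _ (hq0.mem c) ?_
    rw [hq0.eig c, smul_smul]
    have e1 : Fᵀ * J * ((q0 c).1 * F) + (τ * c) • (Fᵀ * J * ((q0 c).1 * F)) =
        (1 + τ * c) • (Fᵀ * J * ((q0 c).1 * F)) := by rw [add_smul, one_smul]
    rw [e1, hc, zero_smul]

end Crest.Agent.R172.SInf266
end

-- ▼ part R172/SLev2a
section

/-!
Row 172 (S0260), S-side (t2), second level: the filtered tensors of a pair of blocks in coordinates,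
their stability under a connection, and the `21`/`12`-parts of the second derivative.
-/

set_option autoImplicit false
set_option linter.unusedSectionVars false
set_option linter.unusedFintypeInType false
set_option linter.unusedDecidableInType false

namespace Crest.Agent.R172.SLev2a

open Matrix Module Crest.Agent.R172.FO Crest.Agent.R172.SEnd

variable {K : Type*} [Field K]
variable {n1 n2 : Type*} [Fintype n1] [DecidableEq n1] [Fintype n2] [DecidableEq n2]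



section fil

variable {A1 G1 : Matrix n1 n1 K} {A2 G2 : Matrix n2 n2 K} {l : ℕ}









end fil

section nab

variable {k : Type*} [Field k] [Algebra k K] {d : Derivation k K K}

/-- the derivative of a vector -/
def dv (d : Derivation k K K) {n : Type*} (x : n → K) : n → K := fun i => d (x i)




variable {n : Type*} [Fintype n] [DecidableEq n] {A G Γ : Matrix n n K} {a g : K}




end nab

section stable

variable {k : Type*} [Field k] [Algebra k K] {d : Derivation k K K}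
variable {A1 G1 Γ1 : Matrix n1 n1 K} {A2 G2 Γ2 : Matrix n2 n2 K} {a1 a2 g1 g2 : K} {l : ℕ}











end stable

section parts

variable {k : Type*} [Field k] [Algebra k K] {d : Derivation k K K}
variable {A1 G1 Γ1 : Matrix n1 n1 K} {A2 G2 Γ2 : Matrix n2 n2 K} {a1 a2 g1 g2 : K} {l : ℕ}
variable {ι : Type*} [Fintype ι] [DecidableEq ι] {δ : Type*} [Fintype δ] [DecidableEq δ]









end parts

end Crest.Agent.R172.SLev2a
end

-- ▼ part R172/SL2g560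
section

/-!
Row 172 (S0260), (t2), second level, row L2-g: the 21- and 12-parts of the second derivative.
Class `FR` of the tensors filtered modulo the radicals; it is stable under the connection.
-/

set_option autoImplicit false
set_option linter.unusedSectionVars false
set_option linter.unusedFintypeInType false
set_option linter.unusedDecidableInType false
set_option linter.unusedVariables false
set_option maxHeartbeats 1600000

namespace Crest.Agent.R172.SL2g560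

open Matrix Module Crest.Agent.R172.FO Crest.Agent.R172.Qt Crest.Agent.R172.SpS
  Crest.Agent.R172.Om Crest.Agent.R172.SUX

section abs

variable {k K : Type*} [Field k] [Field K] [Algebra k K]
variable {n n1 n2 : Type*} [Fintype n] [DecidableEq n] [Fintype n1] [DecidableEq n1] [Fintype n2]
  [DecidableEq n2]

/-- the covariant derivative of a vector -/
def nv (d : Derivation k K K) (Γ : Matrix n n K) (v : n → K) : n → K :=
  (fun i => d (v i)) + Γ *ᵥ v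

omit [DecidableEq n] in
theorem der_mulVec (d : Derivation k K K) (A : Matrix n n K) (v : n → K) :
    (fun i => d ((A *ᵥ v) i)) = (A.map d) *ᵥ v + A *ᵥ (fun i => d (v i)) := by
  funext i
  simp only [Matrix.mulVec, dotProduct, map_sum, Derivation.leibniz, smul_eq_mul, Pi.add_apply,
    Matrix.map_apply]
  rw [← Finset.sum_add_distrib]
  exact Finset.sum_congr rfl fun j _ => by ring

omit [DecidableEq n] in
theorem nv_mul (d : Derivation k K K) (Γ A : Matrix n n K) (v : n → K) :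
    nv d Γ (A *ᵥ v) = (A.map d + Γ * A - A * Γ) *ᵥ v + A *ᵥ nv d Γ v := by
  unfold nv
  rw [der_mulVec, sub_mulVec, add_mulVec, mulVec_add, ← mulVec_mulVec, ← mulVec_mulVec]
  abel


theorem nv_pow {d : Derivation k K K} {Γ A : Matrix n n K} {a : K} {R : Submodule K (n → K)}
    (hA : ∀ v, (A.map d + Γ * A - A * Γ) *ᵥ v - a • (A *ᵥ v) ∈ R) (hR : ∀ r ∈ R, A *ᵥ r ∈ R)
    (i : ℕ) (x : n → K) : ∃ x', nv d Γ ((A ^ i) *ᵥ x) - (A ^ i) *ᵥ x' ∈ R := by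
  induction i with
  | zero => exact ⟨nv d Γ x, by rw [pow_zero, one_mulVec, one_mulVec, sub_self]; exact R.zero_mem⟩
  | succ i ih =>
    obtain ⟨x', hx'⟩ := ih
    refine ⟨a • x + x', ?_⟩
    have e : nv d Γ ((A ^ (i + 1)) *ᵥ x) - (A ^ (i + 1)) *ᵥ (a • x + x') =
        ((A.map d + Γ * A - A * Γ) *ᵥ ((A ^ i) *ᵥ x) - a • (A *ᵥ ((A ^ i) *ᵥ x))) +
          A *ᵥ (nv d Γ ((A ^ i) *ᵥ x) - (A ^ i) *ᵥ x') := by
      rw [pow_succ', ← mulVec_mulVec, nv_mul, ← mulVec_mulVec, mulVec_add (A ^ i), mulVec_smul,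
        mulVec_add A, mulVec_smul, mulVec_sub A]
      abel
    rw [e]
    exact R.add_mem (hA _) (hR _ hx')

/-- tensors filtered modulo the radicals -/
def FR (A2 : Matrix n2 n2 K) (A1 : Matrix n1 n1 K) (R2 : Submodule K (n2 → K))
    (R1 : Submodule K (n1 → K)) (l : ℕ) : Submodule K (Matrix n2 n1 K) :=
  Submodule.span K {M | (∃ i j x y, i + j + 1 = l ∧
      M = vecMulVec ((A2 ^ i) *ᵥ x) ((A1 ^ j) *ᵥ y)) ∨
    (∃ r ∈ R2, ∃ y, M = vecMulVec r y) ∨ ∃ x, ∃ r ∈ R1, M = vecMulVec x r}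

/-- the covariant derivative of a tensor -/
def nm (d : Derivation k K K) (Γ2 : Matrix n2 n2 K) (Γ1 : Matrix n1 n1 K) (X : Matrix n2 n1 K) :
    Matrix n2 n1 K := Γ2 * X + X.map d + X * Γ1ᵀ

omit [DecidableEq n1] [DecidableEq n2] in
theorem nm_vec (d : Derivation k K K) (Γ2 : Matrix n2 n2 K) (Γ1 : Matrix n1 n1 K) (x : n2 → K)
    (y : n1 → K) : nm d Γ2 Γ1 (vecMulVec x y) =
      vecMulVec (nv d Γ2 x) y + vecMulVec x (nv d Γ1 y) := by
  unfold nm nv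
  rw [Matrix.mul_vecMulVec, Matrix.vecMulVec_mul, vecMul_transpose]
  ext i j
  simp only [Matrix.add_apply, vecMulVec_apply, Matrix.map_apply, Derivation.leibniz, smul_eq_mul,
    Pi.add_apply]
  ring

omit [DecidableEq n1] [DecidableEq n2] in
theorem nm_add (d : Derivation k K K) (Γ2 : Matrix n2 n2 K) (Γ1 : Matrix n1 n1 K)
    (X Y : Matrix n2 n1 K) : nm d Γ2 Γ1 (X + Y) = nm d Γ2 Γ1 X + nm d Γ2 Γ1 Y := by
  unfold nm
  rw [map_add_der, Matrix.mul_add, Matrix.add_mul]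
  abel

omit [DecidableEq n1] [DecidableEq n2] in
theorem nm_smul (d : Derivation k K K) (Γ2 : Matrix n2 n2 K) (Γ1 : Matrix n1 n1 K) (c : K)
    (X : Matrix n2 n1 K) : nm d Γ2 Γ1 (c • X) = c • nm d Γ2 Γ1 X + (d c) • X := by
  unfold nm
  rw [SUX.map_smul_der, Matrix.mul_smul, Matrix.smul_mul, smul_add, smul_add]
  abel

/-- **`FR` is stable under the connection** -/
theorem nm_mem {d : Derivation k K K} {A2 : Matrix n2 n2 K} {A1 : Matrix n1 n1 K}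
    {R2 : Submodule K (n2 → K)} {R1 : Submodule K (n1 → K)} {l : ℕ} {Γ2 : Matrix n2 n2 K}
    {Γ1 : Matrix n1 n1 K} {a2 a1 : K}
    (hA2 : ∀ v, (A2.map d + Γ2 * A2 - A2 * Γ2) *ᵥ v - a2 • (A2 *ᵥ v) ∈ R2)
    (hA1 : ∀ v, (A1.map d + Γ1 * A1 - A1 * Γ1) *ᵥ v - a1 • (A1 *ᵥ v) ∈ R1)
    (st2 : ∀ r ∈ R2, A2 *ᵥ r ∈ R2) (st1 : ∀ r ∈ R1, A1 *ᵥ r ∈ R1)
    (hR2 : ∀ r ∈ R2, nv d Γ2 r ∈ R2) (hR1 : ∀ r ∈ R1, nv d Γ1 r ∈ R1)
    {X : Matrix n2 n1 K} (hX : X ∈ FR A2 A1 R2 R1 l) : nm d Γ2 Γ1 X ∈ FR A2 A1 R2 R1 l := by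
  have g1 : ∀ i j x y, i + j + 1 = l →
      vecMulVec ((A2 ^ i) *ᵥ x) ((A1 ^ j) *ᵥ y) ∈ FR A2 A1 R2 R1 l := fun i j x y hij =>
    Submodule.subset_span (Or.inl ⟨i, j, x, y, hij, rfl⟩)
  have g2 : ∀ r ∈ R2, ∀ y, vecMulVec r y ∈ FR A2 A1 R2 R1 l := fun r hr y =>
    Submodule.subset_span (Or.inr (Or.inl ⟨r, hr, y, rfl⟩))
  have g3 : ∀ x, ∀ r ∈ R1, vecMulVec x r ∈ FR A2 A1 R2 R1 l := fun x r hr =>
    Submodule.subset_span (Or.inr (Or.inr ⟨x, r, hr, rfl⟩))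
  induction hX using Submodule.span_induction with
  | mem M hM =>
    rcases hM with ⟨i, j, x, y, hij, rfl⟩ | ⟨r, hr, y, rfl⟩ | ⟨x, r, hr, rfl⟩
    · rw [nm_vec]
      obtain ⟨x', hx'⟩ := nv_pow (Γ := Γ2) hA2 st2 i x
      obtain ⟨y', hy'⟩ := nv_pow (Γ := Γ1) hA1 st1 j y
      have e1 : vecMulVec (nv d Γ2 ((A2 ^ i) *ᵥ x)) ((A1 ^ j) *ᵥ y) =
          vecMulVec ((A2 ^ i) *ᵥ x') ((A1 ^ j) *ᵥ y) +
            vecMulVec (nv d Γ2 ((A2 ^ i) *ᵥ x) - (A2 ^ i) *ᵥ x') ((A1 ^ j) *ᵥ y) := by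
        rw [← add_vecMulVec, add_sub_cancel]
      have e2 : vecMulVec ((A2 ^ i) *ᵥ x) (nv d Γ1 ((A1 ^ j) *ᵥ y)) =
          vecMulVec ((A2 ^ i) *ᵥ x) ((A1 ^ j) *ᵥ y') +
            vecMulVec ((A2 ^ i) *ᵥ x) (nv d Γ1 ((A1 ^ j) *ᵥ y) - (A1 ^ j) *ᵥ y') := by
        rw [← vecMulVec_add, add_sub_cancel]
      rw [e1, e2]
      exact Submodule.add_mem _ (Submodule.add_mem _ (g1 i j x' y hij) (g2 _ hx' _))
        (Submodule.add_mem _ (g1 i j x y' hij) (g3 _ _ hy'))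
    · rw [nm_vec]
      exact Submodule.add_mem _ (g2 _ (hR2 r hr) _) (g2 _ hr _)
    · rw [nm_vec]
      exact Submodule.add_mem _ (g3 _ _ hr) (g3 _ _ (hR1 r hr))
  | zero =>
    have : nm d Γ2 Γ1 (0 : Matrix n2 n1 K) = 0 := by
      unfold nm
      have e : (0 : Matrix n2 n1 K).map d = 0 := by ext i j; simp
      rw [e, Matrix.mul_zero, Matrix.zero_mul, add_zero, add_zero]
    rw [this]
    exact Submodule.zero_mem _
  | add X Y _ _ h1 h2 => rw [nm_add]; exact Submodule.add_mem _ h1 h2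
  | smul c X hX h1 =>
    rw [nm_smul]
    exact Submodule.add_mem _ (Submodule.smul_mem _ _ h1) (Submodule.smul_mem _ _ hX)

end abs

section frame

variable {ι : Type*} [Fintype ι] [DecidableEq ι] {δ : Type*} [Fintype δ] [DecidableEq δ]
variable {k K : Type*} [Field k] [Field K] [Algebra k K]
variable {arm : δ → Fin 3} {J : Matrix ι ι K} {B : Matrix δ δ K}
  {N W : Submodule K (Matrix ι δ K)} {H F : Matrix ι δ K}
variable {n1 n2 : Type*} [Fintype n1] [Fintype n2] [DecidableEq n1] [DecidableEq n2]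
variable {P : Matrix ι ι K × (Fin 3 → Matrix ι ι K)} {S0 : Matrix δ δ K} {c1 c2 : K}
  {U1 : Matrix δ n1 K} {U2 : Matrix δ n2 K} {Y : Fin 3 → Matrix δ δ K} {d : Derivation k K K}
  {Γ1 : Matrix n1 n1 K} {Γ2 : Matrix n2 n2 K} {β : Matrix n1 n2 K} {γ : Matrix n2 n1 K}

/-- the derivative of the form of a block -/
theorem dG (h : Ctx k arm J B N W H) (hP : P ∈ NN arm J N H)
    (m : Mv k arm J N W H P.1 Y d) (fr : Fr J F H P.1 S0 c1 c2 U1 U2)
    {X' : Fin 3 → Matrix n2 n1 K}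
    (hY : ∀ s, ∀ v ∈ W, v * Y s * Hᵀ = v * (U2 * X' s * U1ᵀ + U1 * (X' s)ᵀ * U2ᵀ) * Hᵀ)
    (hN1 : ∀ v ∈ W, v * (U1.map d + ZY arm J H P.1 Y * U1) =
      v * (U1 * Γ1 + c1 ^ 2 • (U2 * γ)))
    (hF : F ∈ W) {M0 : Matrix δ ι K} (hS0 : S0 = M0 * F) :
    (U1ᵀ * S0 * U1).map d = Γ1ᵀ * (U1ᵀ * S0 * U1) + (U1ᵀ * S0 * U1) * Γ1 -
      (2 * (d c1 / c1)) • (U1ᵀ * S0 * U1) := by
  have hthH := th_skew h hP h.mem
  have hU2 := SUX4b.T_of hthH fr.skew fr.S2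
  have hdR := SUX4b.dR h hP m fr (fun s => hY s H h.memW) (hN1 H h.memW)
  have horth' : U2ᵀ * S0 * U1 = 0 := fr.symm.orth
  have hsumE : ∀ A : Matrix n1 δ K, A * U1 = ∑ s, A * E K arm s * U1 := by
    intro A
    rw [← Matrix.sum_mul, ← Matrix.mul_sum, sum_E, Matrix.mul_one]
  have hcc : U1ᵀ * S0 * (ZY arm J H P.1 Y * U1) =
      ∑ s, c2 ^ 2 • ((U1ᵀ * S0 * U1) * (X' s)ᵀ * (U2ᵀ * S0)) * E K arm s * U1 := by
    unfold ZY
    rw [Matrix.sum_mul, Matrix.mul_sum]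
    refine Finset.sum_congr rfl fun s _ => ?_
    have e3 : ∀ A : Matrix δ δ K, U1ᵀ * S0 * (A * th J H P.1 H * E K arm s * U1) =
        U1ᵀ * M0 * (F * A * Hᵀ) * (J * (P.1 * H)) * E K arm s * U1 := by
      intro A
      rw [hS0]
      unfold th
      simp only [Matrix.mul_assoc]
    rw [e3, hY s F hF, ← e3]
    have e4 : U1ᵀ * S0 * ((U2 * X' s * U1ᵀ + U1 * (X' s)ᵀ * U2ᵀ) * th J H P.1 H * E K arm s * U1) =
        (U1ᵀ * S0 * U2) * X' s * (U1ᵀ * (th J H P.1 H * E K arm s * U1)) +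
        (U1ᵀ * S0 * U1) * (X' s)ᵀ * (U2ᵀ * th J H P.1 H) * E K arm s * U1 := by
      rw [Matrix.add_mul, Matrix.add_mul, Matrix.add_mul, Matrix.mul_add]
      simp only [Matrix.mul_assoc]
    rw [e4, fr.orth, Matrix.zero_mul, Matrix.zero_mul, zero_add, hU2, Matrix.mul_smul]
  have h1 : U1ᵀ * S0 * U1.map d = (U1ᵀ * S0 * U1) * Γ1 -
      U1ᵀ * S0 * (ZY arm J H P.1 Y * U1) := by
    have e1 : U1ᵀ * S0 * (U1.map d + ZY arm J H P.1 Y * U1) = (U1ᵀ * S0 * U1) * Γ1 := by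
      have e2 : ∀ A : Matrix δ n1 K, U1ᵀ * S0 * A = U1ᵀ * M0 * (F * A) := by
        intro A; rw [hS0]; simp only [Matrix.mul_assoc]
      rw [e2, hN1 F hF, ← e2, Matrix.mul_add, Matrix.mul_smul, ← Matrix.mul_assoc _ U2, fr.orth,
        Matrix.zero_mul, smul_zero, add_zero, ← Matrix.mul_assoc]
    rw [Matrix.mul_add] at e1
    rw [← e1]; abel
  rw [map_mul_der, h1, hcc, hsumE ((U1ᵀ * S0).map d)]
  have h2 : ∀ s, (U1ᵀ * S0).map d * E K arm s * U1 =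
      ((Γ1 - (2 * (d c1 / c1)) • (1 : Matrix n1 n1 K))ᵀ * (U1ᵀ * S0) +
        c2 ^ 2 • (γᵀ * (U2ᵀ * S0))) * E K arm s * U1 +
      c2 ^ 2 • ((U1ᵀ * S0 * U1) * (X' s)ᵀ * (U2ᵀ * S0)) * E K arm s * U1 := by
    intro s
    rw [hdR s, Matrix.add_mul, Matrix.add_mul]
  rw [Finset.sum_congr rfl fun s _ => h2 s, Finset.sum_add_distrib, ← hsumE, Matrix.add_mul,
    Matrix.smul_mul, Matrix.mul_assoc γᵀ, horth', Matrix.mul_zero, smul_zero, add_zero,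
    transpose_sub, transpose_smul, transpose_one, Matrix.sub_mul, Matrix.sub_mul, Matrix.smul_mul,
    Matrix.smul_mul, Matrix.one_mul, Matrix.mul_assoc Γ1ᵀ]
  abel

theorem LB (hD : Data k arm J B N W) (s : Fin 3) {a b : Type*} [Fintype a] [Fintype b]
    (V : Matrix a δ K) (U : Matrix δ b K) : V * E K arm s * B * (E K arm s * (S0 * U)) =
      V * (B * E K arm s * S0 * U) := by
  have hBE : E K arm s * B = B * E K arm s := hD.B_arm s
  have hEE : E K arm s * E K arm s = E K arm s := E_mul_self arm s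
  calc V * E K arm s * B * (E K arm s * (S0 * U))
      = V * (E K arm s * B) * E K arm s * (S0 * U) := by simp only [Matrix.mul_assoc]
    _ = V * B * (E K arm s * E K arm s) * (S0 * U) := by
        rw [hBE]; simp only [Matrix.mul_assoc]
    _ = _ := by rw [hEE]; simp only [Matrix.mul_assoc]

/-- **the weight of `A` under the connection, modulo the radical** -/
theorem wt (h : Ctx k arm J B N W H) (hP : P ∈ NN arm J N H)
    (m : Mv k arm J N W H P.1 Y d) (fr : Fr J F H P.1 S0 c1 c2 U1 U2)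
    {X' : Fin 3 → Matrix n2 n1 K}
    (hY : ∀ s, ∀ v ∈ W, v * Y s * Hᵀ = v * (U2 * X' s * U1ᵀ + U1 * (X' s)ᵀ * U2ᵀ) * Hᵀ)
    (hN1 : ∀ v ∈ W, v * (U1.map d + ZY arm J H P.1 Y * U1) =
      v * (U1 * Γ1 + c1 ^ 2 • (U2 * γ)))
    (hF : F ∈ W) {M0 : Matrix δ ι K} (hS0 : S0 = M0 * F)
    {A1 : Fin 3 → Matrix n1 n1 K} {A2 : Fin 3 → Matrix n2 n2 K}
    (hA1 : ∀ s, B * E K arm s * S0 * U1 = U1 * A1 s)
    (hA2 : ∀ s, B * E K arm s * S0 * U2 = U2 * A2 s) (s : Fin 3) :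
    (U1ᵀ * S0 * U1) * ((A1 s).map d + Γ1 * A1 s - A1 s * Γ1 + (2 * (d c1 / c1)) • A1 s) = 0 := by
  have hG := dG h hP m fr hY hN1 hF hS0
  have hdR := SUX4b.dR h hP m fr (fun s => hY s H h.memW) (hN1 H h.memW) s
  have horth' : U2ᵀ * S0 * U1 = 0 := fr.symm.orth
  set G : Matrix n1 n1 K := U1ᵀ * S0 * U1 with hGd
  set a : K := 2 * (d c1 / c1) with ha
  have hEE : E K arm s * E K arm s = E K arm s := E_mul_self arm s
  set L : Matrix n1 δ K := U1ᵀ * S0 * E K arm s with hL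
  have hLt : Lᵀ = -(E K arm s * (S0 * U1)) := by
    rw [hL, transpose_mul, transpose_mul, transpose_transpose, E_transpose, fr.skew,
      Matrix.neg_mul, Matrix.mul_neg]
  have hL2t : (U2ᵀ * S0 * E K arm s)ᵀ = -(E K arm s * (S0 * U2)) := by
    rw [transpose_mul, transpose_mul, transpose_transpose, E_transpose, fr.skew,
      Matrix.neg_mul, Matrix.mul_neg]
  -- `G A = - L B Lᵀ`
  have hLB1 : L * B * (E K arm s * (S0 * U1)) = U1ᵀ * S0 * (B * E K arm s * S0 * U1) := by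
    rw [hL]; exact LB h.data s _ U1
  have hLB2 : L * B * (E K arm s * (S0 * U2)) = U1ᵀ * S0 * (B * E K arm s * S0 * U2) := by
    rw [hL]; exact LB h.data s _ U2
  have hGA : G * A1 s = -(L * B * Lᵀ) := by
    rw [hLt, Matrix.mul_neg, neg_neg, hLB1, hA1 s, hGd]
    simp only [Matrix.mul_assoc]
  have hL12 : L * B * (U2ᵀ * S0 * E K arm s)ᵀ = 0 := by
    rw [hL2t, Matrix.mul_neg, hLB2, hA2 s, ← Matrix.mul_assoc, fr.orth, Matrix.zero_mul,
      neg_zero]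
  have hL21 : (U2ᵀ * S0 * E K arm s) * B * Lᵀ = 0 := by
    have := congrArg Matrix.transpose hL12
    rw [transpose_mul (L * B), transpose_transpose, transpose_mul L B, h.data.B_symm,
      transpose_zero, ← Matrix.mul_assoc] at this
    exact this
  have hBd : B.map d = 0 := h.data.B_const d
  have hdL : L.map d = (Γ1 - a • (1 : Matrix n1 n1 K))ᵀ * L +
      (c2 ^ 2 • γᵀ + c2 ^ 2 • (G * (X' s)ᵀ)) * (U2ᵀ * S0 * E K arm s) := by
    have e1 : L.map d = (U1ᵀ * S0).map d * E K arm s := by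
      rw [hL, map_mul_der, E_map_der, Matrix.mul_zero, add_zero]
    rw [e1, hdR, hL]
    simp only [Matrix.add_mul, Matrix.smul_mul, Matrix.mul_assoc]
    abel
  have hd1 : (G * A1 s).map d = (Γ1 - a • (1 : Matrix n1 n1 K))ᵀ * (G * A1 s) +
      (G * A1 s) * (Γ1 - a • (1 : Matrix n1 n1 K)) := by
    have e1 : (L * B * Lᵀ).map d = L.map d * B * Lᵀ + L * B * (L.map d)ᵀ := by
      rw [map_mul_der, map_mul_der, hBd, Matrix.mul_zero, add_zero, map_transpose_der]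
    have e2 : (-(L * B * Lᵀ)).map d = -((L * B * Lᵀ).map d) := by
      ext i j; simp
    rw [hGA, e2, e1, hdL]
    have e3 : ((Γ1 - a • (1 : Matrix n1 n1 K))ᵀ * L +
      (c2 ^ 2 • γᵀ + c2 ^ 2 • (G * (X' s)ᵀ)) * (U2ᵀ * S0 * E K arm s)) * B * Lᵀ =
        (Γ1 - a • (1 : Matrix n1 n1 K))ᵀ * (L * B * Lᵀ) := by
      rw [Matrix.add_mul, Matrix.add_mul]
      have : (c2 ^ 2 • γᵀ + c2 ^ 2 • (G * (X' s)ᵀ)) * (U2ᵀ * S0 * E K arm s) * B * Lᵀ =
          (c2 ^ 2 • γᵀ + c2 ^ 2 • (G * (X' s)ᵀ)) * ((U2ᵀ * S0 * E K arm s) * B * Lᵀ) := by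
        simp only [Matrix.mul_assoc]
      rw [this, hL21, Matrix.mul_zero, add_zero]
      simp only [Matrix.mul_assoc]
    have e4 : L * B * ((Γ1 - a • (1 : Matrix n1 n1 K))ᵀ * L +
      (c2 ^ 2 • γᵀ + c2 ^ 2 • (G * (X' s)ᵀ)) * (U2ᵀ * S0 * E K arm s))ᵀ =
        (L * B * Lᵀ) * (Γ1 - a • (1 : Matrix n1 n1 K)) := by
      rw [transpose_add, Matrix.mul_add, transpose_mul, transpose_mul _ (U2ᵀ * S0 * E K arm s),
        transpose_transpose, ← Matrix.mul_assoc (L * B) (U2ᵀ * S0 * E K arm s)ᵀ, hL12,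
        Matrix.zero_mul, add_zero, ← Matrix.mul_assoc]
    rw [e3, e4, Matrix.mul_neg, Matrix.neg_mul, neg_add]
  have hd2 : (G * A1 s).map d = G.map d * A1 s + G * (A1 s).map d := map_mul_der d G (A1 s)
  rw [hd1, hG] at hd2
  have h5 : G * (A1 s).map d = (Γ1 - a • (1 : Matrix n1 n1 K))ᵀ * (G * A1 s) +
      (G * A1 s) * (Γ1 - a • (1 : Matrix n1 n1 K)) - (Γ1ᵀ * G + G * Γ1 - a • G) * A1 s := by
    rw [hd2]; abel
  rw [Matrix.mul_add, Matrix.mul_sub, Matrix.mul_add, h5, Matrix.mul_smul, transpose_sub,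
    transpose_smul, transpose_one, Matrix.sub_mul, Matrix.mul_sub, Matrix.smul_mul,
    Matrix.mul_smul, Matrix.one_mul, Matrix.mul_one, Matrix.sub_mul, Matrix.add_mul,
    Matrix.smul_mul]
  simp only [Matrix.mul_assoc]
  abel

/-- **the radical of a block is stable under the connection** -/
theorem rad_nab (h : Ctx k arm J B N W H) (hP : P ∈ NN arm J N H)
    (m : Mv k arm J N W H P.1 Y d) (fr : Fr J F H P.1 S0 c1 c2 U1 U2)
    {X' : Fin 3 → Matrix n2 n1 K}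
    (hY : ∀ s, ∀ v ∈ W, v * Y s * Hᵀ = v * (U2 * X' s * U1ᵀ + U1 * (X' s)ᵀ * U2ᵀ) * Hᵀ)
    (hN1 : ∀ v ∈ W, v * (U1.map d + ZY arm J H P.1 Y * U1) =
      v * (U1 * Γ1 + c1 ^ 2 • (U2 * γ)))
    (hF : F ∈ W) {M0 : Matrix δ ι K} (hS0 : S0 = M0 * F) {r : n1 → K}
    (hr : (U1ᵀ * S0 * U1) *ᵥ r = 0) : (U1ᵀ * S0 * U1) *ᵥ nv d Γ1 r = 0 := by
  have hG := dG h hP m fr hY hN1 hF hS0
  have h1 : (fun i => d (((U1ᵀ * S0 * U1) *ᵥ r) i)) = 0 := by
    rw [hr]; funext i; simp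
  rw [der_mulVec, hG, sub_mulVec, add_mulVec, smul_mulVec, ← mulVec_mulVec r Γ1ᵀ, hr,
    mulVec_zero, zero_add, smul_zero, sub_zero] at h1
  unfold nv
  rw [mulVec_add, mulVec_mulVec, add_comm]
  exact h1

/-- the radical of a block as a submodule -/
def rad (S0 : Matrix δ δ K) (U1 : Matrix δ n1 K) : Submodule K (n1 → K) :=
  LinearMap.ker (U1ᵀ * S0 * U1).mulVecLin

omit [DecidableEq n1] in
theorem mem_rad {r : n1 → K} : r ∈ rad S0 U1 ↔ (U1ᵀ * S0 * U1) *ᵥ r = 0 := by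
  unfold rad
  rw [LinearMap.mem_ker, mulVecLin_apply]

/-- the radical is stable under `A` -/
theorem rad_A (h : Data k arm J B N W) (fr : Fr J F H P.1 S0 c1 c2 U1 U2)
    {A1 : Fin 3 → Matrix n1 n1 K} (hA1 : ∀ s, B * E K arm s * S0 * U1 = U1 * A1 s) (s : Fin 3)
    {r : n1 → K} (hr : r ∈ rad S0 U1) : A1 s *ᵥ r ∈ rad S0 U1 := by
  rw [mem_rad] at hr ⊢
  have h1 : U1ᵀ * S0 * U1 * A1 s = -((A1 s)ᵀ * (U1ᵀ * S0 * U1)) := by
    have e1 := congrArg Matrix.transpose (hA1 s)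
    rw [transpose_mul, transpose_mul, transpose_mul, transpose_mul, E_transpose, h.B_symm,
      fr.skew] at e1
    calc U1ᵀ * S0 * U1 * A1 s = U1ᵀ * S0 * (B * E K arm s * S0 * U1) := by
          rw [hA1 s]; simp only [Matrix.mul_assoc]
      _ = -((U1ᵀ * (-S0 * (E K arm s * B))) * (S0 * U1)) := by
          rw [← h.B_arm s]
          simp only [Matrix.mul_assoc, Matrix.neg_mul, Matrix.mul_neg, neg_neg]
      _ = _ := by
          have e2 : (A1 s)ᵀ * U1ᵀ = U1ᵀ * (-S0 * (E K arm s * B)) := e1.symm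
          rw [← e2]
          simp only [Matrix.mul_assoc]
  rw [mulVec_mulVec, h1, neg_mulVec, ← mulVec_mulVec, hr, mulVec_zero, neg_zero]

/-- **`FR` of the blocks is stable under the connection of a move.** -/
theorem fr_nab (h : Ctx k arm J B N W H) (hP : P ∈ NN arm J N H)
    (m : Mv k arm J N W H P.1 Y d) (fr : Fr J F H P.1 S0 c1 c2 U1 U2)
    {X' : Fin 3 → Matrix n2 n1 K}
    (hY : ∀ s, ∀ v ∈ W, v * Y s * Hᵀ = v * (U2 * X' s * U1ᵀ + U1 * (X' s)ᵀ * U2ᵀ) * Hᵀ)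
    (hN2 : ∀ v ∈ W, v * (U2.map d + ZY arm J H P.1 Y * U2) =
      v * (U2 * Γ2 + c2 ^ 2 • (U1 * β)))
    (hN1 : ∀ v ∈ W, v * (U1.map d + ZY arm J H P.1 Y * U1) =
      v * (U1 * Γ1 + c1 ^ 2 • (U2 * γ)))
    (hF : F ∈ W) {M0 : Matrix δ ι K} (hS0 : S0 = M0 * F)
    {A1 : Fin 3 → Matrix n1 n1 K} {A2 : Fin 3 → Matrix n2 n2 K}
    (hA1 : ∀ s, B * E K arm s * S0 * U1 = U1 * A1 s)
    (hA2 : ∀ s, B * E K arm s * S0 * U2 = U2 * A2 s) {s : Fin 3} {l : ℕ} {X : Matrix n2 n1 K}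
    (hX : X ∈ FR (A2 s) (A1 s) (rad S0 U2) (rad S0 U1) l) :
    Γ2 * X + X.map d + X * Γ1ᵀ ∈ FR (A2 s) (A1 s) (rad S0 U2) (rad S0 U1) l := by
  have hY' : ∀ s, ∀ v ∈ W, v * Y s * Hᵀ =
      v * (U1 * (X' s)ᵀ * U2ᵀ + U2 * ((X' s)ᵀ)ᵀ * U1ᵀ) * Hᵀ := by
    intro s v hv
    rw [hY s v hv, transpose_transpose, add_comm]
  have w1 := wt h hP m fr hY hN1 hF hS0 hA1 hA2 s
  have w2 := wt h hP m fr.symm hY' hN2 hF hS0 hA2 hA1 s
  refine nm_mem (a2 := -(2 * (d c2 / c2))) (a1 := -(2 * (d c1 / c1))) (fun v => ?_) (fun v => ?_)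
    (fun r hr => rad_A h.data fr.symm hA2 s hr) (fun r hr => rad_A h.data fr hA1 s hr)
    (fun r hr => ?_) (fun r hr => ?_) hX
  · rw [mem_rad, neg_smul, sub_neg_eq_add, ← smul_mulVec, ← add_mulVec, mulVec_mulVec, w2,
      zero_mulVec]
  · rw [mem_rad, neg_smul, sub_neg_eq_add, ← smul_mulVec, ← add_mulVec, mulVec_mulVec, w1,
      zero_mulVec]
  · rw [mem_rad] at hr ⊢
    exact rad_nab h hP m fr.symm hY' hN2 hF hS0 hr
  · rw [mem_rad] at hr ⊢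
    exact rad_nab h hP m fr hY hN1 hF hS0 hr

omit [DecidableEq ι] [DecidableEq n1] [DecidableEq n2] in
theorem vec_img (S1 : Matrix δ δ K) (x : n2 → K) (y : n1 → K) (s : Fin 3)
    {η : Matrix ι ι K} (hS0 : S1 = Fᵀ * η * F) :
    F * (U2 * vecMulVec x y * U1ᵀ) * S1 * E K arm s =
      vecMulVec ((F * U2) *ᵥ x) ((F * U1) *ᵥ y) * η * F * E K arm s := by
  have e1 : F * (U2 * vecMulVec x y * U1ᵀ) * Fᵀ =
      vecMulVec ((F * U2) *ᵥ x) ((F * U1) *ᵥ y) := by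
    rw [← Matrix.mul_assoc, ← Matrix.mul_assoc, Matrix.mul_assoc _ U1ᵀ, ← transpose_mul,
      Matrix.mul_vecMulVec, Matrix.vecMulVec_mul, vecMul_transpose]
  rw [← e1, hS0]
  simp only [Matrix.mul_assoc]

omit [DecidableEq ι] in
/-- the image of `FR` in a submodule containing the generators -/
theorem img_mem {Q : Submodule K (Matrix ι δ K)} {A1 : Matrix n1 n1 K} {A2 : Matrix n2 n2 K}
    {R2 : Submodule K (n2 → K)} {R1 : Submodule K (n1 → K)} {l : ℕ} {s : Fin 3}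
    {η : Matrix ι ι K} (hS0 : S0 = Fᵀ * η * F)
    (g1 : ∀ i j, i + j + 1 = l → ∀ x y, vecMulVec ((F * U2) *ᵥ ((A2 ^ i) *ᵥ x))
      ((F * U1) *ᵥ ((A1 ^ j) *ᵥ y)) * η * F * E K arm s ∈ Q)
    (g2 : ∀ r ∈ R2, ∀ y, vecMulVec ((F * U2) *ᵥ r) ((F * U1) *ᵥ y) * η * F * E K arm s ∈ Q)
    (g3 : ∀ x, ∀ r ∈ R1, vecMulVec ((F * U2) *ᵥ x) ((F * U1) *ᵥ r) * η * F * E K arm s ∈ Q)
    {X : Matrix n2 n1 K} (hX : X ∈ FR A2 A1 R2 R1 l) :
    F * (U2 * X * U1ᵀ) * S0 * E K arm s ∈ Q := by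
  induction hX using Submodule.span_induction with
  | mem M hM =>
    rcases hM with ⟨i, j, x, y, hij, rfl⟩ | ⟨r, hr, y, rfl⟩ | ⟨x, r, hr, rfl⟩
    · rw [vec_img S0 _ _ s hS0]; exact g1 i j hij x y
    · rw [vec_img S0 _ _ s hS0]; exact g2 r hr y
    · rw [vec_img S0 _ _ s hS0]; exact g3 x r hr
  | zero => simp
  | add X Y _ _ h1 h2 =>
    rw [Matrix.mul_add, Matrix.add_mul, Matrix.mul_add, Matrix.add_mul, Matrix.add_mul]
    exact Q.add_mem h1 h2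
  | smul c X _ h1 =>
    rw [Matrix.mul_smul, Matrix.smul_mul, Matrix.mul_smul, Matrix.smul_mul, Matrix.smul_mul]
    exact Q.smul_mem c h1

end frame

end Crest.Agent.R172.SL2g560
end

-- ▼ part R172/SL2g182
section

/-!
Row 172 (S0260), S-side (t2), L2-g (second copy, helper182): the filtered tensors (modulo the
radicals) of a pair of blocks, stable under the connection; exact tensors are filtered.
-/

set_option autoImplicit false
set_option linter.unusedSectionVars false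
set_option linter.unusedFintypeInType false
set_option linter.unusedDecidableInType false

namespace Crest.Agent.R172.SL2g

open Matrix Module Crest.Agent.R172.FO Crest.Agent.R172.SpS

section abs

variable {K : Type*} [Field K] {n1 n2 : Type*} [Fintype n1] [DecidableEq n1] [Fintype n2]
  [DecidableEq n2]

/-- filtered tensors modulo radicals -/
def Gn (A : Matrix n1 n1 K) (B : Matrix n2 n2 K) (R1 : Submodule K (n1 → K))
    (R2 : Submodule K (n2 → K)) (l : ℕ) : Submodule K (Matrix n2 n1 K) :=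
  Submodule.span K ({X | ∃ i j y z, i + j + 1 = l ∧ X = vecMulVec ((B ^ i) *ᵥ y) ((A ^ j) *ᵥ z)} ∪
    ({X | ∃ r ∈ R2, ∃ z, X = vecMulVec r z} ∪ {X | ∃ y, ∃ r ∈ R1, X = vecMulVec y r}))

variable {A : Matrix n1 n1 K} {B : Matrix n2 n2 K} {R1 : Submodule K (n1 → K)}
  {R2 : Submodule K (n2 → K)} {l : ℕ}

theorem Gn_gen {i j : ℕ} (h : i + j + 1 = l) (y : n2 → K) (z : n1 → K) :
    vecMulVec ((B ^ i) *ᵥ y) ((A ^ j) *ᵥ z) ∈ Gn A B R1 R2 l :=
  Submodule.subset_span (Or.inl ⟨i, j, y, z, h, rfl⟩)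

theorem Gn_left {r : n2 → K} (h : r ∈ R2) (z : n1 → K) : vecMulVec r z ∈ Gn A B R1 R2 l :=
  Submodule.subset_span (Or.inr (Or.inl ⟨r, h, z, rfl⟩))

theorem Gn_right {r : n1 → K} (h : r ∈ R1) (y : n2 → K) : vecMulVec y r ∈ Gn A B R1 R2 l :=
  Submodule.subset_span (Or.inr (Or.inr ⟨y, r, h, rfl⟩))

/-- gluing: `X` maps everything to `W1` and `Xᵀ` maps everything to `W2` -/
theorem mem_of_both {W1 : Submodule K (n2 → K)} {W2 : Submodule K (n1 → K)}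
    {S : Submodule K (Matrix n2 n1 K)} (h : ∀ a ∈ W1, ∀ b ∈ W2, vecMulVec a b ∈ S)
    {X : Matrix n2 n1 K} (h1 : ∀ v, X *ᵥ v ∈ W1) (h2 : ∀ v, Xᵀ *ᵥ v ∈ W2) : X ∈ S := by
  classical
  -- projection onto `W1`
  obtain ⟨P, hP⟩ := W1.exists_isCompl
  let f : (n2 → K) →ₗ[K] (n2 → K) := W1.subtype ∘ₗ W1.projectionOnto P hP
  have hf1 : ∀ v, f v ∈ W1 := fun v => (W1.projectionOnto P hP v).2
  have hf2 : ∀ v ∈ W1, f v = v := by
    intro v hv
    have := Submodule.projectionOnto_apply_left hP ⟨v, hv⟩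
    exact congrArg Subtype.val this
  set M : Matrix n2 n2 K := LinearMap.toMatrix' f with hM
  have hMv : ∀ v, M *ᵥ v = f v := fun v => by rw [hM, LinearMap.toMatrix'_mulVec]
  have hMX : M * X = X := by
    apply Matrix.ext_of_mulVec_single
    intro i
    rw [← mulVec_mulVec, hMv, hf2 _ (h1 _)]
  -- `M X = ∑_j (M e_j) ⊗ (X^T e_j)`
  have hsum : X = ∑ j, vecMulVec (M *ᵥ Pi.single j 1) (Xᵀ *ᵥ Pi.single j 1) := by
    conv_lhs => rw [← hMX]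
    ext a b
    rw [mul_apply, Matrix.sum_apply]
    refine Finset.sum_congr rfl fun j _ => ?_
    rw [vecMulVec_apply, mulVec_single_one, mulVec_single_one]
    rfl
  rw [hsum]
  exact Submodule.sum_mem _ fun j _ => h _ (by rw [hMv]; exact hf1 _) _ (h2 _)

/-- a row space criterion: if `X` kills `Kᗮ` then `Xᵀ` maps into `K` -/
theorem tr_mem {Kk : Submodule K (n1 → K)} {X : Matrix n2 n1 K}
    (h : ∀ φ : n1 → K, (∀ y ∈ Kk, φ ⬝ᵥ y = 0) → X *ᵥ φ = 0) (v : n2 → K) : Xᵀ *ᵥ v ∈ Kk := by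
  classical
  by_contra hv
  obtain ⟨f, hf1, hf2⟩ := Submodule.exists_le_ker_of_notMem hv
  set φ : n1 → K := fun i => f (Pi.single i 1) with hφ
  have hfφ : ∀ y, f y = φ ⬝ᵥ y := by
    intro y
    rw [hφ, dotProduct]
    conv_lhs => rw [← Finset.univ_sum_single y, map_sum]
    refine Finset.sum_congr rfl fun i _ => ?_
    have : Pi.single i (y i) = y i • (Pi.single i (1 : K) : n1 → K) := by
      rw [← Pi.single_smul', smul_eq_mul, mul_one]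
    rw [this, map_smul, smul_eq_mul, mul_comm]
  have h0 := h φ fun y hy => by rw [← hfφ]; exact hf2 hy
  apply hf1
  rw [hfφ, dotProduct_mulVec, vecMul_transpose, h0, zero_dotProduct]

/-- **two flags** -/
theorem flags {W : ℕ → Submodule K (n2 → K)} {Kf : ℕ → Submodule K (n1 → K)}
    (hW : ∀ v, W (v + 1) ≤ W v) (hK : ∀ v, Kf v ≤ Kf (v + 1)) (hW0 : W 0 = ⊤)
    {S : Submodule K (Matrix n2 n1 K)} (hS0 : ∀ y, ∀ r ∈ Kf 0, vecMulVec y r ∈ S)
    (hS : ∀ v, v < l → ∀ a ∈ W v, ∀ b ∈ Kf (v + 1), vecMulVec a b ∈ S)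
    (hSl : ∀ r ∈ W l, ∀ z, vecMulVec r z ∈ S) {X : Matrix n2 n1 K}
    (hX : ∀ v ≤ l, ∀ φ : n1 → K, (∀ y ∈ Kf v, φ ⬝ᵥ y = 0) → X *ᵥ φ ∈ W v) : X ∈ S := by
  classical
  -- for all `m ≤ l`: `X = X0 + Y`, `X0 ∈ S`, `X0ᵀ` into `Kf m`, `Y` into `W m`
  have key : ∀ m ≤ l, ∃ X0 Y : Matrix n2 n1 K, X = X0 + Y ∧ X0 ∈ S ∧
      (∀ v, X0ᵀ *ᵥ v ∈ Kf m) ∧ ∀ v, Y *ᵥ v ∈ W m := by
    intro m
    induction m with
    | zero =>
      intro _
      refine ⟨0, X, (zero_add X).symm, S.zero_mem, fun v => ?_, fun v => ?_⟩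
      · rw [transpose_zero, zero_mulVec]; exact (Kf 0).zero_mem
      · rw [hW0]; trivial
    | succ m ih =>
      intro hm
      obtain ⟨X0, Y, hXY, hX0, hX0K, hYW⟩ := ih (by omega)
      -- projection onto `W (m+1)`
      obtain ⟨P, hP⟩ := (W (m + 1)).exists_isCompl
      let f : (n2 → K) →ₗ[K] (n2 → K) :=
        (W (m + 1)).subtype ∘ₗ (W (m + 1)).projectionOnto P hP
      have hf1 : ∀ v, f v ∈ W (m + 1) := fun v => ((W (m + 1)).projectionOnto P hP v).2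
      have hf2 : ∀ v ∈ W (m + 1), f v = v := by
        intro v hv
        have := Submodule.projectionOnto_apply_left hP ⟨v, hv⟩
        exact congrArg Subtype.val this
      set M : Matrix n2 n2 K := LinearMap.toMatrix' f with hM
      have hMv : ∀ v, M *ᵥ v = f v := fun v => by rw [hM, LinearMap.toMatrix'_mulVec]
      have hYK : ∀ v, (Y - M * Y)ᵀ *ᵥ v ∈ Kf (m + 1) := by
        apply tr_mem
        intro φ hφ
        have h1 : X *ᵥ φ ∈ W (m + 1) := hX (m + 1) hm φ hφ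
        have h2 : X0 *ᵥ φ = 0 := by
          funext i
          have h3 := hφ _ (hK m (hX0K (Pi.single i 1)))
          rw [mulVec_single_one] at h3
          rw [Pi.zero_apply, ← h3, mulVec, dotProduct_comm]
          rfl
        have h4 : Y *ᵥ φ ∈ W (m + 1) := by
          have : Y *ᵥ φ = X *ᵥ φ - X0 *ᵥ φ := by rw [hXY, add_mulVec]; abel
          rw [this, h2, sub_zero]; exact h1
        rw [sub_mulVec, ← mulVec_mulVec, hMv, hf2 _ h4, sub_self]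
      have hYW' : ∀ v, (Y - M * Y) *ᵥ v ∈ W m := by
        intro v
        rw [sub_mulVec, ← mulVec_mulVec, hMv]
        exact (W m).sub_mem (hYW v) (hW m (hf1 _))
      refine ⟨X0 + (Y - M * Y), M * Y, by rw [hXY]; abel, S.add_mem hX0 ?_, fun v => ?_,
        fun v => ?_⟩
      · exact mem_of_both (hS m (by omega)) hYW' hYK
      · rw [transpose_add, add_mulVec]
        exact (Kf (m + 1)).add_mem (hK m (hX0K v)) (hYK v)
      · rw [← mulVec_mulVec, hMv]; exact hf1 _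
  obtain ⟨X0, Y, hXY, hX0, -, hYW⟩ := key l le_rfl
  rw [hXY]
  refine S.add_mem hX0 (mem_of_both (W1 := W l) (W2 := ⊤) (fun a ha b _ => hSl a ha b) hYW
    fun v => trivial)

/-- **(iii)**: exact modulo the radicals implies filtered -/
theorem exact_mem (hR1 : ∀ r ∈ R1, A *ᵥ r ∈ R1) (hR2 : ∀ r ∈ R2, B *ᵥ r ∈ R2)
    (hl2 : ∀ y, (B ^ l) *ᵥ y ∈ R2)
    (hf1 : ∀ v ≤ l, ∀ y, (A ^ (l - v)) *ᵥ y ∈ R1 → ∃ y', y - (A ^ v) *ᵥ y' ∈ R1)
    {c : K} {X : Matrix n2 n1 K}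
    (hX : ∀ φ : n1 → K, (∀ r ∈ R1, φ ⬝ᵥ r = 0) → (X * Aᵀ + c • (B * X)) *ᵥ φ ∈ R2) :
    X ∈ Gn A B R1 R2 l := by
  classical
  let W : ℕ → Submodule K (n2 → K) := fun v => (LinearMap.range (B ^ v).mulVecLin) ⊔ R2
  let Kf : ℕ → Submodule K (n1 → K) := fun v => R1.comap (A ^ v).mulVecLin
  have hR1p : ∀ v, ∀ r ∈ R1, (A ^ v) *ᵥ r ∈ R1 := by
    intro v
    induction v with
    | zero => intro r hr; rwa [pow_zero, one_mulVec]
    | succ v ih => intro r hr; rw [pow_succ', ← mulVec_mulVec]; exact hR1 _ (ih r hr)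
  refine flags (l := l) (W := W) (Kf := Kf) ?_ ?_ ?_ ?_ ?_ ?_ ?_
  · intro v
    refine sup_le_sup_right ?_ R2
    rintro _ ⟨y, rfl⟩
    refine ⟨B *ᵥ y, ?_⟩
    rw [mulVecLin_apply, mulVecLin_apply, mulVec_mulVec, pow_succ]
  · intro v y hy
    rw [Submodule.mem_comap, mulVecLin_apply] at hy ⊢
    rw [pow_succ', ← mulVec_mulVec]
    exact hR1 _ hy
  · rw [eq_top_iff]
    intro y _
    exact Submodule.mem_sup_left ⟨y, by rw [mulVecLin_apply, pow_zero, one_mulVec]⟩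
  · intro y r hr
    rw [Submodule.mem_comap, mulVecLin_apply, pow_zero, one_mulVec] at hr
    exact Gn_right hr y
  · intro v hv a ha b hb
    obtain ⟨a1, ⟨y, rfl⟩, a2, ha2, rfl⟩ := Submodule.mem_sup.1 ha
    rw [Submodule.mem_comap, mulVecLin_apply] at hb
    have hb' : (A ^ (l - (l - 1 - v))) *ᵥ b ∈ R1 := by
      rwa [show l - (l - 1 - v) = v + 1 by omega]
    obtain ⟨z, hz⟩ := hf1 (l - 1 - v) (by omega) b hb'
    have e1 : vecMulVec ((B ^ v).mulVecLin y + a2) b =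
        vecMulVec ((B ^ v) *ᵥ y) ((A ^ (l - 1 - v)) *ᵥ z) +
          vecMulVec ((B ^ v) *ᵥ y) (b - (A ^ (l - 1 - v)) *ᵥ z) + vecMulVec a2 b := by
      rw [mulVecLin_apply, add_vecMulVec, ← vecMulVec_add, add_sub_cancel]
    rw [e1]
    exact (Gn A B R1 R2 l).add_mem ((Gn A B R1 R2 l).add_mem (Gn_gen (by omega) y z)
      (Gn_right hz _)) (Gn_left ha2 b)
  · intro r hr z
    obtain ⟨a1, ⟨y, rfl⟩, a2, ha2, rfl⟩ := Submodule.mem_sup.1 hr
    refine Gn_left ?_ z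
    rw [mulVecLin_apply]
    exact R2.add_mem (hl2 y) ha2
  · intro v hv φ hφ
    -- `φ = (A^v)ᵀ φ'`, `φ' ⟂ R1`
    have hex : ∃ φ' : n1 → K, (∀ r ∈ R1, φ' ⬝ᵥ r = 0) ∧ φ = (Aᵀ ^ v) *ᵥ φ' := by
      let g : (n1 → K) →ₗ[K] ((n1 → K) ⧸ R1) := R1.mkQ ∘ₗ (A ^ v).mulVecLin
      let F : Dual K (n1 → K) :=
        { toFun := fun y => φ ⬝ᵥ y
          map_add' := fun a b => dotProduct_add _ _ _
          map_smul' := fun a b => dotProduct_smul _ _ _ }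
      have hF : F ∈ LinearMap.range g.dualMap := by
        rw [LinearMap.range_dualMap_eq_dualAnnihilator_ker, Submodule.mem_dualAnnihilator]
        intro y hy
        apply hφ
        rw [Submodule.mem_comap]
        exact (Submodule.Quotient.mk_eq_zero R1).1 hy
      obtain ⟨G, hG⟩ := hF
      refine ⟨fun i => G (R1.mkQ (Pi.single i 1)), ?_, ?_⟩
      · intro r hr
        have e1 : (fun i => G (R1.mkQ (Pi.single i 1))) ⬝ᵥ r = G (R1.mkQ r) := by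
          rw [dotProduct]
          conv_rhs => rw [← Finset.univ_sum_single r, map_sum, map_sum]
          refine Finset.sum_congr rfl fun i _ => ?_
          have : Pi.single i (r i) = r i • (Pi.single i (1 : K) : n1 → K) := by
            rw [← Pi.single_smul', smul_eq_mul, mul_one]
          rw [this, map_smul, map_smul, smul_eq_mul, mul_comm]
        rw [e1, Submodule.mkQ_apply, (Submodule.Quotient.mk_eq_zero R1).2 hr, map_zero]
      · funext j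
        have e2 := LinearMap.congr_fun hG (Pi.single j 1)
        change G (R1.mkQ ((A ^ v) *ᵥ Pi.single j 1)) = φ ⬝ᵥ Pi.single j 1 at e2
        rw [dotProduct_single_one] at e2
        rw [← e2, mulVec, dotProduct]
        rw [mulVec_single_one]
        conv_lhs => rw [← Finset.univ_sum_single ((A ^ v).col j), map_sum, map_sum]
        refine Finset.sum_congr rfl fun i _ => ?_
        have : Pi.single i ((A ^ v).col j i) = (A ^ v).col j i • (Pi.single i (1 : K) : n1 → K) := by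
          rw [← Pi.single_smul', smul_eq_mul, mul_one]
        rw [this, map_smul, map_smul, smul_eq_mul, ← transpose_pow]
        rfl
    obtain ⟨φ', hφ', rfl⟩ := hex
    -- `X (Aᵀ)^v φ' ∈ (−c)^v B^v X φ' + R2`
    have hperp : ∀ v, ∀ r ∈ R1, ((Aᵀ ^ v) *ᵥ φ') ⬝ᵥ r = 0 := by
      intro v r hr
      rw [← transpose_pow, mulVec_transpose, ← dotProduct_mulVec]
      exact hφ' _ (hR1p v r hr)
    have hB : ∀ v, ∀ r ∈ R2, (B ^ v) *ᵥ r ∈ R2 := by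
      intro v
      induction v with
      | zero => intro r hr; rwa [pow_zero, one_mulVec]
      | succ v ih => intro r hr; rw [pow_succ', ← mulVec_mulVec]; exact hR2 _ (ih r hr)
    have hstep : ∀ v, X *ᵥ ((Aᵀ ^ v) *ᵥ φ') - (-c) ^ v • ((B ^ v) *ᵥ (X *ᵥ φ')) ∈ R2 := by
      intro v
      induction v with
      | zero => simp
      | succ v ih =>
        have h1 := hX _ (hperp v)
        rw [add_mulVec, smul_mulVec, ← mulVec_mulVec, ← mulVec_mulVec] at h1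
        have h2 := hR2 _ ih
        have e1 : X *ᵥ ((Aᵀ ^ (v + 1)) *ᵥ φ') - (-c) ^ (v + 1) • ((B ^ (v + 1)) *ᵥ (X *ᵥ φ')) =
            (X *ᵥ (Aᵀ *ᵥ ((Aᵀ ^ v) *ᵥ φ')) + c • (B *ᵥ (X *ᵥ ((Aᵀ ^ v) *ᵥ φ')))) -
              c • (B *ᵥ (X *ᵥ ((Aᵀ ^ v) *ᵥ φ') - (-c) ^ v • ((B ^ v) *ᵥ (X *ᵥ φ')))) := by
          rw [mulVec_sub, mulVec_smul, smul_sub, smul_smul, pow_succ' (-c), pow_succ' B,
            pow_succ' Aᵀ, ← mulVec_mulVec, ← mulVec_mulVec]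
          module
        rw [e1]
        exact R2.sub_mem h1 (R2.smul_mem c h2)
    have h3 := hstep v
    have h4 : X *ᵥ ((Aᵀ ^ v) *ᵥ φ') = (-c) ^ v • ((B ^ v) *ᵥ (X *ᵥ φ')) +
        (X *ᵥ ((Aᵀ ^ v) *ᵥ φ') - (-c) ^ v • ((B ^ v) *ᵥ (X *ᵥ φ'))) := by abel
    rw [h4]
    refine (W v).add_mem (Submodule.mem_sup_left ⟨(-c) ^ v • (X *ᵥ φ'), ?_⟩)
      (Submodule.mem_sup_right h3)
    rw [mulVecLin_apply, mulVec_smul]

end abs

section der

variable {k K : Type*} [Field k] [Field K] [Algebra k K] {n1 n2 : Type*} [Fintype n1]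
  [DecidableEq n1] [Fintype n2] [DecidableEq n2]
variable {A : Matrix n1 n1 K} {B : Matrix n2 n2 K} {R1 : Submodule K (n1 → K)}
  {R2 : Submodule K (n2 → K)} {l : ℕ}




end der

section app

variable {ι : Type*} [Fintype ι] [DecidableEq ι] {δ : Type*} [Fintype δ] [DecidableEq δ]
variable {K : Type*} [Field K] {n1 n2 : Type*} [Fintype n1]
  [DecidableEq n1] [Fintype n2] [DecidableEq n2]
variable {A : Matrix n1 n1 K} {B : Matrix n2 n2 K} {R1 : Submodule K (n1 → K)}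
  {R2 : Submodule K (n2 → K)} {l : ℕ}

/-- **(i)** the image of the filtered tensors -/
theorem image {arm : δ → Fin 3} {F : Matrix ι δ K} {U1 : Matrix δ n1 K} {U2 : Matrix δ n2 K}
    {S0 : Matrix δ δ K} {s : Fin 3} {Q : Submodule K (Matrix ι δ K)}
    (g1 : ∀ i j, i + j + 1 = l → ∀ (y : n2 → K) (z : n1 → K),
      F * (U2 * (vecMulVec ((B ^ i) *ᵥ y) ((A ^ j) *ᵥ z) : Matrix n2 n1 K) * U1ᵀ) * S0 *
        E K arm s ∈ Q)
    (g2 : ∀ r ∈ R2, ∀ z : n1 → K,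
      F * (U2 * (vecMulVec r z : Matrix n2 n1 K) * U1ᵀ) * S0 * E K arm s ∈ Q)
    (g3 : ∀ y : n2 → K, ∀ r ∈ R1,
      F * (U2 * (vecMulVec y r : Matrix n2 n1 K) * U1ᵀ) * S0 * E K arm s ∈ Q)
    {X : Matrix n2 n1 K} (hX : X ∈ Gn A B R1 R2 l) :
    F * (U2 * X * U1ᵀ) * S0 * E K arm s ∈ Q := by
  let L : Matrix n2 n1 K →ₗ[K] Matrix ι δ K :=
    { toFun := fun X => F * (U2 * X * U1ᵀ) * S0 * E K arm s
      map_add' := by
        intro X Y
        simp only [Matrix.mul_add, Matrix.add_mul]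
      map_smul' := by
        intro a X
        simp only [Matrix.mul_smul, Matrix.smul_mul, RingHom.id_apply] }
  have h : Gn A B R1 R2 l ≤ Q.comap L := by
    refine Submodule.span_le.2 ?_
    rintro X (⟨i, j, y, z, hij, rfl⟩ | ⟨r, hr, z, rfl⟩ | ⟨y, r, hr, rfl⟩)
    · exact g1 i j hij y z
    · exact g2 r hr z
    · exact g3 y r hr
  exact h hX

end app

end Crest.Agent.R172.SL2g
end

-- ▼ part R172/SB4x117
section

/-!
Row 172 (S0260), (t2), level 2, leaf B4 of `SDec.Geo2` in frame letters: the 21- and 12-parts of the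
second derivative lie in every submodule which contains the generators of the pair of blocks.
-/

set_option autoImplicit false
set_option linter.unusedSectionVars false
set_option linter.unusedFintypeInType false
set_option linter.unusedDecidableInType false
set_option linter.unusedVariables false

namespace Crest.Agent.R172.SB4x

open Matrix Module Crest.Agent.R172.FO Crest.Agent.R172.Qt Crest.Agent.R172.SpS
open Crest.Agent.R172.SBlk Crest.Agent.R172.UBlk Crest.Agent.R172.STop Crest.Agent.R172.SEnd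
open Crest.Agent.R172.SEnd2 Crest.Agent.R172.SCM
open Crest.Agent.R172.Om (Kiso)
open Crest.Agent.R172.PL (CoreM Ainf)
open Crest.Agent.R172.SC (PB iSup_PB PB_le_Ainf)
open Crest.Agent.R172.SUX (th ZY wd Mv Fr)
open Crest.Agent.R172.SInst (ctx QQb)
open Crest.Agent.R172.SL2g (Gn Gn_gen Gn_left Gn_right exact_mem)
open Crest.Agent.R172.SL2g560 (FR rad mem_rad)

section free

variable {ι : Type} [Fintype ι] [DecidableEq ι] {δ : Type} [Fintype δ] [DecidableEq δ]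
variable {K : Type} [Field K] [Algebra ℂ K]
variable {arm : δ → Fin 3} {J : Matrix ι ι K} {B : Matrix δ δ K} {N W : Submodule K (Matrix ι δ K)}
  {F f : Matrix ι δ K} {P : Matrix ι ι K × (Fin 3 → Matrix ι ι K)} {R : Matrix δ ι K}
  {D : End K (CoreM (PhS arm J B F R P.1))} {l : Fin 3 → ℕ}

theorem dot_T {α β : Type*} [Fintype α] [Fintype β] (A : Matrix α β K) (x : β → K) (y : α → K) :
    (A *ᵥ x) ⬝ᵥ y = x ⬝ᵥ (Aᵀ *ᵥ y) := by
  rw [dotProduct_mulVec, vecMul_transpose]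

/-- `Φ` is skew adjoint -/
theorem adj (S : Setup arm J B N W F f P R D l) (s : Fin 3) (a w : ι → K) :
    a ⬝ᵥ ((J * P.1) *ᵥ ((M arm B s F F * (J * P.1)) *ᵥ w)) =
      -(((M arm B s F F * (J * P.1)) *ᵥ a) ⬝ᵥ ((J * P.1) *ᵥ w)) := by
  have hD := (ctx S).data
  have hX : Skw J P.1 := S.hP.1
  have h1 : (J * P.1)ᵀ = -(J * P.1) := by rw [transpose_mul, hD.J_symm, hX.eq]
  have h2 : (M arm B s F F)ᵀ = M arm B s F F := by
    unfold M
    rw [transpose_mul, transpose_mul, transpose_mul, transpose_transpose, E_transpose, hD.B_symm,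
      ← Matrix.mul_assoc, ← Matrix.mul_assoc, Matrix.mul_assoc F B, ← hD.B_arm]
    simp only [Matrix.mul_assoc]
  rw [dot_T, transpose_mul, h1, h2, mulVec_mulVec, mulVec_mulVec, Matrix.neg_mul, Matrix.neg_mul,
    neg_mulVec, dotProduct_neg, neg_neg]
  congr 2
  simp only [Matrix.mul_assoc]

theorem adj_pow (S : Setup arm J B N W F f P R D l) (s : Fin 3) (v : ℕ) (a w : ι → K) :
    a ⬝ᵥ ((J * P.1) *ᵥ (((M arm B s F F * (J * P.1)) ^ v) *ᵥ w)) =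
      (-1) ^ v * ((((M arm B s F F * (J * P.1)) ^ v) *ᵥ a) ⬝ᵥ ((J * P.1) *ᵥ w)) := by
  have h := adj S s
  obtain ⟨Φ, hΦ⟩ : ∃ Φ, Φ = M arm B s F F * (J * P.1) := ⟨_, rfl⟩
  obtain ⟨η, hη⟩ : ∃ η, η = J * P.1 := ⟨_, rfl⟩
  rw [← hΦ, ← hη] at h ⊢
  induction v generalizing a with
  | zero => simp
  | succ v ih =>
    have e1 : (Φ ^ (v + 1)) *ᵥ w = Φ *ᵥ ((Φ ^ v) *ᵥ w) := by
      rw [mulVec_mulVec, ← pow_succ']
    have e2 : (Φ ^ (v + 1)) *ᵥ a = (Φ ^ v) *ᵥ (Φ *ᵥ a) := by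
      rw [mulVec_mulVec, ← pow_succ]
    rw [e1, e2, h, ih, pow_succ (-1 : K)]
    ring

/-- **freeness of one block modulo its radical** -/
theorem block_free [IsAlgClosed K] (S : Setup arm J B N W F f P R D l) {ν : K} {n : ℕ}
    {Q : Matrix ι (Fin n) K} {A : Fin 3 → Matrix (Fin n) (Fin n) K}
    (b : BPkg arm J B F R P.1 D ν l Q A) (s : Fin 3) {v : ℕ} (hv : v ≤ l s) {x : Fin n → K}
    (hx : (Qᵀ * (J * P.1) * Q) *ᵥ ((A s ^ (l s - v)) *ᵥ x) = 0) :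
    ∃ x', (Qᵀ * (J * P.1) * Q) *ᵥ (x - (A s ^ v) *ᵥ x') = 0 := by
  have hD := (ctx S).data
  have hX : Skw J P.1 := S.hP.1
  have hPC : ∀ y, Q *ᵥ y ∈ PC arm J B F R P.1 := by
    intro y
    obtain ⟨v', hv', e⟩ := b.mem y
    rw [← e]
    exact coe_mem_PC.2 (PB_le_Ainf ν hv')
  have hrd : ∀ y, (Qᵀ * (J * P.1) * Q) *ᵥ y = 0 → Q *ᵥ y ∈ Rd (J * P.1) (PC arm J B F R P.1) := by
    intro y hy
    obtain ⟨v', hv', e⟩ := b.mem y
    have h1 := (b.rad y v' e).2 hy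
    rw [← e]
    exact (mem_Rd_PC (k := ℂ) (N := N) (W := W) hD S.hR hX (PB_le_Ainf ν hv')).2 h1
  obtain ⟨c', hc', hcc⟩ := (S.free s).2 v hv (Q *ᵥ x) (hPC x) (by
    rw [SLev0.pow_act b]; exact hrd _ hx)
  -- decomposition of `c'`
  have hdec : ∃ x', ∀ y, (Q *ᵥ y) ⬝ᵥ ((J * P.1) *ᵥ (c' - Q *ᵥ x')) = 0 := by
    obtain ⟨w, hw, rfl⟩ := hc'
    have hw' : w ∈ ⨆ μ, PB (PhS arm J B F R P.1) D μ := by
      rw [iSup_PB S.hD.2 (Module.End.iSup_maxGenEigenspace_eq_top D)]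
      exact hw
    refine Submodule.iSup_induction (p := fun μ => PB (PhS arm J B F R P.1) D μ)
      (motive := fun w => ∃ x', ∀ y, (Q *ᵥ y) ⬝ᵥ ((J * P.1) *ᵥ ((w : ι → K) - Q *ᵥ x')) = 0)
      hw' ?_ ?_ ?_
    · intro μ w hw
      by_cases hμ : μ = ν
      · subst hμ
        obtain ⟨x', hx'⟩ := b.span w hw
        exact ⟨x', fun y => by rw [hx', sub_self, mulVec_zero, dotProduct_zero]⟩
      · refine ⟨0, fun y => ?_⟩
        obtain ⟨v', hv', e⟩ := b.mem y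
        rw [mulVec_zero, sub_zero, ← e]
        exact orth (k := ℂ) (N := N) (W := W) hD S.hR hX S.hDB (Ne.symm hμ) hv' hw
    · exact ⟨0, fun y => by rw [mulVec_zero, sub_zero, Submodule.coe_zero, mulVec_zero,
        dotProduct_zero]⟩
    · rintro a a' ⟨x1, h1⟩ ⟨x2, h2⟩
      refine ⟨x1 + x2, fun y => ?_⟩
      have e : ((a : ι → K) + (a' : ι → K)) - Q *ᵥ (x1 + x2) =
          ((a : ι → K) - Q *ᵥ x1) + ((a' : ι → K) - Q *ᵥ x2) := by
        rw [mulVec_add]; abel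
      rw [Submodule.coe_add, e, mulVec_add, dotProduct_add, h1, h2, add_zero]
  obtain ⟨x', hx'⟩ := hdec
  refine ⟨x', ?_⟩
  have key : ∀ y, y ⬝ᵥ ((Qᵀ * (J * P.1) * Q) *ᵥ (x - (A s ^ v) *ᵥ x')) = 0 := by
    intro y
    have e1 : y ⬝ᵥ ((Qᵀ * (J * P.1) * Q) *ᵥ (x - (A s ^ v) *ᵥ x')) =
        (Q *ᵥ y) ⬝ᵥ ((J * P.1) *ᵥ (Q *ᵥ x - Q *ᵥ ((A s ^ v) *ᵥ x'))) := by
      rw [dot_T, ← mulVec_sub, mulVec_mulVec, mulVec_mulVec]
    have e2 : Q *ᵥ x - Q *ᵥ ((A s ^ v) *ᵥ x') =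
        (Q *ᵥ x - ((M arm B s F F * (J * P.1)) ^ v) *ᵥ c') +
          ((M arm B s F F * (J * P.1)) ^ v) *ᵥ (c' - Q *ᵥ x') := by
      rw [mulVec_sub, SLev0.pow_act b]; abel
    have h1 : (Q *ᵥ y) ⬝ᵥ ((J * P.1) *ᵥ
        (Q *ᵥ x - ((M arm B s F F * (J * P.1)) ^ v) *ᵥ c')) = 0 := hcc.2 _ (hPC y)
    rw [e1, e2, mulVec_add, dotProduct_add, h1, adj_pow S, SLev0.pow_act b, hx', mul_zero,
      add_zero]
  funext i
  have := key (Pi.single i 1)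
  rwa [single_one_dotProduct] at this

end free

section frame

variable {ι : Type} [Fintype ι] [DecidableEq ι] {δ : Type} [Fintype δ] [DecidableEq δ]
variable {K : Type} [Field K] [Algebra ℂ K]
variable {arm : δ → Fin 3} {J : Matrix ι ι K} {B : Matrix δ δ K} {N W : Submodule K (Matrix ι δ K)}
  {F f : Matrix ι δ K} {P : Matrix ι ι K × (Fin 3 → Matrix ι ι K)} {R : Matrix δ ι K}
  {D : End K (CoreM (PhS arm J B F R P.1))} {l : Fin 3 → ℕ}

/-- a frame of the U-level block over the coordinates of `BPkg` (output of `SInst.exists_C`) -/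
structure FU (J : Matrix ι ι K) (F : Matrix ι δ K) (X : Matrix ι ι K) {n m : ℕ}
    (Q : Matrix ι (Fin n) K) (A : Fin 3 → Matrix (Fin n) (Fin n) K) (U : Matrix δ (Fin m) K)
    (a : Fin 3 → Matrix (Fin m) (Fin m) K) (C : Matrix (Fin n) (Fin m) K) : Prop where
  gU : F * U = Q * C
  onto : ∀ y, ∃ x, C *ᵥ x = y
  act : ∀ s, A s * C = C * a s
  gram : Cᵀ * (Qᵀ * (J * X) * Q) * C = Uᵀ * (Fᵀ * J * (X * F)) * U

variable {n m : ℕ} {Q : Matrix ι (Fin n) K} {A : Fin 3 → Matrix (Fin n) (Fin n) K}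
  {U : Matrix δ (Fin m) K} {a : Fin 3 → Matrix (Fin m) (Fin m) K} {C : Matrix (Fin n) (Fin m) K}
  {X : Matrix ι ι K}

theorem FU.mem (c : FU J F X Q A U a C) {x : Fin m → K} :
    x ∈ rad (Fᵀ * J * (X * F)) U ↔ (Qᵀ * (J * X) * Q) *ᵥ (C *ᵥ x) = 0 := by
  rw [mem_rad, ← c.gram]
  constructor
  · intro h
    have h1 : Cᵀ *ᵥ ((Qᵀ * (J * X) * Q) *ᵥ (C *ᵥ x)) = 0 := by
      rw [mulVec_mulVec, mulVec_mulVec]
      simpa only [Matrix.mul_assoc] using h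
    funext i
    obtain ⟨y, hy⟩ := c.onto (Pi.single i 1)
    have h2 : (C *ᵥ y) ⬝ᵥ ((Qᵀ * (J * X) * Q) *ᵥ (C *ᵥ x)) = 0 := by
      rw [dot_T, h1, dotProduct_zero]
    rwa [hy, single_one_dotProduct] at h2
  · intro h
    have e : (Cᵀ * (Qᵀ * (J * X) * Q) * C) *ᵥ x = Cᵀ *ᵥ ((Qᵀ * (J * X) * Q) *ᵥ (C *ᵥ x)) := by
      simp only [mulVec_mulVec, Matrix.mul_assoc]
    rw [e, h, mulVec_zero]

theorem FU.pow (c : FU J F X Q A U a C) (s : Fin 3) (i : ℕ) (x : Fin m → K) :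
    C *ᵥ ((a s ^ i) *ᵥ x) = (A s ^ i) *ᵥ (C *ᵥ x) := by
  induction i generalizing x with
  | zero => simp
  | succ i ih =>
    have e1 : (a s ^ (i + 1)) *ᵥ x = (a s ^ i) *ᵥ (a s *ᵥ x) := by
      rw [mulVec_mulVec, ← pow_succ]
    have e2 : (A s ^ (i + 1)) *ᵥ (C *ᵥ x) = (A s ^ i) *ᵥ (A s *ᵥ (C *ᵥ x)) := by
      rw [mulVec_mulVec (C *ᵥ x), ← pow_succ]
    have e3 : C *ᵥ (a s *ᵥ x) = A s *ᵥ (C *ᵥ x) := by
      rw [mulVec_mulVec, mulVec_mulVec, c.act]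
    rw [e1, e2, ih, e3]

theorem FU.st {ν : K} (c : FU J F P.1 Q A U a C) (b : BPkg arm J B F R P.1 D ν l Q A) (s : Fin 3)
    {x : Fin m → K} (hx : x ∈ rad (Fᵀ * J * (P.1 * F)) U) :
    a s *ᵥ x ∈ rad (Fᵀ * J * (P.1 * F)) U := by
  rw [c.mem] at hx ⊢
  have h1 := b.blk.st s _ (LinearMap.mem_ker.2 (by rw [mulVecLin_apply]; exact hx))
  rw [LinearMap.mem_ker, mulVecLin_apply, mulVecLin_apply] at h1
  have e3 : C *ᵥ (a s *ᵥ x) = A s *ᵥ (C *ᵥ x) := by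
    rw [mulVec_mulVec, mulVec_mulVec, c.act]
  rw [e3]
  exact h1

theorem FU.pw {ν : K} (c : FU J F P.1 Q A U a C) (b : BPkg arm J B F R P.1 D ν l Q A) (s : Fin 3)
    (x : Fin m → K) : (a s ^ l s) *ᵥ x ∈ rad (Fᵀ * J * (P.1 * F)) U := by
  rw [c.mem, c.pow]
  have h1 := b.blk.pow s (C *ᵥ x)
  rw [LinearMap.mem_ker, mulVecLin_apply, mulVecLin_pow_apply] at h1
  exact h1

theorem FU.free [IsAlgClosed K] (S : Setup arm J B N W F f P R D l) {ν : K}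
    (c : FU J F P.1 Q A U a C) (b : BPkg arm J B F R P.1 D ν l Q A) (s : Fin 3) {v : ℕ}
    (hv : v ≤ l s) {x : Fin m → K}
    (hx : (a s ^ (l s - v)) *ᵥ x ∈ rad (Fᵀ * J * (P.1 * F)) U) :
    ∃ x', x - (a s ^ v) *ᵥ x' ∈ rad (Fᵀ * J * (P.1 * F)) U := by
  rw [c.mem, c.pow] at hx
  obtain ⟨z, hz⟩ := block_free S b s hv hx
  obtain ⟨x', rfl⟩ := c.onto z
  refine ⟨x', ?_⟩
  rw [c.mem, mulVec_sub, c.pow]
  exact hz

/-- the annihilator of the kernel of a skew matrix is its range -/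
theorem skew_range {G : Matrix (Fin m) (Fin m) K} (hG : Gᵀ = -G) {φ : Fin m → K}
    (h : ∀ r, G *ᵥ r = 0 → φ ⬝ᵥ r = 0) : ∃ ψ, φ = G *ᵥ ψ := by
  by_contra hcon
  have hnot : φ ∉ LinearMap.range G.mulVecLin := by
    rintro ⟨ψ, hψ⟩
    exact hcon ⟨ψ, hψ.symm⟩
  obtain ⟨g, hg1, hg2⟩ := Submodule.exists_le_ker_of_notMem hnot
  obtain ⟨w, hw⟩ : ∃ w : Fin m → K, ∀ y, g y = w ⬝ᵥ y := by
    refine ⟨fun i => g (Pi.single i 1), fun y => ?_⟩
    rw [dotProduct]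
    conv_lhs => rw [← Finset.univ_sum_single y, map_sum]
    refine Finset.sum_congr rfl fun i _ => ?_
    have : Pi.single i (y i) = y i • (Pi.single i (1 : K) : Fin m → K) := by
      rw [← Pi.single_smul', smul_eq_mul, mul_one]
    rw [this, map_smul, smul_eq_mul, mul_comm]
  have h1 : G *ᵥ w = 0 := by
    have h2 : Gᵀ *ᵥ w = 0 := by
      funext i
      have h3 : g (G *ᵥ Pi.single i 1) = 0 := hg2 ⟨Pi.single i 1, rfl⟩
      rw [hw, dotProduct_comm, dot_T, single_one_dotProduct] at h3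
      exact h3
    rw [hG, neg_mulVec, neg_eq_zero] at h2
    exact h2
  apply hg1
  rw [hw, dotProduct_comm]
  exact h w h1

theorem Gn_le_FR {n1 n2 : ℕ} {A1 : Matrix (Fin n1) (Fin n1) K} {A2 : Matrix (Fin n2) (Fin n2) K}
    {R1 : Submodule K (Fin n1 → K)} {R2 : Submodule K (Fin n2 → K)} {l : ℕ} :
    Gn A1 A2 R1 R2 l ≤ FR A2 A1 R2 R1 l := by
  refine Submodule.span_le.2 ?_
  rintro X (⟨i, j, y, z, h, rfl⟩ | ⟨r, hr, z, rfl⟩ | ⟨y, r, hr, rfl⟩)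
  · exact Submodule.subset_span (Or.inl ⟨i, j, y, z, h, rfl⟩)
  · exact Submodule.subset_span (Or.inr (Or.inl ⟨r, hr, z, rfl⟩))
  · exact Submodule.subset_span (Or.inr (Or.inr ⟨y, r, hr, rfl⟩))

theorem FR_tr {n1 n2 : ℕ} {A1 : Matrix (Fin n1) (Fin n1) K} {A2 : Matrix (Fin n2) (Fin n2) K}
    {R1 : Submodule K (Fin n1 → K)} {R2 : Submodule K (Fin n2 → K)} {l : ℕ}
    {X : Matrix (Fin n2) (Fin n1) K} (hX : X ∈ FR A2 A1 R2 R1 l) : Xᵀ ∈ FR A1 A2 R1 R2 l := by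
  induction hX using Submodule.span_induction with
  | mem M hM =>
    rcases hM with ⟨i, j, x, y, hij, rfl⟩ | ⟨r, hr, y, rfl⟩ | ⟨x, r, hr, rfl⟩
    · rw [transpose_vecMulVec]
      exact Submodule.subset_span (Or.inl ⟨j, i, y, x, by omega, rfl⟩)
    · rw [transpose_vecMulVec]
      exact Submodule.subset_span (Or.inr (Or.inr ⟨y, r, hr, rfl⟩))
    · rw [transpose_vecMulVec]
      exact Submodule.subset_span (Or.inr (Or.inl ⟨r, hr, x, rfl⟩))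
  | zero => rw [transpose_zero]; exact Submodule.zero_mem _
  | add X Y _ _ h1 h2 => rw [transpose_add]; exact Submodule.add_mem _ h1 h2
  | smul c X _ h1 => rw [transpose_smul]; exact Submodule.smul_mem _ _ h1

variable {ν ν' : K} {n1 n2 m1 m2 : ℕ} {Q1 : Matrix ι (Fin n1) K}
  {A1 : Fin 3 → Matrix (Fin n1) (Fin n1) K} {Q2 : Matrix ι (Fin n2) K}
  {A2 : Fin 3 → Matrix (Fin n2) (Fin n2) K} {U1 : Matrix δ (Fin m1) K} {U2 : Matrix δ (Fin m2) K}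
  {a1 : Fin 3 → Matrix (Fin m1) (Fin m1) K} {a2 : Fin 3 → Matrix (Fin m2) (Fin m2) K}
  {C1 : Matrix (Fin n1) (Fin m1) K} {C2 : Matrix (Fin n2) (Fin m2) K}

/-- **a family with radical arms is filtered** (arm clause of `SDec.Dec`) -/
theorem filt_of_arm [IsAlgClosed K] (S : Setup arm J B N W F f P R D l)
    (u1 : FU J F P.1 Q1 A1 U1 a1 C1) (b1 : BPkg arm J B F R P.1 D ν l Q1 A1)
    (u2 : FU J F P.1 Q2 A2 U2 a2 C2) (b2 : BPkg arm J B F R P.1 D ν' l Q2 A2) (s : Fin 3) {c : K}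
    {X : Matrix (Fin m2) (Fin m1) K}
    (harm : (U2ᵀ * (Fᵀ * J * (P.1 * F)) * U2) * (X * (a1 s)ᵀ - c • (a2 s * X)) *
      (U1ᵀ * (Fᵀ * J * (P.1 * F)) * U1) = 0) :
    X ∈ FR (a2 s) (a1 s) (rad (Fᵀ * J * (P.1 * F)) U2) (rad (Fᵀ * J * (P.1 * F)) U1) (l s) := by
  have hsk : (Fᵀ * J * (P.1 * F))ᵀ = -(Fᵀ * J * (P.1 * F)) :=
    SUX.th_skew (ctx S) S.hP (ctx S).mem
  have hG1 : (U1ᵀ * (Fᵀ * J * (P.1 * F)) * U1)ᵀ = -(U1ᵀ * (Fᵀ * J * (P.1 * F)) * U1) := by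
    rw [transpose_mul, transpose_mul, hsk, transpose_transpose]
    simp only [Matrix.mul_neg, Matrix.neg_mul, Matrix.mul_assoc]
  apply Gn_le_FR
  refine exact_mem (c := -c) (fun r hr => u1.st b1 s hr) (fun r hr => u2.st b2 s hr)
    (fun y => u2.pw b2 s y) (fun v hv y hy => u1.free S b1 s hv hy) (fun φ hφ => ?_)
  obtain ⟨ψ, rfl⟩ := skew_range hG1 (fun r hr => hφ r (mem_rad.2 hr))
  rw [mem_rad]
  have e : X * (a1 s)ᵀ + -c • (a2 s * X) = X * (a1 s)ᵀ - c • (a2 s * X) := by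
    rw [neg_smul, sub_eq_add_neg]
  rw [e, mulVec_mulVec, mulVec_mulVec, harm, zero_mulVec]

theorem FU.gU_mulVec (c : FU J F X Q A U a C) (x : Fin m → K) :
    (F * U) *ᵥ x = Q *ᵥ (C *ᵥ x) := by rw [c.gU, mulVec_mulVec]

theorem FU.rd {ν : K} (c : FU J F P.1 Q A U a C) (b : BPkg arm J B F R P.1 D ν l Q A)
    {x : Fin m → K} (hx : x ∈ rad (Fᵀ * J * (P.1 * F)) U) :
    (F * U) *ᵥ x ∈ Rd (J * P.1) (SLev0.PbK arm J B F R P.1 D ν) := by
  rw [c.mem] at hx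
  rw [c.gU_mulVec]
  refine ⟨SLev0.coord_mem b _, fun y hy => ?_⟩
  obtain ⟨z, rfl⟩ := SLev0.exists_coord b hy
  have e : (Q *ᵥ z) ⬝ᵥ ((J * P.1) *ᵥ (Q *ᵥ (C *ᵥ x))) =
      z ⬝ᵥ ((Qᵀ * (J * P.1) * Q) *ᵥ (C *ᵥ x)) := by
    rw [dot_T]
    congr 1
    simp only [mulVec_mulVec, Matrix.mul_assoc]
  rw [e, hx, dotProduct_zero]

/-- **filtered tensors are good** -/
theorem img (u1 : FU J F P.1 Q1 A1 U1 a1 C1) (b1 : BPkg arm J B F R P.1 D ν l Q1 A1)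
    (u2 : FU J F P.1 Q2 A2 U2 a2 C2) (b2 : BPkg arm J B F R P.1 D ν' l Q2 A2)
    {QQ : Submodule K (Matrix ι δ K)}
    (hG : SLev0.Gens arm J B F P.1 l QQ (SLev0.PbK arm J B F R P.1 D ν')
      (SLev0.PbK arm J B F R P.1 D ν)) (s : Fin 3) {X : Matrix (Fin m2) (Fin m1) K}
    (hX : X ∈ FR (a2 s) (a1 s) (rad (Fᵀ * J * (P.1 * F)) U2) (rad (Fᵀ * J * (P.1 * F)) U1)
      (l s)) :
    F * (U2 * X * U1ᵀ) * (Fᵀ * J * (P.1 * F)) * E K arm s ∈ QQ := by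
  refine SL2g560.img_mem (η := J * P.1) (by simp only [Matrix.mul_assoc]) ?_ ?_ ?_ hX
  · intro i j hij x y
    rw [u2.gU_mulVec, u1.gU_mulVec, u2.pow, u1.pow, ← SLev0.pow_act b2, ← SLev0.pow_act b1]
    exact hG.g1 s i j hij _ (SLev0.coord_mem b2 _) _ (SLev0.coord_mem b1 _)
  · intro r hr y
    rw [u1.gU_mulVec]
    exact hG.g2 s _ (u2.rd b2 hr) _ (SLev0.coord_mem b1 _)
  · intro x r hr
    rw [u2.gU_mulVec]
    exact hG.g3 s _ (SLev0.coord_mem b2 _) _ (u1.rd b1 hr)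

/-- **the 12-part** -/
theorem part12 (u1 : FU J F P.1 Q1 A1 U1 a1 C1) (b1 : BPkg arm J B F R P.1 D ν l Q1 A1)
    (u2 : FU J F P.1 Q2 A2 U2 a2 C2) (b2 : BPkg arm J B F R P.1 D ν' l Q2 A2)
    {QQ : Submodule K (Matrix ι δ K)}
    (hG : SLev0.Gens arm J B F P.1 l QQ (SLev0.PbK arm J B F R P.1 D ν)
      (SLev0.PbK arm J B F R P.1 D ν')) (s : Fin 3) {X : Matrix (Fin m2) (Fin m1) K}
    (hX : X ∈ FR (a2 s) (a1 s) (rad (Fᵀ * J * (P.1 * F)) U2) (rad (Fᵀ * J * (P.1 * F)) U1)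
      (l s)) :
    F * (U1 * Xᵀ * U2ᵀ) * (Fᵀ * J * (P.1 * F)) * E K arm s ∈ QQ :=
  img u2 b2 u1 b1 hG s (FR_tr hX)

/-- **the 21-part** -/
theorem part21 (u1 : FU J F P.1 Q1 A1 U1 a1 C1) (b1 : BPkg arm J B F R P.1 D ν l Q1 A1)
    (u2 : FU J F P.1 Q2 A2 U2 a2 C2) (b2 : BPkg arm J B F R P.1 D ν' l Q2 A2)
    {QQ : Submodule K (Matrix ι δ K)}
    (hG : SLev0.Gens arm J B F P.1 l QQ (SLev0.PbK arm J B F R P.1 D ν')
      (SLev0.PbK arm J B F R P.1 D ν))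
    {H : Matrix ι δ K} {Pt : Matrix ι ι K × (Fin 3 → Matrix ι ι K)} {c1 c2 : K}
    {Y : Fin 3 → Matrix δ δ K} {d : Derivation ℂ K K} {Γ1 : Matrix (Fin m1) (Fin m1) K}
    {Γ2 : Matrix (Fin m2) (Fin m2) K} {β : Matrix (Fin m1) (Fin m2) K}
    {γ : Matrix (Fin m2) (Fin m1) K} (h : Ctx ℂ arm J B N W H) (hP : Pt ∈ NN arm J N H)
    (m : Mv ℂ arm J N W H Pt.1 Y d)
    (fr : Fr J F H Pt.1 (Fᵀ * J * (P.1 * F)) c1 c2 U1 U2)
    {X' : Fin 3 → Matrix (Fin m2) (Fin m1) K}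
    (hY : ∀ s, ∀ v ∈ W, v * Y s * Hᵀ = v * (U2 * X' s * U1ᵀ + U1 * (X' s)ᵀ * U2ᵀ) * Hᵀ)
    (hN2 : ∀ v ∈ W, v * (U2.map d + ZY arm J H Pt.1 Y * U2) =
      v * (U2 * Γ2 + c2 ^ 2 • (U1 * β)))
    (hN1 : ∀ v ∈ W, v * (U1.map d + ZY arm J H Pt.1 Y * U1) =
      v * (U1 * Γ1 + c1 ^ 2 • (U2 * γ)))
    (hF : F ∈ W)
    (ha1 : ∀ s, B * E K arm s * (Fᵀ * J * (P.1 * F)) * U1 = U1 * a1 s)
    (ha2 : ∀ s, B * E K arm s * (Fᵀ * J * (P.1 * F)) * U2 = U2 * a2 s) (s : Fin 3)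
    {X Xp : Matrix (Fin m2) (Fin m1) K}
    (hX : X ∈ FR (a2 s) (a1 s) (rad (Fᵀ * J * (P.1 * F)) U2) (rad (Fᵀ * J * (P.1 * F)) U1)
      (l s))
    (hXp : Xp ∈ FR (a2 s) (a1 s) (rad (Fᵀ * J * (P.1 * F)) U2) (rad (Fᵀ * J * (P.1 * F)) U1)
      (l s)) (e1 e2 e3 : K) :
    F * (U2 * (Γ2 * X + X.map d + X * (Γ1 - e1 • (1 : Matrix (Fin m1) (Fin m1) K))ᵀ - e2 • X +
      e3 • Xp) * U1ᵀ) * (Fᵀ * J * (P.1 * F)) * E K arm s ∈ QQ := by
  have h1 := SL2g560.fr_nab h hP m fr hY hN2 hN1 hF (M0 := Fᵀ * J * P.1)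
    (by simp only [Matrix.mul_assoc]) ha1 ha2 hX
  apply img u1 b1 u2 b2 hG s
  have e : Γ2 * X + X.map d + X * (Γ1 - e1 • (1 : Matrix (Fin m1) (Fin m1) K))ᵀ - e2 • X +
      e3 • Xp = (Γ2 * X + X.map d + X * Γ1ᵀ) - (e1 + e2) • X + e3 • Xp := by
    rw [transpose_sub, transpose_smul, transpose_one, Matrix.mul_sub, Matrix.mul_smul,
      Matrix.mul_one, add_smul]
    abel
  rw [e]
  exact Submodule.add_mem _ (Submodule.sub_mem _ h1 (Submodule.smul_mem _ _ hX))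
    (Submodule.smul_mem _ _ hXp)

/-- the frame data from `SInst.exists_C` -/
theorem exists_FU [IsAlgClosed K] (S : Setup arm J B N W F f P R D l)
    (b : BPkg arm J B F R P.1 D ν l Q A) (hU : UFr.Cq (QQb S ν) U)
    (hspan : ∀ u ∈ QQb S ν, ∃ x, u = U *ᵥ x) (hmem : ∀ x, U *ᵥ x ∈ QQb S ν)
    (ha : ∀ s, B * E K arm s * (Fᵀ * J * (P.1 * F)) * U = U * a s) :
    ∃ C : Matrix (Fin n) (Fin m) K, FU J F P.1 Q A U a C := by
  obtain ⟨C, h1, h2, h3, -, h5⟩ := SInst.exists_C S b hU hspan hmem ha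
  exact ⟨C, h1, h2, h3, h5⟩

end frame

end Crest.Agent.R172.SB4x
end

-- ▼ part R172/SGeo612

/-!
Row 172 (S0260), (t2), level 2: the geometric half `SDec.Geo22` (copy of helper612).
-/

set_option autoImplicit false
set_option linter.unusedSectionVars false
set_option linter.unusedVariables false
set_option maxHeartbeats 1600000

namespace Crest.Agent.R172.SGeo612

open Matrix Module Crest.Agent.R172.FO Crest.Agent.R172.Qt Crest.Agent.R172.SpS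
open Crest.Agent.R172.SEnd2 (PC PhS)
open Crest.Agent.R172.SUX
open Crest.Agent.R172.PL (CoreM Ainf)
open Crest.Agent.R172.Om (Kiso)
open Crest.Agent.R172.UBlk (Qb om cov)
open Crest.Agent.R172.UFr (Cq)
open Crest.Agent.R172.STop (Setup)
open Crest.Agent.R172.SCM (BPkg)
open Crest.Agent.R172.SDec (Dec Rel2 ZB)
open Crest.Agent.R172.SMv16 (Yf)

variable {ι : Type} [Fintype ι] [DecidableEq ι] {δ : Type} [Fintype δ] [DecidableEq δ]
variable {K : Type} [Field K] [Algebra ℂ K] [IsAlgClosed K]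
variable {arm : δ → Fin 3} {J : Matrix ι ι K} {B : Matrix δ δ K}
  {N W : Submodule K (Matrix ι δ K)} {F f : Matrix ι δ K}
  {P : Matrix ι ι K × (Fin 3 → Matrix ι ι K)} {R : Matrix δ ι K}
  {D : End K (CoreM (PhS arm J B F R P.1))} {l : Fin 3 → ℕ}
  {ν ν' : K} {m1 m2 : ℕ} {U1 : Matrix δ (Fin m1) K} {U2 : Matrix δ (Fin m2) K}
  {a1 : Fin 3 → Matrix (Fin m1) (Fin m1) K} {a2 : Fin 3 → Matrix (Fin m2) (Fin m2) K}

/-- data at a good parameter -/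
structure At (S : Setup arm J B N W F f P R D l) (dY : Derivation ℂ K K) (ν ν' : K) (t : ℂ)
    (Pt : Matrix ι ι K × (Fin 3 → Matrix ι ι K)) : Prop where
  mem : Pt ∈ NN arm J N (F + (algebraMap ℂ K t) • f)
  vert : Vert ℂ arm J N W (F + (algebraMap ℂ K t) • f) Pt
  hY : ∀ f' ∈ N ⊓ W, (F + (algebraMap ℂ K t) • f)ᵀ * J * (Pt.1 * f') =
          (F + (algebraMap ℂ K t) • f)ᵀ * J * f'.map dY
  hPF : (F + (algebraMap ℂ K t) • f)ᵀ * J * (Pt.1 * F) =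
          (F + (algebraMap ℂ K t) • f)ᵀ * J * (P.1 * F)
  row : ∀ w : Matrix ι δ K, (F + (algebraMap ℂ K t) • f)ᵀ * J * w = 0 →
          (Pt.1 * (F + (algebraMap ℂ K t) • f))ᵀ * J * w =
            -((F + (algebraMap ℂ K t) • f)ᵀ * J * w.map dY)
  ainf : Ainf (om arm J B (F + (algebraMap ℂ K t) • f) Pt.1 (F + (algebraMap ℂ K t) • f)) ≤
    Ainf (om arm J B F P.1 F)
  hc : ∀ κ, ((cov (S.hCtx F S.hF).data S.hR P.1).D D).maxGenEigenspace κ ≠ ⊥ →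
    1 + algebraMap ℂ K t * κ ≠ 0
  hom : SNab.Hom0 (om arm J B F P.1 F) ((cov (S.hCtx F S.hF).data S.hR P.1).D D)
    (fun κ => (1 + algebraMap ℂ K t * κ) ^ 2)
  t0 : t ≠ 0
  c1 : 1 + algebraMap ℂ K t * ν ≠ 0
  c2 : 1 + algebraMap ℂ K t * ν' ≠ 0

/-- the two frames -/
structure Frm (S : Setup arm J B N W F f P R D l) (ν ν' : K) (U1 : Matrix δ (Fin m1) K)
    (U2 : Matrix δ (Fin m2) K) (a1 : Fin 3 → Matrix (Fin m1) (Fin m1) K)
    (a2 : Fin 3 → Matrix (Fin m2) (Fin m2) K) : Prop where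
  ne : ν ≠ ν'
  hU1 : Cq (Qb (S.hCtx F S.hF).data S.hR P.1 D ν) U1
  hs1 : ∀ u ∈ Qb (S.hCtx F S.hF).data S.hR P.1 D ν, ∃ x, u = U1 *ᵥ x
  hi1 : ∀ x, U1 *ᵥ x = 0 → x = 0
  ha1 : ∀ s, B * E K arm s * (Fᵀ * J * (P.1 * F)) * U1 = U1 * a1 s
  hU2 : Cq (Qb (S.hCtx F S.hF).data S.hR P.1 D ν') U2
  hs2 : ∀ u ∈ Qb (S.hCtx F S.hF).data S.hR P.1 D ν', ∃ x, u = U2 *ᵥ x
  hi2 : ∀ x, U2 *ᵥ x = 0 → x = 0
  ha2 : ∀ s, B * E K arm s * (Fᵀ * J * (P.1 * F)) * U2 = U2 * a2 s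

theorem kH (S : Setup arm J B N W F f P R D l) (t : K) : F + t • f ∈ Kiso J N W :=
  (Kiso J N W).add_mem S.hF ((Kiso J N W).smul_mem _ S.hf)

/-- a move with everything -/
structure Mo (S : Setup arm J B N W F f P R D l) (ν ν' : K) (U1 : Matrix δ (Fin m1) K)
    (U2 : Matrix δ (Fin m2) K) (t : ℂ) (Pt : Matrix ι ι K × (Fin 3 → Matrix ι ι K))
    (X : Fin 3 → Matrix (Fin m2) (Fin m1) K) (d : Derivation ℂ K K)
    (Γ1 : Matrix (Fin m1) (Fin m1) K) (Γ2 : Matrix (Fin m2) (Fin m2) K)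
    (β : Matrix (Fin m1) (Fin m2) K) (γ : Matrix (Fin m2) (Fin m1) K) : Prop where
  mv : Mv ℂ arm J N W (F + (algebraMap ℂ K t) • f) Pt.1 (Yf U1 U2 X) d
  n2 : U2.map d + ZY arm J (F + (algebraMap ℂ K t) • f) Pt.1 (Yf U1 U2 X) * U2 =
    U2 * Γ2 + (1 + algebraMap ℂ K t * ν') ^ 2 • (U1 * β)
  n1 : U1.map d + ZY arm J (F + (algebraMap ℂ K t) • f) Pt.1 (Yf U1 U2 X) * U1 =
    U1 * Γ1 + (1 + algebraMap ℂ K t * ν) ^ 2 • (U2 * γ)
  n3 : ∀ κ, κ ≠ ν → κ ≠ ν' → ∀ u ∈ Qb (S.hCtx F S.hF).data S.hR P.1 D κ,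
    SUB.nab arm J (F + (algebraMap ℂ K t) • f) Pt.1 (Yf U1 U2 X) d u ∈
      Qb (S.hCtx F S.hF).data S.hR P.1 D κ

theorem exists_mo (S : Setup arm J B N W F f P R D l) {dY : Derivation ℂ K K}
    (fr : Frm S ν ν' U1 U2 a1 a2) {t : ℂ} {Pt : Matrix ι ι K × (Fin 3 → Matrix ι ι K)}
    (A : At S dY ν ν' t Pt) {r : K}
    (hr : r = (1 + algebraMap ℂ K t * ν') / (1 + algebraMap ℂ K t * ν))
    {X : Fin 3 → Matrix (Fin m2) (Fin m1) K}
    (hsum : ∑ s, (X s * (a1 s)ᵀ - (-(r ^ 2)) • (a2 s * X s)) = 0)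
    (harm : ∀ s, (U2ᵀ * (Fᵀ * J * (P.1 * F)) * U2) * (X s * (a1 s)ᵀ - (-(r ^ 2)) • (a2 s * X s)) *
          (U1ᵀ * (Fᵀ * J * (P.1 * F)) * U1) = 0) :
    ∃ d Γ1 Γ2 β γ, Mo S ν ν' U1 U2 t Pt X d Γ1 Γ2 β γ ∧
      Dec F (Fᵀ * J * (P.1 * F)) U1 U2 a1 a2 (-(r ^ 2)) (X, β, γ) ∧ ZB F U1 U2 (X, β, γ) := by
  have hH := S.hCtx _ (kH S (algebraMap ℂ K t))
  obtain ⟨hfr, hk⟩ := SInst896.fr_k1 S fr.ne fr.hU1 fr.hU2 A.hY A.hPF A.c1 A.c2
  obtain ⟨Ri, hRi⟩ := SInf266.exists_ginv (F + (algebraMap ℂ K t) • f)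
  obtain ⟨d, m⟩ := SMv16.exists_mv hH SInst896.two_ne' hRi A.mem A.vert hfr fr.ha1 fr.ha2 hr hsum
  have hc1 := A.c1
  have hc2 := A.c2
  obtain ⟨i1, i2, i3⟩ := SNabI.B1 (S.hCtx F S.hF) S.hR S.hD (S.hNil F S.hF) S.hP S.hf.1
    (SInst896.ff S) hH A.mem A.hY A.hPF A.ainf A.hc A.hom SMv16.Yf_symm m fr.ne fr.hU1 fr.hU2
    fr.hs1 fr.hs2 fr.ha1 fr.ha2 (fun _ => rfl) (fun s => by
      have h1 := harm s
      have h2 : (1 + algebraMap ℂ K t * ν) ^ 2 • (X s * (a1 s)ᵀ) +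
          (1 + algebraMap ℂ K t * ν') ^ 2 • (a2 s * X s) =
          (1 + algebraMap ℂ K t * ν) ^ 2 • (X s * (a1 s)ᵀ - (-(r ^ 2)) • (a2 s * X s)) := by
        rw [hr, smul_sub, smul_smul, neg_eq_neg_one_mul, ← mul_assoc]
        have : (1 + algebraMap ℂ K t * ν) ^ 2 * -1 *
            ((1 + algebraMap ℂ K t * ν') / (1 + algebraMap ℂ K t * ν)) ^ 2 =
            -((1 + algebraMap ℂ K t * ν') ^ 2) := by
          field_simp
        rw [this, neg_smul, sub_neg_eq_add]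
      rw [h2, Matrix.mul_smul, Matrix.smul_mul, h1, smul_zero])
  have hne : (1 + algebraMap ℂ K t * ν) ≠ (1 + algebraMap ℂ K t * ν') := SMv16.c_ne A.t0 fr.ne
  obtain ⟨Γ1, Γ2, β, γ, hN2, hN1, hdec⟩ := SB2H16.dec_of_B1 (J := J) hH A.mem m hfr hne
    fr.hU1 fr.hs1 fr.ha1 (fun u hu => by
      obtain ⟨c, hc, hs⟩ := UBlk.Qb_exists (S.hCtx F S.hF) S.hR S.hD hu
      exact ⟨c, hc, hs⟩)
    fr.hU2 fr.hs2 fr.ha2 (fun u hu => by
      obtain ⟨c, hc, hs⟩ := UBlk.Qb_exists (S.hCtx F S.hF) S.hR S.hD hu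
      exact ⟨c, hc, hs⟩)
    (fun _ => rfl) i1 i2 hr hsum harm
  refine ⟨d, Γ1, Γ2, β, γ, ⟨m, hN2, hN1, i3⟩, hdec, ?_, ?_⟩
  · exact SZb978.zb hH.memW m.dH hfr (fun v _ => by rw [hN2])
  · exact SZb978.zk hH.memW m.dH hfr (fun v _ => by rw [hN1])

theorem hcQ (S : Setup arm J B N W F f P R D l) {dY : Derivation ℂ K K} {t : ℂ}
    {Pt : Matrix ι ι K × (Fin 3 → Matrix ι ι K)} (A : At S dY ν ν' t Pt) (κ : K)
    (hb : Qb (S.hCtx F S.hF).data S.hR P.1 D κ ≠ ⊥) : 1 + algebraMap ℂ K t * κ ≠ 0 :=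
  A.hc κ fun h0 => hb (STop.PB_bot ((cov (S.hCtx F S.hF).data S.hR P.1).D_comm S.hD.2) h0)

/-- the submodule of the third block values -/
def W3 (S : Setup arm J B N W F f P R D l) (ν ν' : K) : Submodule K (Matrix ι δ K) where
  carrier := {w | w ∈ W ∧ ∀ κ, κ ≠ ν → κ ≠ ν' → ∃ μ : K,
    ∀ u ∈ Qb (S.hCtx F S.hF).data S.hR P.1 D κ, w *ᵥ u = μ • (F *ᵥ u)}
  zero_mem' := ⟨W.zero_mem, fun κ _ _ => ⟨0, fun u _ => by simp⟩⟩
  add_mem' := by
    rintro w w' ⟨h1, h2⟩ ⟨h1', h2'⟩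
    refine ⟨W.add_mem h1 h1', fun κ hκ hκ' => ?_⟩
    obtain ⟨m, hm⟩ := h2 κ hκ hκ'
    obtain ⟨m', hm'⟩ := h2' κ hκ hκ'
    exact ⟨m + m', fun u hu => by rw [add_mulVec, hm u hu, hm' u hu, add_smul]⟩
  smul_mem' := by
    rintro c w ⟨h1, h2⟩
    refine ⟨W.smul_mem c h1, fun κ hκ hκ' => ?_⟩
    obtain ⟨m, hm⟩ := h2 κ hκ hκ'
    exact ⟨c * m, fun u hu => by rw [smul_mulVec, hm u hu, smul_smul]⟩

theorem third_val (S : Setup arm J B N W F f P R D l) {a : K}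
    {Pt : Matrix ι ι K × (Fin 3 → Matrix ι ι K)}
    {Y : Fin 3 → Matrix δ δ K} {d : Derivation ℂ K K}
    (m : Mv ℂ arm J N W (F + a • f) Pt.1 Y d) {κ μ : K} (hc : 1 + a * κ ≠ 0)
    (hN3 : ∀ u ∈ Qb (S.hCtx F S.hF).data S.hR P.1 D κ, SUB.nab arm J (F + a • f) Pt.1 Y d u ∈
      Qb (S.hCtx F S.hF).data S.hR P.1 D κ) {w : Matrix ι δ K}
    (L3 : ∀ u ∈ Qb (S.hCtx F S.hF).data S.hR P.1 D κ, w *ᵥ u = μ • (F *ᵥ u)) {u : δ → K}
    (hu : u ∈ Qb (S.hCtx F S.hF).data S.hR P.1 D κ) :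
    wd arm J (F + a • f) Pt.1 Y d w *ᵥ u = (d μ - μ * (d (1 + a * κ) / (1 + a * κ))) • (F *ᵥ u) := by
  have hu' := hN3 u hu
  have hh : ∀ v ∈ Qb (S.hCtx F S.hF).data S.hR P.1 D κ, (F + a • f) *ᵥ v =
      (1 + a * κ) • (F *ᵥ v) := fun v hv =>
    UBlk.Qb_H (S.hCtx F S.hF) S.hR S.hD (S.hNil F S.hF) S.hP S.hf.1 hv
  have a1 := SUB.H_nab m u
  rw [hh _ hu, hh _ hu', SUB.dv_smul] at a1
  have a2 : dv d (F *ᵥ u) = F *ᵥ SUB.nab arm J (F + a • f) Pt.1 Y d u -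
      (d (1 + a * κ) / (1 + a * κ)) • (F *ᵥ u) := by
    have a3 : (1 + a * κ) • dv d (F *ᵥ u) =
        (1 + a * κ) • (F *ᵥ SUB.nab arm J (F + a • f) Pt.1 Y d u) -
          d (1 + a * κ) • (F *ᵥ u) := eq_sub_of_add_eq a1
    have a4 := congrArg (fun x => (1 + a * κ)⁻¹ • x) a3
    simp only [smul_smul, smul_sub, inv_mul_cancel₀ hc, one_smul] at a4
    rw [a4, div_eq_inv_mul]
  have a5 := SUB.F_nab (arm := arm) (J := J) (H := F + a • f) (Y := Y) (d := d) Pt.1 w u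
  rw [L3 u hu, L3 _ hu', SUB.dv_smul, a2] at a5
  have a6 : wd arm J (F + a • f) Pt.1 Y d w *ᵥ u =
      (μ • (F *ᵥ SUB.nab arm J (F + a • f) Pt.1 Y d u - (d (1 + a * κ) / (1 + a * κ)) •
        (F *ᵥ u)) + d μ • (F *ᵥ u)) - μ • (F *ᵥ SUB.nab arm J (F + a • f) Pt.1 Y d u) := by
    rw [a5]; abel
  rw [a6]
  module

theorem hrowA (S : Setup arm J B N W F f P R D l) {dY : Derivation ℂ K K} {t : ℂ}
    {Pt : Matrix ι ι K × (Fin 3 → Matrix ι ι K)} (A : At S dY ν ν' t Pt) {w : Matrix ι δ K}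
    (hw : (F + (algebraMap ℂ K t) • f)ᵀ * J * w = 0) :
    (F + (algebraMap ℂ K t) • f)ᵀ * J * (Pt.1 * w) =
      (F + (algebraMap ℂ K t) • f)ᵀ * J * w.map dY := by
  have h1 := A.row w hw
  rw [SRow.skw_tr A.mem.1] at h1
  exact neg_injective h1

/-- **first level with third blocks** -/
theorem first_in (S : Setup arm J B N W F f P R D l) {dY : Derivation ℂ K K}
    (fr : Frm S ν ν' U1 U2 a1 a2) {t : ℂ} {Pt : Matrix ι ι K × (Fin 3 → Matrix ι ι K)}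
    (A : At S dY ν ν' t Pt) {X : Fin 3 → Matrix (Fin m2) (Fin m1) K} {d : Derivation ℂ K K}
    {Γ1 : Matrix (Fin m1) (Fin m1) K} {Γ2 : Matrix (Fin m2) (Fin m2) K}
    {β : Matrix (Fin m1) (Fin m2) K} {γ : Matrix (Fin m2) (Fin m1) K}
    (mo : Mo S ν ν' U1 U2 t Pt X d Γ1 Γ2 β γ) :
    I1 arm F (Fᵀ * J * (P.1 * F)) U1 U2 (X, β, γ) +
      ((1 + algebraMap ℂ K t * ν') / (1 + algebraMap ℂ K t * ν)) •
        I2 arm F (Fᵀ * J * (P.1 * F)) U1 U2 (X, β, γ) ∈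
      QQ5 J N (W3 S ν ν') F f dY (Fᵀ * J * (P.1 * F)) U1 U2 := by
  have hH := S.hCtx _ (kH S (algebraMap ℂ K t))
  obtain ⟨hfr, hk⟩ := SInst896.fr_k1 S fr.ne fr.hU1 fr.hU2 A.hY A.hPF A.c1 A.c2
  have hqm : (ν - ν')⁻¹ • (f - ν' • F) ∈ N ⊓ W :=
    (N ⊓ W).smul_mem _ ((N ⊓ W).sub_mem S.hf.1 ((N ⊓ W).smul_mem _ S.hF.1))
  have hqp := hH.perp _ hqm
  have hG : ∀ r, ((ν - ν')⁻¹ • (f - ν' • F)) * Yf U1 U2 X r = (F + (algebraMap ℂ K t) • f) *
      ((1 + algebraMap ℂ K t * ν)⁻¹ • (U1 * (X r)ᵀ * U2ᵀ)) := by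
    intro r
    have e1 : (F + (algebraMap ℂ K t) • f) *
        ((1 + algebraMap ℂ K t * ν)⁻¹ • (U1 * (X r)ᵀ * U2ᵀ)) = F * U1 * (X r)ᵀ * U2ᵀ := by
      rw [Matrix.mul_smul, ← Matrix.mul_assoc, ← Matrix.mul_assoc, hfr.H1, Matrix.smul_mul,
        Matrix.smul_mul, smul_smul, inv_mul_cancel₀ A.c1, one_smul]
    rw [e1]
    unfold SMv16.Yf
    rw [Matrix.mul_add, ← Matrix.mul_assoc, ← Matrix.mul_assoc, hk.q2, ← Matrix.mul_assoc,
      ← Matrix.mul_assoc, hk.q1, Matrix.zero_mul, Matrix.zero_mul, zero_add]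
  have hpp : ∀ f' ∈ Kiso J N W, f'ᵀ * J * wd arm J (F + (algebraMap ℂ K t) • f) Pt.1
      (Yf U1 U2 X) d ((ν - ν')⁻¹ • (f - ν' • F)) = 0 := fun f' hf' =>
    SPerp72.wd_perp hH mo.mv S.hNm S.hWm hqm.1 hqm.2 hqp hG hf'
  have hn2 : ∀ v ∈ W, v * (U2.map d + ZY arm J (F + (algebraMap ℂ K t) • f) Pt.1
      (Yf U1 U2 X) * U2) = v * (U2 * Γ2 + (1 + algebraMap ℂ K t * ν') ^ 2 • (U1 * β)) :=
    fun v _ => by rw [mo.n2]
  have hn1 : ∀ v ∈ W, v * (U1.map d + ZY arm J (F + (algebraMap ℂ K t) • f) Pt.1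
      (Yf U1 U2 X) * U1) = v * (U1 * Γ1 + (1 + algebraMap ℂ K t * ν) ^ 2 • (U2 * γ)) :=
    fun v _ => by rw [mo.n1]
  refine SUX6w946.first_memC hH A.mem mo.mv hqm hqp hfr hk (fun s v _ => rfl) hn2 hn1
    (hpp F S.hF) (hpp f S.hf) (hrowA S A (hpp _ (kH S _))) ?_
  refine ⟨mo.mv.w_mem hqm.2, fun κ hκ hκ' => ?_⟩
  by_cases hb : Qb (S.hCtx F S.hF).data S.hR P.1 D κ = ⊥
  · refine ⟨0, fun u hu => ?_⟩
    rw [hb, Submodule.mem_bot] at hu
    rw [hu, mulVec_zero, mulVec_zero, smul_zero]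
  · refine ⟨_, fun u hu => third_val S mo.mv (hcQ S A κ hb) (mo.n3 κ hκ hκ')
      (μ := (ν - ν')⁻¹ * (κ - ν')) (fun v hv => ?_) hu⟩
    have h1 := (UBlk.Qb_rel (S.hCtx F S.hF) S.hR S.hD (S.hNil F S.hF) S.hP S.hf.1 hv).1
    rw [smul_mulVec, sub_mulVec, smul_mulVec, h1, ← sub_smul, smul_smul]

theorem S0skew (S : Setup arm J B N W F f P R D l) :
    (Fᵀ * J * (P.1 * F))ᵀ = -(Fᵀ * J * (P.1 * F)) :=
  UBlk.form_skew (S.hCtx F S.hF).data.J_symm S.hP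

/-- invisible parts -/
theorem invis (S : Setup arm J B N W F f P R D l) (fr : Frm S ν ν' U1 U2 a1 a2) {c : K}
    (hc : c ≠ 0) {y y' : D3 K (Fin m1) (Fin m2)}
    (hy : Dec F (Fᵀ * J * (P.1 * F)) U1 U2 a1 a2 c y)
    (hy' : Dec F (Fᵀ * J * (P.1 * F)) U1 U2 a1 a2 c y') (hX : y.1 = y'.1) :
    F * (U1 * (y.2.1 - y'.2.1)) = 0 ∧ (Fᵀ * J * (P.1 * F)) * (U1 * (y.2.1 - y'.2.1)) = 0 ∧
    F * (U2 * (y.2.2 - y'.2.2)) = 0 ∧ (Fᵀ * J * (P.1 * F)) * (U2 * (y.2.2 - y'.2.2)) = 0 := by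
  obtain ⟨⟨h1, h2⟩, h3, h4⟩ := SUniq803.dec_uniq S fr.hU1 fr.hs1 fr.hi1 fr.ha1 fr.hU2 fr.hs2 fr.hi2
    fr.ha2 hc hy hy' hX
  refine ⟨?_, ?_, ?_, ?_⟩
  · rw [Matrix.mul_sub, Matrix.mul_sub, ← Matrix.mul_assoc, ← Matrix.mul_assoc, h1, sub_self]
  · have e := h2 P.1
    rw [Matrix.mul_sub, Matrix.mul_sub, sub_eq_zero]
    simpa only [Matrix.mul_assoc] using e
  · rw [Matrix.mul_sub, Matrix.mul_sub, ← Matrix.mul_assoc, ← Matrix.mul_assoc, h3, sub_self]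
  · have e := h4 P.1
    rw [Matrix.mul_sub, Matrix.mul_sub, sub_eq_zero]
    simpa only [Matrix.mul_assoc] using e

/-- **separation** -/
theorem sep (S : Setup arm J B N W F f P R D l) {dY : Derivation ℂ K K}
    (fr : Frm S ν ν' U1 U2 a1 a2) {Bad : Set ℂ} (hBad : Bad.Finite)
    (hA : ∀ t ∉ Bad, ∃ Pt, At S dY ν ν' t Pt) :
    ∃ S' : Set K, S'.Finite ∧ ∀ c ∉ S', ∀ y, Dec F (Fᵀ * J * (P.1 * F)) U1 U2 a1 a2 c y →
      I1 arm F (Fᵀ * J * (P.1 * F)) U1 U2 y ∈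
        QQ5 J N (W3 S ν ν') F f dY (Fᵀ * J * (P.1 * F)) U1 U2 := by
  have hΛ := SMv16.Lam_infinite (k := ℂ) hBad fr.ne
  have h0 := SMv16.Lam_zero (K := K) Bad ν ν'
  obtain ⟨S', hSf, h⟩ := RJP.par_sep (T := Unit) (SDecP70.alD F (Fᵀ * J * (P.1 * F)) U1 U2 a1)
    (-(SDecP70.beD F (Fᵀ * J * (P.1 * F)) U1 U2 a2))
    (QQ5 J N (W3 S ν ν') F f dY (Fᵀ * J * (P.1 * F)) U1 U2)
    (fun _ => I1 arm F (Fᵀ * J * (P.1 * F)) U1 U2) (fun _ => I2 arm F (Fᵀ * J * (P.1 * F)) U1 U2)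
    hΛ (by
      intro r hr y hy _
      have hd : Dec F (Fᵀ * J * (P.1 * F)) U1 U2 a1 a2 (-(r ^ 2)) y := by
        rw [SDecP70.dec_iff, hy, LinearMap.neg_apply, smul_neg, neg_smul]
      have hr0 : -(r ^ 2) ≠ 0 := neg_ne_zero.2 (pow_ne_zero 2 fun h => h0 (h ▸ hr))
      obtain ⟨t, ht, -, -, hrt⟩ := hr
      obtain ⟨Pt, A⟩ := hA t ht
      obtain ⟨d, Γ1, Γ2, β, γ, mo, hdec, -⟩ := exists_mo S fr A hrt hd.sum hd.arm
      have hm := first_in S fr A mo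
      rw [← hrt] at hm
      obtain ⟨z1, z2, z3, z4⟩ := invis S fr hr0 hd hdec rfl
      obtain ⟨v1, v2⟩ := SDecP70.I_zero (arm := arm) (S0skew S) z1 z2 z3 z4
      have e : y = (y.1, β, γ) + ((0 : Fin 3 → Matrix (Fin m2) (Fin m1) K), y.2.1 - β,
          y.2.2 - γ) := by
        refine Prod.ext ?_ (Prod.ext ?_ ?_)
        · exact (add_zero _).symm
        · exact (add_sub_cancel _ _).symm
        · exact (add_sub_cancel _ _).symm
      change I1 arm F (Fᵀ * J * (P.1 * F)) U1 U2 y + r • I2 arm F (Fᵀ * J * (P.1 * F)) U1 U2 y ∈ _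
      rw [e, map_add, map_add, v1, v2, add_zero, add_zero]
      exact hm)
  refine ⟨(fun c => -c) '' S', hSf.image _, fun c hc y hy => ?_⟩
  refine (h (-c) (fun hcS => hc ⟨-c, hcS, neg_neg c⟩) y ?_ ()).1
  rw [(SDecP70.dec_iff F (Fᵀ * J * (P.1 * F)) U1 U2 a1 a2 c y).1 hy, LinearMap.neg_apply, smul_neg,
    neg_smul, neg_neg]

open Crest.Agent.R172.SLev1h455 (QGd)

/-- **the relation half** -/
theorem rel (S : Setup arm J B N W F f P R D l) {dY : Derivation ℂ K K}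
    (fr : Frm S ν ν' U1 U2 a1 a2) {n1 n2 : ℕ} {Q1 : Matrix ι (Fin n1) K}
    {A1 : Fin 3 → Matrix (Fin n1) (Fin n1) K} {Q2 : Matrix ι (Fin n2) K}
    {A2 : Fin 3 → Matrix (Fin n2) (Fin n2) K} (b1 : BPkg arm J B F R P.1 D ν l Q1 A1)
    (b2 : BPkg arm J B F R P.1 D ν' l Q2 A2) {t : ℂ}
    {Pt : Matrix ι ι K × (Fin 3 → Matrix ι ι K)} (A : At S dY ν ν' t Pt) {c : K}
    {y y' : D3 K (Fin m1) (Fin m2)}
    (hin : I1 arm F (Fᵀ * J * (P.1 * F)) U1 U2 y ∈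
        QQ5 J N (W3 S ν ν') F f dY (Fᵀ * J * (P.1 * F)) U1 U2)
    (hy : Dec F (Fᵀ * J * (P.1 * F)) U1 U2 a1 a2 c y) {r : K}
    (hr : r = (1 + algebraMap ℂ K t * ν') / (1 + algebraMap ℂ K t * ν))
    (hy' : Dec F (Fᵀ * J * (P.1 * F)) U1 U2 a1 a2 (-(r ^ 2)) y') :
    Rel2 arm F (Fᵀ * J * (P.1 * F)) U1 U2 r y y' ∈ QGd S := by
  classical
  have hH := S.hCtx _ (kH S (algebraMap ℂ K t))
  obtain ⟨X, β0, γ0⟩ := y
  obtain ⟨X', β', γ'⟩ := y'
  obtain ⟨w, μ1, μ2, ν1, ν2, cw⟩ := exists_WCls hin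
  obtain ⟨d, Γ1, Γ2, β, γ, mo, hdec, -⟩ := exists_mo S fr A hr hy'.sum hy'.arm
  obtain ⟨hfr, hk⟩ := SInst896.fr_k1 S fr.ne fr.hU1 fr.hU2 A.hY A.hPF A.c1 A.c2
  have hn2 : ∀ v ∈ W, v * (U2.map d + ZY arm J (F + (algebraMap ℂ K t) • f) Pt.1
      (Yf U1 U2 X') * U2) = v * (U2 * Γ2 + (1 + algebraMap ℂ K t * ν') ^ 2 • (U1 * β)) :=
    fun v _ => by rw [mo.n2]
  have hn1 : ∀ v ∈ W, v * (U1.map d + ZY arm J (F + (algebraMap ℂ K t) • f) Pt.1
      (Yf U1 U2 X') * U1) = v * (U1 * Γ1 + (1 + algebraMap ℂ K t * ν) ^ 2 • (U2 * γ)) :=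
    fun v _ => by rw [mo.n1]
  have hm1 := SUniq803.mem_of_Cq fr.hU1
  have hm2 := SUniq803.mem_of_Cq fr.hU2
  obtain ⟨C1, u1⟩ := SB4x.exists_FU S b1 fr.hU1 fr.hs1 hm1 fr.ha1
  obtain ⟨C2, u2⟩ := SB4x.exists_FU S b2 fr.hU2 fr.hs2 hm2 fr.ha2
  have fX := fun s => SB4x.filt_of_arm S u1 b1 u2 b2 s (hy.arm s)
  have fX' := fun s => SB4x.filt_of_arm S u1 b1 u2 b2 s (hy'.arm s)
  obtain ⟨G21, G12⟩ := SLevA455.gens0 S fr.ne b1 b2
  have hHc : ∀ w : Matrix ι δ K, Fᵀ * J * w = 0 → fᵀ * J * w = 0 →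
      (F + (algebraMap ℂ K t) • f)ᵀ * J * w = 0 := by
    intro w h1 h2
    rw [transpose_add, transpose_smul, Matrix.add_mul, Matrix.add_mul, Matrix.smul_mul,
      Matrix.smul_mul, h1, h2, smul_zero, add_zero]
  have hwp := hHc w cw.pF cw.pf
  have hNQ : N ≤ QGd S := SLev0.N_le_QG
  -- the third block values of `w`
  have h3 : ∃ μ : K → K, μ ν = μ1 ∧ μ ν' = μ2 ∧ ∀ κ, κ ≠ ν → κ ≠ ν' →
      ∀ u ∈ Qb (S.hCtx F S.hF).data S.hR P.1 D κ, w *ᵥ u = μ κ • (F *ᵥ u) := by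
    have h4 := cw.mem.2
    choose μ3 hμ3 using h4
    refine ⟨fun κ => if h : κ = ν then μ1 else if h' : κ = ν' then μ2 else μ3 κ h h', ?_, ?_,
      fun κ hκ hκ' u hu => ?_⟩
    · simp
    · simp [fr.ne.symm]
    · simp only [hκ, hκ', dif_neg, not_false_iff]
      exact hμ3 κ hκ hκ' u hu
  obtain ⟨μ, hμ1, hμ2, hμ3⟩ := h3
  have hβ := hdec.rb
  have hγ := hdec.rk
  have hγ0 := hy.rk
  have hwQ : wd arm J (F + (algebraMap ℂ K t) • f) Pt.1 (Yf U1 U2 X') d w ∈ QGd S := by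
    refine SWd275.wd_QG (S.hCtx F S.hF) S.hR S.hD (S.hNil F S.hF) S.hP S.hf.1 hH A.mem mo.mv hfr
      fr.hs1 hm1 fr.hs2 hm2 hn2 hn1 hβ hγ hγ0 (hcQ S A)
      (fun κ hκ hκ' u hu => ⟨_, mo.n3 κ hκ hκ' u hu, fun v _ => rfl⟩) cw.mem.1 hwp (μ := μ)
      ?_ ?_ hμ3 (fun i => le_rfl) ?_
    · rw [hμ1]; exact cw.L1
    · rw [hμ2]; exact cw.L2
    · rw [sub_self]; exact N.zero_mem
  have key := second_mem hH A.mem mo.mv hfr (X' := X') (fun s v _ => rfl) hn2 hn1 S.hF.1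
    (hH.perp F S.hF.1) (W' := W3 S ν ν') (fun w hw => hw.1) hHc
    (fun w _ hw => hrowA S A hw) cw hNQ hwQ
    (Submodule.sum_mem _ fun s _ => SB4x.part21 u1 b1 u2 b2 G21 hH A.mem mo.mv hfr
      (X' := X') (fun s v _ => rfl) hn2 hn1 (S.hF.1.2) fr.ha1 fr.ha2 s (fX s) (fX' s) _ _ _)
    (Submodule.sum_mem _ fun s _ => SB4x.part12 u1 b1 u2 b2 G12 s (fX' s))
  have hr0 : -(r ^ 2) ≠ 0 := by
    rw [hr]
    exact neg_ne_zero.2 (pow_ne_zero 2 (div_ne_zero A.c2 A.c1))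
  obtain ⟨z1, z2, z3, z4⟩ := invis S fr hr0 hdec hy' rfl
  have zz4 : (γ - γ')ᵀ * (U2ᵀ * (Fᵀ * J * (P.1 * F))) = 0 := by
    have h5 := congrArg Matrix.transpose z4
    rw [transpose_mul, transpose_mul, S0skew S, transpose_zero, Matrix.mul_neg, neg_eq_zero,
      Matrix.mul_assoc] at h5
    exact h5
  have e11 : ∀ s, F * A11 (Fᵀ * J * (P.1 * F)) U1 U2 X β0 X' β s * (Fᵀ * J * (P.1 * F)) *
      E K arm s = F * (U1 * (β' * X s - (X' s)ᵀ * (U2ᵀ * (Fᵀ * J * (P.1 * F)) * U2) * X s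
      - (X' s)ᵀ * β0ᵀ) * U1ᵀ) * (Fᵀ * J * (P.1 * F)) * E K arm s := by
    intro s
    have h6 : F * (U1 * (β * X s - (X' s)ᵀ * (U2ᵀ * (Fᵀ * J * (P.1 * F)) * U2) * X s
      - (X' s)ᵀ * β0ᵀ) * U1ᵀ) - F * (U1 * (β' * X s - (X' s)ᵀ * (U2ᵀ * (Fᵀ * J * (P.1 * F)) * U2) *
        X s - (X' s)ᵀ * β0ᵀ) * U1ᵀ) = F * (U1 * (β - β')) * X s * U1ᵀ := by
      simp only [Matrix.mul_sub, Matrix.sub_mul, Matrix.mul_assoc]
      abel
    have h7 : F * (U1 * (β - β')) = 0 := z1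
    rw [h7, Matrix.zero_mul, Matrix.zero_mul, sub_eq_zero] at h6
    unfold SUX.A11
    rw [h6]
  have e22 : ∀ s, F * A22 (Fᵀ * J * (P.1 * F)) U1 U2 X γ0 X' γ s * (Fᵀ * J * (P.1 * F)) *
      E K arm s = F * (U2 * (X s * γ'ᵀ + X s * (U1ᵀ * (Fᵀ * J * (P.1 * F)) * U1) * (X' s)ᵀ
      - γ0 * (X' s)ᵀ) * U2ᵀ) * (Fᵀ * J * (P.1 * F)) * E K arm s := by
    intro s
    have h6 : F * (U2 * (X s * γᵀ + X s * (U1ᵀ * (Fᵀ * J * (P.1 * F)) * U1) * (X' s)ᵀ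
      - γ0 * (X' s)ᵀ) * U2ᵀ) * (Fᵀ * J * (P.1 * F)) - F * (U2 * (X s * γ'ᵀ +
        X s * (U1ᵀ * (Fᵀ * J * (P.1 * F)) * U1) * (X' s)ᵀ
      - γ0 * (X' s)ᵀ) * U2ᵀ) * (Fᵀ * J * (P.1 * F)) =
        F * (U2 * X s) * ((γ - γ')ᵀ * (U2ᵀ * (Fᵀ * J * (P.1 * F)))) := by
      simp only [Matrix.mul_sub, Matrix.sub_mul, Matrix.mul_add, Matrix.add_mul, transpose_sub,
        Matrix.mul_assoc]
      abel
    rw [zz4, Matrix.mul_zero, sub_eq_zero] at h6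
    unfold SUX.A22
    rw [h6]
  rw [Finset.sum_congr rfl fun s _ => e11 s, Finset.sum_congr rfl fun s _ => e22 s, ← hr] at key
  exact key

/-- **LEVEL 2, geometric half.** -/
theorem geo22 : SDec.Geo22 := by
  intro ι _ _ δ _ _ K _ _ _ arm J B N W F f P R D l S ν ν' hne n1 n2 Q1 A1 Q2 A2 b1 b2 m1 m2 U1 U2
    a1 a2 hU1 hs1 hi1 ha1 hU2 hs2 hi2 ha2
  have fr : Frm S ν ν' U1 U2 a1 a2 := ⟨hne, hU1, hs1, hi1, ha1, hU2, hs2, hi2, ha2⟩
  obtain ⟨Y, dY, -, hreal, hform, hfam⟩ := SInst896.family S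
  obtain ⟨S1, hS1, h1⟩ := SInf266.ainf_eq SInst896.two_ne' S.hCtx S.hNm S.hWm S.hNil S.hF S.hf
    S.hV1 S.hP hreal hform
  obtain ⟨S2, hS2, h2⟩ := SNabI.exists_bad (S.hCtx F S.hF) S.hR S.hD SInst896.two_ne'
  have hBad : (S1 ∪ S2 ∪ {0} ∪ {t : ℂ | 1 + algebraMap ℂ K t * ν = 0} ∪
      {t : ℂ | 1 + algebraMap ℂ K t * ν' = 0}).Finite :=
    (((hS1.union hS2).union (Set.finite_singleton 0)).union (SMv16.bad_one ν)).union
      (SMv16.bad_one ν')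
  obtain ⟨Bad, hBdef⟩ : ∃ Bad, Bad = (S1 ∪ S2 ∪ {0} ∪ {t : ℂ | 1 + algebraMap ℂ K t * ν = 0} ∪
      {t : ℂ | 1 + algebraMap ℂ K t * ν' = 0}) := ⟨_, rfl⟩
  rw [← hBdef] at hBad
  have hA : ∀ t ∉ Bad, ∃ Pt, At S dY ν ν' t Pt := by
    intro t ht
    rw [hBdef] at ht
    simp only [Set.mem_union, Set.mem_singleton_iff, Set.mem_setOf_eq, not_or] at ht
    obtain ⟨⟨⟨⟨t1, t2⟩, t3⟩, t4⟩, t5⟩ := ht
    obtain ⟨Pt, q1, q2, q3, q4, q5⟩ := hfam t
    obtain ⟨q6, q7⟩ := h2 t t2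
    exact ⟨Pt, q1, q2, q3, q4, q5, (h1 t t1 Pt q1 q3).le, q6, q7, t3, t4, t5⟩
  obtain ⟨S', hS', hsep⟩ := sep S fr hBad hA
  -- the parameters with `-(r²) ∈ S'`
  have hfin : {r : K | -(r ^ 2) ∈ S'}.Finite := by
    have h3 : {r : K | -(r ^ 2) ∈ S'} ⊆ ⋃ c ∈ S', {r : K | r ^ 2 = -c} := by
      intro r hr
      refine Set.mem_biUnion (show -(r ^ 2) ∈ S' from hr) ?_
      change r ^ 2 = - -(r ^ 2)
      rw [neg_neg]
    refine (hS'.biUnion fun c _ => ?_).subset h3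
    classical
    by_cases hc : ∃ r0 : K, r0 ^ 2 = -c
    · obtain ⟨r0, hr0⟩ := hc
      refine (Set.toFinite ({r0, -r0} : Set K)).subset ?_
      intro r hr
      have h4 : (r - r0) * (r + r0) = 0 := by
        have h5 : r ^ 2 = -c := hr
        linear_combination h5 - hr0
      rcases mul_eq_zero.1 h4 with h5 | h5
      · left; exact sub_eq_zero.1 h5
      · right
        exact eq_neg_of_add_eq_zero_left h5
    · convert Set.finite_empty
      ext r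
      simp only [Set.mem_setOf_eq, Set.mem_empty_iff_false, iff_false]
      exact fun h => hc ⟨r, h⟩
  refine ⟨SMv16.Lam ℂ Bad ν ν' \ {r : K | -(r ^ 2) ∈ S'},
    (SMv16.Lam_infinite hBad hne).diff hfin, fun h => SMv16.Lam_zero Bad ν ν' h.1, ?_, ?_⟩
  · rintro r ⟨⟨t, ht, -, -, hrt⟩, -⟩ X hsum harm
    obtain ⟨Pt, A⟩ := hA t ht
    obtain ⟨d, Γ1, Γ2, β, γ, mo, hdec, hz⟩ := exists_mo S fr A hrt hsum harm
    exact ⟨β, γ, hdec, hz⟩
  · rintro r ⟨-, hrS⟩ r' ⟨⟨t, ht, -, -, hrt⟩, -⟩ y y' hy hy'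
    obtain ⟨Pt, A⟩ := hA t ht
    exact rel S fr b1 b2 A (hsep _ hrS y hy) hy hrt hy'

end Crest.Agent.R172.SGeo612
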