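import Crest.Agent.R172.QBrQ2_Mg
import Crest.Agent.R172.QCore2
import Crest.Agent.R172.QBrP28_Mg
import Crest.Agent.R172.SDesc_Mg
import Crest.Agent.R172.SInst
import Crest.Agent.R172.SDec2_Mg

-- ▼ part R172/QInsQ
section

/-!
Row 172 (S0260), (t3), Q-side: the instance of `QBrQ2.bridgeQ` from the tame pair.
-/

set_option autoImplicit false
set_option linter.unusedSectionVars false
set_option linter.unusedFintypeInType false
set_option linter.unusedDecidableInType false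
set_option maxHeartbeats 800000

namespace Crest.Agent.R172.QHQ

open Matrix Module TensorProduct
open Crest.Agent.R172.FO Crest.Agent.R172.Qt Crest.Agent.R172.Mix Crest.Agent.R172.QC
open Crest.Agent.R172.PushQ (Push)

/-- factorisation of operators through a second space -/
theorem Pinf_le_factor {K X Y τ : Type*} [Field K] [AddCommGroup X] [Module K X]
    [AddCommGroup Y] [Module K Y] [FiniteDimensional K Y] {a : τ → End K X} {b : τ → End K Y}
    (Θ : Y →ₗ[K] X) (ρ : τ → X →ₗ[K] Y) (h1 : ∀ s x, a s x = Θ (ρ s x))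
    (h2 : ∀ s y, ρ s (Θ y) = b s y) : Pinf a ≤ (Pinf b).map Θ := by
  have key : ∀ k, Rg a (k + 1) ≤ (Rg b k).map Θ := by
    intro k
    induction k with
    | zero =>
      rw [Rg_succ]
      refine iSup_le fun s => ?_
      rintro _ ⟨x, -, rfl⟩
      exact ⟨ρ s x, by rw [Rg_zero]; trivial, (h1 s x).symm⟩
    | succ k ih =>
      rw [Rg_succ a (k + 1)]
      refine iSup_le fun s => ?_
      rintro _ ⟨x, hx, rfl⟩
      obtain ⟨y, hy, rfl⟩ := ih hx
      exact ⟨b s y, map_mem_Rg s hy, by rw [h1, h2]⟩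
  obtain ⟨k, hk⟩ := exists_Pinf_eq b
  intro x hx
  have h3 := key k (mem_Pinf.1 hx (k + 1))
  rwa [hk k le_rfl] at h3

variable {ι : Type*} [Fintype ι] [DecidableEq ι] {δ : Type*} [Fintype δ] [DecidableEq δ]
variable {k K : Type*} [Field k] [Field K] [Algebra k K]
variable {arm : δ → Fin 3} {J : Matrix ι ι K} {B : Matrix δ δ K}
  {N W : Submodule K (Matrix ι δ K)} {g f : Matrix ι δ K} {X : Matrix ι ι K}

theorem pinf_At : Pinf (fun t => (QBrQ2.At arm J B g X t).mulVecLin)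
    ≤ LinearMap.range (PQ arm J B g X).subtype := by
  have h1 := Pinf_le_factor (a := fun t => (QBrQ2.At arm J B g X t).mulVecLin)
    (b := PhS arm J B g X) ((gᵀ * J * X).mulVecLin ∘ₗ (Sg g).subtype)
    (fun t => g.mulVecLin.rangeRestrict ∘ₗ (E K arm t * B).mulVecLin)
    (fun s x => by
      change (QBrQ2.At arm J B g X s) *ᵥ x = (gᵀ * J * X) *ᵥ (g *ᵥ ((E K arm s * B) *ᵥ x))
      unfold QBrQ2.At
      simp only [mulVec_mulVec, Matrix.mul_assoc])
    (fun s y => by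
      apply Subtype.ext
      rw [show ((PhS arm J B g X s y : Sg g) : ι → K)
        = (M arm B s g g * J) *ᵥ (X *ᵥ (y : ι → K)) from Mop_eta s X y]
      change g *ᵥ ((E K arm s * B) *ᵥ ((gᵀ * J * X) *ᵥ (y : ι → K))) = _
      unfold M
      simp only [mulVec_mulVec, Matrix.mul_assoc])
  rw [Submodule.range_subtype]
  refine h1.trans ?_
  rintro _ ⟨x, hx, rfl⟩
  exact ⟨⟨x, hx⟩, rfl⟩

theorem pinf_Mf (hf : gᵀ * J * f = 0) : Pinf (fun t => (M arm B t f f * J).mulVecLin)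
    ≤ LinearMap.range ((Sp J g).subtype ∘ₗ (Pinf (aop arm J B g f hf)).subtype) := by
  have hM : ∀ s, gᵀ * J * (M arm B s f f * J) = 0 := by
    intro s
    unfold M
    have e : gᵀ * J * (f * E K arm s * B * fᵀ * J) = (gᵀ * J * f) * (E K arm s * B * fᵀ * J) := by
      simp only [Matrix.mul_assoc]
    rw [e, hf, Matrix.zero_mul]
  have h1 := Pinf_le_factor (a := fun t => (M arm B t f f * J).mulVecLin)
    (b := aop arm J B g f hf) (Sp J g).subtype
    (fun t => (M arm B t f f * J).mulVecLin.codRestrict (Sp J g) (fun v => by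
      rw [mem_Sp, mulVecLin_apply, mulVec_mulVec, hM, zero_mulVec]))
    (fun s x => rfl) (fun s y => rfl)
  refine h1.trans ?_
  rintro _ ⟨x, hx, rfl⟩
  exact ⟨⟨x, hx⟩, rfl⟩

theorem th'_zero (t : Fin 3) (y : Pinf (PhS arm J B g X)) (hy : th' arm J B g X y = 0) :
    QBlk.ap (PhS arm J B g X) t y = 0 := by
  have h1 : th arm J B g X y = 0 := by rw [← th'_coe, hy]; rfl
  apply Subtype.ext
  apply Subtype.ext
  have h2 : ((PhS arm J B g X t (y : Sg g) : Sg g) : ι → K)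
      = (M arm B t g g * J) *ᵥ (X *ᵥ ((y : Sg g) : ι → K)) := Mop_eta t X (y : Sg g)
  change ((PhS arm J B g X t (y : Sg g) : Sg g) : ι → K) = _
  rw [h2]
  have h3 : (M arm B t g g * J) *ᵥ (X *ᵥ ((y : Sg g) : ι → K))
      = (g * E K arm t * B) *ᵥ th arm J B g X y := by
    rw [th_apply]
    unfold M
    simp only [mulVec_mulVec, Matrix.mul_assoc]
  rw [h3, h1, mulVec_zero]
  rfl

/-- the instance of `QS` -/
theorem qs (h : Ctx k arm J B N W g) (hf : f ∈ N ⊓ W) (hX : Skw J X) {l : Fin 3 → ℕ}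
    (hp : Pair (aop arm J B g f (h.perp f hf)) (omP J g) (PhS arm J B g X) (eta J g X) l) :
    QBrQ2.QS (V1 := ↥(Pinf (aop arm J B g f (h.perp f hf)))) (V2 := ↥(Pinf (PhS arm J B g X)))
      (V3 := ↥(PQ arm J B g X)) arm J B g f X (QBlk.ap (aop arm J B g f (h.perp f hf)))
      (QBlk.ap (PhS arm J B g X)) (Aq arm J B g X)
      ((Sp J g).subtype ∘ₗ (Pinf (aop arm J B g f (h.perp f hf))).subtype)
      ((Sg g).subtype ∘ₗ (Pinf (PhS arm J B g X)).subtype)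
      (th' arm J B g X) (PQ arm J B g X).subtype
      (TP (aop arm J B g f (h.perp f hf))) (R1 arm J B g X)
      (Pform (aop arm J B g f (h.perp f hf)) (omP J g)) where
  side :=
    { J_symm := h.data.J_symm
      B_symm := h.data.B_symm
      B_arm := h.data.B_arm
      J_unit := h.data.J_unit
      gg := h.iso
      gf := h.perp f hf
      X_skw := hX
      J1 := fun p => (p : Sp J g).2
      A1 := fun t p => ⟨0, by rw [mulVec_zero, add_zero]; rfl⟩
      J2 := fun p => by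
        obtain ⟨u, hu⟩ := (p : Sg g).2
        exact ⟨u, hu.symm⟩
      B2 := fun t p => Mop_eta t X (p : Sg g) }
  surj := (push arm J B g X).surj
  πF := (push arm J B g X).comm
  ker := th'_zero
  θπ := fun y => by
    rw [mulVec_mulVec]; rfl
  θinj := Subtype.val_injective
  top1 := hp.halfA.side.top
  top2 := hp.halfB.side.top
  hPΘ := pinf_At
  hPf := (pinf_Mf (h.perp f hf)).trans le_sup_left
  hrad := by
    rintro _ ⟨r, hr, rfl⟩ y u hyu
    have h1 : Pform (PhS arm J B g X) (eta J g X) r y = 0 := hp.halfB.rad_left r hr y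
    rw [Pform_apply, eta_apply] at h1
    have hyu' : ((y : Sg g) : ι → K) = g *ᵥ u := hyu
    rw [hyu', ← vecMul_transpose, ← dotProduct_mulVec, mulVec_mulVec, ← Matrix.mul_assoc] at h1
    exact h1
  st3 := by
    obtain ⟨w1, -, hH⟩ := exists_w hp
    exact hH.side.stable
  hgf := fun v v' => rfl
  gR := fun r hr v => hp.halfA.rad_left r hr v

/-- `U = {u | g u ∈ P_S}` -/
def UU (arm : δ → Fin 3) (J : Matrix ι ι K) (B : Matrix δ δ K) (g : Matrix ι δ K)
    (X : Matrix ι ι K) : Submodule K (δ → K) :=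
  ((Pinf (PhS arm J B g X)).map (Sg g).subtype).comap g.mulVecLin

theorem mem_UU {u : δ → K} : u ∈ UU arm J B g X ↔
    ∃ p : Pinf (PhS arm J B g X), ((p : Sg g) : ι → K) = g *ᵥ u := by
  constructor
  · rintro ⟨x, hx, hxu⟩
    exact ⟨⟨x, hx⟩, hxu⟩
  · rintro ⟨p, hp⟩
    exact ⟨p, p.2, hp⟩

/-- **the Q-side memberships.** -/
theorem brQ_main [Infinite K] (h : Ctx k arm J B N W g)
    (hNm : ∀ F, (∀ F' ∈ N, pair J B F' F = 0) → F ∈ N)
    (hWm : ∀ F, (∀ F' ∈ W, pair J B F' F = 0) → F ∈ W)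
    (hc : Glue k arm J N W g) (hf : f ∈ N ⊓ W)
    {p : Matrix ι ι K × (Fin 3 → Matrix ι ι K)} (hpN : p ∈ NN arm J N g)
    (hp0 : gᵀ * J * (p.1 * f) = 0) {l : Fin 3 → ℕ}
    (hp : Pair (aop arm J B g f (h.perp f hf)) (omP J g) (PhS arm J B g p.1) (eta J g p.1) l) :
    (∀ s, ∀ r ∈ TP (PhS arm J B g p.1), ∀ v,
      (Pi.single s (vecMulVec (th arm J B g p.1 r) (th arm J B g p.1 v)) :
        Fin 3 → Matrix δ δ K) ∈ QEndQ.TT arm J N g (UU arm J B g p.1)) ∧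
    (∀ s, ∀ r ∈ TP (PhS arm J B g p.1), ∀ v,
      (Pi.single s (vecMulVec (th arm J B g p.1 v) (th arm J B g p.1 r)) :
        Fin 3 → Matrix δ δ K) ∈ QEndQ.TT arm J N g (UU arm J B g p.1)) ∧
    (∀ s i j, i + j + 1 = l s → ∀ v v',
      (Pi.single s (vecMulVec (th arm J B g p.1 ((QBlk.ap (PhS arm J B g p.1) s ^ i) v))
        (th arm J B g p.1 ((QBlk.ap (PhS arm J B g p.1) s ^ j) v'))) :
        Fin 3 → Matrix δ δ K) ∈ QEndQ.TT arm J N g (UU arm J B g p.1)) := by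
  obtain ⟨w1, -, hH⟩ := exists_w hp
  obtain ⟨h1, h2⟩ := QBrQ2.bridgeQ h hNm hWm hc hf hpN hp0 (qs h hf hpN.1 hp) hH.side
    hp.halfA.side hp.halfA.gtop (U := UU arm J B g p.1)
    (fun u hu => by
      obtain ⟨y, hy⟩ := mem_UU.1 hu
      exact ⟨y, hy⟩)
  refine ⟨fun s r hr v => (h1 s _ ⟨r, hr, rfl⟩ (th' arm J B g p.1 v)).1,
    fun s r hr v => (h1 s _ ⟨r, hr, rfl⟩ (th' arm J B g p.1 v)).2, fun s i j hij v v' => ?_⟩
  have h3 := h2 s i j hij (th' arm J B g p.1 v) (th' arm J B g p.1 v')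
  rw [← (push arm J B g p.1).pow, ← (push arm J B g p.1).pow] at h3
  exact h3

end Crest.Agent.R172.QHQ
end

-- ▼ part R172/QFin659
section

/-!
Row 172 (S0260), node Q-Asm: (t3) and `InQ1`.
-/

set_option autoImplicit false
set_option linter.unusedSectionVars false
set_option linter.unusedFintypeInType false
set_option linter.unusedDecidableInType false
set_option maxHeartbeats 400000

namespace Crest.Agent.R172.QFin

open Matrix Module Crest.Agent.R172.FO Crest.Agent.R172.Qt Crest.Agent.R172.Mix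
open Crest.Agent.R172.CF Crest.Agent.R172.CSys

/-- the two bridges of `QAsm659` -/
theorem bridge : QAsm.Bridge := by
  intro ι δ _ _ _ _ K _ _ _ arm J B N W g f h hf hNm hWm hG p hp hp0 l hP
  have : CharZero K := charZero_of_injective_algebraMap (algebraMap ℂ K).injective
  refine ⟨fun _ => ?_, fun _ => ?_⟩
  · obtain ⟨q1, q2, q3⟩ := QC.bridgeP28 h hNm hWm hG hf hp hp0 hP
    exact ⟨q1, q2, q3⟩
  · obtain ⟨q1, q2, q3⟩ := QHQ.brQ_main h hNm hWm hG hf hp hp0 hP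
    exact ⟨q1, q2, q3⟩

variable {n : ℕ} {a : Fin 3 → Fin n → ℤ} {c : Cfg n a} {q : SPol c}

/-- **(t3)** -/
theorem noTameQ1' (R : Ranked c) : Fin7.NoTameQ1' c q R := QAsm.noTameQ1' bridge R

/-- **(Q1)** -/
theorem inQ1 : Ind.InQ1 := Fin7.inQ1_of' fun _ _ _ _ R => noTameQ1' R

end Crest.Agent.R172.QFin
end

-- ▼ part R172/SLB562d

/-!
Row 172 (S0260), (t2): the abstract half of level 2, `Geo22 → STop.Lev2`.
-/

set_option autoImplicit false
set_option linter.unusedSectionVars false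
set_option maxHeartbeats 1000000

namespace Crest.Agent.R172.SLB562

open Matrix Module Crest.Agent.R172.FO Crest.Agent.R172.Qt Crest.Agent.R172.SpS
open Crest.Agent.R172.SEnd Crest.Agent.R172.SEnd2 Crest.Agent.R172.SCM
open Crest.Agent.R172.SLev0 (bq bq_apply gF gF_apply gF_flip gens_self PbK Gens)
open Crest.Agent.R172.PL (CoreM)
open Crest.Agent.R172.SZ1 (Zn)
open scoped TensorProduct

/-- **LEVEL 2 from its geometric half** -/
theorem lev2_of (hg : SDec.Geo22) : STop.Lev2 := by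
  intro ι _ _ δ _ _ K _ _ _ arm J B N W F f P R D l S ν ν' hne n1 n2 Q1 A1 Q2 A2 b1 b2
  refine SLevA455.gens_of S b1 b1 ?_
  obtain ⟨m1, U1, a1, hU1, s1, e1, i1, w1⟩ := SInst.exists_frame S ν
  obtain ⟨m2, U2, a2, hU2, s2, e2, i2, w2⟩ := SInst.exists_frame S ν'
  obtain ⟨C1, hF1, o1, c1, k1, g1⟩ := SInst.exists_C S b1 hU1 s1 e1 w1
  obtain ⟨C2, hF2, o2, c2, k2, g2⟩ := SInst.exists_C S b2 hU2 s2 e2 w2
  obtain ⟨Λ, hΛ, h0, hex, hrel⟩ := hg S hne b1 b2 hU1 s1 i1 w1 hU2 s2 i2 w2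
  have him : (algebraMap ℂ K Complex.I) ^ 2 = -1 := by
    rw [← map_pow, Complex.I_sq, map_neg, map_one]
  have t1 : ⨆ t, LinearMap.range (a1 t).mulVecLin = ⊤ :=
    top_frame s1 e1 i1 w1 (fun u hu => UBlk.Qb_exists (S.hCtx F S.hF) S.hR S.hD hu)
  have t2 : ⨆ t, LinearMap.range (a2 t).mulVecLin = ⊤ :=
    top_frame s2 e2 i2 w2 (fun u hu => UBlk.Qb_exists (S.hCtx F S.hF) S.hR S.hD hu)
  have hG : ∀ {μ μ' : K}, μ ≠ μ' → D.maxGenEigenspace μ ≠ ⊥ → D.maxGenEigenspace μ' ≠ ⊥ →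
      SLev0.Gens arm J B F P.1 l (SLev1h455.QGd S) (PbK arm J B F R P.1 D μ)
        (PbK arm J B F R P.1 D μ') := by
    intro μ μ' hμ h1 h2
    obtain ⟨n, Q, A, b⟩ := S.pkg μ h1
    obtain ⟨n', Q', A', b'⟩ := S.pkg μ' h2
    exact (SLevA455.gens0 S hμ b b').2
  have hG1 : ∀ μ, μ ≠ ν → D.maxGenEigenspace μ ≠ ⊥ →
      SLev0.Gens arm J B F P.1 l (SLev1h455.QGd S) (PbK arm J B F R P.1 D μ)
        (PbK arm J B F R P.1 D ν) := by
    intro μ hμ h
    obtain ⟨n, Q, A, b⟩ := S.pkg μ h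
    exact (SLevA455.gens0 S hμ b b1).2
  have hG1' : ∀ μ, μ ≠ ν → D.maxGenEigenspace μ ≠ ⊥ →
      SLev0.Gens arm J B F P.1 l (SLev1h455.QGd S) (PbK arm J B F R P.1 D ν)
        (PbK arm J B F R P.1 D μ) := by
    intro μ hμ h
    obtain ⟨n, Q, A, b⟩ := S.pkg μ h
    exact (SLevA455.gens0 S hμ b b1).1
  have hG2 : ∀ μ, μ ≠ ν' → D.maxGenEigenspace μ ≠ ⊥ →
      SLev0.Gens arm J B F P.1 l (SLev1h455.QGd S) (PbK arm J B F R P.1 D μ)
        (PbK arm J B F R P.1 D ν') := by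
    intro μ hμ h
    obtain ⟨n, Q, A, b⟩ := S.pkg μ h
    exact (SLevA455.gens0 S hμ b b2).2
  have hG2' : ∀ μ, μ ≠ ν' → D.maxGenEigenspace μ ≠ ⊥ →
      SLev0.Gens arm J B F P.1 l (SLev1h455.QGd S) (PbK arm J B F R P.1 D ν')
        (PbK arm J B F R P.1 D μ) := by
    intro μ hμ h
    obtain ⟨n, Q, A, b⟩ := S.pkg μ h
    exact (SLevA455.gens0 S hμ b b2).1
  refine core (Q := SLev1h455.QGd S) b1 b2 hF1 hF2
    (Z1 := Zn arm J B F R P.1 D ν Q1) (Z2 := Zn arm J B F R P.1 D ν' Q2)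
    (SZq842.sZ b1 S.hR S.hD.2) (SZq842.sZ b2 S.hR S.hD.2)
    (SZq842.hZq b1 S.hD.2 S.pkg _ hG1) (SZq842.hqZ b1 S.hD.2 S.pkg _ hG1')
    (SZq842.hZq b2 S.hD.2 S.pkg _ hG2) (SZq842.hqZ b2 S.hD.2 S.pkg _ hG2')
    hΛ h0 him
    (fun ρ X β γ => SDec.Dec F (Fᵀ * J * (P.1 * F)) U1 U2 a1 a2 (-(ρ ^ 2)) (X, β, γ)) ?_
    (fun ρ hρ ρ' hρ' X β0 γ0 X' β' γ' h h' =>
      hrel ρ hρ ρ' hρ' (X, β0, γ0) (X', β', γ') h h')
  intro ρ hρ x hx
  have hρ0 : ρ ≠ 0 := fun h => h0 (h ▸ hρ)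
  have hc : (-ρ ^ 2 : K) ≠ 0 := neg_ne_zero.2 (pow_ne_zero 2 hρ0)
  obtain ⟨X, hX, hsum⟩ := lift_frame o1 o2 c1 c2 (fun s x h => i1 _ (k1 s x h))
    (fun s x h => i2 _ (k2 s x h)) t1 t2 hc x hx.sum
  obtain ⟨β, γ, hd, hz⟩ := hex ρ hρ X hsum
    (fun s => arm_frame c1 c2 b1.skew g1.symm g2.symm s (hx.arm s) (hX s))
  obtain ⟨b, k, hb, hk, hb', hk'⟩ := SDesc683.exists_pairM (A := A1) (B := A2) (a := a1) (bb := a2)
    (C1 := C1) (C2 := C2) o1 o2 c1 c2
    (R1 := LinearMap.ker (Q1ᵀ * (J * P.1) * Q1).mulVecLin)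
    (R2 := LinearMap.ker (Q2ᵀ * (J * P.1) * Q2).mulVecLin)
    (Z := Zn arm J B F R P.1 D ν Q1) (Z2 := Zn arm J B F R P.1 D ν' Q2)
    (SZq842.sZ b1 S.hR S.hD.2) (SZq842.sZ b2 S.hR S.hD.2)
    (G1 := Q1ᵀ * (J * P.1) * Q1) (G2 := Q2ᵀ * (J * P.1) * Q2)
    (g := gF J P.1 Q2) (fun x y => gF_apply _ _ _) (g1 := gF J P.1 Q1) (fun x y => gF_apply _ _ _)
    (eps := -1) (c := -ρ ^ 2) (X := X) (x := x) (fun t => by rw [mt_eq_tm, hX])
    (β := β) (γ := γ)
    (fun u => by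
      rw [LinearMap.mem_ker, mulVecLin_apply]
      refine onto_cancel o1 ?_
      have h := congrArg (fun M => M *ᵥ u) hd.rb
      simp only [zero_mulVec] at h
      rw [← h, ← g1]
      simp only [mulVec_mulVec, Matrix.mul_assoc])
    (fun u hu => by
      obtain ⟨z, hz'⟩ := hz.zb u (by
        rw [mulVec_mulVec, hF2, ← mulVec_mulVec, hu, mulVec_zero])
      refine SDesc.mem_Zn_of hne b2 hF1 hF2 (y2 := z) ?_
      rw [← mulVec_mulVec, ← mulVec_mulVec]
      exact hz')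
    (fun u => by
      rw [LinearMap.mem_ker, mulVecLin_apply]
      refine onto_cancel o2 ?_
      have h := congrArg (fun M => M *ᵥ u) hd.rk
      simp only [zero_mulVec] at h
      rw [← h, ← g2]
      simp only [mulVec_mulVec, Matrix.mul_assoc])
    (fun u hu => by
      obtain ⟨z, hz'⟩ := hz.zk u (by
        rw [mulVec_mulVec, hF1, ← mulVec_mulVec, hu, mulVec_zero])
      refine SDesc.mem_Zn_of hne.symm b1 hF2 hF1 (y2 := z) ?_
      rw [← mulVec_mulVec, ← mulVec_mulVec]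
      exact hz')
    (fun t u => by
      have h := congrArg (fun M => M *ᵥ u) (hd.cb t)
      simp only [zero_mulVec] at h
      have hz0 : C1 *ᵥ ((a1 t * (β - (X t)ᵀ * (C2ᵀ * (Q2ᵀ * (J * P.1) * Q2) * C2)) -
          (-1 * -ρ ^ 2 : K) • ((β - (X t)ᵀ * (C2ᵀ * (Q2ᵀ * (J * P.1) * Q2) * C2)) * a2 t)) *ᵥ u)
          = 0 := by
        refine b1.inj _ ?_
        rw [g2, neg_one_mul, neg_smul, sub_neg_eq_add, mulVec_mulVec, mulVec_mulVec, ← hF1,
          Matrix.mul_assoc]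
        exact h
      rw [hz0]
      exact Submodule.zero_mem _)
    (fun t u => by
      have h := congrArg (fun M => M *ᵥ u) (hd.ck t)
      simp only [zero_mulVec] at h
      have hz0 : C2 *ᵥ (((-1 : K) • ((γ - X t * (C1ᵀ * (Q1ᵀ * (J * P.1) * Q1) * C1)) * a1 t) -
          (-ρ ^ 2) • (a2 t * (γ - X t * (C1ᵀ * (Q1ᵀ * (J * P.1) * Q1) * C1)))) *ᵥ u) = 0 := by
        refine b2.inj _ ?_
        have e : ((-1 : K) • ((γ - X t * (C1ᵀ * (Q1ᵀ * (J * P.1) * Q1) * C1)) * a1 t) -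
            (-ρ ^ 2) • (a2 t * (γ - X t * (C1ᵀ * (Q1ᵀ * (J * P.1) * Q1) * C1)))) =
            -((-ρ ^ 2) • (a2 t * (γ - X t * (U1ᵀ * (Fᵀ * J * (P.1 * F)) * U1))) +
              (γ - X t * (U1ᵀ * (Fᵀ * J * (P.1 * F)) * U1)) * a1 t) := by
          rw [g1, neg_one_smul]
          abel
        rw [e, neg_mulVec, mulVec_neg, mulVec_neg, neg_eq_zero, mulVec_mulVec, mulVec_mulVec,
          ← hF2, Matrix.mul_assoc]
        exact h
      rw [hz0]
      exact Submodule.zero_mem _)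
  refine ⟨X, β, γ, b, k, hd, hX, fun y => ?_, fun y => ?_, hb, hk⟩
  · rw [← neg_sub]
    exact Submodule.neg_mem _ (hb' y)
  · rw [← neg_sub]
    exact Submodule.neg_mem _ (hk' y)

end Crest.Agent.R172.SLB562
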