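import Crest.Agent.R172.PTt
import Crest.Agent.R172.SUX1
import Crest.Agent.R172.SUXF

-- ▼ part R172/SRow
section

/-!
Row 172 (S0260), S-side (t2): elements of `NN H` compatible with ONE `L`-derivation `d0`.

* `exists_cmp` : the element of `NN H` of `d0` (`H.map d0 - p.1 H ∈ H C`), for every `H`;
* `row` : `Hᵀ J (p.1 w) = Hᵀ J (w.map d0)` for every `w` with `Hᵀ J w = 0` - the rows do not
  depend on `H` (`row_col` : on the columns `c = H U`);
* `comm` : `[d, d0] H = (p.1.map d) H + H C`, hence `comm_perp`;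
* `Vert.of_form` : `Vert` depends only on the form `Hᵀ J p.1 H`;
* `exists_d0` : every form of `NN F` is the form of an `L`-derivation;
* `vert_cmp` : `Vert` at `(F + t f, p_t)` for the `d0`-compatible `p_t`.
-/

set_option autoImplicit false
set_option linter.unusedSectionVars false
set_option linter.unusedFintypeInType false
set_option linter.unusedDecidableInType false

namespace Crest.Agent.R172.SRow

open Matrix Module Crest.Agent.R172.FO Crest.Agent.R172.Qt Crest.Agent.R172.SpS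
  Crest.Agent.R172.Om Crest.Agent.R172.PTt

variable {ι : Type*} [Fintype ι] [DecidableEq ι] {δ : Type*} [Fintype δ] [DecidableEq δ]
variable {k K : Type*} [Field k] [Field K] [Algebra k K]
variable {arm : δ → Fin 3} {J : Matrix ι ι K} {B : Matrix δ δ K}
  {N W : Submodule K (Matrix ι δ K)} {H : Matrix ι δ K}

/-- `p ∈ NN H` is compatible with the derivation `d0` -/
structure Cmp (arm : δ → Fin 3) (J : Matrix ι ι K) (N : Submodule K (Matrix ι δ K))
    (d0 : Derivation k K K) (H : Matrix ι δ K) (p : Matrix ι ι K × (Fin 3 → Matrix ι ι K)) :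
    Prop where
  mem : p ∈ NN arm J N H
  eq : ∃ C : Matrix δ δ K, H.map d0 = p.1 * H + H * C


/-- transposing a skew `Z` -/
theorem skw_tr {Z : Matrix ι ι K} (hZ : Skw J Z) {α β : Type*} [Fintype α] [Fintype β]
    (A : Matrix ι α K) (w : Matrix ι β K) : (Z * A)ᵀ * J * w = -(Aᵀ * J * (Z * w)) := by
  rw [transpose_mul]
  calc Aᵀ * Zᵀ * J * w = Aᵀ * (Zᵀ * J) * w := by simp only [Matrix.mul_assoc]
    _ = _ := by rw [hZ.eq]; simp only [Matrix.mul_neg, Matrix.neg_mul, Matrix.mul_assoc]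

theorem map_zero_d {α β : Type*} (d : Derivation k K K) : (0 : Matrix α β K).map d = 0 := by
  ext i j; simp

/-- **rows**: `Hᵀ J (p.1 w) = Hᵀ J (d0 w)` if `Hᵀ J w = 0` -/
theorem Cmp.row (hD : Data k arm J B N W) {d0 : Derivation k K K}
    {p : Matrix ι ι K × (Fin 3 → Matrix ι ι K)} (hc : Cmp arm J N d0 H p) {β : Type*} [Fintype β]
    {w : Matrix ι β K} (hw : Hᵀ * J * w = 0) : Hᵀ * J * (p.1 * w) = Hᵀ * J * w.map d0 := by
  obtain ⟨C, hC⟩ := hc.eq
  have h1 := congrArg (fun A : Matrix δ β K => A.map d0) hw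
  simp only [map_mul_der, hD.J_const, Matrix.mul_zero, add_zero, map_transpose_der,
    map_zero_d, hC] at h1
  rw [transpose_add, Matrix.add_mul, Matrix.add_mul, skw_tr hc.mem.1, transpose_mul] at h1
  have h2 : Cᵀ * Hᵀ * J * w = 0 := by
    calc Cᵀ * Hᵀ * J * w = Cᵀ * (Hᵀ * J * w) := by simp only [Matrix.mul_assoc]
      _ = 0 := by rw [hw, Matrix.mul_zero]
  rw [h2, add_zero, neg_add_eq_zero] at h1
  exact h1










end Crest.Agent.R172.SRow
end

-- ▼ part R172/SUX3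

/-!
Row 172 (S0260), S-side: the first derivative in block form with all values.

`q = k_1` (`q U1 = F U1`, `q U2 = 0`): `w_1 = wd q` satisfies
* `∑_r (c2² F U1 X_rᵀ U2ᵀ - c1 c2 F U2 X_r U1ᵀ) S0 E_r + w_1 ∈ N`,
* `w_1 U1 = c1 c2 F U2 γ - (dc1/c1) F U1`, `w_1 U2 = -c2² F U1 β`,
* `U1ᵀ θ(w_1) = c1 c2² γᵀ U2ᵀ S0 - dc1 U1ᵀ S0`, `U2ᵀ θ(w_1) = -c1 c2² βᵀ U1ᵀ S0`.
-/

set_option autoImplicit false
set_option linter.unusedSectionVars false
set_option linter.unusedFintypeInType false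
set_option linter.unusedDecidableInType false

namespace Crest.Agent.R172.SUX

open Matrix Module Crest.Agent.R172.FO Crest.Agent.R172.Qt Crest.Agent.R172.SpS
  Crest.Agent.R172.Om

variable {ι : Type*} [Fintype ι] [DecidableEq ι] {δ : Type*} [Fintype δ] [DecidableEq δ]
variable {k K : Type*} [Field k] [Field K] [Algebra k K]
variable {arm : δ → Fin 3} {J : Matrix ι ι K} {B : Matrix δ δ K}
  {N W : Submodule K (Matrix ι δ K)} {H F q : Matrix ι δ K}
variable {n1 n2 : Type*} [Fintype n1] [Fintype n2]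
variable {P : Matrix ι ι K × (Fin 3 → Matrix ι ι K)} {S0 : Matrix δ δ K} {c1 c2 : K}
  {U1 : Matrix δ n1 K} {U2 : Matrix δ n2 K} {Y : Fin 3 → Matrix δ δ K} {d : Derivation k K K}
  {Γ1 : Matrix n1 n1 K} {Γ2 : Matrix n2 n2 K} {β : Matrix n1 n2 K} {γ : Matrix n2 n1 K}
  {X : Fin 3 → Matrix n2 n1 K}

/-- transposes of the frame relations -/
theorem Fr.rowS1 {P : Matrix ι ι K} (fr : Fr J F H P S0 c1 c2 U1 U2)
    (hs : (th J H P H)ᵀ = -th J H P H) : U1ᵀ * th J H P H = c1 ^ 2 • (U1ᵀ * S0) := by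
  have h := congrArg Matrix.transpose fr.S1
  rw [transpose_mul, hs, transpose_smul, transpose_mul, fr.skew, Matrix.mul_neg, Matrix.mul_neg,
    smul_neg] at h
  exact neg_injective h


/-- the data of `k_1` -/
structure K1 (J : Matrix ι ι K) (F H : Matrix ι δ K) (P : Matrix ι ι K) (S0 : Matrix δ δ K)
    (c1 : K) (U1 : Matrix δ n1 K) (U2 : Matrix δ n2 K) (q : Matrix ι δ K) : Prop where
  q1 : q * U1 = F * U1
  q2 : q * U2 = 0
  t1 : th J H P q * U1 = c1 • (S0 * U1)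
  t2 : th J H P q * U2 = 0

/-- values of `w_1 = wd q` on `U1`. -/
theorem wd_U1 (fr : Fr J F H P.1 S0 c1 c2 U1 U2) (hq : K1 J F H P.1 S0 c1 U1 U2 q)
    (hd : H.map d = H * ZY arm J H P.1 Y)
    (hNH : H * (U1.map d + ZY arm J H P.1 Y * U1) = H * (U1 * Γ1 + c1 ^ 2 • (U2 * γ)))
    (hNq : q * (U1.map d + ZY arm J H P.1 Y * U1) = q * (U1 * Γ1 + c1 ^ 2 • (U2 * γ))) :
    wd arm J H P.1 Y d q * U1 = (c1 * c2) • (F * U2 * γ) - (d c1 / c1) • (F * U1) := by
  have h1 := dFU fr hd hNH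
  rw [← hq.q1, map_mul_der] at h1
  have h2 : wd arm J H P.1 Y d q * U1 = (q.map d * U1 + q * U1.map d)
      - q * (U1.map d + ZY arm J H P.1 Y * U1) := by
    unfold wd
    rw [Matrix.sub_mul, Matrix.mul_add, Matrix.mul_assoc q]
    abel
  rw [h2, h1, hNq, Matrix.mul_add, Matrix.mul_smul, ← Matrix.mul_assoc, ← Matrix.mul_assoc, hq.q1,
    hq.q2, Matrix.zero_mul, smul_zero, add_zero]
  abel

/-- values of `w_1 = wd q` on `U2`. -/
theorem wd_U2 (hq : K1 J F H P.1 S0 c1 U1 U2 q)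
    (hNq : q * (U2.map d + ZY arm J H P.1 Y * U2) = q * (U2 * Γ2 + c2 ^ 2 • (U1 * β))) :
    wd arm J H P.1 Y d q * U2 = -(c2 ^ 2 • (F * U1 * β)) := by
  have h1 := congrArg (fun A : Matrix ι n2 K => A.map d) hq.q2
  simp only [map_mul_der] at h1
  rw [map_zero_der'] at h1
  have h2 : wd arm J H P.1 Y d q * U2 = (q.map d * U2 + q * U2.map d)
      - q * (U2.map d + ZY arm J H P.1 Y * U2) := by
    unfold wd
    rw [Matrix.sub_mul, Matrix.mul_add, Matrix.mul_assoc q]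
    abel
  rw [h2, h1, hNq, Matrix.mul_add, Matrix.mul_smul, ← Matrix.mul_assoc, ← Matrix.mul_assoc, hq.q1,
    hq.q2, Matrix.zero_mul, zero_add, zero_sub]

/-- a row of `θ_w` from the values of `w` -/
theorem row_of_val {n : Type*} [Fintype n] {U : Matrix δ n K} {w : Matrix ι δ K}
    {P : Matrix ι ι K}
    (hs : (th J H P w)ᵀ = -th J H P w) :
    Uᵀ * th J H P w = -(Hᵀ * J * (P * (w * U)))ᵀ := by
  have h : (Hᵀ * J * (P * (w * U)))ᵀ = -(Uᵀ * th J H P w) := by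
    have h1 : Hᵀ * J * (P * (w * U)) = th J H P w * U := by
      unfold th; simp only [Matrix.mul_assoc]
    rw [h1, transpose_mul, hs, Matrix.mul_neg]
  rw [h, neg_neg]

theorem row_wd1 (h : Ctx k arm J B N W H) (hP : P ∈ NN arm J N H)
    (m : Mv k arm J N W H P.1 Y d) (hqm : q ∈ N ⊓ W)
    (fr : Fr J F H P.1 S0 c1 c2 U1 U2) (hq : K1 J F H P.1 S0 c1 U1 U2 q)
    (hNH : H * (U1.map d + ZY arm J H P.1 Y * U1) = H * (U1 * Γ1 + c1 ^ 2 • (U2 * γ)))
    (hNq : q * (U1.map d + ZY arm J H P.1 Y * U1) = q * (U1 * Γ1 + c1 ^ 2 • (U2 * γ))) :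
    U1ᵀ * th J H P.1 (wd arm J H P.1 Y d q)
      = (c1 * c2 ^ 2) • (γᵀ * (U2ᵀ * S0)) - d c1 • (U1ᵀ * S0) := by
  rw [row_of_val (m.w_skew h hP hqm), wd_U1 fr hq m.dH hNH hNq]
  have h1 : Hᵀ * J * (P.1 * ((c1 * c2) • (F * U2 * γ) - (d c1 / c1) • (F * U1)))
      = (c1 * c2) • (th J H P.1 F * U2 * γ) - (d c1 / c1) • (th J H P.1 F * U1) := by
    unfold th
    rw [Matrix.mul_sub, Matrix.mul_sub, Matrix.mul_smul, Matrix.mul_smul, Matrix.mul_smul,
      Matrix.mul_smul]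
    simp only [Matrix.mul_assoc]
  rw [h1, fr.T1, fr.T2, transpose_sub, transpose_smul, transpose_smul, transpose_smul,
    Matrix.smul_mul, transpose_smul, transpose_mul, transpose_mul, transpose_mul, fr.skew]
  have hc := fr.hc1
  simp only [Matrix.mul_neg, smul_neg, smul_smul]
  rw [div_mul_cancel₀ _ hc]
  ext i j
  simp only [Matrix.neg_apply, Matrix.sub_apply, Matrix.smul_apply, smul_eq_mul]
  ring

theorem row_wd2 (h : Ctx k arm J B N W H) (hP : P ∈ NN arm J N H)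
    (m : Mv k arm J N W H P.1 Y d) (hqm : q ∈ N ⊓ W)
    (fr : Fr J F H P.1 S0 c1 c2 U1 U2) (hq : K1 J F H P.1 S0 c1 U1 U2 q)
    (hNq : q * (U2.map d + ZY arm J H P.1 Y * U2) = q * (U2 * Γ2 + c2 ^ 2 • (U1 * β))) :
    U2ᵀ * th J H P.1 (wd arm J H P.1 Y d q) = -((c1 * c2 ^ 2) • (βᵀ * (U1ᵀ * S0))) := by
  rw [row_of_val (m.w_skew h hP hqm), wd_U2 hq hNq]
  have h1 : Hᵀ * J * (P.1 * (-(c2 ^ 2 • (F * U1 * β)))) = -(c2 ^ 2 • (th J H P.1 F * U1 * β)) := by
    unfold th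
    rw [Matrix.mul_neg, Matrix.mul_neg, Matrix.mul_smul, Matrix.mul_smul]
    simp only [Matrix.mul_assoc]
  rw [h1, fr.T1, transpose_neg, neg_neg, Matrix.smul_mul, transpose_smul, transpose_smul,
    transpose_mul, transpose_mul, fr.skew]
  simp only [Matrix.mul_neg, smul_neg, smul_smul]
  rw [mul_comm (c2 ^ 2) c1]

/-- **first derivative in block form.** -/
theorem first_blocks (h : Ctx k arm J B N W H) (hP : P ∈ NN arm J N H)
    (m : Mv k arm J N W H P.1 Y d) (hqm : q ∈ N ⊓ W) (hqp : Hᵀ * J * q = 0)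
    (fr : Fr J F H P.1 S0 c1 c2 U1 U2) (hq : K1 J F H P.1 S0 c1 U1 U2 q)
    (hY : ∀ s, ∀ v ∈ W, v * Y s * Hᵀ = v * (U2 * X s * U1ᵀ + U1 * (X s)ᵀ * U2ᵀ) * Hᵀ) :
    ∑ s, (c2 ^ 2 • (F * (U1 * (X s)ᵀ * U2ᵀ)) - (c1 * c2) • (F * (U2 * X s * U1ᵀ))) * S0 *
      E K arm s + wd arm J H P.1 Y d q ∈ N := by
  have h1 := m.first hqm.1 hqp
  have hsH := th_skew h hP h.mem
  have hsq := th_skew h hP hqm
  have r1 := fr.rowS1 hsH
  have r2 := fr.symm.rowS1 hsH
  have t1 : U1ᵀ * th J H P.1 q = c1 • (U1ᵀ * S0) := by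
    have h := congrArg Matrix.transpose hq.t1
    rw [transpose_mul, hsq, transpose_smul, transpose_mul, fr.skew, Matrix.mul_neg,
      Matrix.mul_neg, smul_neg] at h
    exact neg_injective h
  have t2 : U2ᵀ * th J H P.1 q = 0 := by
    have h := congrArg Matrix.transpose hq.t2
    rw [transpose_mul, hsq, transpose_zero, Matrix.mul_neg, neg_eq_zero] at h
    exact h
  have e1 : ∀ s, q * Y s * th J H P.1 H = c2 ^ 2 • (F * (U1 * (X s)ᵀ * U2ᵀ)) * S0 := by
    intro s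
    have a1 : q * Y s * th J H P.1 H = (q * Y s * Hᵀ) * (J * (P.1 * H)) := by
      unfold th; simp only [Matrix.mul_assoc]
    have a2 : q * (U2 * X s * U1ᵀ + U1 * (X s)ᵀ * U2ᵀ) * Hᵀ * (J * (P.1 * H))
        = (q * U2) * X s * (U1ᵀ * th J H P.1 H) + (q * U1) * (X s)ᵀ * (U2ᵀ * th J H P.1 H) := by
      unfold th
      rw [Matrix.mul_add, Matrix.add_mul, Matrix.add_mul]
      simp only [Matrix.mul_assoc]
    rw [a1, hY s q hqm.2, a2, hq.q2, hq.q1, r2, Matrix.zero_mul, Matrix.zero_mul, zero_add,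
      Matrix.mul_smul, Matrix.smul_mul]
    simp only [Matrix.mul_assoc]
  have e2 : ∀ s, H * Y s * th J H P.1 q = (c1 * c2) • (F * (U2 * X s * U1ᵀ)) * S0 := by
    intro s
    have a1 : H * Y s * th J H P.1 q = (H * Y s * Hᵀ) * (J * (P.1 * q)) := by
      unfold th; simp only [Matrix.mul_assoc]
    have a2 : H * (U2 * X s * U1ᵀ + U1 * (X s)ᵀ * U2ᵀ) * Hᵀ * (J * (P.1 * q))
        = (H * U2) * X s * (U1ᵀ * th J H P.1 q) + (H * U1) * (X s)ᵀ * (U2ᵀ * th J H P.1 q) := by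
      unfold th
      rw [Matrix.mul_add, Matrix.add_mul, Matrix.add_mul]
      simp only [Matrix.mul_assoc]
    rw [a1, hY s H h.mem.2, a2, t1, t2, fr.H2, Matrix.mul_zero, add_zero, Matrix.mul_smul,
      Matrix.smul_mul, Matrix.smul_mul, smul_smul, Matrix.smul_mul, mul_comm c1 c2]
    simp only [Matrix.mul_assoc]
  have h2 : ∑ s, (c2 ^ 2 • (F * (U1 * (X s)ᵀ * U2ᵀ)) - (c1 * c2) • (F * (U2 * X s * U1ᵀ))) * S0 *
      E K arm s = ∑ r, (q * Y r * th J H P.1 H - H * Y r * th J H P.1 q) * E K arm r := by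
    refine Finset.sum_congr rfl fun s _ => ?_
    rw [e1, e2, Matrix.sub_mul (c2 ^ 2 • (F * (U1 * (X s)ᵀ * U2ᵀ)))]
  rw [h2]
  exact h1

end Crest.Agent.R172.SUX
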