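import Crest.Agent.R172.Core3
import Crest.Agent.R172.St1
import Crest.Agent.R172.PairLift1

-- ▼ part R172/SpS1
section

/-!
Row 172, G1 Step 2 (`T_f` is scalar), part 1: the symplectic version of the structure lemma for a
core (`B` alternating and nondegenerate, `Φ_s ∈ sp(B)`, `D` self-adjoint).  Copied from
`Core2`/`Core3` (helper731) with the signs of the symplectic case.
-/

set_option autoImplicit false

namespace Crest.Agent.R172.SpS

open Module LinearMap Crest.Agent.R172.Core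

variable {K : Type*} [Field K] {V : Type*} [AddCommGroup V] [Module K V]

/-- `B` is skew-symmetric and nondegenerate (elementary form). -/
structure NA (B : LinearMap.BilinForm K V) : Prop where
  alt : ∀ v w, B v w = - B w v
  nd : ∀ v, (∀ w, B v w = 0) → v = 0

theorem NA.nondeg {B : LinearMap.BilinForm K V} (h : NA B) : B.Nondegenerate := by
  refine ⟨fun v hv => h.nd v hv, fun v hv => h.nd v (fun w => ?_)⟩
  rw [h.alt, hv w, neg_zero]

theorem NA.isRefl {B : LinearMap.BilinForm K V} (h : NA B) : B.IsRefl :=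
  fun v w hvw => by rw [h.alt, hvw, neg_zero]

theorem NA.oo [FiniteDimensional K V] {B : LinearMap.BilinForm K V} (h : NA B)
    (W : Submodule K V) : B.orthogonal (B.orthogonal W) = W :=
  LinearMap.BilinForm.orthogonal_orthogonal h.nondeg h.isRefl W

section H1

variable {ι : Type*} [Fintype ι] [FiniteDimensional K V]

/-- Step (3) of note 12992: `H^1 = 0` for a pair of blocks `P, Q`. -/
theorem H1_of_DerA {B : LinearMap.BilinForm K V} (hB : NA B) {Φ : ι → Module.End K V}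
    (hΦ : ∀ s v w, B (Φ s v) w = - B v (Φ s w)) (hDer : Der B Φ)
    {D : Module.End K V} (hDΦ : ∀ s v, D (Φ s v) = Φ s (D v))
    {P P' Q Q' : Submodule K V} (hP : IsCompl P P') (hQ : IsCompl Q Q')
    (hPQ : ∀ v ∈ P, ∀ w ∈ Q, B v w = 0)
    (hΦP : ∀ s, ∀ v ∈ P, Φ s v ∈ P) (hΦP' : ∀ s, ∀ v ∈ P', Φ s v ∈ P')
    (hΦQ : ∀ s, ∀ v ∈ Q, Φ s v ∈ Q) (hΦQ' : ∀ s, ∀ v ∈ Q', Φ s v ∈ Q')
    (hDP : ∀ v ∈ P, D v ∈ P) (hDQ : ∀ v ∈ Q, D v ∈ Q)
    (hτ : ∀ x : P →ₗ[K] Q, x ∘ₗ D.restrict hDP = D.restrict hDQ ∘ₗ x → x = 0)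
    (x : ι → (P →ₗ[K] Q))
    (hx : ∑ s, (x s ∘ₗ (Φ s).restrict (hΦP s) - (Φ s).restrict (hΦQ s) ∘ₗ x s) = 0) :
    ∃ y : P →ₗ[K] Q, ∀ s, x s - y ∈
      Inter ((Φ s).restrict (hΦP s)) ((Φ s).restrict (hΦQ s)) := by
  classical
  set πP := P.projectionOnto P' hP with hπP
  set πQ := Q.projectionOnto Q' hQ with hπQ
  have hπPΦ : ∀ s v, πP (Φ s v) = (Φ s).restrict (hΦP s) (πP v) := by
    intro s v
    have hv : v ∈ P ⊔ P' := by rw [hP.sup_eq_top]; trivial
    obtain ⟨a, ha, b, hb, rfl⟩ := Submodule.mem_sup.1 hv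
    rw [map_add, map_add, map_add,
      Submodule.projectionOnto_apply_of_mem_left hP ha,
      Submodule.projectionOnto_apply_of_mem_left hP (hΦP s a ha),
      (Submodule.projectionOnto_apply_eq_zero_iff hP).2 hb,
      (Submodule.projectionOnto_apply_eq_zero_iff hP).2 (hΦP' s b hb), add_zero, add_zero]
    rfl
  have hπQΦ : ∀ s v, πQ (Φ s v) = (Φ s).restrict (hΦQ s) (πQ v) := by
    intro s v
    have hv : v ∈ Q ⊔ Q' := by rw [hQ.sup_eq_top]; trivial
    obtain ⟨a, ha, b, hb, rfl⟩ := Submodule.mem_sup.1 hv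
    rw [map_add, map_add, map_add,
      Submodule.projectionOnto_apply_of_mem_left hQ ha,
      Submodule.projectionOnto_apply_of_mem_left hQ (hΦQ s a ha),
      (Submodule.projectionOnto_apply_eq_zero_iff hQ).2 hb,
      (Submodule.projectionOnto_apply_eq_zero_iff hQ).2 (hΦQ' s b hb), add_zero, add_zero]
    rfl
  -- the operators `X_s`
  set X : ι → Module.End K V := fun s => Q.subtype ∘ₗ x s ∘ₗ πP with hX
  have hXa : ∀ s v, X s v = ((x s (πP v) : Q) : V) := fun s v => rfl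
  set Xt : ι → Module.End K V := fun s => B.leftAdjointOfNondegenerate hB.nondeg (X s) with hXt
  have hadj : ∀ s v w, B (Xt s v) w = B v (X s w) := fun s v w =>
    LinearMap.BilinForm.isAdjointPairLeftAdjointOfNondegenerate B hB.nondeg (X s) v w
  have hXtP : ∀ s, ∀ v ∈ P, Xt s v = 0 := by
    intro s v hv
    apply hB.nd
    intro w
    rw [hadj, hXa]
    exact hPQ v hv _ (x s (πP w)).2
  have hXsum : ∀ v, ∑ s, (X s (Φ s v) - Φ s (X s v)) = 0 := by
    intro v
    have h := LinearMap.congr_fun hx (πP v)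
    rw [LinearMap.sum_apply] at h
    have h' := congrArg (Q.subtype) h
    rw [map_sum, LinearMap.zero_apply, map_zero] at h'
    rw [← h']
    refine Finset.sum_congr rfl (fun s _ => ?_)
    rw [hXa, hXa, hπPΦ]
    rfl
  set ξ : ι → Module.End K V := fun s => X s - Xt s with hξ
  have hξa : ∀ s v, ξ s v = X s v - Xt s v := fun s v => rfl
  have hskew : ∀ s v w, B (ξ s v) w = - B v (ξ s w) := by
    intro s v w
    have a1 : B v (Xt s w) = B (X s v) w := by
      rw [hB.alt v (Xt s w), hadj, hB.alt w (X s v), neg_neg]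
    rw [hξa, hξa, map_sub, LinearMap.sub_apply, map_sub, hadj, a1]
    ring
  have hsum : ∑ s, (ξ s * Φ s - Φ s * ξ s) = 0 := by
    ext v
    rw [LinearMap.sum_apply]
    change ∑ s, (ξ s (Φ s v) - Φ s (ξ s v)) = 0
    apply hB.nd
    intro w
    have h1 : ∀ s, B (ξ s (Φ s v) - Φ s (ξ s v)) w =
        B (X s (Φ s v) - Φ s (X s v)) w - B v (X s (Φ s w) - Φ s (X s w)) := by
      intro s
      have e1 : B (Xt s (Φ s v)) w = - B v (Φ s (X s w)) := by rw [hadj, hΦ]
      have e2 : B (Φ s (Xt s v)) w = - B v (X s (Φ s w)) := by rw [hΦ, hadj]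
      have e3 : B (ξ s (Φ s v)) w = B (X s (Φ s v)) w + B v (Φ s (X s w)) := by
        rw [hξa, map_sub, LinearMap.sub_apply, e1]; ring
      have e4 : B (Φ s (ξ s v)) w = B (Φ s (X s v)) w + B v (X s (Φ s w)) := by
        rw [hξa, map_sub, map_sub, LinearMap.sub_apply, e2]; ring
      rw [map_sub, LinearMap.sub_apply, e3, e4, map_sub, LinearMap.sub_apply, map_sub]
      ring
    rw [map_sum, LinearMap.sum_apply, Finset.sum_congr rfl (fun s _ => h1 s),
      Finset.sum_sub_distrib, ← LinearMap.sum_apply, ← map_sum, hXsum v, ← map_sum, hXsum w]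
    simp
  obtain ⟨d, δ, hδs, -, hδΦ⟩ := hDer ξ hskew hsum
  -- the block component of `[δ, D]`
  let z : P →ₗ[K] Q :=
    { toFun := fun v => πQ (δ (D v) - D (δ v))
      map_add' := by
        intro v w
        rw [← map_add]
        congr 1
        simp only [Submodule.coe_add, map_add]
        abel
      map_smul' := by
        intro c v
        rw [RingHom.id_apply, ← map_smul]
        congr 1
        simp only [Submodule.coe_smul, map_smul, hδs, map_add, smul_sub]
        abel }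
  have hza : ∀ v : P, z v = πQ (δ (D v) - D (δ v)) := fun v => rfl
  let τ : (P →ₗ[K] Q) →ₗ[K] (P →ₗ[K] Q) :=
    { toFun := fun x => D.restrict hDQ ∘ₗ x - x ∘ₗ D.restrict hDP
      map_add' := by
        intro x y
        rw [LinearMap.comp_add, LinearMap.add_comp]; abel
      map_smul' := by
        intro c x
        rw [LinearMap.comp_smul, LinearMap.smul_comp, RingHom.id_apply, smul_sub] }
  have hτa : ∀ x, τ x = D.restrict hDQ ∘ₗ x - x ∘ₗ D.restrict hDP := fun x => rfl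
  have hτinj : Function.Injective τ := by
    rw [injective_iff_map_eq_zero]
    intro x hx
    exact hτ x (sub_eq_zero.1 hx).symm
  obtain ⟨y, hy⟩ := LinearMap.injective_iff_surjective.1 hτinj (-z)
  refine ⟨y, fun s => ?_⟩
  set u : P →ₗ[K] Q := x s - y with hu
  -- `τ u` is an intertwiner
  have hτu : ∀ v : P, τ u ((Φ s).restrict (hΦP s) v) = (Φ s).restrict (hΦQ s) (τ u v) := by
    have hW : ∀ v : P, τ u v = πQ (δ (D v) - D (δ v) + (D (ξ s v) - ξ s (D v))) := by
      intro v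
      have h1 : τ u v = z v + (D.restrict hDQ (x s v) - x s (D.restrict hDP v)) := by
        rw [hu, map_sub, hy, sub_neg_eq_add, hτa, add_comm]
        rfl
      have hξP : ∀ w : P, ξ s (w : V) = ((x s w : Q) : V) := by
        intro w
        rw [hξa, hXtP s w w.2, sub_zero, hXa, Submodule.projectionOnto_apply_left hP w]
      have h2 : D (ξ s (v : V)) = ((D.restrict hDQ (x s v) : Q) : V) := by
        rw [hξP v]; rfl
      have h3 : ξ s (D (v : V)) = ((x s (D.restrict hDP v) : Q) : V) := hξP (D.restrict hDP v)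
      rw [h1, hza, map_add]
      congr 1
      rw [h2, h3, ← Submodule.coe_sub]
      exact (Submodule.projectionOnto_apply_left hQ _).symm
    have hcomm : ∀ v : V, δ (D (Φ s v)) - D (δ (Φ s v)) + (D (ξ s (Φ s v)) - ξ s (D (Φ s v))) =
        Φ s (δ (D v) - D (δ v) + (D (ξ s v) - ξ s (D v))) := by
      intro v
      have e1 : δ (Φ s (D v)) = Φ s (δ (D v)) + ξ s (Φ s (D v)) - Φ s (ξ s (D v)) := by
        have := hδΦ s (D v)
        rw [sub_eq_iff_eq_add] at this
        rw [this]; abel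
      have e2 : δ (Φ s v) = Φ s (δ v) + ξ s (Φ s v) - Φ s (ξ s v) := by
        have := hδΦ s v
        rw [sub_eq_iff_eq_add] at this
        rw [this]; abel
      rw [hDΦ s v, e1, e2]
      simp only [map_add, map_sub, hDΦ]
      abel
    intro v
    rw [hW, hW]
    have h4 : (((Φ s).restrict (hΦP s) v : P) : V) = Φ s (v : V) := rfl
    rw [h4, hcomm, hπQΦ]
  -- hence `u` is an intertwiner
  have hc : u ∘ₗ (Φ s).restrict (hΦP s) - (Φ s).restrict (hΦQ s) ∘ₗ u = 0 := by
    apply hτinj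
    rw [map_zero]
    apply LinearMap.ext
    intro v
    apply Subtype.ext
    have h5 : D ((u ((Φ s).restrict (hΦP s) v) : Q) : V) -
        ((u (D.restrict hDP ((Φ s).restrict (hΦP s) v)) : Q) : V) =
        Φ s (D ((u v : Q) : V) - ((u (D.restrict hDP v) : Q) : V)) :=
      congrArg Subtype.val (hτu v)
    have hPD : D.restrict hDP ((Φ s).restrict (hΦP s) v) =
        (Φ s).restrict (hΦP s) (D.restrict hDP v) := Subtype.ext (hDΦ s v)
    rw [hPD, map_sub, ← hDΦ] at h5
    change D ((u ((Φ s).restrict (hΦP s) v) : Q) - Φ s (u v : Q) : V) -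
      (((u ((Φ s).restrict (hΦP s) (D.restrict hDP v)) : Q) : V) -
        Φ s (u (D.restrict hDP v) : Q)) = 0
    rw [map_sub, ← sub_eq_zero.2 h5]
    abel
  rw [mem_Inter]
  intro v
  have := LinearMap.congr_fun hc v
  exact sub_eq_zero.1 this

end H1

section Core

variable {ι : Type*} [Fintype ι] [FiniteDimensional K V]

omit [Fintype ι] in
theorem iSup_range_eq_topA {B : LinearMap.BilinForm K V} (hB : NA B) {Φ : ι → Module.End K V}
    (hΦ : ∀ s v w, B (Φ s v) w = - B v (Φ s w)) (hker : ∀ v, (∀ s, Φ s v = 0) → v = 0) :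
    ⨆ s, LinearMap.range (Φ s) = ⊤ := by
  have h1 : B.orthogonal (⨆ s, LinearMap.range (Φ s)) = ⊥ := by
    rw [eq_bot_iff]
    intro v hv
    rw [Submodule.mem_bot]
    apply hker
    intro s
    apply hB.nd
    intro w
    rw [hΦ, hB.alt, neg_neg]
    exact hv _ (Submodule.mem_iSup_of_mem s ⟨w, rfl⟩)
  rw [← hB.oo (⨆ s, LinearMap.range (Φ s)), h1, LinearMap.BilinForm.orthogonal_bot]

end Core

section Alt

variable {ι : Type*} [Fintype ι] [FiniteDimensional K V]

variable {B : LinearMap.BilinForm K V} {Φ : ι → Module.End K V} {D : Module.End K V}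

/-- All the information for a pair of blocks. -/
theorem pair_blocksA (hB : NA B) (hΦ : ∀ s v w, B (Φ s v) w = - B v (Φ s w))
    (hnil : ∃ k, ∀ s, Φ s ^ k = 0) (hsum : ∀ v, ∑ s, Φ s v = 0)
    (hker : ∀ v, (∀ s, Φ s v = 0) → v = 0) (hDer : Der B Φ)
    (hDB : ∀ v w, B (D v) w = B v (D w)) (hDΦ : ∀ s v, D (Φ s v) = Φ s (D v))
    (hD : ⨆ ν, D.maxGenEigenspace ν = ⊤) {lam mu : K} (hne : lam ≠ mu) :
    ∃ k, (∀ s, ((Φ s).restrict (gen_stable (hDΦ s) lam)) ^ k = 0) ∧
    (∀ s, ((Φ s).restrict (gen_stable (hDΦ s) mu)) ^ k = 0) ∧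
    InterAll (fun s => (Φ s).restrict (gen_stable (hDΦ s) lam))
      (fun s => (Φ s).restrict (gen_stable (hDΦ s) mu)) = ⊥ ∧
    (0 < finrank K (D.maxGenEigenspace mu) →
      ∑ s, (rk ((Φ s).restrict (gen_stable (hDΦ s) lam)) 1 : ℤ) =
        2 * finrank K (D.maxGenEigenspace lam)) ∧
    ∀ s j, rk ((Φ s).restrict (gen_stable (hDΦ s) mu)) (j + 1) ≠ 0 →
      nn ((Φ s).restrict (gen_stable (hDΦ s) lam)) j =
        nn ((Φ s).restrict (gen_stable (hDΦ s) lam)) (j + 1) := by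
  obtain ⟨k, hk⟩ := hnil
  have hpow : ∀ nu s, ((Φ s).restrict (gen_stable (hDΦ s) nu)) ^ k = 0 := by
    intro nu s
    rw [Module.End.pow_restrict k]
    ext v
    change ((Φ s ^ k) (v : V)) = 0
    rw [hk s]; rfl
  refine ⟨k, hpow lam, hpow mu, ?_⟩
  have hcomm : ∀ v, D (D v) = D (D v) := fun v => rfl
  refine pair_lemma _ _ k (hpow lam) (hpow mu) ?_ ?_
  · intro x hx
    exact H1_of_DerA hB hΦ hDer hDΦ (gen_isCompl hD lam) (gen_isCompl hD mu)
      (gen_ortho hDB hne) (fun s => gen_stable (hDΦ s) lam) (fun s => co_stable (hDΦ s) lam)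
      (fun s => gen_stable (hDΦ s) mu) (fun s => co_stable (hDΦ s) mu)
      (gen_stable hcomm lam) (gen_stable hcomm mu)
      (gen_tau hne _ _) x hx
  · exact two_le_sum_rk hsum hker (iSup_range_eq_topA hB hΦ hker) (gen_isCompl hD lam)
      (fun s => gen_stable (hDΦ s) lam) (fun s => co_stable (hDΦ s) lam)

/-- The alternative for a core. -/
theorem core_altA (hB : NA B) (hΦ : ∀ s v w, B (Φ s v) w = - B v (Φ s w))
    (hnil : ∃ k, ∀ s, Φ s ^ k = 0) (hsum : ∀ v, ∑ s, Φ s v = 0)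
    (hker : ∀ v, (∀ s, Φ s v = 0) → v = 0) (hDer : Der B Φ)
    (hDB : ∀ v w, B (D v) w = B v (D w)) (hDΦ : ∀ s v, D (Φ s v) = Φ s (D v))
    (hD : ⨆ ν, D.maxGenEigenspace ν = ⊤) :
    (∃ lam, D.maxGenEigenspace lam = ⊤) ∨ Tame Φ D := by
  classical
  by_cases hex : ∃ lam mu, lam ≠ mu ∧ D.maxGenEigenspace lam ≠ ⊥ ∧ D.maxGenEigenspace mu ≠ ⊥
  · right
    have hpos : ∀ nu, D.maxGenEigenspace nu ≠ ⊥ → 0 < finrank K (D.maxGenEigenspace nu) := by
      intro nu h
      rw [Nat.pos_iff_ne_zero]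
      intro h0
      exact h (Submodule.finrank_eq_zero.1 h0)
    -- pair facts
    have hpair : ∀ lam mu, lam ≠ mu → D.maxGenEigenspace lam ≠ ⊥ →
        D.maxGenEigenspace mu ≠ ⊥ → ∀ s, ∃ l, 1 ≤ l ∧
          (∀ j, ((Φ s).restrict (gen_stable (hDΦ s) lam)) ^ j = 0 ↔ l ≤ j) ∧
          (∀ j, ((Φ s).restrict (gen_stable (hDΦ s) mu)) ^ j = 0 ↔ l ≤ j) ∧
          l * finrank K (ker ((Φ s).restrict (gen_stable (hDΦ s) lam))) =
            finrank K (D.maxGenEigenspace lam) ∧
          l * finrank K (ker ((Φ s).restrict (gen_stable (hDΦ s) mu))) =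
            finrank K (D.maxGenEigenspace mu) := by
      intro lam mu hne h1 h2 s
      obtain ⟨k, hk1, hk2, -, -, hn⟩ := pair_blocksA hB hΦ hnil hsum hker hDer hDB hDΦ hD hne
      obtain ⟨k', hk1', hk2', -, -, hn'⟩ :=
        pair_blocksA hB hΦ hnil hsum hker hDer hDB hDΦ hD hne.symm
      exact free_of_pair (hk1 s) (hk2 s) (hpos _ h1) (hpos _ h2) (hn s) (hn' s)
    obtain ⟨lam, mu, hne, hlam, hmu⟩ := hex
    have hl := hpair lam mu hne hlam hmu
    choose l hl1 hll hlm hfl hfm using hl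
    have hker_eq : ∀ s nu, finrank K (ker ((Φ s).restrict (gen_stable (hDΦ s) nu))) =
        finrank K (ker (Φ s) ⊓ D.maxGenEigenspace nu : Submodule K V) := by
      intro s nu
      have hmap : (ker ((Φ s).restrict (gen_stable (hDΦ s) nu))).map
          (D.maxGenEigenspace nu).subtype = ker (Φ s) ⊓ D.maxGenEigenspace nu := by
        ext v
        constructor
        · rintro ⟨w, hw, rfl⟩
          refine ⟨?_, w.2⟩
          have := congrArg Subtype.val (LinearMap.mem_ker.1 hw)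
          exact this
        · rintro ⟨h1, h2⟩
          exact ⟨⟨v, h2⟩, Subtype.ext h1, rfl⟩
      rw [← hmap]
      exact LinearEquiv.finrank_eq
        (Submodule.equivMapOfInjective _ (Submodule.injective_subtype _) _)
    have hpow_iff : ∀ s nu j, ((Φ s).restrict (gen_stable (hDΦ s) nu)) ^ j = 0 ↔
        ∀ v ∈ D.maxGenEigenspace nu, (Φ s ^ j) v = 0 := by
      intro s nu j
      rw [Module.End.pow_restrict j]
      constructor
      · intro h v hv
        exact congrArg Subtype.val (LinearMap.congr_fun h ⟨v, hv⟩)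
      · intro h
        apply LinearMap.ext
        intro v
        exact Subtype.ext (h v v.2)
    refine ⟨⟨lam, mu, hne, hlam, hmu⟩, ?_, l, hl1, ?_, ?_⟩
    · intro lam' mu' hne' x hx
      obtain ⟨-, -, -, hI, -, -⟩ := pair_blocksA hB hΦ hnil hsum hker hDer hDB hDΦ hD hne'
      have hmem : x ∈ InterAll (fun s => (Φ s).restrict (gen_stable (hDΦ s) lam'))
          (fun s => (Φ s).restrict (gen_stable (hDΦ s) mu')) := by
        rw [mem_InterAll]
        intro s v
        exact Subtype.ext (hx s v _ rfl)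
      rw [hI] at hmem
      exact (Submodule.mem_bot K).1 hmem
    · intro s nu hnu
      -- compare with `lam` or `mu`
      have hcmp : (∀ j, ((Φ s).restrict (gen_stable (hDΦ s) nu)) ^ j = 0 ↔ l s ≤ j) ∧
          l s * finrank K (ker ((Φ s).restrict (gen_stable (hDΦ s) nu))) =
            finrank K (D.maxGenEigenspace nu) := by
        by_cases h : nu = lam
        · subst h
          exact ⟨hll s, hfl s⟩
        · obtain ⟨l', h1, h2, h3, h4, h5⟩ := hpair nu lam h hnu hlam s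
          have : l' = l s := by
            apply le_antisymm
            · exact (h3 _).1 ((hll s _).2 le_rfl)
            · exact (hll s _).1 ((h3 _).2 le_rfl)
          rw [← this]
          exact ⟨h2, h4⟩
      refine ⟨fun j => ?_, ?_⟩
      · rw [← hpow_iff, hcmp.1 j]
      · rw [← hker_eq]; exact hcmp.2
    · obtain ⟨k, -, -, -, hr, -⟩ := pair_blocksA hB hΦ hnil hsum hker hDer hDB hDΦ hD hne
      have hr' := hr (hpos _ hmu)
      set a : ℕ := finrank K (D.maxGenEigenspace lam) with ha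
      have hapos : (0 : ℚ) < a := by exact_mod_cast hpos _ hlam
      have hrk : ∀ s, (rk ((Φ s).restrict (gen_stable (hDΦ s) lam)) 1 : ℚ) =
          (1 - 1 / (l s : ℚ)) * a := by
        intro s
        have h1 := LinearMap.finrank_range_add_finrank_ker
          ((Φ s).restrict (gen_stable (hDΦ s) lam))
        have h2 : rk ((Φ s).restrict (gen_stable (hDΦ s) lam)) 1 =
            finrank K (range ((Φ s).restrict (gen_stable (hDΦ s) lam))) := by
          unfold rk; rw [pow_one]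
        have h3 := hfl s
        rw [h2]
        have h4 : ((finrank K (range ((Φ s).restrict (gen_stable (hDΦ s) lam))) : ℚ)) +
            finrank K (ker ((Φ s).restrict (gen_stable (hDΦ s) lam))) = a := by
          exact_mod_cast h1
        have h5 : (l s : ℚ) * finrank K (ker ((Φ s).restrict (gen_stable (hDΦ s) lam))) = a := by
          exact_mod_cast h3
        have h6 : (l s : ℚ) ≠ 0 := by
          have := hl1 s
          positivity
        field_simp
        rw [← h5] at h4 ⊢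
        linear_combination (l s : ℚ) * h4
      have hr'' : ∑ s, (rk ((Φ s).restrict (gen_stable (hDΦ s) lam)) 1 : ℚ) = 2 * a := by
        exact_mod_cast hr'
      rw [Finset.sum_congr rfl (fun s _ => hrk s), ← Finset.sum_mul] at hr''
      exact mul_right_cancel₀ hapos.ne' hr''
  · left
    push Not at hex
    by_cases hex2 : ∃ lam, D.maxGenEigenspace lam ≠ ⊥
    · obtain ⟨lam, hlam⟩ := hex2
      refine ⟨lam, ?_⟩
      rw [← hD]
      apply le_antisymm (le_iSup (fun ν => D.maxGenEigenspace ν) lam)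
      apply iSup_le
      intro nu
      by_cases h : lam = nu
      · rw [h]
      · rw [hex lam nu h hlam]; exact bot_le
    · push Not at hex2
      refine ⟨0, ?_⟩
      rw [← hD, hex2 0]
      symm
      rw [eq_bot_iff]
      apply iSup_le
      intro nu
      rw [hex2 nu]

end Alt

end Crest.Agent.R172.SpS
end

-- ▼ part R172/PairLift2
section

/-!
Row 172, gap G1, module part, file 2: the core of a module, descent of `y`, and `H^1(core X, core Z) = 0`.
-/

set_option autoImplicit false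

namespace Crest.Agent.R172.PL

open Module Crest.Agent.R172.St Crest.Agent.R172.Core

variable {K : Type*} [Field K] {X Z : Type*} [AddCommGroup X] [Module K X] [AddCommGroup Z]
  [Module K Z] {ι : Type*}

/-- the nilpotent part of `Ainf`. -/
def Rad (Φ : ι → End K X) : Submodule K (Ainf Φ) := (T Φ).comap (Ainf Φ).subtype

/-- the core `A^∞ X / (A^∞ X ∩ T)`. -/
abbrev CoreM (Φ : ι → End K X) : Type _ := Ainf Φ ⧸ Rad Φ

/-- the operators restricted to `Ainf`. -/
def resOp (Φ : ι → End K X) (s : ι) : End K (Ainf Φ) :=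
  (Φ s).restrict (fun _ hv => Ainf_stable s hv)


/-- the operators on the core. -/
def coreOp (Φ : ι → End K X) (s : ι) : End K (CoreM Φ) :=
  (Rad Φ).mapQ (Rad Φ) (resOp Φ s) (fun _ hv => T_stable s hv)

theorem coreOp_mk (Φ : ι → End K X) (s : ι) (v : Ainf Φ) :
    coreOp Φ s ((Rad Φ).mkQ v) = (Rad Φ).mkQ (resOp Φ s v) := rfl







theorem core_noker [Finite ι] (Φ : ι → End K X) (p : CoreM Φ) (h : ∀ s, coreOp Φ s p = 0) :
    p = 0 := by
  obtain ⟨v, rfl⟩ := (Rad Φ).mkQ_surjective p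
  refine (Submodule.Quotient.mk_eq_zero _).2 ?_
  change (v : X) ∈ T Φ
  apply T_closed
  intro s
  have := h s
  rw [coreOp_mk] at this
  exact (Submodule.Quotient.mk_eq_zero (Rad Φ)).1 this

theorem core_exists [FiniteDimensional K X] [Fintype ι] (Φ : ι → End K X) (p : CoreM Φ) :
    ∃ f : ι → CoreM Φ, ∑ s, coreOp Φ s (f s) = p := by
  obtain ⟨v, rfl⟩ := (Rad Φ).mkQ_surjective p
  obtain ⟨f, hf1, hf2⟩ := Ainf_exists Φ v.2
  refine ⟨fun s => (Rad Φ).mkQ ⟨f s, hf1 s⟩, ?_⟩
  have h1 : ∀ s, coreOp Φ s ((Rad Φ).mkQ ⟨f s, hf1 s⟩) = (Rad Φ).mkQ (resOp Φ s ⟨f s, hf1 s⟩) :=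
    fun s => rfl
  rw [Finset.sum_congr rfl fun s _ => h1 s, ← map_sum]
  congr 1
  apply Subtype.ext
  rw [Submodule.coe_sum]
  exact hf2

theorem core_sum [Fintype ι] (Φ : ι → End K X) (hsum : ∀ v, ∑ s, Φ s v = 0) (p : CoreM Φ) :
    ∑ s, coreOp Φ s p = 0 := by
  obtain ⟨v, rfl⟩ := (Rad Φ).mkQ_surjective p
  have h1 : ∀ s, coreOp Φ s ((Rad Φ).mkQ v) = (Rad Φ).mkQ (resOp Φ s v) := fun s => rfl
  rw [Finset.sum_congr rfl fun s _ => h1 s, ← map_sum]
  have : ∑ s, resOp Φ s v = 0 := by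
    apply Subtype.ext
    rw [Submodule.coe_sum]
    exact hsum v
  rw [this, map_zero]

theorem core_pow (Φ : ι → End K X) (s : ι) (k : ℕ) (hk : Φ s ^ k = 0) : coreOp Φ s ^ k = 0 := by
  have h1 : ∀ (k : ℕ) (v : Ainf Φ), (coreOp Φ s ^ k) ((Rad Φ).mkQ v) =
      (Rad Φ).mkQ ((resOp Φ s ^ k) v) := by
    intro k
    induction k with
    | zero => intro v; rfl
    | succ k ih =>
      intro v
      rw [pow_succ, pow_succ]
      exact ih (resOp Φ s v)
  have h2 : ∀ (k : ℕ) (v : Ainf Φ), (((resOp Φ s ^ k) v : Ainf Φ) : X) = (Φ s ^ k) v := by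
    intro k
    induction k with
    | zero => intro v; rfl
    | succ k ih =>
      intro v
      rw [pow_succ, pow_succ]
      exact ih (resOp Φ s v)
  apply LinearMap.ext
  intro p
  obtain ⟨v, rfl⟩ := (Rad Φ).mkQ_surjective p
  rw [h1]
  have : (resOp Φ s ^ k) v = 0 := by
    apply Subtype.ext
    rw [h2, hk]
    rfl
  rw [this, map_zero]
  rfl


variable [Fintype ι] [FiniteDimensional K X] [FiniteDimensional K Z]





end Crest.Agent.R172.PL
end

-- ▼ part R172/SpS2

/-!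
Row 172, G1 Step 2 (`T_f` is scalar), part 2: `S = V` with a (possibly degenerate) alternating form `η`
and symmetric tensors `M_s : V* → V`; the modules `(V, M_s η)` and `(V*, η M_s)`, the induced
nondegenerate alternating form on the core of `(V, M_s η)`, and the lifting of symplectic cocycles of
the core to symmetric tensors (`PL.lift` of helper207 + symmetrisation).
-/

set_option autoImplicit false

namespace Crest.Agent.R172.SpS

open Module LinearMap Crest.Agent.R172.Core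
open Crest.Agent.R172.St (Nk T mem_T mem_Nk_zero mem_Nk_succ Nk_le_T T_stable T_closed T_eq_Nk)
open Crest.Agent.R172.PL (Wk Ainf Rad CoreM coreOp resOp)

variable {K : Type*} [Field K] {V : Type*} [AddCommGroup V] [Module K V] {ι : Type*}

/-- the operator `M_s η` on `V`. -/
def Be (M : ι → (Dual K V →ₗ[K] V)) (η : LinearMap.BilinForm K V) (s : ι) : End K V := M s ∘ₗ η

/-- the operator `η M_s` on `V*`. -/
def Al (M : ι → (Dual K V →ₗ[K] V)) (η : LinearMap.BilinForm K V) (s : ι) : End K (Dual K V) :=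
  η ∘ₗ M s

/-- the `M_s` are symmetric, `η` is skew. -/
structure Dat (M : ι → (Dual K V →ₗ[K] V)) (η : LinearMap.BilinForm K V) : Prop where
  sym : ∀ s (ζ ξ : Dual K V), ζ (M s ξ) = ξ (M s ζ)
  skew : ∀ v w, η v w = - η w v

variable {M : ι → (Dual K V →ₗ[K] V)} {η : LinearMap.BilinForm K V}

theorem Be_apply (s : ι) (v : V) : Be M η s v = M s (η v) := rfl

theorem Al_apply (s : ι) (ζ : Dual K V) : Al M η s ζ = η (M s ζ) := rfl

theorem Dat.pair (h : Dat M η) (s : ι) (ζ : Dual K V) (v : V) :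
    ζ (Be M η s v) = - (Al M η s ζ) v := by
  rw [Be_apply, Al_apply, h.sym s ζ (η v), h.skew v (M s ζ)]

theorem Dat.be_skew (h : Dat M η) (s : ι) (v w : V) :
    η (Be M η s v) w = - η v (Be M η s w) := by
  rw [h.pair s (η v) w, neg_neg, Al_apply]
  rfl

theorem eta_be (s : ι) (v : V) : η (Be M η s v) = Al M η s (η v) := rfl

/-- words of length `k`: `V*` side nilpotent against `V` side image. -/
theorem Dat.o1 (h : Dat M η) (k : ℕ) : ∀ ζ ∈ Nk (Al M η) k, ∀ v ∈ Wk (Be M η) k, ζ v = 0 := by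
  induction k with
  | zero => intro ζ hζ v _; rw [mem_Nk_zero] at hζ; rw [hζ]; rfl
  | succ k ih =>
    intro ζ hζ v hv
    refine Submodule.iSup_induction (p := fun s => (Wk (Be M η) k).map (Be M η s))
      (motive := fun v => ζ v = 0) hv ?_ (map_zero ζ) ?_
    · rintro s _ ⟨u, hu, rfl⟩
      rw [h.pair, ih _ (mem_Nk_succ.1 hζ s) u hu, neg_zero]
    · intro a b ha hb; rw [map_add, ha, hb, add_zero]

theorem Dat.o2 (h : Dat M η) (k : ℕ) : ∀ ζ : Dual K V, (∀ v ∈ Wk (Be M η) k, ζ v = 0) →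
    ζ ∈ Nk (Al M η) k := by
  induction k with
  | zero =>
    intro ζ hζ
    rw [mem_Nk_zero]
    exact LinearMap.ext (fun v => hζ v (by simp [Wk]))
  | succ k ih =>
    intro ζ hζ
    rw [mem_Nk_succ]
    intro s
    apply ih
    intro v hv
    have h1 := hζ _ (PL.Wk_succ_mem hv s)
    rw [h.pair] at h1
    exact neg_eq_zero.1 h1

theorem Dat.o3 (h : Dat M η) (k : ℕ) : ∀ v : V, (∀ ζ ∈ Wk (Al M η) k, ζ v = 0) →
    v ∈ Nk (Be M η) k := by
  induction k with
  | zero =>
    intro v hv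
    rw [mem_Nk_zero]
    exact (Module.forall_dual_apply_eq_zero_iff K v).1 (fun ζ => hv ζ (by simp [Wk]))
  | succ k ih =>
    intro v hv
    rw [mem_Nk_succ]
    intro s
    apply ih
    intro ζ hζ
    rw [h.pair, hv _ (PL.Wk_succ_mem hζ s), neg_zero]

theorem Dat.o4 (h : Dat M η) (k : ℕ) : ∀ v ∈ Nk (Be M η) k, ∀ ζ ∈ Wk (Al M η) k, ζ v = 0 := by
  induction k with
  | zero => intro v hv ζ _; rw [mem_Nk_zero] at hv; rw [hv, map_zero]
  | succ k ih =>
    intro v hv ζ hζ
    refine Submodule.iSup_induction (p := fun s => (Wk (Al M η) k).map (Al M η s))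
      (motive := fun ζ => ζ v = 0) hζ ?_ rfl ?_
    · rintro s _ ⟨u, hu, rfl⟩
      have h1 := ih _ (mem_Nk_succ.1 hv s) u hu
      rw [h.pair] at h1
      exact neg_eq_zero.1 h1
    · intro a b ha hb; rw [LinearMap.add_apply, ha, hb, add_zero]

theorem eta_Wk (k : ℕ) : ∀ v ∈ Wk (Be M η) k, η v ∈ Wk (Al M η) k := by
  induction k with
  | zero => intro v _; simp [Wk]
  | succ k ih =>
    intro v hv
    refine Submodule.iSup_induction (p := fun s => (Wk (Be M η) k).map (Be M η s))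
      (motive := fun v => η v ∈ Wk (Al M η) (k + 1)) hv ?_ ?_ ?_
    · rintro s _ ⟨u, hu, rfl⟩
      rw [eta_be]
      exact PL.Wk_succ_mem (ih u hu) s
    · rw [map_zero]; exact Submodule.zero_mem _
    · intro a b ha hb; rw [map_add]; exact Submodule.add_mem _ ha hb

theorem Wk_eta (k : ℕ) : ∀ ζ ∈ Wk (Al M η) (k + 1), ∃ v ∈ Wk (Be M η) k, η v = ζ := by
  induction k with
  | zero =>
    intro ζ hζ
    refine Submodule.iSup_induction (p := fun s => (Wk (Al M η) 0).map (Al M η s))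
      (motive := fun ζ => ∃ v ∈ Wk (Be M η) 0, η v = ζ) hζ ?_ ?_ ?_
    · rintro s _ ⟨u, hu, rfl⟩
      exact ⟨M s u, by simp [Wk], rfl⟩
    · exact ⟨0, Submodule.zero_mem _, map_zero η⟩
    · rintro _ _ ⟨a, ha, rfl⟩ ⟨b, hb, rfl⟩
      exact ⟨a + b, Submodule.add_mem _ ha hb, map_add η a b⟩
  | succ k ih =>
    intro ζ hζ
    refine Submodule.iSup_induction (p := fun s => (Wk (Al M η) (k + 1)).map (Al M η s))
      (motive := fun ζ => ∃ v ∈ Wk (Be M η) (k + 1), η v = ζ) hζ ?_ ?_ ?_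
    · rintro s _ ⟨u, hu, rfl⟩
      obtain ⟨v, hv, rfl⟩ := ih u hu
      exact ⟨Be M η s v, PL.Wk_succ_mem hv s, rfl⟩
    · exact ⟨0, Submodule.zero_mem _, map_zero η⟩
    · rintro _ _ ⟨a, ha, rfl⟩ ⟨b, hb, rfl⟩
      exact ⟨a + b, Submodule.add_mem _ ha hb, map_add η a b⟩

theorem eta_Nk (k : ℕ) : ∀ v ∈ Nk (Be M η) k, η v ∈ Nk (Al M η) k := by
  induction k with
  | zero => intro v hv; rw [mem_Nk_zero] at hv ⊢; rw [hv, map_zero]
  | succ k ih =>
    intro v hv
    rw [mem_Nk_succ] at hv ⊢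
    intro s
    rw [← eta_be]
    exact ih _ (hv s)

theorem Nk_eta (k : ℕ) : ∀ v : V, η v ∈ Nk (Al M η) k → v ∈ Nk (Be M η) (k + 1) := by
  induction k with
  | zero =>
    intro v hv
    rw [mem_Nk_zero] at hv
    rw [mem_Nk_succ]
    intro s
    rw [mem_Nk_zero, Be_apply, hv, map_zero]
  | succ k ih =>
    intro v hv
    rw [mem_Nk_succ] at hv ⊢
    intro s
    apply ih
    rw [eta_be]
    exact hv s

variable [FiniteDimensional K V]

theorem Dat.t_ainf (h : Dat M η) {ζ : Dual K V} (hζ : ζ ∈ T (Al M η)) {v : V}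
    (hv : v ∈ Ainf (Be M η)) : ζ v = 0 := by
  obtain ⟨k, hk⟩ := mem_T.1 hζ
  exact h.o1 k ζ hk v (PL.Ainf_le_Wk _ k hv)

theorem Dat.mem_t (h : Dat M η) {ζ : Dual K V} (hζ : ∀ v ∈ Ainf (Be M η), ζ v = 0) :
    ζ ∈ T (Al M η) := by
  obtain ⟨k, hk, -⟩ := PL.Ainf_eq_Wk (Be M η)
  rw [hk] at hζ
  exact Nk_le_T _ k (h.o2 k ζ hζ)

theorem Dat.ainf_t (h : Dat M η) {ζ : Dual K V} (hζ : ζ ∈ Ainf (Al M η)) {v : V}
    (hv : v ∈ T (Be M η)) : ζ v = 0 := by
  obtain ⟨k, hk⟩ := mem_T.1 hv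
  exact h.o4 k v hk ζ (PL.Ainf_le_Wk _ k hζ)

theorem Dat.mem_t' (h : Dat M η) {v : V} (hv : ∀ ζ ∈ Ainf (Al M η), ζ v = 0) :
    v ∈ T (Be M η) := by
  obtain ⟨k, hk, -⟩ := PL.Ainf_eq_Wk (Al M η)
  rw [hk] at hv
  exact Nk_le_T _ k (h.o3 k v hv)

theorem eta_ainf {v : V} (hv : v ∈ Ainf (Be M η)) : η v ∈ Ainf (Al M η) :=
  (Submodule.mem_iInf _).2 (fun k => eta_Wk k v (PL.Ainf_le_Wk _ k hv))

theorem ainf_eta {ζ : Dual K V} (hζ : ζ ∈ Ainf (Al M η)) : ∃ v ∈ Ainf (Be M η), η v = ζ := by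
  obtain ⟨k, hk, -⟩ := PL.Ainf_eq_Wk (Be M η)
  obtain ⟨v, hv, rfl⟩ := Wk_eta k ζ (PL.Ainf_le_Wk _ (k + 1) hζ)
  exact ⟨v, by rw [hk]; exact hv, rfl⟩

theorem eta_t {v : V} (hv : v ∈ T (Be M η)) : η v ∈ T (Al M η) := by
  obtain ⟨k, hk⟩ := mem_T.1 hv
  exact Nk_le_T _ k (eta_Nk k v hk)

theorem t_eta {v : V} (hv : η v ∈ T (Al M η)) : v ∈ T (Be M η) := by
  obtain ⟨k, hk⟩ := mem_T.1 hv
  exact Nk_le_T _ _ (Nk_eta k v hk)

/-- `η` vanishes on `Ainf × T`. -/
theorem Dat.eta_zero (h : Dat M η) {v t : V} (hv : v ∈ Ainf (Be M η)) (ht : t ∈ T (Be M η)) :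
    η v t = 0 := h.ainf_t (eta_ainf hv) ht

theorem Dat.eta_zero' (h : Dat M η) {v t : V} (hv : v ∈ Ainf (Be M η)) (ht : t ∈ T (Be M η)) :
    η t v = 0 := by rw [h.skew, h.eta_zero hv ht, neg_zero]

/-- a section of `Ainf → core`. -/
theorem exists_sec (Φ : ι → End K V) : ∃ σ : CoreM Φ →ₗ[K] Ainf Φ, ∀ p, (Rad Φ).mkQ (σ p) = p := by
  obtain ⟨σ, hσ⟩ := (Rad Φ).mkQ.exists_rightInverse_of_surjective
    (LinearMap.range_eq_top.2 (Rad Φ).mkQ_surjective)
  exact ⟨σ, fun p => LinearMap.congr_fun hσ p⟩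

/-- the chosen section. -/
noncomputable def sec (Φ : ι → End K V) : CoreM Φ →ₗ[K] Ainf Φ := (exists_sec Φ).choose

theorem mk_sec (Φ : ι → End K V) (p : CoreM Φ) : (Rad Φ).mkQ (sec Φ p) = p :=
  (exists_sec Φ).choose_spec p

theorem mk_eq {Φ : ι → End K V} {v w : Ainf Φ} :
    (Rad Φ).mkQ v = (Rad Φ).mkQ w ↔ (v : V) - w ∈ T Φ := by
  rw [Submodule.mkQ_apply, Submodule.mkQ_apply, Submodule.Quotient.eq]
  rfl

theorem sec_mk {Φ : ι → End K V} (v : Ainf Φ) : ((sec Φ ((Rad Φ).mkQ v) : Ainf Φ) : V) - v ∈ T Φ :=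
  mk_eq.1 (mk_sec Φ _)

/-- the form of the core. -/
noncomputable def BC (M : ι → (Dual K V →ₗ[K] V)) (η : LinearMap.BilinForm K V) :
    LinearMap.BilinForm K (CoreM (Be M η)) :=
  η.compl₁₂ ((Ainf (Be M η)).subtype ∘ₗ sec (Be M η)) ((Ainf (Be M η)).subtype ∘ₗ sec (Be M η))

theorem BC_apply (p q : CoreM (Be M η)) :
    BC M η p q = η (sec (Be M η) p : V) (sec (Be M η) q : V) := rfl

theorem Dat.BC_mk (h : Dat M η) (v w : Ainf (Be M η)) :
    BC M η ((Rad (Be M η)).mkQ v) ((Rad (Be M η)).mkQ w) = η (v : V) (w : V) := by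
  rw [BC_apply]
  set a := (sec (Be M η) ((Rad (Be M η)).mkQ v)) with ha
  set b := (sec (Be M η) ((Rad (Be M η)).mkQ w)) with hb
  have h1 : (a : V) - v ∈ T (Be M η) := sec_mk v
  have h2 : (b : V) - w ∈ T (Be M η) := sec_mk w
  have h3 := h.eta_zero a.2 h2
  have h4 := h.eta_zero' w.2 h1
  rw [map_sub] at h3
  rw [map_sub, LinearMap.sub_apply] at h4
  linear_combination h3 + h4

theorem Dat.BC_mk_right (h : Dat M η) (v : Ainf (Be M η)) (q : CoreM (Be M η)) :
    BC M η ((Rad (Be M η)).mkQ v) q = η (v : V) (sec (Be M η) q : V) := by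
  conv_lhs => rw [← mk_sec (Be M η) q]
  rw [h.BC_mk]

theorem Dat.NA_BC (h : Dat M η) : NA (BC M η) where
  alt p q := by rw [BC_apply, BC_apply, h.skew]
  nd p hp := by
    rw [← mk_sec (Be M η) p]
    refine (Submodule.Quotient.mk_eq_zero _).2 ?_
    change ((sec (Be M η) p : Ainf (Be M η)) : V) ∈ T (Be M η)
    apply t_eta
    apply h.mem_t
    intro v hv
    have h1 := hp ((Rad (Be M η)).mkQ ⟨v, hv⟩)
    rw [← mk_sec (Be M η) p, h.BC_mk] at h1
    exact h1

theorem Dat.BC_op (h : Dat M η) (s : ι) (p q : CoreM (Be M η)) :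
    BC M η (coreOp (Be M η) s p) q = - BC M η p (coreOp (Be M η) s q) := by
  obtain ⟨v, rfl⟩ := (Rad (Be M η)).mkQ_surjective p
  obtain ⟨w, rfl⟩ := (Rad (Be M η)).mkQ_surjective q
  rw [PL.coreOp_mk, PL.coreOp_mk, h.BC_mk, h.BC_mk]
  exact h.be_skew s v w

/-- transpose of a tensor. -/
noncomputable def tr (x : Dual K V →ₗ[K] V) : Dual K V →ₗ[K] V :=
  (Module.evalEquiv K V).symm.toLinearMap ∘ₗ x.dualMap

theorem tr_apply (x : Dual K V →ₗ[K] V) (ζ ξ : Dual K V) : ζ (tr x ξ) = ξ (x ζ) := by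
  have h1 : (Module.evalEquiv K V) (tr x ξ) = x.dualMap ξ := by
    change (Module.evalEquiv K V) ((Module.evalEquiv K V).symm (x.dualMap ξ)) = _
    rw [LinearEquiv.apply_symm_apply]
  have h2 := LinearMap.congr_fun h1 ζ
  rw [Module.evalEquiv_apply, Module.Dual.eval_apply] at h2
  rw [h2]
  rfl

end Crest.Agent.R172.SpS
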