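import Mathlib

/-!
Row 172, T0, node (o2): the space `ZZ` of twisted-self-adjoint corrections, for a not necessarily
semisimple `D` (note 15796).  Pure algebra in a ring `E` (`Module.End K M` or matrices) with an
anti-involution `T`, an idempotent `e`, elements `Φ r` and `D`.
-/

set_option autoImplicit false

namespace Crest.Agent.R172.ZP

open Finset

section Nil

variable {A : Type*} [AddCommGroup A]

/-- `U` is nilpotent on the vector `h`. -/
def NilAt (U : AddMonoid.End A) (h : A) : Prop := ∃ m : ℕ, (U ^ m) h = 0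

theorem NilAt.zero (U : AddMonoid.End A) : NilAt U 0 := ⟨0, by simp⟩

theorem pow_zero_of_le {U : AddMonoid.End A} {h : A} {m n : ℕ} (hmn : m ≤ n)
    (hm : (U ^ m) h = 0) : (U ^ n) h = 0 := by
  obtain ⟨k, rfl⟩ := Nat.exists_eq_add_of_le' hmn
  rw [pow_add, AddMonoid.End.coe_mul, Function.comp_apply, hm, map_zero]

theorem NilAt.add {U : AddMonoid.End A} {h k : A} (h1 : NilAt U h) (h2 : NilAt U k) :
    NilAt U (h + k) := by
  obtain ⟨m, hm⟩ := h1
  obtain ⟨n, hn⟩ := h2
  refine ⟨max m n, ?_⟩
  rw [map_add, pow_zero_of_le (le_max_left _ _) hm, pow_zero_of_le (le_max_right _ _) hn,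
    add_zero]

theorem NilAt.neg {U : AddMonoid.End A} {h : A} (h1 : NilAt U h) : NilAt U (-h) := by
  obtain ⟨m, hm⟩ := h1
  exact ⟨m, by rw [map_neg, hm, neg_zero]⟩

theorem NilAt.sub {U : AddMonoid.End A} {h k : A} (h1 : NilAt U h) (h2 : NilAt U k) :
    NilAt U (h - k) := by
  rw [sub_eq_add_neg]; exact h1.add h2.neg

/-- an additive map intertwining `U` and `U'` transports `NilAt`. -/
theorem NilAt.map {B : Type*} [AddCommGroup B] {U : AddMonoid.End A} {U' : AddMonoid.End B}
    {h : A} (h1 : NilAt U h) (f : A → B) (hf0 : f 0 = 0) (hf : ∀ x, f (U x) = U' (f x)) :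
    NilAt U' (f h) := by
  obtain ⟨m, hm⟩ := h1
  refine ⟨m, ?_⟩
  have : ∀ (m : ℕ) (x : A), f ((U ^ m) x) = (U' ^ m) (f x) := by
    intro m
    induction m with
    | zero => intro x; simp
    | succ m ih =>
      intro x
      rw [pow_succ, pow_succ, AddMonoid.End.coe_mul, AddMonoid.End.coe_mul, Function.comp_apply,
        Function.comp_apply, ih, hf]
  rw [← this, hm, hf0]

theorem NilAt.of_apply {U : AddMonoid.End A} {h : A} (h1 : NilAt U (U h)) : NilAt U h := by
  obtain ⟨m, hm⟩ := h1
  exact ⟨m + 1, by rw [pow_succ, AddMonoid.End.coe_mul, Function.comp_apply, hm]⟩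

/-- sum of two commuting operators. -/
theorem NilAt.add_op {U V : AddMonoid.End A} (hUV : Commute U V) {h : A} (h1 : NilAt U h)
    (h2 : NilAt V h) : NilAt (U + V) h := by
  obtain ⟨m, hm⟩ := h1
  obtain ⟨n, hn⟩ := h2
  refine ⟨m + n, ?_⟩
  rw [hUV.add_pow]
  have hs : ∀ (s : Finset ℕ) (f : ℕ → AddMonoid.End A), (∑ i ∈ s, f i) h = ∑ i ∈ s, f i h := by
    intro s f
    exact AddMonoidHom.finsetSum_apply f s h
  rw [hs]
  refine Finset.sum_eq_zero fun i hi => ?_
  have h3 : ((U ^ i * V ^ (m + n - i)) * ((m + n).choose i : AddMonoid.End A)) h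
      = ((m + n).choose i) • ((U ^ i * V ^ (m + n - i)) h) := by
    rw [← Nat.cast_comm, ← nsmul_eq_mul]
    rfl
  rw [h3]
  rcases le_or_gt m i with hmi | hmi
  · have : (U ^ i * V ^ (m + n - i)) h = 0 := by
      rw [(hUV.pow_pow i (m + n - i)).eq, AddMonoid.End.coe_mul, Function.comp_apply,
        pow_zero_of_le hmi hm, map_zero]
    rw [this, smul_zero]
  · have : (U ^ i * V ^ (m + n - i)) h = 0 := by
      rw [AddMonoid.End.coe_mul, Function.comp_apply, pow_zero_of_le (by omega) hn, map_zero]
    rw [this, smul_zero]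

/-- left factor commuting with `U`. -/
theorem NilAt.mul_op {U V : AddMonoid.End A} (hUV : Commute V U) {h : A} (h1 : NilAt U h) :
    NilAt (V * U) h := by
  obtain ⟨m, hm⟩ := h1
  exact ⟨m, by rw [hUV.mul_pow, AddMonoid.End.coe_mul, Function.comp_apply, hm, map_zero]⟩

end Nil

section Ring

variable {E : Type*} [Ring E]

/-- the commutator with `D`, as an additive map. -/
def adE (D : E) : AddMonoid.End E := AddMonoidHom.mulLeft D - AddMonoidHom.mulRight D

@[simp] theorem adE_apply (D x : E) : adE D x = D * x - x * D := rfl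

/-- pointwise extension of an additive map to sequences -/
def pw (f : AddMonoid.End E) : AddMonoid.End (ℕ → E) :=
  { toFun := fun h k => f (h k)
    map_zero' := by funext k; simp
    map_add' := fun a b => by funext k; simp }

@[simp] theorem pw_apply (f : AddMonoid.End E) (h : ℕ → E) (k : ℕ) : pw f h k = f (h k) := rfl

/-- the difference operator on sequences -/
def DD : AddMonoid.End (ℕ → E) :=
  { toFun := fun h k => h (k + 1) - h k
    map_zero' := by funext k; simp
    map_add' := fun a b => by
      funext k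
      simp only [Pi.add_apply]
      abel }

@[simp] theorem DD_apply (h : ℕ → E) (k : ℕ) : DD h k = h (k + 1) - h k := rfl

theorem pw_pow (f : AddMonoid.End E) (m : ℕ) : ∀ (h : ℕ → E) (k : ℕ),
    ((pw f) ^ m) h k = (f ^ m) (h k) := by
  induction m with
  | zero => intro h k; simp
  | succ m ih =>
    intro h k
    rw [pow_succ, pow_succ, AddMonoid.End.coe_mul, AddMonoid.End.coe_mul, Function.comp_apply,
      Function.comp_apply, ih, pw_apply]

theorem nil_mul_left {D x : E} (hx : NilAt (adE D) x) {h : ℕ → E} (hh : NilAt (pw (adE D)) h) :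
    NilAt (pw (adE D)) (fun k => x * h k) := by
  obtain ⟨m, hm⟩ := hx
  obtain ⟨n, hn⟩ := hh
  suffices H : ∀ (N m n : ℕ) (x : E) (h : ℕ → E), m + n ≤ N → ((adE D) ^ m) x = 0 →
      ((pw (adE D)) ^ n) h = 0 → NilAt (pw (adE D)) (fun k => x * h k) from
    H (m + n) m n x h le_rfl hm hn
  intro N
  induction N with
  | zero =>
    intro m n x h hmn hx hh
    have hm0 : m = 0 := by omega
    subst hm0
    have : x = 0 := by simpa using hx
    subst this
    have h0 : (fun k => (0 : E) * h k) = 0 := by funext k; simp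
    rw [h0]
    exact NilAt.zero _
  | succ N ih =>
    intro m n x h hmn hx hh
    rcases m with _ | m
    · have : x = 0 := by simpa using hx
      subst this
      have h0 : (fun k => (0 : E) * h k) = 0 := by funext k; simp
      rw [h0]
      exact NilAt.zero _
    rcases n with _ | n
    · have : h = 0 := by simpa using hh
      subst this
      have h0 : (fun k => x * (0 : ℕ → E) k) = 0 := by funext k; simp
      rw [h0]
      exact NilAt.zero _
    apply NilAt.of_apply
    have e1 : pw (adE D) (fun k => x * h k)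
        = (fun k => (adE D x) * h k) + (fun k => x * (pw (adE D) h) k) := by
      funext k
      simp only [pw_apply, adE_apply, Pi.add_apply]
      noncomm_ring
    rw [e1]
    refine NilAt.add (ih m (n + 1) _ _ (by omega) ?_ hh) (ih (m + 1) n _ _ (by omega) hx ?_)
    · rw [pow_succ, AddMonoid.End.coe_mul, Function.comp_apply] at hx
      exact hx
    · rw [pow_succ, AddMonoid.End.coe_mul, Function.comp_apply] at hh
      exact hh

theorem nil_mul_right {D x : E} (hx : NilAt (adE D) x) {h : ℕ → E} (hh : NilAt (pw (adE D)) h) :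
    NilAt (pw (adE D)) (fun k => h k * x) := by
  obtain ⟨m, hm⟩ := hx
  obtain ⟨n, hn⟩ := hh
  suffices H : ∀ (N m n : ℕ) (x : E) (h : ℕ → E), m + n ≤ N → ((adE D) ^ m) x = 0 →
      ((pw (adE D)) ^ n) h = 0 → NilAt (pw (adE D)) (fun k => h k * x) from
    H (m + n) m n x h le_rfl hm hn
  intro N
  induction N with
  | zero =>
    intro m n x h hmn hx hh
    have hm0 : m = 0 := by omega
    subst hm0
    have : x = 0 := by simpa using hx
    subst this
    have h0 : (fun k => h k * (0 : E)) = 0 := by funext k; simp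
    rw [h0]
    exact NilAt.zero _
  | succ N ih =>
    intro m n x h hmn hx hh
    rcases m with _ | m
    · have : x = 0 := by simpa using hx
      subst this
      have h0 : (fun k => h k * (0 : E)) = 0 := by funext k; simp
      rw [h0]
      exact NilAt.zero _
    rcases n with _ | n
    · have : h = 0 := by simpa using hh
      subst this
      have h0 : (fun k => (0 : ℕ → E) k * x) = 0 := by funext k; simp
      rw [h0]
      exact NilAt.zero _
    apply NilAt.of_apply
    have e1 : pw (adE D) (fun k => h k * x)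
        = (fun k => h k * (adE D x)) + (fun k => (pw (adE D) h) k * x) := by
      funext k
      simp only [pw_apply, adE_apply, Pi.add_apply]
      noncomm_ring
    rw [e1]
    refine NilAt.add (ih m (n + 1) _ _ (by omega) ?_ hh) (ih (m + 1) n _ _ (by omega) hx ?_)
    · rw [pow_succ, AddMonoid.End.coe_mul, Function.comp_apply] at hx
      exact hx
    · rw [pow_succ, AddMonoid.End.coe_mul, Function.comp_apply] at hh
      exact hh

/-- a derivation `∂` of `E` with `∂ D` ad-nilpotent preserves ad-nilpotency. -/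
theorem nil_der {D : E} (d : E → E) (hadd : ∀ x y, d (x + y) = d x + d y)
    (hmul : ∀ x y, d (x * y) = d x * y + x * d y) (hD : NilAt (adE D) (d D)) {h : ℕ → E}
    (hh : NilAt (pw (adE D)) h) : NilAt (pw (adE D)) (fun k => d (h k)) := by
  have hd0 : d 0 = 0 := by
    have := hadd 0 0
    simpa using this
  have hneg : ∀ x, d (-x) = - d x := by
    intro x
    have := hadd x (-x)
    rw [add_neg_cancel, hd0] at this
    exact (neg_eq_of_add_eq_zero_right this.symm).symm
  have hsub : ∀ x y, d (x - y) = d x - d y := by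
    intro x y
    rw [sub_eq_add_neg, hadd, hneg, ← sub_eq_add_neg]
  obtain ⟨n, hn⟩ := hh
  suffices H : ∀ (n : ℕ) (h : ℕ → E), ((pw (adE D)) ^ n) h = 0 →
      NilAt (pw (adE D)) (fun k => d (h k)) from H n h hn
  intro n
  induction n with
  | zero =>
    intro h hh
    have : h = 0 := by simpa using hh
    subst this
    have h0 : (fun k => d ((0 : ℕ → E) k)) = 0 := by funext k; simpa using hd0
    rw [h0]
    exact NilAt.zero _
  | succ n ih =>
    intro h hh
    have hh' : NilAt (pw (adE D)) h := ⟨n + 1, hh⟩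
    rw [pow_succ, AddMonoid.End.coe_mul, Function.comp_apply] at hh
    have h1 := ih _ hh
    apply NilAt.of_apply
    have e1 : pw (adE D) (fun k => d (h k))
        = (fun k => d ((pw (adE D) h) k)) - ((fun k => d D * h k) - (fun k => h k * d D)) := by
      funext k
      simp only [pw_apply, adE_apply, Pi.sub_apply, hsub, hmul]
      noncomm_ring
    rw [e1]
    exact h1.sub ((nil_mul_left hD hh').sub (nil_mul_right hD hh'))

/-- polynomial sequences vanishing at the even numbers vanish -/
theorem zero_of_even [Module ℚ E] {g : ℕ → E} (hg : NilAt DD g) (h0 : ∀ n, g (2 * n) = 0) :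
    g = 0 := by
  obtain ⟨m, hm⟩ := hg
  suffices H : ∀ (m : ℕ) (g : ℕ → E), ((DD : AddMonoid.End (ℕ → E)) ^ m) g = 0 →
      (∀ n, g (2 * n) = 0) → g = 0 from H m g hm h0
  intro m
  induction m with
  | zero => intro g hg _; simpa using hg
  | succ m ih =>
    intro g hg h0
    rw [pow_succ, AddMonoid.End.coe_mul, Function.comp_apply] at hg
    have hf' : (fun k => DD g (k + 1) + DD g k) = 0 := by
      apply ih
      · have : (fun k => DD g (k + 1) + DD g k) = DD (DD g) + DD g + DD g := by
          funext k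
          simp only [DD_apply, Pi.add_apply]
          abel
        rw [this, map_add, map_add, hg, add_zero, add_zero]
        have h2 : ((DD : AddMonoid.End (ℕ → E)) ^ m) (DD (DD g))
            = DD (((DD : AddMonoid.End (ℕ → E)) ^ m) (DD g)) := by
          have h3 : (DD : AddMonoid.End (ℕ → E)) ^ m * DD = DD * DD ^ m :=
            (Commute.pow_self _ m).eq
          exact congrArg (fun f : AddMonoid.End (ℕ → E) => f (DD g)) h3
        rw [h2, hg, map_zero]
      · intro n
        have h1 := h0 n
        have h2 := h0 (n + 1)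
        have h3 : 2 * (n + 1) = 2 * n + 1 + 1 := by ring
        rw [h3] at h2
        simp only [DD_apply, h1, h2]
        abel
    have h2 : ∀ k, DD g (k + 1) = - DD g k := fun k =>
      eq_neg_of_add_eq_zero_left (congrFun hf' k)
    have h3 : ∀ j : ℕ, ((DD : AddMonoid.End (ℕ → E)) ^ j) (DD g) = ((-2 : ℚ) ^ j) • DD g := by
      intro j
      induction j with
      | zero => simp
      | succ j ihj =>
        rw [pow_succ', AddMonoid.End.coe_mul, Function.comp_apply, ihj]
        funext k
        rw [DD_apply, Pi.smul_apply, Pi.smul_apply, h2 k, Pi.smul_apply, pow_succ, mul_smul]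
        rw [show ((-2 : ℚ) • DD g k) = - DD g k - DD g k by
          rw [show (-2 : ℚ) = -1 + -1 by norm_num, add_smul, neg_one_smul]; abel]
        rw [smul_neg, smul_sub, smul_neg]
    have h4 := h3 m
    rw [hg] at h4
    have h5 : DD g = 0 := by
      rcases smul_eq_zero.1 h4.symm with h | h
      · exact absurd h (pow_ne_zero _ (by norm_num))
      · exact h
    funext k
    induction k with
    | zero => simpa using h0 0
    | succ k ihk =>
      have := congrFun h5 k
      rw [DD_apply, Pi.zero_apply, sub_eq_zero] at this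
      rw [this, ihk]
      rfl

end Ring

section Tw

variable {K E : Type*} [Field K] [Ring E] [Algebra K E]

/-- twist of a sequence by `c` -/
def tw (c ci : E) (h : ℕ → E) (k : ℕ) : E := c ^ k * h k * ci ^ k

/-- `c = 1 + t D` up to what is used: inverse, commutes with `D`, `[c,x] = t [D,x]`. -/
structure Gau (D c ci : E) (t : K) : Prop where
  mul : c * ci = 1
  mul' : ci * c = 1
  comm : ∀ x, c * x - x * c = t • (D * x - x * D)

theorem Gau.cD {D c ci : E} {t : K} (g : Gau D c ci t) : c * D = D * c := by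
  have := g.comm D
  rw [sub_self, smul_zero, sub_eq_zero] at this
  exact this

theorem Gau.ciD {D c ci : E} {t : K} (g : Gau D c ci t) : ci * D = D * ci := by
  calc ci * D = ci * D * (c * ci) := by rw [g.mul, mul_one]
    _ = ci * (D * c) * ci := by noncomm_ring
    _ = ci * (c * D) * ci := by rw [g.cD]
    _ = (ci * c) * D * ci := by noncomm_ring
    _ = D * ci := by rw [g.mul', one_mul]

/-- the inverse gauge: `[ci,x] = -ci [c,x] ci`. -/
theorem Gau.comm_inv {D c ci : E} {t : K} (g : Gau D c ci t) (x : E) :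
    ci * x - x * ci = - (ci * (t • (D * x - x * D)) * ci) := by
  rw [← g.comm]
  calc ci * x - x * ci = ci * x * (c * ci) - (ci * c) * x * ci := by rw [g.mul, g.mul', mul_one,
        one_mul]
    _ = _ := by noncomm_ring

theorem nil_tw {D c ci : E} (_hc : c * ci = 1) (hcD : c * D = D * c) (hciD : ci * D = D * ci)
    (v : AddMonoid.End E) (hv : ∀ x, c * x * ci - x = v (adE D x))
    (hvD : ∀ x, v (adE D x) = adE D (v x)) (hvc : ∀ x, v (c * x * ci) = c * v x * ci)
    {h : ℕ → E} (h1 : NilAt DD h) (h2 : NilAt (pw (adE D)) h) :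
    NilAt DD (tw c ci h) ∧ NilAt (pw (adE D)) (tw c ci h) := by
  set a : AddMonoid.End E := AddMonoidHom.comp (AddMonoidHom.mulRight ci) (AddMonoidHom.mulLeft c)
    with ha
  have haa : ∀ x, a x = c * x * ci := fun x => rfl
  have c1 : ∀ f : AddMonoid.End E, Commute (pw f) (DD : AddMonoid.End (ℕ → E)) := by
    intro f
    ext h k
    simp [AddMonoid.End.coe_mul]
  have c2 : ∀ f g : AddMonoid.End E, Commute f g → Commute (pw f) (pw g) := by
    intro f g hfg
    ext h k
    simp only [AddMonoid.End.coe_mul, Function.comp_apply, pw_apply]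
    exact congrArg (fun F : AddMonoid.End E => F (h k)) hfg.eq
  have cav : Commute a v := by
    ext x
    simp only [AddMonoid.End.coe_mul, Function.comp_apply, haa, hvc]
  have caD : Commute a (adE D) := by
    ext x
    simp only [AddMonoid.End.coe_mul, Function.comp_apply, haa, adE_apply]
    calc c * (D * x - x * D) * ci = (c * D) * x * ci - c * x * (D * ci) := by noncomm_ring
      _ = (D * c) * x * ci - c * x * (ci * D) := by rw [hcD, hciD]
      _ = D * (c * x * ci) - c * x * ci * D := by noncomm_ring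
  have cvD : Commute v (adE D) := by
    ext x
    simp only [AddMonoid.End.coe_mul, Function.comp_apply, hvD]
  have cU : Commute (pw a * DD) (pw v * pw (adE D)) := by
    have x1 := c1 v
    have x2 := c1 (adE D)
    have x3 := c2 a v cav
    have x4 := c2 a (adE D) caD
    exact ((x3.mul_right x4)).mul_left ((x1.symm.mul_right x2.symm))
  have nU : NilAt (pw a * DD + pw v * pw (adE D)) h :=
    NilAt.add_op cU (NilAt.mul_op (c1 a) h1) (NilAt.mul_op (c2 v _ cvD) h2)
  constructor
  · refine nU.map (tw c ci) ?_ ?_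
    · funext k; simp [tw]
    · intro x
      funext k
      have e0 : ((pw a * DD + pw v * pw (adE D) : AddMonoid.End (ℕ → E)) x) k
          = c * (x (k + 1) - x k) * ci + v (adE D (x k)) := rfl
      rw [DD_apply]
      simp only [tw]
      rw [e0, ← hv, pow_succ c k, pow_succ' ci k]
      noncomm_ring
  · refine h2.map (tw c ci) ?_ ?_
    · funext k; simp [tw]
    · intro x
      funext k
      have e1 : ∀ k : ℕ, c ^ k * D = D * c ^ k := fun k => ((show Commute c D from hcD).pow_left k)
      have e2 : ∀ k : ℕ, ci ^ k * D = D * ci ^ k :=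
        fun k => ((show Commute ci D from hciD).pow_left k)
      simp only [tw, pw_apply, adE_apply]
      calc c ^ k * (D * x k - x k * D) * ci ^ k
          = (c ^ k * D) * x k * ci ^ k - c ^ k * x k * (D * ci ^ k) := by noncomm_ring
        _ = (D * c ^ k) * x k * ci ^ k - c ^ k * x k * (ci ^ k * D) := by rw [e1, e2]
        _ = _ := by noncomm_ring

theorem Gau.nil_tw {D c ci : E} {t : K} (g : Gau D c ci t) {h : ℕ → E} (h1 : NilAt DD h)
    (h2 : NilAt (pw (adE D)) h) :
    NilAt DD (tw c ci h) ∧ NilAt (pw (adE D)) (tw c ci h) := by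
  refine ZP.nil_tw g.mul g.cD g.ciD
    { toFun := fun x => (t • x) * ci
      map_zero' := by simp
      map_add' := fun x y => by rw [smul_add, add_mul] } ?_ ?_ ?_ h1 h2
  · intro x
    change _ = (t • (D * x - x * D)) * ci
    rw [← g.comm]
    calc c * x * ci - x = c * x * ci - x * (c * ci) := by rw [g.mul, mul_one]
      _ = _ := by noncomm_ring
  · intro x
    change (t • (D * x - x * D)) * ci = D * ((t • x) * ci) - ((t • x) * ci) * D
    rw [mul_assoc (t • x) ci D, g.ciD, smul_sub]
    simp only [sub_mul, smul_mul_assoc, mul_smul_comm, mul_assoc]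
  · intro x
    change (t • (c * x * ci)) * ci = c * ((t • x) * ci) * ci
    simp only [smul_mul_assoc, mul_smul_comm, mul_assoc]

theorem Gau.nil_tw' {D c ci : E} {t : K} (g : Gau D c ci t) {h : ℕ → E} (h1 : NilAt DD h)
    (h2 : NilAt (pw (adE D)) h) :
    NilAt DD (tw ci c h) ∧ NilAt (pw (adE D)) (tw ci c h) := by
  refine ZP.nil_tw g.mul' g.ciD g.cD
    { toFun := fun x => - (ci * (t • x))
      map_zero' := by simp
      map_add' := fun x y => by rw [smul_add, mul_add, neg_add] } ?_ ?_ ?_ h1 h2
  · intro x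
    change _ = - (ci * (t • (D * x - x * D)))
    have := g.comm_inv x
    calc ci * x * c - x = ci * x * c - x * (ci * c) := by rw [g.mul', mul_one]
      _ = (ci * x - x * ci) * c := by noncomm_ring
      _ = - (ci * (t • (D * x - x * D))) * (ci * c) := by rw [this]; noncomm_ring
      _ = _ := by rw [g.mul', mul_one]
  · intro x
    change - (ci * (t • (D * x - x * D))) = D * (- (ci * (t • x))) - (- (ci * (t • x))) * D
    have e1 : ci * (D * x) = D * (ci * x) := by rw [← mul_assoc, g.ciD, mul_assoc]
    simp only [mul_smul_comm, smul_mul_assoc, mul_sub, smul_sub, mul_neg, neg_mul, e1, mul_assoc]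
    abel
  · intro x
    change - (ci * (t • (ci * x * c))) = ci * (- (ci * (t • x))) * c
    simp only [smul_mul_assoc, mul_smul_comm, mul_assoc, mul_neg, neg_mul]

end Tw

section Main

variable {K E κ : Type*} [Field K] [Ring E] [Algebra K E]

/-- the space of twisted self-adjoint corrections -/
def ZZ (T : E →ₗ[K] E) (e D : E) (Φ : κ → E) : Submodule K E where
  carrier := {z | ∃ h : ℕ → E, NilAt DD h ∧ NilAt (pw (adE D)) h ∧ (∀ k, h k * e = h k) ∧
    (∀ k, e * h k = h k) ∧ h 0 = T z ∧ h 1 = z ∧ ∀ k r, h (k + 2) * Φ r = Φ r * h k}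
  zero_mem' := ⟨0, NilAt.zero _, NilAt.zero _, by simp, by simp, by simp, by simp, by simp⟩
  add_mem' := by
    rintro z w ⟨h, h1, h2, h3, h4, h5, h6, h7⟩ ⟨k, k1, k2, k3, k4, k5, k6, k7⟩
    refine ⟨h + k, h1.add k1, h2.add k2, ?_, ?_, ?_, ?_, ?_⟩
    · intro i; rw [Pi.add_apply, add_mul, h3, k3]
    · intro i; rw [Pi.add_apply, mul_add, h4, k4]
    · rw [Pi.add_apply, h5, k5, map_add]
    · rw [Pi.add_apply, h6, k6]
    · intro i r; rw [Pi.add_apply, Pi.add_apply, add_mul, mul_add, h7, k7]
  smul_mem' := by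
    rintro a z ⟨h, h1, h2, h3, h4, h5, h6, h7⟩
    refine ⟨a • h, ?_, ?_, ?_, ?_, ?_, ?_, ?_⟩
    · refine h1.map (fun x => a • x) (smul_zero _) ?_
      intro x; funext k; simp [smul_sub]
    · refine h2.map (fun x => a • x) (smul_zero _) ?_
      intro x; funext k; simp [smul_sub]
    · intro i; rw [Pi.smul_apply, smul_mul_assoc, h3]
    · intro i; rw [Pi.smul_apply, mul_smul_comm, h4]
    · rw [Pi.smul_apply, h5, map_smul]
    · rw [Pi.smul_apply, h6]
    · intro i r; rw [Pi.smul_apply, Pi.smul_apply, smul_mul_assoc, mul_smul_comm, h7]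

variable {T : E →ₗ[K] E} {e D : E} {Φ : κ → E}



theorem ZZ.nil {z : E} (hz : z ∈ ZZ T e D Φ) : NilAt (adE D) z := by
  obtain ⟨h, h1, ⟨m, hm⟩, h3, h4, h5, h6, h7⟩ := hz
  refine ⟨m, ?_⟩
  have := congrFun hm 1
  rw [pw_pow, h6] at this
  exact this


theorem NilAt.const {D z : E} (hn : NilAt (adE D) z) :
    NilAt (pw (adE D)) (fun _ : ℕ => z) := by
  obtain ⟨m, hm⟩ := hn
  refine ⟨m, ?_⟩
  funext k
  rw [pw_pow]; exact hm

theorem const_DD (z : E) : NilAt (DD : AddMonoid.End (ℕ → E)) (fun _ : ℕ => z) := by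
  refine ⟨1, ?_⟩
  funext k; simp

/-- (Z1): the first correction `c⁻¹ δ` -/
theorem first_mem (Tmul : ∀ x y, T (x * y) = T y * T x) {c ci : E} {t : K} (g : Gau D c ci t)
    (Tci : T ci = ci) (hce : c * e = e * c)
    (hcΦ : ∀ r, c * Φ r = Φ r * c) {δ : E} (Tδ : T δ = δ) (δe : δ * e = δ) (eδ : e * δ = δ)
    (hδ : NilAt (adE D) δ) (hc : ∀ r, δ * (c * c * Φ r) = (c * c * Φ r) * δ) :
    ci * δ ∈ ZZ T e D Φ := by
  have hcie : ci * e = e * ci := by
    calc ci * e = ci * e * (c * ci) := by rw [g.mul, mul_one]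
      _ = ci * (e * c) * ci := by noncomm_ring
      _ = ci * (c * e) * ci := by rw [hce]
      _ = (ci * c) * e * ci := by noncomm_ring
      _ = e * ci := by rw [g.mul', one_mul]
  have hciΦ : ∀ r, ci * Φ r = Φ r * ci := by
    intro r
    calc ci * Φ r = ci * Φ r * (c * ci) := by rw [g.mul, mul_one]
      _ = ci * (Φ r * c) * ci := by noncomm_ring
      _ = ci * (c * Φ r) * ci := by rw [hcΦ]
      _ = (ci * c) * Φ r * ci := by noncomm_ring
      _ = Φ r * ci := by rw [g.mul', one_mul]
  have hx : NilAt (adE D) (δ * ci) := by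
    refine hδ.map (fun x => x * ci) (zero_mul _) ?_
    intro x
    simp only [adE_apply]
    rw [sub_mul, mul_assoc x D ci, ← g.ciD]
    noncomm_ring
  obtain ⟨n1, n2⟩ := g.nil_tw' (const_DD (δ * ci)) (NilAt.const hx)
  have ecp : ∀ k : ℕ, c ^ k * e = e * c ^ k := fun k => ((show Commute c e from hce).pow_left k)
  have ecip : ∀ k : ℕ, ci ^ k * e = e * ci ^ k :=
    fun k => ((show Commute ci e from hcie).pow_left k)
  have cpΦ : ∀ (k : ℕ) r, c ^ k * Φ r = Φ r * c ^ k :=
    fun k r => ((show Commute c (Φ r) from hcΦ r).pow_left k)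
  have cipΦ : ∀ (k : ℕ) r, ci ^ k * Φ r = Φ r * ci ^ k :=
    fun k r => ((show Commute ci (Φ r) from hciΦ r).pow_left k)
  refine ⟨tw ci c (fun _ => δ * ci), n1, n2, ?_, ?_, ?_, ?_, ?_⟩
  · intro k
    simp only [tw]
    calc ci ^ k * (δ * ci) * c ^ k * e = ci ^ k * δ * ci * (c ^ k * e) := by noncomm_ring
      _ = ci ^ k * δ * (ci * e) * c ^ k := by rw [ecp]; noncomm_ring
      _ = ci ^ k * (δ * e) * ci * c ^ k := by rw [hcie]; noncomm_ring
      _ = _ := by rw [δe]; noncomm_ring
  · intro k
    simp only [tw]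
    calc e * (ci ^ k * (δ * ci) * c ^ k) = (e * ci ^ k) * δ * ci * c ^ k := by noncomm_ring
      _ = ci ^ k * (e * δ) * ci * c ^ k := by rw [← ecip]; noncomm_ring
      _ = _ := by rw [eδ]; noncomm_ring
  · simp [tw, Tmul, Tci, Tδ]
  · simp only [tw, pow_one]
    rw [mul_assoc, mul_assoc, g.mul', mul_one]
  · intro k r
    have k1 : Φ r * δ = ci * ci * (δ * (c * c * Φ r)) := by
      rw [hc]
      calc Φ r * δ = (ci * (ci * c) * c) * Φ r * δ := by rw [g.mul', mul_one, g.mul', one_mul]
        _ = _ := by noncomm_ring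
    have k2 : ci ^ (k + 2) = ci ^ k * (ci * ci) := by rw [pow_add, pow_two]
    have k3 : c ^ (k + 2) = (c * c) * c ^ k := by rw [add_comm, pow_add, pow_two]
    simp only [tw]
    calc ci ^ (k + 2) * (δ * ci) * c ^ (k + 2) * Φ r
        = ci ^ k * (ci * ci) * δ * (ci * c) * c * (c ^ k * Φ r) := by rw [k2, k3]; noncomm_ring
      _ = ci ^ k * (ci * ci) * δ * c * (Φ r * c ^ k) := by rw [g.mul', mul_one, cpΦ]
      _ = ci ^ k * (ci * ci) * δ * c * (c * ci) * Φ r * c ^ k := by
          rw [g.mul, mul_one]; noncomm_ring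
      _ = ci ^ k * (ci * ci) * δ * (c * c) * (ci * Φ r) * c ^ k := by noncomm_ring
      _ = ci ^ k * (ci * ci * (δ * (c * c * Φ r))) * ci * c ^ k := by
          rw [hciΦ]; noncomm_ring
      _ = (ci ^ k * Φ r) * δ * ci * c ^ k := by rw [← k1]; noncomm_ring
      _ = Φ r * (ci ^ k * (δ * ci) * c ^ k) := by rw [cipΦ]; noncomm_ring


/-- (Z3): END.  A skew `X` with `X - z` self-adjoint and commuting with `Φ`, `z ∈ ZZ`, is `0`. -/
theorem skew_eq_zero [Module ℚ E] {z X : E} (hz : z ∈ ZZ T e D Φ) (TX : T X = -X)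
    (Xe : X * e = X) (perf : ∀ x, x * e = x → (∀ r, x * Φ r = 0) → x = 0)
    (hsa : T (X - z) = X - z) (hcomm : ∀ r, (X - z) * Φ r = Φ r * (X - z)) : X = 0 := by
  obtain ⟨h, h1, h2, h3, h4, h5, h6, h7⟩ := hz
  have hze : z * e = z := by rw [← h6, h3]
  have hXz : z + (X - z) = X := add_sub_cancel _ _
  obtain ⟨y, hy⟩ : ∃ y, y = X - z := ⟨_, rfl⟩
  rw [← hy] at hsa hcomm hXz
  have hye : y * e = y := by rw [hy, sub_mul, Xe, hze]
  set f : ℕ → E := fun k => h k + y with hf
  have f0 : f 0 = -X := by
    simp only [hf]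
    rw [h5, ← TX]
    nth_rw 1 [← hsa]
    rw [← map_add, hXz]
  have f1 : f 1 = X := by
    simp only [hf]
    rw [h6, hXz]
  have fr : ∀ k r, f (k + 2) * Φ r = Φ r * f k := by
    intro k r
    simp only [hf]
    rw [add_mul, mul_add, h7, hcomm]
  have fe : ∀ k, f k * e = f k := by
    intro k
    simp only [hf]
    rw [add_mul, h3, hye]
  have fn : NilAt DD f := h1.add (const_DD y)
  set gq : ℕ → E := fun k => f k + f (k + 1) with hgq
  have gn : NilAt DD gq := by
    have e1 : gq = f + (f + DD f) := by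
      funext k
      simp only [hgq, Pi.add_apply, DD_apply]
      abel
    rw [e1]
    refine fn.add (fn.add ?_)
    exact fn.map (fun x => DD x) (map_zero _) (fun x => rfl)
  have g0 : ∀ n, gq (2 * n) = 0 := by
    intro n
    induction n with
    | zero =>
      simp only [hgq, mul_zero, zero_add]
      rw [f0, f1, neg_add_cancel]
    | succ n ih =>
      have e2 : 2 * (n + 1) = 2 * n + 2 := by ring
      rw [e2]
      apply perf
      · simp only [hgq]
        rw [add_mul, fe, fe]
      · intro r
        have : gq (2 * n + 2) * Φ r = Φ r * gq (2 * n) := by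
          simp only [hgq]
          rw [add_mul, mul_add, fr, show 2 * n + 2 + 1 = (2 * n + 1) + 2 by ring, fr]
        rw [this, ih, mul_zero]
  have gz := zero_of_even gn g0
  have hs : ∀ k, f (k + 1) = - f k := by
    intro k
    have := congrFun gz k
    simp only [hgq, Pi.zero_apply] at this
    exact eq_neg_of_add_eq_zero_right this
  have hj : ∀ j : ℕ, ((DD : AddMonoid.End (ℕ → E)) ^ j) f = ((-2 : ℚ) ^ j) • f := by
    intro j
    induction j with
    | zero => simp
    | succ j ihj =>
      rw [pow_succ', AddMonoid.End.coe_mul, Function.comp_apply, ihj]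
      funext k
      rw [DD_apply, Pi.smul_apply, Pi.smul_apply, hs k, Pi.smul_apply, pow_succ, mul_smul]
      rw [show ((-2 : ℚ) • f k) = - f k - f k by
        rw [show (-2 : ℚ) = -1 + -1 by norm_num, add_smul, neg_one_smul]; abel]
      rw [smul_neg, smul_sub, smul_neg]
  obtain ⟨m, hm⟩ := fn
  rw [hj] at hm
  have hf0 : f = 0 := by
    rcases smul_eq_zero.1 hm with h | h
    · exact absurd h (pow_ne_zero _ (by norm_num))
    · exact h
  rw [← f1, hf0]
  rfl

end Main

end Crest.Agent.R172.ZP
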